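import Vale.Agent.P239.F.A1Def

namespace Vale.Agent.P239.F.D

section

open Filter Topology Set
open Vale.Agent.P239 Vale.Agent.P239.F
open scoped RealInnerProductSpace ENNReal

variable {G : Type*} [Group G] {S : Finset G} {hS : Subgroup.closure (S : Set G) = ⊤}

theorem A1_1_mem_Lim {V : Set G} {β : G → G → ℝ} :
    β ∈ Lim hS V ↔ ∃ 𝒰 : Ultrafilter G, (𝒰 : Filter G) ≤ cofinite ∧ (∀ᶠ z in 𝒰, z ∈ V) ∧
      Tendsto (hb hS) 𝒰 (𝓝 β) := by
  change MapClusterPt β (cofinite ⊓ 𝓟 V) (hb hS) ↔ _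
  rw [mapClusterPt_iff_ultrafilter]
  constructor
  · rintro ⟨𝒰, h1, h2⟩
    exact ⟨𝒰, h1.trans inf_le_left, le_principal_iff.1 (h1.trans inf_le_right), h2⟩
  · rintro ⟨𝒰, h1, h2, h3⟩
    exact ⟨𝒰, le_inf h1 (le_principal_iff.2 h2), h3⟩

theorem A1_1_tendsto_mul {l : Filter G} (hl : l ≤ cofinite) (W : Finset G) {w : G → G}
    (hw : ∀ z, w z ∈ W) : Tendsto (fun z => z * w z) l cofinite := by
  classical
  refine Tendsto.mono_left (Filter.Tendsto.cofinite_of_finite_preimage_singleton fun g => ?_) hl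
  refine ((W.image fun v => g * v⁻¹).finite_toSet).subset fun z hz => ?_
  rw [Finset.mem_coe, Finset.mem_image]
  refine ⟨w z, hw z, ?_⟩
  have hz' : z * w z = g := hz
  rw [← hz', mul_inv_cancel_right]

theorem A1_1_key {V V' : Set G} (W : Finset G) {w : G → G} (hw : ∀ z, w z ∈ W)
    (hV : ∀ z ∈ V, z * w z ∈ V') : Lim hS V ⊆ Lim hS V' := by
  intro β hβ
  obtain ⟨𝒰, h1, h2, h3⟩ := A1_1_mem_Lim.1 hβ
  refine A1_1_mem_Lim.2 ⟨𝒰.map fun z => z * w z, ?_, ?_, ?_⟩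
  · exact A1_1_tendsto_mul h1 W hw
  · rw [Ultrafilter.coe_map, eventually_map]
    exact h2.mono hV
  · rw [Ultrafilter.coe_map, tendsto_map'_iff]
    exact tendsto_hb_mul' hS W hw (f := fun z => z) h1 h3

theorem Lim_V (B : Block hS) : Lim hS B.V = Lim hS (B.H : Set G) := by
  classical
  refine Subset.antisymm ?_ ?_
  · have h0 : ∀ z : G, ∃ w ∈ insert (1 : G) (B.reps.image fun f => f⁻¹), z ∈ B.V →
        z * w ∈ (B.H : Set G) := by
      intro z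
      by_cases hz : z ∈ B.V
      · obtain ⟨h, hh, f, hf, rfl⟩ := B.cof z hz
        refine ⟨f⁻¹, Finset.mem_insert_of_mem (Finset.mem_image_of_mem _ hf), fun _ => ?_⟩
        rw [mul_inv_cancel_right]
        exact hh
      · exact ⟨1, Finset.mem_insert_self _ _, fun h => absurd h hz⟩
    choose w hw hw' using h0
    exact A1_1_key _ hw hw'
  · obtain ⟨z₀, hz₀⟩ := V_nonempty B
    exact A1_1_key (w := fun _ => z₀) {z₀} (fun _ => Finset.mem_singleton_self _)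
      fun h hh => B.inv h hh z₀ hz₀

end

section

open Filter Topology Set
open Vale.Agent.P239 Vale.Agent.P239.F
open scoped RealInnerProductSpace ENNReal

variable {G : Type*} [Group G] {S : Finset G} {hS : Subgroup.closure (S : Set G) = ⊤}

theorem mem_KV_of_H (B : Block hS) {ι : Type*} {l : Filter ι} [l.NeBot] {f : ι → G}
    (hf : Tendsto f l cofinite) (hH : ∀ i, f i ∈ B.H) {β : G → G → ℝ}
    (h : Tendsto (fun i => hb hS (f i)) l (𝓝 β)) : β ∈ KV B := by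
  obtain ⟨z₀, hz₀⟩ := V_nonempty B
  have h1 : Tendsto (fun i => hb hS (f i * z₀)) l (𝓝 β) := tendsto_hb_mul hS z₀ hf h
  exact (isClosed_KV B).mem_of_tendsto h1
    (Eventually.of_forall fun i => hb_mem_KV B (B.inv (f i) (hH i) z₀ hz₀))

end

section

open Filter Topology Set
open Vale.Agent.P239 Vale.Agent.P239.F
open scoped RealInnerProductSpace ENNReal

variable {G : Type*} [Group G] {S : Finset G} {hS : Subgroup.closure (S : Set G) = ⊤}

/-- Approximation of a point by a vertex in two coordinates. -/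
theorem A1_3_approx {p : G → G → ℝ} (hp : p ∈ Pt hS) (x y : G) {ε : ℝ} (hε : 0 < ε) :
    ∃ w : G, |gp hS x w - gpb hS 1 x p| < ε ∧ |gp hS y w - gpb hS 1 y p| < ε := by
  have h1 : IsOpen {β : G → G → ℝ | |gpb hS 1 x β - gpb hS 1 x p| < ε ∧
      |gpb hS 1 y β - gpb hS 1 y p| < ε} :=
    (isOpen_lt ((continuous_gpb hS 1 x).sub continuous_const).abs continuous_const).inter
      (isOpen_lt ((continuous_gpb hS 1 y).sub continuous_const).abs continuous_const)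
  have h2 : p ∈ {β : G → G → ℝ | |gpb hS 1 x β - gpb hS 1 x p| < ε ∧
      |gpb hS 1 y β - gpb hS 1 y p| < ε} := by
    constructor
    · simpa using hε
    · simpa using hε
  obtain ⟨β, hβ, w, hw⟩ := mem_closure_iff.1 hp _ h1 h2
  refine ⟨w, ?_, ?_⟩
  · have h3 := hβ.1
    rw [← hw, gpb_hb_one] at h3
    exact h3
  · have h3 := hβ.2
    rw [← hw, gpb_hb_one] at h3
    exact h3

variable [Countable G] {F : Finset G} (hF : CrossProp S F)

include hF in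
theorem tendsto_of_gpb {ι : Type*} {l : Filter ι} {f : ι → G} {p : G → G → ℝ}
    (hp : p ∈ Pt hS) (h : Tendsto (fun i => gpb hS 1 (f i) p) l atTop) :
    Tendsto (fun i => hb hS (f i)) l (𝓝 p) := by
  rw [tendsto_hb_iff hp]
  intro x
  rw [Metric.tendsto_nhds]
  intro ε hε
  obtain ⟨N, hN⟩ := shadow hS hF x (half_pos hε)
  filter_upwards [h.eventually_ge_atTop (N + 1)] with i hi
  obtain ⟨w, hw1, hw2⟩ := A1_3_approx hp x (f i) (ε := min (ε / 2) 1)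
    (lt_min (half_pos hε) one_pos)
  have h1 : N ≤ gp hS (f i) w := by
    have h3 := (abs_lt.1 (lt_of_lt_of_le hw2 (min_le_right _ _))).1
    linarith
  have h2 := hN (f i) w h1
  have h3 := lt_of_lt_of_le hw1 (min_le_left _ _)
  rw [Real.dist_eq]
  calc |gp hS x (f i) - gpb hS 1 x p|
      ≤ |gp hS x (f i) - gp hS x w| + |gp hS x w - gpb hS 1 x p| := abs_sub_le _ _ _
    _ < ε := by linarith

end

section

open Filter Topology Set
open Vale.Agent.P239 Vale.Agent.P239.F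
open scoped RealInnerProductSpace ENNReal

variable {G : Type*} [Group G] {S : Finset G} {hS : Subgroup.closure (S : Set G) = ⊤}

section Geo

variable {δ : ℝ} (h4 : Four hS δ) [Countable G] {F : Finset G} (hF : CrossProp S F)

omit [Countable G] in
include h4 in
/-- Hyperbolicity of three vertices and a point. -/
theorem A1_4_four {p : G → G → ℝ} (hp : p ∈ Pt hS) (a b c : G) :
    res hS a c ≤ max (res hS a b + p c b) (p a b + res hS b c) + δ :=
  Pt.closed_ind (P := fun p => res hS a c ≤ max (res hS a b + p c b) (p a b + res hS b c) + δ) hp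
    (isClosed_le continuous_const (((continuous_const.add (continuous_ev c b)).max
      ((continuous_ev a b).add continuous_const)).add continuous_const))
    fun z => by
      have h := h4 a b z c
      unfold hb
      rw [res_comm hS z c] at h
      rcases max_choice (res hS a b + res hS c z) (res hS a z + res hS b c) with h5 | h5
      · rw [h5] at h
        have := le_max_left (res hS a b + (res hS c z - res hS b z))
          (res hS a z - res hS b z + res hS b c)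
        linarith
      · rw [h5] at h
        have := le_max_right (res hS a b + (res hS c z - res hS b z))
          (res hS a z - res hS b z + res hS b c)
        linarith

omit [Countable G] in
include h4 in
theorem A1_4_aux {p : G → G → ℝ} (hp : p ∈ Pt hS) {Λ : ℝ} (hΛ0 : 0 ≤ Λ) (n : ℕ) : ∀ w : ℕ → G,
    (∀ j, j < n → res hS (w j) (w (j + 1)) ≤ Λ) →
    (∀ j, j < n → δ / 2 ≤ p (w (j + 1)) (w j)) →
    res hS (w 0) (w n) ≤ p (w n) (w 0) + Λ + 2 * δ := by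
  have hδ : 0 ≤ δ := by
    have h := h4 1 1 1 1
    rw [res_self] at h
    simpa using h
  induction n with
  | zero =>
    intro w _ _
    rw [res_self, Pt.self hp]
    linarith
  | succ n ih =>
    intro w hΛ hg
    have h1 := ih (fun j => w (j + 1)) (fun j hj => hΛ (j + 1) (by omega))
      (fun j hj => hg (j + 1) (by omega))
    simp only [zero_add] at h1
    have h2 := hΛ 0 (by omega)
    have h3 := hg 0 (by omega)
    simp only [zero_add] at h2 h3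
    have h4' := A1_4_four h4 hp (w 0) (w 1) (w (n + 1))
    have h5 := Pt.add hp (w (n + 1)) (w 1) (w 0)
    have h6 := Pt.neg hp (w 1) (w 0)
    rcases max_choice (res hS (w 0) (w 1) + p (w (n + 1)) (w 1))
      (p (w 0) (w 1) + res hS (w 1) (w (n + 1))) with h7 | h7
    · rw [h7] at h4'
      linarith
    · rw [h7] at h4'
      linarith

include h4 in
theorem chain_le {p : G → G → ℝ} (hp : p ∈ Pt hS) {Λ : ℝ} (n : ℕ) (w : ℕ → G)
    (hΛ : ∀ j, j < n → res hS (w j) (w (j + 1)) ≤ Λ) (hΛ0 : 0 ≤ Λ)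
    (hgain : ∀ j, j < n → δ / 2 ≤ p (w (j + 1)) (w j)) :
    res hS (w 0) (w n) ≤ p (w n) (w 0) + Λ + 2 * δ :=
  A1_4_aux h4 hp hΛ0 n w hΛ hgain

end Geo

end

section

/-! Proof of A1.5. -/


open Filter Topology Set
open Vale.Agent.P239 Vale.Agent.P239.F
open scoped RealInnerProductSpace ENNReal

variable {G : Type*} [Group G] {S : Finset G} {hS : Subgroup.closure (S : Set G) = ⊤}

/-- Gains add up. -/
theorem A1_5_gain {p : G → G → ℝ} (hp : p ∈ Pt hS) {c₀ : ℝ} (w : ℕ → G)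
    (hgain : ∀ j, c₀ ≤ p (w (j + 1)) (w j)) (m k : ℕ) : k * c₀ ≤ p (w (m + k)) (w m) := by
  induction k with
  | zero => rw [Nat.cast_zero, zero_mul, add_zero, Pt.self hp]
  | succ k ih =>
    have h1 := Pt.add hp (w (m + (k + 1))) (w (m + k)) (w m)
    have h2 := hgain (m + k)
    rw [← h1]
    push_cast
    have h3 : m + k + 1 = m + (k + 1) := by ring
    rw [h3] at h2
    linarith

section Geo

variable {δ : ℝ} (h4 : Four hS δ) [Countable G] {F : Finset G} (hF : CrossProp S F)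

include h4 in
/-- Resistances along the chain. -/
theorem A1_5_res {p : G → G → ℝ} (hp : p ∈ Pt hS) {Λ c₀ : ℝ} (hc : δ / 2 ≤ c₀)
    (w : ℕ → G) (hΛ : ∀ j, res hS (w j) (w (j + 1)) ≤ Λ)
    (hgain : ∀ j, c₀ ≤ p (w (j + 1)) (w j)) (m k : ℕ) :
    res hS (w m) (w (m + k)) ≤ p (w (m + k)) (w m) + Λ + 2 * δ := by
  have h := chain_le h4 hp (Λ := Λ) k (fun j => w (m + j)) (fun j _ => hΛ (m + j))
    ((res_nonneg hS _ _).trans (hΛ 0)) (fun j _ => hc.trans (hgain (m + j)))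
  simpa using h

include h4 in
/-- Gromov products along the chain. -/
theorem A1_5_gp {p : G → G → ℝ} (hp : p ∈ Pt hS) {Λ c₀ : ℝ} (hc : δ / 2 ≤ c₀)
    (w : ℕ → G) (hΛ : ∀ j, res hS (w j) (w (j + 1)) ≤ Λ)
    (hgain : ∀ j, c₀ ≤ p (w (j + 1)) (w j)) (m k : ℕ) :
    m * c₀ - (Λ / 2 + δ + res hS 1 (w 0)) ≤ gp hS (w m) (w (m + k)) := by
  have h1 := A1_5_res h4 hp hc w hΛ hgain m k
  have h2 := two_gp (hS := hS) (w m) (w (m + k))
  have h3 := Pt.le hp (w m) 1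
  have h4' := Pt.le hp (w (m + k)) 1
  rw [res_comm] at h3 h4'
  have h5 := Pt.add hp (w (m + k)) (w m) 1
  have h6 := Pt.add hp (w m) (w 0) 1
  have h7 := A1_5_gain hp w hgain 0 m
  rw [zero_add] at h7
  have h8 := Pt.abs_le hp (w 0) 1
  rw [_root_.abs_le] at h8
  rw [res_comm] at h8
  linarith [h8.1]

include h4 hF in
/-- A1.5. Convergence of chains. -/
theorem chain_conv {p : G → G → ℝ} (hp : p ∈ Pt hS) {Λ c₀ : ℝ} (hc₀ : 0 < c₀) (hc : δ / 2 ≤ c₀)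
    (w : ℕ → G) (hΛ : ∀ j, res hS (w j) (w (j + 1)) ≤ Λ)
    (hgain : ∀ j, c₀ ≤ p (w (j + 1)) (w j)) :
    ∃ γ ∈ Pt hS, ¬ IsFin hS γ ∧ γ ≠ p ∧ Tendsto (fun n => hb hS (w n)) atTop (𝓝 γ) ∧
      Tendsto w atTop cofinite := by
  -- the chain is injective
  have hinj : Function.Injective w := by
    have key : ∀ m k : ℕ, 0 < k → w (m + k) ≠ w m := by
      intro m k hk h
      have h1 := A1_5_gain hp w hgain m k
      rw [h, Pt.self hp] at h1
      have h2 : (0 : ℝ) < k := by exact_mod_cast hk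
      have := mul_pos h2 hc₀
      linarith
    intro a b hab
    rcases lt_trichotomy a b with h | h | h
    · obtain ⟨k, rfl⟩ := Nat.exists_eq_add_of_lt h
      exact absurd hab.symm (by have := key a (k + 1) (by omega); rwa [← add_assoc] at this)
    · exact h
    · obtain ⟨k, rfl⟩ := Nat.exists_eq_add_of_lt h
      exact absurd hab (by have := key b (k + 1) (by omega); rwa [← add_assoc] at this)
  have hcof : Tendsto w atTop cofinite := by
    rw [← Nat.cofinite_eq_atTop]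
    exact hinj.tendsto_cofinite
  -- the limit point
  obtain ⟨γ, hγ, hlim⟩ := exists_lim hS (Ultrafilter.of (atTop : Filter ℕ)) w
  have hU : (Ultrafilter.of (atTop : Filter ℕ) : Filter ℕ) ≤ atTop := Ultrafilter.of_le atTop
  have hlim' := (tendsto_hb_iff hγ).1 hlim
  set D : ℝ := Λ / 2 + δ + res hS 1 (w 0) with hD
  -- unbounded Gromov products
  have hlow : ∀ m : ℕ, m * c₀ - D ≤ gpb hS 1 (w m) γ := by
    intro m
    refine ge_of_tendsto (hlim' (w m)) (Filter.Eventually.filter_mono hU ?_)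
    filter_upwards [eventually_ge_atTop m] with n hn
    obtain ⟨k, rfl⟩ := Nat.exists_eq_add_of_le hn
    exact A1_5_gp h4 hp hc w hΛ hgain m k
  have hunb : ∀ C : ℝ, ∃ m : ℕ, C < gpb hS 1 (w m) γ := by
    intro C
    obtain ⟨m, hm⟩ := exists_nat_gt ((C + D) / c₀)
    rw [div_lt_iff₀ hc₀] at hm
    exact ⟨m, by linarith [hlow m]⟩
  refine ⟨γ, hγ, ?_, ?_, ?_, hcof⟩
  · rintro ⟨C, hC⟩
    obtain ⟨m, hm⟩ := hunb C
    linarith [hC (w m)]
  · rintro rfl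
    obtain ⟨m, hm⟩ := hunb ((2 * res hS 1 (w 0) + Λ + 2 * δ) / 2)
    have h1 := A1_5_res h4 hp hc w hΛ hgain 0 m
    rw [zero_add] at h1
    have h2 := res_triangle hS 1 (w 0) (w m)
    have h3 := Pt.add hp (w m) 1 (w 0)
    have h4' := Pt.le hp 1 (w 0)
    unfold gpb at hm
    linarith
  · rw [tendsto_hb_iff hγ]
    intro x
    rw [Metric.tendsto_atTop]
    intro ε hε
    obtain ⟨N, hN⟩ := shadow hS hF x (half_pos hε)
    obtain ⟨M, hM⟩ := exists_nat_gt ((N + D) / c₀)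
    rw [div_lt_iff₀ hc₀] at hM
    refine ⟨M, fun n hn => ?_⟩
    have hnM : (M : ℝ) * c₀ ≤ n * c₀ :=
      mul_le_mul_of_nonneg_right (by exact_mod_cast hn) hc₀.le
    have h1 : ∀ᶠ m in (Ultrafilter.of (atTop : Filter ℕ) : Filter ℕ),
        |gp hS x (w n) - gp hS x (w m)| ≤ ε / 2 := by
      refine Filter.Eventually.filter_mono hU ?_
      filter_upwards [eventually_ge_atTop n] with m hm
      obtain ⟨k, rfl⟩ := Nat.exists_eq_add_of_le hm
      refine hN _ _ ?_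
      have := A1_5_gp h4 hp hc w hΛ hgain n k
      linarith
    have h2 : Tendsto (fun m => |gp hS x (w n) - gp hS x (w m)|)
        (Ultrafilter.of (atTop : Filter ℕ) : Filter ℕ)
        (𝓝 |gp hS x (w n) - gpb hS 1 x γ|) :=
      (tendsto_const_nhds.sub (hlim' x)).abs
    have h3 := le_of_tendsto h2 h1
    rw [Real.dist_eq]
    linarith

end Geo

end

section

/-! Proof of A1.6. -/


open Filter Topology Set
open Vale.Agent.P239 Vale.Agent.P239.F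
open scoped RealInnerProductSpace ENNReal

variable {G : Type*} [Group G] {S : Finset G} {hS : Subgroup.closure (S : Set G) = ⊤}

/-- `res x y = res 1 (x⁻¹ y)`. -/
theorem A1_6_res (x y : G) : res hS x y = res hS 1 (x⁻¹ * y) := by
  rw [← res_mul hS x⁻¹ x y, inv_mul_cancel]

/-- Resistance of the elements of a finite set. -/
theorem A1_6_sum (W : Finset G) {u : G} (hu : u ∈ W) :
    res hS 1 u ≤ ∑ w ∈ W, res hS 1 w :=
  Finset.single_le_sum (fun w _ => res_nonneg hS 1 w) hu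

/-- Values of the chains: a finite set. -/
theorem A1_6_fin {ι : Type*} (n : ι → ℕ) (v : ι → ℕ → G) (f : G) (h0 : ∀ i, v i 0 = f)
    (W : Finset G) (hW : ∀ i j, j < n i → (v i j)⁻¹ * v i (j + 1) ∈ W) (j : ℕ) :
    ∃ A : Set G, A.Finite ∧ ∀ i, j ≤ n i → v i j ∈ A := by
  induction j with
  | zero => exact ⟨{f}, finite_singleton f, fun i _ => by rw [h0]; exact mem_singleton f⟩
  | succ j ih =>
    obtain ⟨A, hA, h⟩ := ih
    refine ⟨image2 (fun a u => a * u) A (W : Set G), hA.image2 _ W.finite_toSet, fun i hi => ?_⟩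
    refine ⟨v i j, h i (by omega), (v i j)⁻¹ * v i (j + 1), hW i j (by omega), ?_⟩
    simp

/-- The limit chain. -/
theorem A1_6_lim {ι : Type*} (𝒰 : Ultrafilter ι) (n : ι → ℕ) (hn : Tendsto n 𝒰 atTop)
    (v : ι → ℕ → G) (f : G) (h0 : ∀ i, v i 0 = f) (W : Finset G)
    (hW : ∀ i j, j < n i → (v i j)⁻¹ * v i (j + 1) ∈ W) :
    ∃ w : ℕ → G, ∀ j, ∀ᶠ i in (𝒰 : Filter ι), v i j = w j := by
  have h : ∀ j, ∃ a : G, ∀ᶠ i in (𝒰 : Filter ι), v i j = a := by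
    intro j
    obtain ⟨A, hA, h⟩ := A1_6_fin n v f h0 W hW j
    have h1 : (⋃ a ∈ A, {i | v i j = a}) ∈ 𝒰 := by
      filter_upwards [hn.eventually_ge_atTop j] with i hi
      rw [mem_iUnion₂]
      exact ⟨v i j, h i hi, rfl⟩
    obtain ⟨a, -, ha⟩ := (Ultrafilter.finite_biUnion_mem_iff hA).1 h1
    exact ⟨a, ha⟩
  choose w hw using h
  exact ⟨w, hw⟩

/-- Sum of the gains. -/
theorem A1_6_gain {q : G → G → ℝ} (hq : q ∈ Pt hS) {c₀ : ℝ} (v : ℕ → G) (n : ℕ)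
    (h : ∀ j, j < n → c₀ ≤ q (v (j + 1)) (v j)) : ∀ j, j ≤ n → j * c₀ ≤ q (v j) (v 0) := by
  intro j
  induction j with
  | zero => intro _; rw [Pt.self hq]; simp
  | succ j ih =>
    intro hj
    have h1 := ih (by omega)
    have h2 := h j (by omega)
    have h3 := Pt.add hq (v (j + 1)) (v j) (v 0)
    push_cast
    linarith

section Geo

variable {δ : ℝ} (h4 : Four hS δ) [Countable G] {F : Finset G} (hF : CrossProp S F)

include h4 in
/-- Lower bound of the Gromov product of a vertex of the chain and the end of the chain. -/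
theorem A1_6_gp {q : G → G → ℝ} (hq : q ∈ Pt hS) {Λ c₀ : ℝ} (hΛ0 : 0 ≤ Λ) (hc : δ / 2 ≤ c₀)
    (v : ℕ → G) (n : ℕ) (hΛ : ∀ j, j < n → res hS (v j) (v (j + 1)) ≤ Λ)
    (h : ∀ j, j < n → c₀ ≤ q (v (j + 1)) (v j)) {j : ℕ} (hj : j ≤ n) :
    j * c₀ - res hS 1 (v 0) - Λ / 2 - δ ≤ gp hS (v j) (v n) := by
  have h1 := chain_le h4 hq (n - j) (fun m => v (j + m)) (Λ := Λ)
    (fun m hm => hΛ (j + m) (by omega)) hΛ0
    (fun m hm => hc.trans (h (j + m) (by omega)))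
  simp only [add_zero, Nat.add_sub_cancel' hj] at h1
  have h2 := two_gp hS (v j) (v n)
  have h3 := Pt.le hq (v n) 1
  have h4' := Pt.le hq (v j) 1
  rw [res_comm] at h3 h4'
  have h5 := Pt.add hq (v n) (v j) 1
  have h6 := A1_6_gain hq v n h j hj
  have h7 := Pt.add hq (v j) (v 0) 1
  have h8 := Pt.abs_le hq (v 0) 1
  rw [res_comm] at h8
  have h9 := (abs_le.1 h8).1
  linarith

include h4 hF in
theorem koenig {ι : Type*} (𝒰 : Ultrafilter ι) (n : ι → ℕ) (hn : Tendsto n 𝒰 atTop)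
    (v : ι → ℕ → G) (f : G) (h0 : ∀ i, v i 0 = f) (W : Finset G)
    (hW : ∀ i j, j < n i → (v i j)⁻¹ * v i (j + 1) ∈ W) (q : ι → G → G → ℝ)
    (hq : ∀ i, q i ∈ Pt hS) {c₀ : ℝ} (hc₀ : 0 < c₀) (hc : δ / 2 ≤ c₀)
    (hgain : ∀ i j, j < n i → c₀ ≤ q i (v i (j + 1)) (v i j)) {p : G → G → ℝ}
    (hp : Tendsto q 𝒰 (𝓝 p)) :
    ∃ γ ∈ Pt hS, ¬ IsFin hS γ ∧ γ ≠ p ∧ Tendsto (fun i => hb hS (v i (n i))) 𝒰 (𝓝 γ) := by
  set Λ : ℝ := ∑ w ∈ W, res hS 1 w with hΛdef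
  have hΛ0 : 0 ≤ Λ := Finset.sum_nonneg fun w _ => res_nonneg hS 1 w
  have hstep : ∀ i j, j < n i → res hS (v i j) (v i (j + 1)) ≤ Λ := fun i j hj => by
    rw [A1_6_res]
    exact A1_6_sum W (hW i j hj)
  have hpP : p ∈ Pt hS := (isClosed_Pt hS).mem_of_tendsto hp (Eventually.of_forall hq)
  obtain ⟨w, hw⟩ := A1_6_lim 𝒰 n hn v f h0 W hW
  have hgt : ∀ j, ∀ᶠ i in (𝒰 : Filter ι), j < n i := fun j => hn.eventually_gt_atTop j
  -- the limit chain
  have hwΛ : ∀ j, res hS (w j) (w (j + 1)) ≤ Λ := by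
    intro j
    obtain ⟨i, h1, h2, h3⟩ := ((hw j).and ((hw (j + 1)).and (hgt j))).exists
    rw [← h1, ← h2]
    exact hstep i j h3
  have hwg : ∀ j, c₀ ≤ p (w (j + 1)) (w j) := by
    intro j
    have h1 : Tendsto (fun i => q i (w (j + 1)) (w j)) 𝒰 (𝓝 (p (w (j + 1)) (w j))) :=
      ((continuous_ev (w (j + 1)) (w j)).tendsto p).comp hp
    refine ge_of_tendsto h1 ?_
    filter_upwards [hw j, hw (j + 1), hgt j] with i h2 h3 h4
    rw [← h2, ← h3]
    exact hgain i j h4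
  obtain ⟨γ, hγ, hγf, hγp, hγw, -⟩ := chain_conv h4 hF hpP hc₀ hc w hwΛ hwg
  obtain ⟨β, hβ, hβl⟩ := exists_lim hS 𝒰 fun i => v i (n i)
  -- the Gromov products with `β`
  have hgp : ∀ j : ℕ, j * c₀ - res hS 1 f - Λ / 2 - δ ≤ gpb hS 1 (w j) β := by
    intro j
    have h1 := (tendsto_hb_iff hβ).1 hβl (w j)
    refine ge_of_tendsto h1 ?_
    filter_upwards [hw j, hgt j] with i h2 h3
    have h5 := A1_6_gp h4 (hq i) hΛ0 hc (v i) (n i) (hstep i) (hgain i) h3.le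
    rw [h0, h2] at h5
    exact h5
  have hinf : Tendsto (fun j => gpb hS 1 (w j) β) atTop atTop := by
    refine tendsto_atTop_mono hgp ?_
    have h1 : Tendsto (fun j : ℕ => (j : ℝ) * c₀) atTop atTop :=
      tendsto_natCast_atTop_atTop.atTop_mul_const hc₀
    have h2 := tendsto_atTop_add_const_right atTop (-(res hS 1 f + Λ / 2 + δ)) h1
    refine h2.congr fun j => ?_
    ring
  have hwβ := tendsto_of_gpb hF hβ hinf
  have hβγ : β = γ := tendsto_nhds_unique hwβ hγw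
  subst hβγ
  exact ⟨β, hβ, hγf, hγp, hβl⟩

end Geo

end

section

/-! A loxodromic element in the block group. -/


open Filter Topology Set
open Vale.Agent.P239 Vale.Agent.P239.F
open scoped RealInnerProductSpace ENNReal

variable {G : Type*} [Group G] {S : Finset G} {hS : Subgroup.closure (S : Set G) = ⊤}

section Blk

variable {δ : ℝ} (h4 : Four hS δ) [Countable G] {F : Finset G} (hF : CrossProp S F)
  (htf : ∀ g : G, g ≠ 1 → ∀ n : ℕ, n ≠ 0 → g ^ n ≠ 1) (B : Block hS)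

include h4 hF htf in
/-- A1.7. -/
theorem blk_lox : ∃ g ∈ B.H, ∃ a ∈ Pt hS, ∃ b ∈ Pt hS, a ≠ b ∧ ¬ IsFin hS a ∧ ¬ IsFin hS b ∧
      Tendsto (fun n : ℕ => hb hS (g ^ n)) atTop (𝓝 a) ∧
      Tendsto (fun n : ℕ => hb hS (g⁻¹ ^ n)) atTop (𝓝 b) := by
  obtain ⟨β, hβ, β', hβ', hne⟩ := B.two
  rw [Lim_V B] at hβ hβ'
  exact exists_lox' h4 hF htf B.H hβ hβ' hne

end Blk

end

section

open Filter Topology Set
open Vale.Agent.P239 Vale.Agent.P239.F
open scoped RealInnerProductSpace ENNReal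

variable {G : Type*} [Group G] {S : Finset G} {hS : Subgroup.closure (S : Set G) = ⊤}

theorem A1_8_mono {M : Finset G} {A A' : Set G} (hAA : A ⊆ A') {x y : G} (h : Con M A x y) :
    Con M A' x y := by
  induction h with
  | refl => exact Relation.ReflTransGen.refl
  | tail _ hbc ih => exact Relation.ReflTransGen.tail ih ⟨hAA hbc.1, hAA hbc.2.1, hbc.2.2⟩

theorem A1_8_fin {M : Finset G} {A : Set G} {x y : G} (h : Con M A x y) :
    ∃ D : Finset G, Con M (A ∩ (D : Set G)) x y := by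
  classical
  induction h with
  | refl => exact ⟨∅, Relation.ReflTransGen.refl⟩
  | @tail b c _ hbc ih =>
    obtain ⟨D, hD⟩ := ih
    refine ⟨D ∪ {b, c}, ?_⟩
    refine Relation.ReflTransGen.tail (A1_8_mono ?_ hD) ⟨⟨hbc.1, ?_⟩, ⟨hbc.2.1, ?_⟩, hbc.2.2⟩
    · refine inter_subset_inter_right A ?_
      intro w hw
      simp only [Finset.coe_union, mem_union, Finset.mem_coe] at hw ⊢
      exact Or.inl hw
    · simp
    · simp

theorem A1_8_adj {M : Finset G} {a b : G} (h : G) (hab : Adj M a b) : Adj M (h * a) (h * b) := by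
  obtain ⟨s, hs, h1 | h1⟩ := hab
  · exact ⟨s, hs, Or.inl (by rw [h1, mul_assoc])⟩
  · exact ⟨s, hs, Or.inr (by rw [h1, mul_assoc])⟩

theorem A1_8_trans {M : Finset G} {A : Set G} (h : G) {x y : G} (hxy : Con M A x y) :
    Con M {w | h⁻¹ * w ∈ A} (h * x) (h * y) := by
  induction hxy with
  | refl => exact Relation.ReflTransGen.refl
  | @tail b c _ hbc ih =>
    refine Relation.ReflTransGen.tail ih ⟨?_, ?_, A1_8_adj h hbc.2.2⟩
    · change h⁻¹ * (h * b) ∈ A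
      rw [inv_mul_cancel_left]
      exact hbc.1
    · change h⁻¹ * (h * c) ∈ A
      rw [inv_mul_cancel_left]
      exact hbc.2.1

theorem V_path (B : Block hS) (C : Finset G) :
    ∃ W : Finset G, ∀ z ∈ B.V, ∀ z' ∈ B.V, z⁻¹ * z' ∈ C →
      Con B.M (B.V ∩ {w | z⁻¹ * w ∈ W}) z z' := by
  classical
  have hex : ∀ p : G × G, ∃ D : Finset G, p.1 ∈ B.V → p.1 * p.2 ∈ B.V →
      Con B.M (B.V ∩ (D : Set G)) p.1 (p.1 * p.2) := by
    intro p
    by_cases h1 : p.1 ∈ B.V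
    · by_cases h2 : p.1 * p.2 ∈ B.V
      · obtain ⟨D, hD⟩ := A1_8_fin (B.conn p.1 h1 (p.1 * p.2) h2)
        exact ⟨D, fun _ _ => hD⟩
      · exact ⟨∅, fun _ h => absurd h h2⟩
    · exact ⟨∅, fun h _ => absurd h h1⟩
  choose D hD using hex
  refine ⟨(B.reps ×ˢ C).biUnion fun p => (D p).image fun d => p.1⁻¹ * d, ?_⟩
  intro z hz z' hz' hC
  obtain ⟨h, hh, f, hf, rfl⟩ := B.cof z hz
  have hfV : f ∈ B.V := (mem_V_iff B hh).1 hz
  have hz'' : h * (f * ((h * f)⁻¹ * z')) = z' := by group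
  have hfc : f * ((h * f)⁻¹ * z') ∈ B.V := by
    rw [← mem_V_iff B hh, hz'']
    exact hz'
  have h1 := A1_8_trans h (hD (f, (h * f)⁻¹ * z') hfV hfc)
  rw [hz''] at h1
  refine A1_8_mono ?_ h1
  intro w hw
  obtain ⟨hw1, hw2⟩ := hw
  refine ⟨?_, ?_⟩
  · have h2 := (mem_V_iff B hh).2 hw1
    rwa [mul_inv_cancel_left] at h2
  · rw [mem_ofPred_eq, Finset.mem_biUnion]
    refine ⟨(f, (h * f)⁻¹ * z'), Finset.mem_product.2 ⟨hf, hC⟩, ?_⟩
    rw [Finset.mem_image]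
    refine ⟨h⁻¹ * w, hw2, ?_⟩
    group

end

section

/-! Positive gains. -/


open Filter Topology Set
open Vale.Agent.P239 Vale.Agent.P239.F
open scoped RealInnerProductSpace ENNReal

variable {G : Type*} [Group G] {S : Finset G} {hS : Subgroup.closure (S : Set G) = ⊤}

section Blk

variable {δ : ℝ} (h4 : Four hS δ) [Countable G] {F : Finset G} (hF : CrossProp S F)
  (htf : ∀ g : G, g ≠ 1 → ∀ n : ℕ, n ≠ 0 → g ^ n ≠ 1) (B : Block hS)

omit [Countable G] in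
/-- Resistance tends to infinity along a sequence converging to a point not of finite type. -/
theorem A1_9_res_tendsto {f : ℕ → G} {a : G → G → ℝ} (haP : a ∈ Pt hS) (ha : ¬ IsFin hS a)
    (h : Tendsto (fun n => hb hS (f n)) atTop (𝓝 a)) :
    Tendsto (fun n => res hS 1 (f n)) atTop atTop := by
  rw [tendsto_atTop]
  intro C
  have h1 : ∃ x, C < gpb hS 1 x a := by
    by_contra hcon
    push Not at hcon
    exact ha ⟨C, hcon⟩
  obtain ⟨x, hx⟩ := h1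
  filter_upwards [((tendsto_hb_iff haP).1 h x).eventually (lt_mem_nhds hx)] with n hn
  rw [res_one]
  have h2 := gp_le hS (f n) x
  rw [gp_comm] at h2
  linarith

include hF in
theorem A1_9_eq {f : ℕ → G} {a q : G → G → ℝ} (haP : a ∈ Pt hS) (ha : ¬ IsFin hS a)
    (h : Tendsto (fun n => hb hS (f n)) atTop (𝓝 a)) (hq : q ∈ Pt hS)
    (hqf : ∀ n, q (f n) 1 ≤ 0) : a = q := by
  have h1 := A1_9_res_tendsto haP ha h
  have h2 : Tendsto (fun n => gpb hS 1 (f n) q) atTop atTop := by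
    refine tendsto_atTop_mono (f := fun n => res hS 1 (f n) / 2) (fun n => ?_)
      (h1.atTop_div_const (by norm_num))
    unfold gpb
    have := hqf n
    linarith
  exact tendsto_nhds_unique h (tendsto_of_gpb hF hq h2)

include h4 hF htf in
theorem A1_9_pos {q : G → G → ℝ} (hq : q ∈ Pt hS) : ∃ g ∈ B.H, 0 < q g 1 := by
  by_contra hcon
  push Not at hcon
  obtain ⟨g, hg, a, haP, b, hbP, hab, ha, hb', hga, hgb⟩ := blk_lox h4 hF htf B
  have h1 := A1_9_eq hF haP ha hga hq fun n => hcon _ (B.H.pow_mem hg n)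
  have h2 := A1_9_eq hF hbP hb' hgb hq fun n => hcon _ (B.H.pow_mem (B.H.inv_mem hg) n)
  exact hab (h1.trans h2.symm)

theorem A1_9_min {X : Type*} (f : X → ℝ) (t : Finset X) (h : ∀ q ∈ t, 0 < f q) :
    ∃ κ : ℝ, 0 < κ ∧ ∀ q ∈ t, κ ≤ f q := by
  classical
  induction t using Finset.induction_on with
  | empty => exact ⟨1, one_pos, by simp⟩
  | @insert x t _ ih =>
    obtain ⟨κ, hκ, hκ'⟩ := ih fun q hq => h q (Finset.mem_insert_of_mem hq)
    refine ⟨min κ (f x), lt_min hκ (h x (Finset.mem_insert_self _ _)), fun q hq => ?_⟩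
    rcases Finset.mem_insert.1 hq with rfl | hq
    · exact min_le_right _ _
    · exact (min_le_left _ _).trans (hκ' q hq)

include h4 hF htf in
theorem exists_gain : ∃ C : Finset G, (∀ g ∈ C, g ∈ B.H) ∧ ∃ κ : ℝ, 0 < κ ∧
    ∀ β ∈ KV B, ∀ h ∈ B.H, ∃ g ∈ C, κ ≤ β (h * g) h := by
  classical
  have h1 : ∀ q : G → G → ℝ, ∃ g : G, q ∈ KV B → g ∈ B.H ∧ 0 < q g 1 := by
    intro q
    by_cases hq : q ∈ KV B
    · obtain ⟨g, hg, hg'⟩ := A1_9_pos h4 hF htf B (KV_subset B hq)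
      exact ⟨g, fun _ => ⟨hg, hg'⟩⟩
    · exact ⟨1, fun h => absurd h hq⟩
  choose g hg using h1
  obtain ⟨t, htK, ht⟩ := (isCompact_KV B).elim_nhds_subcover
    (fun q => {β : G → G → ℝ | q (g q) 1 / 2 < β (g q) 1}) (by
      intro q hq
      have h2 : IsOpen {β : G → G → ℝ | q (g q) 1 / 2 < β (g q) 1} :=
        isOpen_lt continuous_const (continuous_ev _ _)
      refine h2.mem_nhds ?_
      have := (hg q hq).2
      change q (g q) 1 / 2 < q (g q) 1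
      linarith)
  obtain ⟨κ, hκ, hκ'⟩ := A1_9_min (fun q : G → G → ℝ => q (g q) 1 / 2) t
    fun q hq => half_pos (hg q (htK q hq)).2
  refine ⟨t.image g, fun x hx => ?_, κ, hκ, fun β hβ h hh => ?_⟩
  · obtain ⟨q, hq, rfl⟩ := Finset.mem_image.1 hx
    exact (hg q (htK q hq)).1
  · have h2 := ht (act_mem_KV B (B.H.inv_mem hh) hβ)
    simp only [mem_iUnion] at h2
    obtain ⟨q, hq, hq'⟩ := h2
    refine ⟨g q, Finset.mem_image_of_mem g hq, (hκ' q hq).trans ?_⟩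
    have h3 : q (g q) 1 / 2 < act h⁻¹ β (g q) 1 := hq'
    rw [act_apply, inv_inv, mul_one] at h3
    exact h3.le

end Blk

end

section

open Filter Topology Set
open Vale.Agent.P239 Vale.Agent.P239.F
open scoped RealInnerProductSpace ENNReal

variable {G : Type*} [Group G] {S : Finset G} {hS : Subgroup.closure (S : Set G) = ⊤}

section Blk

variable {δ : ℝ} (h4 : Four hS δ) [Countable G] {F : Finset G} (hF : CrossProp S F)
  (htf : ∀ g : G, g ≠ 1 → ∀ n : ℕ, n ≠ 0 → g ^ n ≠ 1) (B : Block hS)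

omit [Countable G] in
/-- Iterated gains. -/
theorem A1_10_iter {B : Block hS} {C : Finset G} (hCH : ∀ g ∈ C, g ∈ B.H) {κ : ℝ}
    (hg : ∀ β ∈ KV B, ∀ h ∈ B.H, ∃ g ∈ C, κ ≤ β (h * g) h) (n : ℕ) :
    ∃ D : Finset G, (∀ g ∈ D, g ∈ B.H) ∧
      ∀ β ∈ KV B, ∀ h ∈ B.H, ∃ g ∈ D, (n : ℝ) * κ ≤ β (h * g) h := by
  classical
  induction n with
  | zero =>
    refine ⟨{1}, fun g hg => ?_, fun β hβ h hh => ⟨1, Finset.mem_singleton_self 1, ?_⟩⟩
    · rw [Finset.mem_singleton.1 hg]; exact B.H.one_mem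
    · rw [mul_one, Pt.self (KV_subset B hβ)]; simp
  | succ n ih =>
    obtain ⟨D, hDH, hD⟩ := ih
    refine ⟨Finset.image₂ (fun a b => a * b) D C, fun g hg => ?_, fun β hβ h hh => ?_⟩
    · obtain ⟨a, ha, b, hb, rfl⟩ := Finset.mem_image₂.1 hg
      exact B.H.mul_mem (hDH a ha) (hCH b hb)
    · obtain ⟨a, ha, h1⟩ := hD β hβ h hh
      obtain ⟨b, hb, h2⟩ := hg β hβ (h * a) (B.H.mul_mem hh (hDH a ha))
      refine ⟨a * b, Finset.mem_image₂_of_mem ha hb, ?_⟩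
      have h3 := Pt.add (KV_subset B hβ) (h * a * b) (h * a) h
      rw [← mul_assoc]
      push_cast
      linarith

include h4 hF htf in
theorem children (L : ℝ) : ∃ C : Finset G, ∀ β ∈ KV B, ∀ z ∈ B.V, ∃ z' ∈ B.V,
    z⁻¹ * z' ∈ C ∧ L ≤ β z' z := by
  classical
  obtain ⟨C₀, hC₀, κ, hκ, hgain⟩ := exists_gain h4 hF htf B
  obtain ⟨n, hn⟩ := exists_nat_ge ((L + 2 * ∑ f ∈ B.reps, res hS 1 f) / κ)
  rw [div_le_iff₀ hκ] at hn
  obtain ⟨D, hDH, hD⟩ := A1_10_iter hC₀ hgain n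
  refine ⟨Finset.image₂ (fun f g => f⁻¹ * g * f) B.reps D, fun β hβ z hz => ?_⟩
  obtain ⟨h, hh, f, hf, rfl⟩ := B.cof z hz
  obtain ⟨g, hg, hgβ⟩ := hD β hβ h hh
  have hPt := KV_subset B hβ
  refine ⟨h * g * f, ?_, ?_, ?_⟩
  · have h1 := B.inv (h * g * h⁻¹) (B.H.mul_mem (B.H.mul_mem hh (hDH g hg)) (B.H.inv_mem hh)) _ hz
    have h2 : h * g * h⁻¹ * (h * f) = h * g * f := by group
    rwa [h2] at h1
  · have h2 : (h * f)⁻¹ * (h * g * f) = f⁻¹ * g * f := by group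
    rw [h2]
    exact Finset.mem_image₂_of_mem hf hg
  · have hs : res hS 1 f ≤ ∑ f ∈ B.reps, res hS 1 f :=
      Finset.single_le_sum (f := fun f => res hS 1 f) (fun i _ => res_nonneg hS 1 i) hf
    have e1 := Pt.add hPt (h * g * f) (h * g) h
    have e2 := Pt.add hPt (h * g * f) h (h * f)
    have a1 := (_root_.abs_le.1 (Pt.abs_le hPt (h * g * f) (h * g))).1
    have a2 := (_root_.abs_le.1 (Pt.abs_le hPt h (h * f))).1
    have r1 : res hS (h * g * f) (h * g) = res hS 1 f := by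
      have := res_mul hS (h * g) f 1
      rw [mul_one] at this
      rw [this, res_comm]
    have r2 : res hS h (h * f) = res hS 1 f := by
      have := res_mul hS h 1 f
      rwa [mul_one] at this
    rw [r1] at a1
    rw [r2] at a2
    linarith

end Blk

end

section

/-! Proof of `cls_ray` (A1.11). -/


open Filter Topology Set
open Vale.Agent.P239 Vale.Agent.P239.F
open scoped RealInnerProductSpace ENNReal

variable {G : Type*} [Group G] {S : Finset G} {hS : Subgroup.closure (S : Set G) = ⊤}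

theorem A1_11_res_le (W : Finset G) {x y : G} (h : x⁻¹ * y ∈ W) :
    res hS x y ≤ ∑ w ∈ W, res hS 1 w := by
  have h1 := res_mul hS x⁻¹ x y
  rw [inv_mul_cancel] at h1
  rw [← h1]
  exact Finset.single_le_sum (f := fun w => res hS 1 w) (fun w _ => res_nonneg hS 1 w) h

theorem A1_11_con {M : Finset G} {A U' : Set G} {x y : G} (h : Con M A x y) (hx : x ∈ U')
    (hs : ∀ u ∈ A, ∀ v ∈ A, Adj M u v → u ∈ U' → v ∈ U') : y ∈ U' := by
  induction h with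
  | refl => exact hx
  | tail _ hbc ih => exact hs _ hbc.1 _ hbc.2.1 hbc.2.2 ih

theorem A1_11_ray {δ : ℝ} (h4 : Four hS δ) [Countable G] {F : Finset G} (hF : CrossProp S F)
    (B : Block hS) {r : ℝ} {C₁ W₁ : Finset G}
    (hch : ∀ β ∈ KV B, ∀ z ∈ B.V, ∃ z' ∈ B.V, z⁻¹ * z' ∈ C₁ ∧ δ / 2 + 1 ≤ β z' z)
    (hpath : ∀ z ∈ B.V, ∀ z' ∈ B.V, z⁻¹ * z' ∈ C₁ →
      Con B.M (B.V ∩ {w | z⁻¹ * w ∈ W₁}) z z') {U U' : Set G} (hU' : U' ⊆ B.V)
    (hbdd : ∀ z ∈ bdIn B.M B.V U, ∀ z' ∈ bdIn B.M B.V U, res hS z z' ≤ r)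
    (hstep : ∀ u ∈ U', ∀ v ∈ B.V, Adj B.M u v → u ∉ bdIn B.M B.V U → v ∈ U')
    {y z' : G} (hy : y ∈ U') (hz' : z' ∈ bdIn B.M B.V U)
    (hr : r + (1 + ∑ w ∈ W₁, res hS 1 w) ≤ res hS y z') : ∃ γ ∈ Lim hS U', ¬ IsFin hS γ := by
  have hδ : 0 ≤ δ := by
    have h := h4 1 1 1 1
    rw [res_self, add_zero, max_self, zero_add] at h
    exact h
  choose! κ hκV hκC hκg using fun z hz => hch (hb hS z') (hb_mem_KV B hz'.1) z hz
  let w : ℕ → G := fun n => κ^[n] y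
  have hw1 : ∀ j, w (j + 1) = κ (w j) := fun j => Function.iterate_succ_apply' κ j y
  have hw : ∀ j, w j ∈ U' ∧ r + (1 + ∑ v ∈ W₁, res hS 1 v) ≤ res hS (w j) z' := by
    intro j
    induction j with
    | zero => exact ⟨hy, hr⟩
    | succ j ih =>
      have hV := hU' ih.1
      rw [hw1]
      refine ⟨?_, ?_⟩
      · refine A1_11_con (hpath (w j) hV (κ (w j)) (hκV _ hV) (hκC _ hV)) ih.1 ?_
        intro u hu v hv huv huU
        refine hstep u huU v hv.1 huv fun hub => ?_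
        have h1 := hbdd u hub z' hz'
        have h2 : res hS (w j) u ≤ ∑ v ∈ W₁, res hS 1 v := A1_11_res_le W₁ hu.2
        have h3 := res_triangle hS (w j) u z'
        linarith [ih.2]
      · have h1 := hκg _ hV
        unfold hb at h1
        linarith [ih.2]
  obtain ⟨γ, -, hγ, -, ht, hc⟩ := chain_conv h4 hF (hb_mem hS z') (c₀ := δ / 2 + 1)
    (Λ := ∑ v ∈ C₁, res hS 1 v) (by linarith) (by linarith) w
    (fun j => by rw [hw1]; exact A1_11_res_le C₁ (hκC _ (hU' (hw j).1)))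
    (fun j => by rw [hw1]; exact hκg _ (hU' (hw j).1))
  refine ⟨γ, ?_, hγ⟩
  have h1 : Tendsto w atTop (cofinite ⊓ 𝓟 U') :=
    tendsto_inf.2 ⟨hc, tendsto_principal.2 (Eventually.of_forall fun j => (hw j).1)⟩
  exact MapClusterPt.of_comp h1 ht.mapClusterPt

section Blk

variable {δ : ℝ} (h4 : Four hS δ) [Countable G] {F : Finset G} (hF : CrossProp S F)
  (htf : ∀ g : G, g ≠ 1 → ∀ n : ℕ, n ≠ 0 → g ^ n ≠ 1) (B : Block hS)

include h4 hF htf in
theorem cls_ray : ∃ L : ℝ, 0 ≤ L ∧ ∀ (r : ℝ) (C : Finset G) (U : Set G), Cls B r C L U →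
    (∃ γ ∈ Lim hS U, ¬ IsFin hS γ) ∧ (∃ γ ∈ Lim hS (B.V \ U), ¬ IsFin hS γ) := by
  obtain ⟨C₁, hC₁⟩ := children h4 hF htf B (δ / 2 + 1)
  obtain ⟨W₁, hW₁⟩ := V_path B C₁
  refine ⟨1 + ∑ w ∈ W₁, res hS 1 w,
    add_nonneg zero_le_one (Finset.sum_nonneg fun w _ => res_nonneg hS 1 w), ?_⟩
  intro r C U hU
  obtain ⟨z, hz⟩ := hU.ne
  constructor
  · obtain ⟨y, hy, -, hyr⟩ := hU.inn z hz
    refine A1_11_ray h4 hF B hC₁ hW₁ hU.sub hU.bdd ?_ hy hz (hyr z hz)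
    intro u hu v hv huv hub
    by_contra hvU
    exact hub ⟨hU.sub hu, v, hv, huv, fun h => hvU (h.1 hu)⟩
  · obtain ⟨y, hy, -, hyr⟩ := hU.out z hz
    refine A1_11_ray h4 hF B hC₁ hW₁ (fun _ h => h.1) hU.bdd ?_ hy hz (hyr z hz)
    intro u hu v hv huv hub
    refine ⟨hv, fun hvU => hub ⟨hu.1, v, hv, huv, fun h => hu.2 (h.2 hvU)⟩⟩

end Blk

end

section

/-! The class `Cls` is invariant under the block group. -/


open Filter Topology Set
open Vale.Agent.P239 Vale.Agent.P239.F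
open scoped RealInnerProductSpace ENNReal

variable {G : Type*} [Group G] {S : Finset G} {hS : Subgroup.closure (S : Set G) = ⊤}

theorem A1_12_adj {M : Finset G} {x y : G} (h : Adj M x y) (g : G) : Adj M (g * x) (g * y) := by
  obtain ⟨s, hs, h | h⟩ := h
  · exact ⟨s, hs, Or.inl (by rw [h, mul_assoc])⟩
  · exact ⟨s, hs, Or.inr (by rw [h, mul_assoc])⟩

theorem A1_12_bd {B : Block hS} (U : Set G) {h : G} (hh : h ∈ B.H) (z : G) :
    z ∈ bdIn B.M B.V {z | h⁻¹ * z ∈ U} ↔ h⁻¹ * z ∈ bdIn B.M B.V U := by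
  have hV : ∀ w, h⁻¹ * w ∈ B.V ↔ w ∈ B.V := fun w => mem_V_iff B (B.H.inv_mem hh)
  constructor
  · rintro ⟨hz, y, hy, hadj, hne⟩
    exact ⟨(hV z).2 hz, h⁻¹ * y, (hV y).2 hy, A1_12_adj hadj h⁻¹, hne⟩
  · rintro ⟨hz, y, hy, hadj, hne⟩
    refine ⟨(hV z).1 hz, h * y, (mem_V_iff B hh).2 hy, ?_, ?_⟩
    · have := A1_12_adj hadj h
      rwa [mul_inv_cancel_left] at this
    · intro h2
      apply hne
      have h3 : h⁻¹ * z ∈ U ↔ h⁻¹ * (h * y) ∈ U := h2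
      rwa [inv_mul_cancel_left] at h3

theorem Cls.trans {B : Block hS} {r L : ℝ} {C : Finset G} {U : Set G} (hU : Cls B r C L U)
    {h : G} (hh : h ∈ B.H) : Cls B r C L {z | h⁻¹ * z ∈ U} ∧
      ∀ z, z ∈ bdIn B.M B.V {z | h⁻¹ * z ∈ U} ↔ h⁻¹ * z ∈ bdIn B.M B.V U := by
  have hV : ∀ w, h⁻¹ * w ∈ B.V ↔ w ∈ B.V := fun w => mem_V_iff B (B.H.inv_mem hh)
  have hb := A1_12_bd U hh
  have hr : ∀ x y, res hS (h⁻¹ * x) (h⁻¹ * y) = res hS x y := fun x y => res_mul hS h⁻¹ x y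
  refine ⟨⟨?_, ?_, ?_, ?_, ?_⟩, hb⟩
  · intro z hz
    exact (hV z).1 (hU.sub hz)
  · obtain ⟨z, hz⟩ := hU.ne
    exact ⟨h * z, (hb _).2 (by rwa [inv_mul_cancel_left])⟩
  · intro z hz z' hz'
    rw [← hr]
    exact hU.bdd _ ((hb z).1 hz) _ ((hb z').1 hz')
  · intro z hz
    obtain ⟨y, hy, hC, h1⟩ := hU.inn _ ((hb z).1 hz)
    refine ⟨h * y, ?_, ?_, ?_⟩
    · change h⁻¹ * (h * y) ∈ U
      rwa [inv_mul_cancel_left]
    · rw [mul_inv_rev, inv_inv, mul_assoc] at hC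
      exact hC
    · intro z' hz'
      rw [← hr, inv_mul_cancel_left]
      exact h1 _ ((hb z').1 hz')
  · intro z hz
    obtain ⟨y, hy, hC, h1⟩ := hU.out _ ((hb z).1 hz)
    refine ⟨h * y, ⟨(mem_V_iff B hh).2 hy.1, ?_⟩, ?_, ?_⟩
    · change ¬ h⁻¹ * (h * y) ∈ U
      rw [inv_mul_cancel_left]
      exact hy.2
    · rw [mul_inv_rev, inv_inv, mul_assoc] at hC
      exact hC
    · intro z' hz'
      rw [← hr, inv_mul_cancel_left]
      exact h1 _ ((hb z').1 hz')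

end

section

/-! The class is closed under ultralimits with a common boundary vertex. -/


open Filter Topology Set
open Vale.Agent.P239 Vale.Agent.P239.F
open scoped RealInnerProductSpace ENNReal

variable {G : Type*} [Group G] {S : Finset G} {hS : Subgroup.closure (S : Set G) = ⊤}

theorem A1_13_finite_adj (M : Finset G) (z : G) : {y | Adj M z y}.Finite := by
  have h : {y | Adj M z y} ⊆ ((fun s => z * s) '' (M : Set G)) ∪ ((fun s => z * s⁻¹) '' (M : Set G)) := by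
    rintro y ⟨s, hs, h | h⟩
    · exact Or.inl ⟨s, hs, h.symm⟩
    · exact Or.inr ⟨s, hs, by simp [h]⟩
  exact ((M.finite_toSet.image _).union (M.finite_toSet.image _)).subset h

theorem A1_13_finite_mem (C : Finset G) (z : G) : {y | z⁻¹ * y ∈ C}.Finite := by
  have h : {y | z⁻¹ * y ∈ C} ⊆ (fun s => z * s) '' (C : Set G) := by
    intro y hy
    exact ⟨z⁻¹ * y, hy, by simp⟩
  exact (C.finite_toSet.image _).subset h

theorem A1_13_exists {ι α : Type*} (𝒰 : Ultrafilter ι) {s : Set α} (hs : s.Finite)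
    {P : α → ι → Prop} (h : ∀ᶠ i in 𝒰, ∃ a ∈ s, P a i) : ∃ a ∈ s, ∀ᶠ i in 𝒰, P a i :=
  (Ultrafilter.eventually_exists_mem_iff hs).1 h

theorem A1_13_bd (M : Finset G) (V : Set G) {ι : Type*} (𝒰 : Ultrafilter ι) (U : ι → Set G)
    (z : G) : z ∈ bdIn M V {z | ∀ᶠ i in 𝒰, z ∈ U i} ↔ ∀ᶠ i in 𝒰, z ∈ bdIn M V (U i) := by
  have key : ∀ y, (¬ (z ∈ {z | ∀ᶠ i in 𝒰, z ∈ U i} ↔ y ∈ {z | ∀ᶠ i in 𝒰, z ∈ U i})) ↔
      ∀ᶠ i in 𝒰, ¬ (z ∈ U i ↔ y ∈ U i) := by
    intro y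
    rw [Ultrafilter.eventually_not]
    refine not_congr ?_
    constructor
    · intro h
      by_cases hz : ∀ᶠ i in 𝒰, z ∈ U i
      · filter_upwards [hz, h.1 hz] with i h1 h2
        exact ⟨fun _ => h2, fun _ => h1⟩
      · have hy : ¬ ∀ᶠ i in 𝒰, y ∈ U i := fun h' => hz (h.2 h')
        rw [← Ultrafilter.eventually_not] at hz hy
        filter_upwards [hz, hy] with i h1 h2
        exact ⟨fun h' => absurd h' h1, fun h' => absurd h' h2⟩
    · intro h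
      constructor
      · intro hz
        filter_upwards [h, (hz : ∀ᶠ i in 𝒰, z ∈ U i)] with i h1 h2
        exact h1.1 h2
      · intro hy
        filter_upwards [h, (hy : ∀ᶠ i in 𝒰, y ∈ U i)] with i h1 h2
        exact h1.2 h2
  constructor
  · rintro ⟨hzV, y, hyV, hadj, hne⟩
    filter_upwards [(key y).1 hne] with i hi
    exact ⟨hzV, y, hyV, hadj, hi⟩
  · intro h
    have hzV : z ∈ V := by
      obtain ⟨i, hi⟩ := h.exists
      exact hi.1
    have h1 : ∀ᶠ i in 𝒰, ∃ y ∈ {y | Adj M z y}, y ∈ V ∧ ¬ (z ∈ U i ↔ y ∈ U i) := by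
      filter_upwards [h] with i hi
      obtain ⟨-, y, hyV, hadj, hne⟩ := hi
      exact ⟨y, hadj, hyV, hne⟩
    obtain ⟨y, hadj, hy⟩ := A1_13_exists 𝒰 (A1_13_finite_adj M z) h1
    obtain ⟨i, hi⟩ := hy.exists
    refine ⟨hzV, y, hi.1, hadj, (key y).2 (hy.mono fun i hi => hi.2)⟩

/-- A1.13. -/
theorem Cls.ulim {B : Block hS} {r L : ℝ} {C : Finset G} {ι : Type*} (𝒰 : Ultrafilter ι)
    {U : ι → Set G} (hU : ∀ i, Cls B r C L (U i)) {f : G} (hf : ∀ i, f ∈ bdIn B.M B.V (U i)) :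
    Cls B r C L {z | ∀ᶠ i in 𝒰, z ∈ U i} ∧
      ∀ z, z ∈ bdIn B.M B.V {z | ∀ᶠ i in 𝒰, z ∈ U i} ↔ ∀ᶠ i in 𝒰, z ∈ bdIn B.M B.V (U i) := by
  have hbd := A1_13_bd B.M B.V 𝒰 U
  refine ⟨⟨?_, ?_, ?_, ?_, ?_⟩, hbd⟩
  · intro z hz
    obtain ⟨i, hi⟩ := (show ∀ᶠ i in 𝒰, z ∈ U i from hz).exists
    exact (hU i).sub hi
  · exact ⟨f, (hbd f).2 (Eventually.of_forall hf)⟩
  · intro z hz z' hz'
    obtain ⟨i, h1, h2⟩ := (((hbd z).1 hz).and ((hbd z').1 hz')).exists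
    exact (hU i).bdd z h1 z' h2
  · intro z hz
    have h1 : ∀ᶠ i in 𝒰, ∃ y ∈ {y | z⁻¹ * y ∈ C}, y ∈ U i ∧
        ∀ z' ∈ bdIn B.M B.V (U i), r + L ≤ res hS y z' := by
      filter_upwards [(hbd z).1 hz] with i hi
      obtain ⟨y, hy, hyC, hyr⟩ := (hU i).inn z hi
      exact ⟨y, hyC, hy, hyr⟩
    obtain ⟨y, hyC, hy⟩ := A1_13_exists 𝒰 (A1_13_finite_mem C z) h1
    refine ⟨y, hy.mono fun i hi => hi.1, hyC, fun z' hz' => ?_⟩
    obtain ⟨i, h2, h3⟩ := (hy.and ((hbd z').1 hz')).exists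
    exact h2.2 z' h3
  · intro z hz
    have h1 : ∀ᶠ i in 𝒰, ∃ y ∈ {y | z⁻¹ * y ∈ C}, y ∈ B.V \ U i ∧
        ∀ z' ∈ bdIn B.M B.V (U i), r + L ≤ res hS y z' := by
      filter_upwards [(hbd z).1 hz] with i hi
      obtain ⟨y, hy, hyC, hyr⟩ := (hU i).out z hi
      exact ⟨y, hyC, hy, hyr⟩
    obtain ⟨y, hyC, hy⟩ := A1_13_exists 𝒰 (A1_13_finite_mem C z) h1
    refine ⟨y, ⟨?_, ?_⟩, hyC, fun z' hz' => ?_⟩
    · obtain ⟨i, hi⟩ := hy.exists
      exact hi.1.1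
    · intro h2
      obtain ⟨i, h3, h4⟩ := (hy.and (show ∀ᶠ i in 𝒰, y ∈ U i from h2)).exists
      exact h3.1.2 h4
    · obtain ⟨i, h2, h3⟩ := (hy.and ((hbd z').1 hz')).exists
      exact h2.2 z' h3

end

section

/-! Proof of A1.14 (`cls_min`): the minimal circumradius is attained. -/


open Filter Topology Set
open Vale.Agent.P239 Vale.Agent.P239.F
open scoped RealInnerProductSpace ENNReal

variable {G : Type*} [Group G] {S : Finset G} {hS : Subgroup.closure (S : Set G) = ⊤}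

/-- Distances are weakly lower semicontinuous. -/
theorem A1_14_wlsc {E : Type*} [NormedAddCommGroup E] [InnerProductSpace ℝ E] {ι : Type*}
    (𝒰 : Ultrafilter ι) {f : ι → E} {c v : E} {ρ : ℝ} {r : ι → ℝ}
    (hc : ∀ η, Tendsto (fun i => ⟪f i, η⟫) 𝒰 (𝓝 ⟪c, η⟫)) (hr : Tendsto r 𝒰 (𝓝 ρ))
    (h : ∀ᶠ i in 𝒰, ‖v - f i‖ ^ 2 ≤ r i) : ‖v - c‖ ^ 2 ≤ ρ := by
  have h1 : Tendsto (fun i => 2 * (⟪v, v - c⟫ - ⟪f i, v - c⟫) - ‖v - c‖ ^ 2) 𝒰
      (𝓝 (2 * (⟪v, v - c⟫ - ⟪c, v - c⟫) - ‖v - c‖ ^ 2)) :=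
    ((tendsto_const_nhds.sub (hc (v - c))).const_mul 2).sub tendsto_const_nhds
  have h2 : 2 * (⟪v, v - c⟫ - ⟪c, v - c⟫) - ‖v - c‖ ^ 2 = ‖v - c‖ ^ 2 := by
    rw [← inner_sub_left, real_inner_self_eq_norm_sq]; ring
  rw [h2] at h1
  refine le_of_tendsto_of_tendsto h1 hr ?_
  filter_upwards [h] with i hi
  have h3 : ‖(v - f i) - (v - c)‖ ^ 2 = ‖v - f i‖ ^ 2 - 2 * ⟪v - f i, v - c⟫ + ‖v - c‖ ^ 2 :=
    norm_sub_sq_real _ _
  have h4 := sq_nonneg ‖(v - f i) - (v - c)‖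
  have h5 : ⟪v - f i, v - c⟫ = ⟪v, v - c⟫ - ⟪f i, v - c⟫ := inner_sub_left _ _ _
  rw [h5] at h3
  linarith

/-- Distances to the translate of a vector. -/
theorem A1_14_dist (g y : G) (c : HS S) :
    ‖vec hS y - (tr g c + vec hS g)‖ = ‖vec hS (g⁻¹ * y) - c‖ := by
  have h : vec hS y = tr g (vec hS (g⁻¹ * y)) + vec hS g := by
    rw [← vec_mul, mul_inv_cancel_left]
  rw [h, add_sub_add_right_eq_sub, ← map_sub, LinearIsometry.norm_map]

/-- Translation to a set with a representative in the boundary. -/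
theorem A1_14_norm [Countable G] {B : Block hS} {r L : ℝ} {C : Finset G} {U : Set G} {c : HS S} {ρ : ℝ}
    (hU : Cls B r C L U) (hc : ∀ z ∈ bdIn B.M B.V U, ‖vec hS z - c‖ ^ 2 ≤ ρ) :
    ∃ U' c', ∃ f ∈ B.reps, Cls B r C L U' ∧ f ∈ bdIn B.M B.V U' ∧
      ∀ z ∈ bdIn B.M B.V U', ‖vec hS z - c'‖ ^ 2 ≤ ρ := by
  obtain ⟨z₀, hz₀⟩ := hU.ne
  obtain ⟨h, hh, f, hf, rfl⟩ := B.cof z₀ hz₀.1
  obtain ⟨h1, h2⟩ := hU.trans (B.H.inv_mem hh)
  refine ⟨_, tr h⁻¹ c + vec hS h⁻¹, f, hf, h1, ?_, ?_⟩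
  · rw [h2, inv_inv]; exact hz₀
  · intro z hz
    rw [h2] at hz
    rw [A1_14_dist]
    exact hc _ hz

/-- The radii. -/
def A1_14_R (B : Block hS) (r L : ℝ) (C : Finset G) : Set ℝ :=
  {ρ | ∃ U c, Cls B r C L U ∧ ∀ z ∈ bdIn B.M B.V U, ‖vec hS z - c‖ ^ 2 ≤ ρ}

theorem A1_14_bdd (B : Block hS) (r L : ℝ) (C : Finset G) : BddBelow (A1_14_R B r L C) := by
  refine ⟨0, ?_⟩
  rintro ρ ⟨U, c, hU, hc⟩
  obtain ⟨z₀, hz₀⟩ := hU.ne
  exact (sq_nonneg _).trans (hc z₀ hz₀)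

theorem A1_14_ne {B : Block hS} {r L : ℝ} {C : Finset G} {U : Set G} (hU : Cls B r C L U) :
    (A1_14_R B r L C).Nonempty := by
  obtain ⟨z₀, hz₀⟩ := hU.ne
  refine ⟨r, U, vec hS z₀, hU, fun z hz => ?_⟩
  rw [← res_eq_norm]
  exact hU.bdd z hz z₀ hz₀

section Blk

variable [Countable G] (B : Block hS)

theorem cls_min {r L : ℝ} {C : Finset G} (h : ∃ U, Cls B r C L U) :
    ∃ U c ρ, Cls B r C L U ∧ (∀ z ∈ bdIn B.M B.V U, ‖vec hS z - c‖ ^ 2 ≤ ρ) ∧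
      ∀ U' c' ρ', Cls B r C L U' → (∀ z ∈ bdIn B.M B.V U', ‖vec hS z - c'‖ ^ 2 ≤ ρ') → ρ ≤ ρ' := by
  obtain ⟨U₀, hU₀⟩ := h
  have hne := A1_14_ne hU₀
  have hbd := A1_14_bdd B r L C
  set ρs : ℝ := sInf (A1_14_R B r L C) with hρs
  have key : ∀ k : ℕ, ∃ U' c', ∃ f ∈ B.reps, Cls B r C L U' ∧ f ∈ bdIn B.M B.V U' ∧
      ∀ z ∈ bdIn B.M B.V U', ‖vec hS z - c'‖ ^ 2 ≤ ρs + 1 / ((k : ℝ) + 1) := by
    intro k
    have hk : (0 : ℝ) < 1 / ((k : ℝ) + 1) := by positivity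
    obtain ⟨ρ, ⟨U, c, hU, hc⟩, hρ⟩ := exists_lt_of_csInf_lt hne
      (show sInf (A1_14_R B r L C) < ρs + 1 / ((k : ℝ) + 1) by rw [← hρs]; linarith)
    exact A1_14_norm hU fun z hz => (hc z hz).trans hρ.le
  choose U c f hf hU hfU hc using key
  obtain ⟨f₀, -, hf₀⟩ : ∃ f₀ ∈ (B.reps : Set G), ∀ᶠ k in (hyperfilter ℕ : Filter ℕ), f₀ = f k := by
    rw [← Ultrafilter.eventually_exists_mem_iff B.reps.finite_toSet]
    exact Eventually.of_forall fun k => ⟨f k, hf k, rfl⟩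
  obtain ⟨k₀, hk₀⟩ := hf₀.exists
  classical
  obtain ⟨σ, hσ, hσe⟩ : ∃ σ : ℕ → ℕ, (∀ k, f (σ k) = f₀) ∧
      ∀ᶠ k in (hyperfilter ℕ : Filter ℕ), σ k = k := by
    refine ⟨fun k => if f₀ = f k then k else k₀, fun k => ?_, ?_⟩
    · by_cases hk : f₀ = f k
      · simp only [if_pos hk]; exact hk.symm
      · simp only [if_neg hk]; exact hk₀.symm
    · filter_upwards [hf₀] with k hk
      rw [if_pos hk]
  obtain ⟨h1, h2⟩ := Cls.ulim (hyperfilter ℕ) (fun k => hU (σ k)) (f := f₀)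
    (fun k => by rw [← hσ k]; exact hfU (σ k))
  have hle1 : ∀ k : ℕ, 1 / ((k : ℝ) + 1) ≤ 1 := by
    intro k
    rw [div_le_one (by positivity)]
    have : (0 : ℝ) ≤ (k : ℝ) := Nat.cast_nonneg k
    linarith
  have hb : ∀ k, ‖c (σ k)‖ ≤ ‖vec hS f₀‖ + Real.sqrt (ρs + 1) := by
    intro k
    have h3 : ‖vec hS f₀ - c (σ k)‖ ^ 2 ≤ ρs + 1 := by
      have h4 := hc (σ k) f₀ (by rw [← hσ k]; exact hfU (σ k))
      have h5 := hle1 (σ k)
      linarith
    have h6 : ‖vec hS f₀ - c (σ k)‖ ≤ Real.sqrt (ρs + 1) := Real.le_sqrt_of_sq_le h3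
    have h7 : ‖c (σ k)‖ ≤ ‖vec hS f₀‖ + ‖vec hS f₀ - c (σ k)‖ := by
      have h8 : c (σ k) = vec hS f₀ - (vec hS f₀ - c (σ k)) := by abel
      calc ‖c (σ k)‖ = ‖vec hS f₀ - (vec hS f₀ - c (σ k))‖ := by rw [← h8]
        _ ≤ _ := norm_sub_le _ _
    linarith
  obtain ⟨c', -, hc'⟩ := exists_weak_lim (hyperfilter ℕ) (fun k => c (σ k)) _ hb
  have hlim : Tendsto (fun k : ℕ => ρs + 1 / ((k : ℝ) + 1)) (hyperfilter ℕ : Filter ℕ)
      (𝓝 ρs) := by
    have h3 : Tendsto (fun k : ℕ => ρs + 1 / ((k : ℝ) + 1)) atTop (𝓝 (ρs + 0)) :=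
      tendsto_const_nhds.add tendsto_one_div_add_atTop_nhds_zero_nat
    rw [add_zero] at h3
    exact h3.mono_left Nat.hyperfilter_le_atTop
  refine ⟨_, c', ρs, h1, fun z hz => ?_, ?_⟩
  · rw [h2] at hz
    refine A1_14_wlsc (hyperfilter ℕ) hc' hlim ?_
    filter_upwards [hz, hσe] with k hk hk'
    have h3 := hc (σ k) z hk
    rwa [hk'] at h3 ⊢
  · intro U' c'' ρ' hU' hc''
    exact csInf_le hbd ⟨U', c'', hU', hc''⟩

end Blk

end

section

open Filter Topology Set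
open Vale.Agent.P239 Vale.Agent.P239.F
open scoped RealInnerProductSpace ENNReal

variable {G : Type*} [Group G] {S : Finset G} {hS : Subgroup.closure (S : Set G) = ⊤}

section Blk

variable {δ : ℝ} (h4 : Four hS δ) [Countable G] {F : Finset G} (hF : CrossProp S F)
  (htf : ∀ g : G, g ≠ 1 → ∀ n : ℕ, n ≠ 0 → g ^ n ≠ 1) (B : Block hS)

/-- The point attached to a centre. -/
noncomputable def A1_15_pt (hS : Subgroup.closure (S : Set G) = ⊤) (c : HS S) : G → G → ℝ :=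
  fun x y => gp hS x x - gp hS y y - 2 * ⟪vec hS x - vec hS y, c⟫

/-- Along translations bringing the boundary back to a fixed vertex, the vectors of the
translations converge weakly to the centre. -/
theorem A1_15_core {B : Block hS} {r L : ℝ} {C : Finset G} {U : Set G} {c : HS S} {ρ : ℝ}
    (hU : Cls B r C L U) (hc : ∀ z ∈ bdIn B.M B.V U, ‖vec hS z - c‖ ^ 2 ≤ ρ)
    (hmin : ∀ U' c' ρ', Cls B r C L U' → (∀ z ∈ bdIn B.M B.V U', ‖vec hS z - c'‖ ^ 2 ≤ ρ') →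
      ρ ≤ ρ') {ι : Type*} (𝒰 : Ultrafilter ι) {h : ι → G} {f : G} (hh : ∀ i, h i ∈ B.H)
    (hf : ∀ i, h i * f ∈ bdIn B.M B.V U) (ht : Tendsto h 𝒰 cofinite) (η : HS S) :
    Tendsto (fun i => ⟪vec hS (h i), η⟫) 𝒰 (𝓝 ⟪c, η⟫) := by
  classical
  have hT : ∀ i, Cls B r C L {z | (h i)⁻¹⁻¹ * z ∈ U} ∧
      ∀ z, z ∈ bdIn B.M B.V {z | (h i)⁻¹⁻¹ * z ∈ U} ↔ (h i)⁻¹⁻¹ * z ∈ bdIn B.M B.V U :=
    fun i => hU.trans (B.H.inv_mem (hh i))
  obtain ⟨hU', hbd⟩ := Cls.ulim 𝒰 (U := fun i => {z | (h i)⁻¹⁻¹ * z ∈ U}) (fun i => (hT i).1)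
    (f := f) (fun i => by rw [(hT i).2, inv_inv]; exact hf i)
  let ci : ι → HS S := fun i => tr (h i)⁻¹ c + vec hS (h i)⁻¹
  have hy : ∀ i y, ‖vec hS y - ci i‖ = ‖vec hS (h i * y) - c‖ := by
    intro i y
    have h1 : vec hS y - ci i = tr (h i)⁻¹ (vec hS (h i * y) - c) := by
      have h2 : vec hS y = tr (h i)⁻¹ (vec hS (h i * y)) + vec hS (h i)⁻¹ := by
        rw [← vec_mul, inv_mul_cancel_left]
      change vec hS y - (tr (h i)⁻¹ c + vec hS (h i)⁻¹) = _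
      rw [h2, map_sub]
      abel
    rw [h1, (tr _).norm_map]
  have hρ : 0 ≤ ρ := by
    obtain ⟨z, hz⟩ := hU.ne
    exact (sq_nonneg _).trans (hc z hz)
  have hbdd : ∀ i, ‖ci i‖ ≤ ‖vec hS f‖ + √ρ := by
    intro i
    have h1 : ‖vec hS f - ci i‖ ≤ √ρ := by
      rw [hy]
      exact Real.le_sqrt_of_sq_le (hc _ (hf i))
    calc ‖ci i‖ = ‖vec hS f - (vec hS f - ci i)‖ := by rw [sub_sub_cancel]
      _ ≤ ‖vec hS f‖ + ‖vec hS f - ci i‖ := norm_sub_le _ _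
      _ ≤ _ := by gcongr
  obtain ⟨c', -, hweak⟩ := exists_weak_lim 𝒰 ci _ hbdd
  have hstrong : ∀ ε : ℝ, 0 < ε → ∀ᶠ i in (𝒰 : Filter ι), ‖c' - ci i‖ ^ 2 ≤ ε := by
    intro ε hε
    by_contra hcon
    have hgt : ∀ᶠ i in (𝒰 : Filter ι), ε < ‖c' - ci i‖ ^ 2 :=
      (Ultrafilter.eventually_not.2 hcon).mono fun i hi => not_le.1 hi
    have hle : ∀ y ∈ bdIn B.M B.V {z | ∀ᶠ i in (𝒰 : Filter ι), z ∈ {z | (h i)⁻¹⁻¹ * z ∈ U}},
        ‖vec hS y - c'‖ ^ 2 ≤ ρ - ε := by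
      intro y hyb
      have h1 : ∀ᶠ i in (𝒰 : Filter ι), ‖vec hS y - ci i‖ ^ 2 ≤ ρ := by
        refine ((hbd y).1 hyb).mono fun i hi => ?_
        rw [(hT i).2, inv_inv] at hi
        rw [hy]; exact hc _ hi
      have h2 : ∀ i, ‖vec hS y - ci i‖ ^ 2 =
          ‖vec hS y - c'‖ ^ 2 + 2 * ⟪vec hS y - c', c' - ci i⟫ + ‖c' - ci i‖ ^ 2 := by
        intro i
        rw [← norm_add_sq_real, sub_add_sub_cancel]
      have h3 : Tendsto (fun i => ⟪vec hS y - c', c' - ci i⟫) 𝒰 (𝓝 0) := by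
        have h5 : Tendsto (fun i => ⟪c', vec hS y - c'⟫ - ⟪ci i, vec hS y - c'⟫) 𝒰
            (𝓝 (⟪c', vec hS y - c'⟫ - ⟪c', vec hS y - c'⟫)) :=
          tendsto_const_nhds.sub (hweak (vec hS y - c'))
        rw [sub_self] at h5
        refine h5.congr fun i => ?_
        rw [← inner_sub_left, real_inner_comm]
      have h6 : Tendsto (fun i => ‖vec hS y - c'‖ ^ 2 + 2 * ⟪vec hS y - c', c' - ci i⟫ + ε) 𝒰
          (𝓝 (‖vec hS y - c'‖ ^ 2 + 2 * 0 + ε)) :=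
        (tendsto_const_nhds.add (h3.const_mul 2)).add tendsto_const_nhds
      have h7 := le_of_tendsto h6 ((h1.and hgt).mono fun i hi => by
        have := h2 i
        have h8 := hi.1
        have h9 := hi.2
        change ‖vec hS y - c'‖ ^ 2 + 2 * ⟪vec hS y - c', c' - ci i⟫ + ε ≤ ρ
        linarith)
      linarith
    have := hmin _ c' (ρ - ε) hU' hle
    linarith
  have h1 : ∀ i, ‖vec hS (h i) - c + tr (h i) c'‖ = ‖c' - ci i‖ := by
    intro i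
    have h2 : tr (h i) (c' - ci i) = vec hS (h i) - c + tr (h i) c' := by
      change tr (h i) (c' - (tr (h i)⁻¹ c + vec hS (h i)⁻¹)) = _
      rw [map_sub, map_add, tr_tr, mul_inv_cancel, tr_one, vec_inv, map_neg, tr_tr,
        mul_inv_cancel, tr_one]
      abel
    rw [← h2, (tr _).norm_map]
  have h2 : Tendsto (fun i => vec hS (h i) - c + tr (h i) c') 𝒰 (𝓝 0) := by
    rw [tendsto_zero_iff_norm_tendsto_zero]
    simp only [h1]
    rw [Metric.tendsto_nhds]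
    intro ε hε
    filter_upwards [hstrong ((ε / 2) ^ 2) (by positivity)] with i hi
    rw [Real.dist_eq, sub_zero, abs_of_nonneg (norm_nonneg _)]
    have := (sq_le_sq₀ (norm_nonneg _) (by positivity)).1 hi
    linarith
  have h3 : Tendsto (fun i => ⟪vec hS (h i) - c + tr (h i) c', η⟫) 𝒰 (𝓝 0) := by
    have := h2.inner (tendsto_const_nhds (x := η) (f := (𝒰 : Filter ι))) (𝕜 := ℝ)
    rwa [inner_zero_left] at this
  have h4 : Tendsto (fun i => ⟪tr (h i) c', η⟫) 𝒰 (𝓝 0) := (tendsto_inner_tr c' η).comp ht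
  have h5 := (h3.add (tendsto_const_nhds (x := ⟪c, η⟫) (f := (𝒰 : Filter ι)))).sub h4
  rw [zero_add, sub_zero] at h5
  refine h5.congr fun i => ?_
  rw [inner_add_left, inner_sub_left]; ring

/-- Every ultrafilter limit of the boundary is the point attached to the centre. -/
theorem A1_15_key {B : Block hS} {r L : ℝ} {C : Finset G} {U : Set G} {c : HS S} {ρ : ℝ}
    (hU : Cls B r C L U) (hc : ∀ z ∈ bdIn B.M B.V U, ‖vec hS z - c‖ ^ 2 ≤ ρ)
    (hmin : ∀ U' c' ρ', Cls B r C L U' → (∀ z ∈ bdIn B.M B.V U', ‖vec hS z - c'‖ ^ 2 ≤ ρ') →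
      ρ ≤ ρ') (𝒰 : Ultrafilter G) (h𝒰 : (𝒰 : Filter G) ≤ cofinite ⊓ 𝓟 (bdIn B.M B.V U)) :
    Tendsto (hb hS) 𝒰 (𝓝 (A1_15_pt hS c)) := by
  classical
  have hD𝒰 : ∀ᶠ z in (𝒰 : Filter G), z ∈ bdIn B.M B.V U :=
    le_principal_iff.1 (h𝒰.trans inf_le_right)
  have hcof : Tendsto (fun z : G => z) 𝒰 cofinite := h𝒰.trans inf_le_left
  have h1 : (⋃ f ∈ (B.reps : Set G), {z : G | z * f⁻¹ ∈ B.H}) ∈ 𝒰 := by
    filter_upwards [hD𝒰] with z hz
    obtain ⟨h, hh, f, hf, rfl⟩ := B.cof z hz.1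
    simp only [mem_iUnion]
    exact ⟨f, hf, by simpa using hh⟩
  obtain ⟨f, hf, hfm⟩ := (Ultrafilter.finite_biUnion_mem_iff B.reps.finite_toSet).1 h1
  have hZ : {z | z * f⁻¹ ∈ B.H} ∩ bdIn B.M B.V U ∈ (𝒰 : Filter G) := inter_mem hfm hD𝒰
  obtain ⟨z₀, hz₀⟩ := 𝒰.neBot.nonempty_of_mem hZ
  let j : G → G := fun z => if z ∈ {z | z * f⁻¹ ∈ B.H} ∩ bdIn B.M B.V U then z else z₀
  have hj : ∀ z, j z ∈ {z | z * f⁻¹ ∈ B.H} ∩ bdIn B.M B.V U := by
    intro z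
    simp only [j]
    split_ifs with h
    · exact h
    · exact hz₀
  have hje : ∀ᶠ z in (𝒰 : Filter G), j z = z := by
    filter_upwards [hZ] with z hz
    exact if_pos hz
  have ht : Tendsto (fun z => j z * f⁻¹) 𝒰 cofinite := by
    have h2 : Tendsto (fun z : G => z * f⁻¹) 𝒰 cofinite :=
      ((mul_left_injective f⁻¹).tendsto_cofinite).comp hcof
    exact h2.congr' (hje.mono fun z hz => by simp only [hz])
  have h3 := A1_15_core hU hc hmin 𝒰 (h := fun z => j z * f⁻¹) (f := f) (fun z => (hj z).1)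
    (fun z => by
      rw [inv_mul_cancel_right]
      exact (hj z).2) ht
  have h4 : Tendsto (fun z => hb hS (j z * f⁻¹)) 𝒰 (𝓝 (A1_15_pt hS c)) := by
    rw [tendsto_pi_nhds]; intro x
    rw [tendsto_pi_nhds]; intro y
    have h6 : Tendsto (fun z => gp hS x x - gp hS y y -
        2 * ⟪vec hS (j z * f⁻¹), vec hS x - vec hS y⟫) 𝒰
        (𝓝 (gp hS x x - gp hS y y - 2 * ⟪c, vec hS x - vec hS y⟫)) :=
      tendsto_const_nhds.sub ((h3 (vec hS x - vec hS y)).const_mul 2)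
    rw [A1_15_pt, real_inner_comm]
    refine h6.congr fun z => ?_
    rw [hb_eq_inner, real_inner_comm]
  have h5 := tendsto_hb_mul hS f ht h4
  refine h5.congr' (hje.mono fun z hz => ?_)
  rw [inv_mul_cancel_right, hz]

theorem cls_conv {r L : ℝ} {C : Finset G} {U : Set G} {c : HS S} {ρ : ℝ} (hU : Cls B r C L U)
    (hc : ∀ z ∈ bdIn B.M B.V U, ‖vec hS z - c‖ ^ 2 ≤ ρ)
    (hmin : ∀ U' c' ρ', Cls B r C L U' → (∀ z ∈ bdIn B.M B.V U', ‖vec hS z - c'‖ ^ 2 ≤ ρ') →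
      ρ ≤ ρ') : ∃ β, IsFin hS β ∧ Conv hS (bdIn B.M B.V U) β := by
  classical
  by_cases hfin : (bdIn B.M B.V U).Finite
  · refine ⟨hb hS 1, ⟨0, fun x => ?_⟩, ?_⟩
    · rw [gpb_hb_one, gp_one']
    · rw [Conv, (Filter.disjoint_principal_right.2 hfin.compl_mem_cofinite).eq_bot]
      exact tendsto_bot
  · have key := A1_15_key hU hc hmin
    refine ⟨A1_15_pt hS c, ?_, tendsto_iff_ultrafilter _ _ _ |>.2 key⟩
    have : (cofinite ⊓ 𝓟 (bdIn B.M B.V U)).NeBot :=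
      cofinite_inf_principal_neBot_iff.2 hfin
    have h1 := key (Ultrafilter.of _) (Ultrafilter.of_le _)
    have hD : ∀ᶠ z in (Ultrafilter.of (cofinite ⊓ 𝓟 (bdIn B.M B.V U)) : Filter G),
        z ∈ bdIn B.M B.V U := le_principal_iff.1 ((Ultrafilter.of_le _).trans inf_le_right)
    refine ⟨(‖c‖ + √ρ) ^ 2, fun x => ?_⟩
    have h2 := ((continuous_gpb hS 1 x).tendsto _).comp h1
    refine le_of_tendsto h2 (hD.mono fun z hz => ?_)
    change gpb hS 1 x (hb hS z) ≤ _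
    rw [gpb_hb_one, gp_comm]
    have h3 : gp hS z x ≤ gp hS z z := gp_le hS z x
    have h4 : gp hS z z = ‖vec hS z‖ ^ 2 := by
      rw [← inner_vec, real_inner_self_eq_norm_sq]
    have h5 : ‖vec hS z‖ ≤ ‖c‖ + √ρ := by
      have h6 : ‖vec hS z - c‖ ≤ √ρ := Real.le_sqrt_of_sq_le (hc _ hz)
      calc ‖vec hS z‖ = ‖c + (vec hS z - c)‖ := by rw [add_sub_cancel]
        _ ≤ ‖c‖ + ‖vec hS z - c‖ := norm_add_le _ _
        _ ≤ _ := by gcongr
    have h7 : ‖vec hS z‖ ^ 2 ≤ (‖c‖ + √ρ) ^ 2 := by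
      have := norm_nonneg (vec hS z)
      gcongr
    linarith

end Blk

end

section

/-! Proof of A1.16. -/


open Filter Topology Set
open Vale.Agent.P239 Vale.Agent.P239.F
open scoped RealInnerProductSpace ENNReal

variable {G : Type*} [Group G] {S : Finset G} {hS : Subgroup.closure (S : Set G) = ⊤}

/-- A set converging to `β` has no other limit point. -/
theorem A1_16_eq {U : Set G} {β γ : G → G → ℝ} (h : Conv hS U β) (hγ : γ ∈ Lim hS U) :
    γ = β := by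
  have h1 : ClusterPt γ (Filter.map (hb hS) (cofinite ⊓ 𝓟 U)) := hγ
  have h2 : (𝓝 γ ⊓ 𝓝 β).NeBot := (ClusterPt.mono h1 h).neBot
  exact eq_of_nhds_neBot h2

section Blk

variable {δ : ℝ} (h4 : Four hS δ) [Countable G] {F : Finset G} (hF : CrossProp S F)
  (htf : ∀ g : G, g ≠ 1 → ∀ n : ℕ, n ≠ 0 → g ^ n ≠ 1) (B : Block hS)

include h4 hF htf in
theorem cls_empty : ∃ L : ℝ, 0 ≤ L ∧ ∀ (r : ℝ) (C : Finset G) (U : Set G),
    ¬ Cls B r C L U := by
  obtain ⟨L, hL, hray⟩ := cls_ray h4 hF htf B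
  refine ⟨L, hL, fun r C U hU => ?_⟩
  obtain ⟨U', c, ρ, hU', hc, hmin⟩ := cls_min B ⟨U, hU⟩
  obtain ⟨β, hβ, hconv⟩ := cls_conv B hU' hc hmin
  obtain ⟨⟨γ, hγ, hγf⟩, γ', hγ', hγf'⟩ := hray r C U' hU'
  rcases B.bl U' hU'.sub β hconv with h | h
  · exact hγf (A1_16_eq h hγ ▸ hβ)
  · exact hγf' (A1_16_eq h hγ' ▸ hβ)

end Blk

end

section

open Filter Topology Set
open Vale.Agent.P239 Vale.Agent.P239.F
open scoped RealInnerProductSpace ENNReal

variable {G : Type*} [Group G] {S : Finset G} {hS : Subgroup.closure (S : Set G) = ⊤}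

section Blk

theorem A1_17_res_one_le (W : Finset G) {w : G} (hw : w ∈ W) :
    res hS 1 w ≤ ∑ v ∈ W, res hS 1 v :=
  Finset.single_le_sum (f := fun v => res hS 1 v) (fun v _ => res_nonneg hS 1 v) hw

theorem A1_17_res_eq (z w : G) : res hS w z = res hS 1 (z⁻¹ * w) := by
  rw [res_comm, ← res_mul hS z 1 (z⁻¹ * w), mul_one, mul_inv_cancel_left]

theorem A1_17_low {p : G → G → ℝ} (hp : p ∈ Pt hS) (W : Finset G) {z w : G}
    (hw : z⁻¹ * w ∈ W) : p z 1 - ∑ v ∈ W, res hS 1 v ≤ p w 1 := by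
  have h1 := Pt.add hp w z 1
  have h2 := (_root_.abs_le.1 (Pt.abs_le hp w z)).1
  have h3 := A1_17_res_one_le (hS := hS) W hw
  rw [← A1_17_res_eq (hS := hS)] at h3
  linarith

theorem A1_17_adj {p : G → G → ℝ} (hp : p ∈ Pt hS) (M : Finset G) {z w : G}
    (hw : Adj M z w) : p z 1 - ∑ v ∈ M, res hS 1 v ≤ p w 1 := by
  have h1 := Pt.add hp w z 1
  have h2 := (_root_.abs_le.1 (Pt.abs_le hp w z)).1
  have h3 : res hS w z ≤ ∑ v ∈ M, res hS 1 v := by
    obtain ⟨s, hs, h | h⟩ := hw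
    · have := A1_17_res_one_le (hS := hS) M hs
      rwa [A1_17_res_eq, h, inv_mul_cancel_left]
    · have := A1_17_res_one_le (hS := hS) M hs
      rwa [res_comm, A1_17_res_eq, h, inv_mul_cancel_left]
  linarith

variable {δ : ℝ} (h4 : Four hS δ) [Countable G] {F : Finset G} (hF : CrossProp S F)
  (htf : ∀ g : G, g ≠ 1 → ∀ n : ℕ, n ≠ 0 → g ^ n ≠ 1) (B : Block hS)

include h4 hF htf in
theorem split : ∃ (C₁ : Finset G) (L₁ : ℝ), 0 ≤ L₁ ∧ ∀ p ∈ KV B, ∀ (c : ℝ), ∀ x ∈ B.V, ∀ y ∈ B.V,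
    c + L₁ < p x 1 → c + L₁ < p y 1 → ¬ Con B.M (B.V ∩ {z | c < p z 1}) x y →
    ∃ U ⊆ B.V, x ∈ U ∧ y ∉ U ∧ (∀ z ∈ bdIn B.M B.V U, p z 1 ≤ c + L₁) ∧
      (∀ z ∈ U, ∃ z' ∈ U, z⁻¹ * z' ∈ C₁ ∧ δ / 2 + 1 ≤ p z' z) ∧
      (∀ z ∈ B.V \ U, ∃ z' ∈ B.V \ U, z⁻¹ * z' ∈ C₁ ∧ δ / 2 + 1 ≤ p z' z) ∧
      (∀ z ∈ U, c + L₁ < p z 1 → Con B.M (B.V ∩ {z | c < p z 1}) x z) ∧
      (∀ z ∈ B.V \ U, c + L₁ < p z 1 → ¬ Con B.M (B.V ∩ {z | c < p z 1}) x z) := by
  classical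
  have hδ : 0 ≤ δ := by
    have := h4 1 1 1 1
    rw [res_self] at this
    simpa using this
  obtain ⟨C₁, hC₁⟩ := children h4 hF htf B (δ / 2 + 1)
  obtain ⟨W₁, hW₁⟩ := V_path B C₁
  set Λ : ℝ := ∑ w ∈ W₁, res hS 1 w with hΛ
  set m₀ : ℝ := ∑ w ∈ B.M, res hS 1 w with hm₀
  have hΛ0 : 0 ≤ Λ := Finset.sum_nonneg fun v _ => res_nonneg hS 1 v
  have hm0 : 0 ≤ m₀ := Finset.sum_nonneg fun v _ => res_nonneg hS 1 v
  refine ⟨C₁, Λ + m₀, by linarith, fun p hp c x hx y hy hcx hcy hxy => ?_⟩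
  have hpt : p ∈ Pt hS := KV_subset B hp
  -- children
  have hκ : ∀ z : G, ∃ z' : G, z ∈ B.V → z' ∈ B.V ∧ z⁻¹ * z' ∈ C₁ ∧ δ / 2 + 1 ≤ p z' z := by
    intro z
    by_cases hz : z ∈ B.V
    · obtain ⟨z', h1, h2, h3⟩ := hC₁ p hp z hz
      exact ⟨z', fun _ => ⟨h1, h2, h3⟩⟩
    · exact ⟨z, fun h => absurd h hz⟩
  choose κ hκ using hκ
  -- heights grow along children
  have hup : ∀ z ∈ B.V, p z 1 ≤ p (κ z) 1 := by
    intro z hz
    have h1 := Pt.add hpt (κ z) z 1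
    have h2 := (hκ z hz).2.2
    linarith
  -- connection of a vertex with its child
  have hcon : ∀ z ∈ B.V, c + Λ < p z 1 → Con B.M (B.V ∩ {z | c < p z 1}) z (κ z) := by
    intro z hz hcz
    have h1 := hW₁ z hz (κ z) (hκ z hz).1 (hκ z hz).2.1
    refine Relation.ReflTransGen.mono ?_ _ _ h1
    rintro a b ⟨⟨ha1, ha2⟩, ⟨hb1, hb2⟩, hab⟩
    have ha3 := A1_17_low hpt W₁ ha2
    have hb3 := A1_17_low hpt W₁ hb2
    exact ⟨⟨ha1, show c < p a 1 by linarith⟩, ⟨hb1, show c < p b 1 by linarith⟩, hab⟩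
  -- the two classes
  set P : G → Prop := fun z => Con B.M (B.V ∩ {z | c < p z 1}) x z with hP
  have hκP : ∀ z ∈ B.V, c + Λ < p z 1 → (P (κ z) ↔ P z) := by
    intro z hz hcz
    have h1 := hcon z hz hcz
    constructor
    · intro h
      exact Relation.ReflTransGen.trans h h1.symm
    · intro h
      exact Relation.ReflTransGen.trans h h1
  have hit : ∀ (n : ℕ) (z : G), z ∈ B.V → c + Λ < p z 1 →
      κ^[n] z ∈ B.V ∧ c + Λ < p (κ^[n] z) 1 ∧ (P (κ^[n] z) ↔ P z) := by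
    intro n
    induction n with
    | zero => intro z hz hcz; exact ⟨hz, hcz, Iff.rfl⟩
    | succ n ih =>
      intro z hz hcz
      rw [Function.iterate_succ_apply]
      have h1 := ih (κ z) (hκ z hz).1 (lt_of_lt_of_le hcz (hup z hz))
      exact ⟨h1.1, h1.2.1, h1.2.2.trans (hκP z hz hcz)⟩
  set T : Set G := {z | z ∈ B.V ∧ c + Λ < p z 1 ∧ P z} with hT
  have hTκ : ∀ z ∈ T, κ z ∈ T := fun z hz =>
    ⟨(hκ z hz.1).1, lt_of_lt_of_le hz.2.1 (hup z hz.1), (hκP z hz.1 hz.2.1).2 hz.2.2⟩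
  set U : Set G := {z | z ∈ B.V ∧ ∃ n : ℕ, κ^[n] z ∈ T} with hU
  -- membership in `U` for high vertices
  have hUhigh : ∀ z ∈ B.V, c + Λ < p z 1 → (z ∈ U ↔ P z) := by
    intro z hz hcz
    constructor
    · rintro ⟨-, n, hn⟩
      exact (hit n z hz hcz).2.2.1 hn.2.2
    · intro h
      exact ⟨hz, 0, hz, hcz, h⟩
  refine ⟨U, fun z hz => hz.1, ?_, ?_, ?_, ?_, ?_, ?_, ?_⟩
  · exact (hUhigh x hx (by linarith)).2 Relation.ReflTransGen.refl
  · intro h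
    exact hxy ((hUhigh y hy (by linarith)).1 h)
  · rintro z ⟨hz, w, hw, hadj, hne⟩
    by_contra hlt
    push Not at hlt
    have h1 := A1_17_adj hpt B.M hadj
    have hcz : c + Λ < p z 1 := by linarith
    have hcw : c + Λ < p w 1 := by linarith
    have h2 : Con B.M (B.V ∩ {z | c < p z 1}) z w :=
      Relation.ReflTransGen.single ⟨⟨hz, show c < p z 1 by linarith⟩,
        ⟨hw, show c < p w 1 by linarith⟩, hadj⟩
    apply hne
    rw [hUhigh z hz hcz, hUhigh w hw hcw]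
    constructor
    · intro h
      exact Relation.ReflTransGen.trans h h2
    · intro h
      exact Relation.ReflTransGen.trans h h2.symm
  · rintro z ⟨hz, n, hn⟩
    refine ⟨κ z, ⟨(hκ z hz).1, n, ?_⟩, (hκ z hz).2.1, (hκ z hz).2.2⟩
    rw [← Function.iterate_succ_apply, Function.iterate_succ_apply']
    exact hTκ _ hn
  · rintro z ⟨hz, hzU⟩
    refine ⟨κ z, ⟨(hκ z hz).1, ?_⟩, (hκ z hz).2.1, (hκ z hz).2.2⟩
    rintro ⟨-, n, hn⟩
    exact hzU ⟨hz, n + 1, by rwa [Function.iterate_succ_apply]⟩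
  · intro z hz hcz
    exact (hUhigh z hz.1 (by linarith)).1 hz
  · intro z hz hcz h
    exact hz.2 ((hUhigh z hz.1 (by linarith)).2 h)

end Blk

end

section

open Filter Topology Set
open Vale.Agent.P239 Vale.Agent.P239.F
open scoped RealInnerProductSpace ENNReal

variable {G : Type*} [Group G] {S : Finset G} {hS : Subgroup.closure (S : Set G) = ⊤}

section Blk

variable {δ : ℝ} (h4 : Four hS δ) [Countable G] {F : Finset G} (hF : CrossProp S F)
  (htf : ∀ g : G, g ≠ 1 → ∀ n : ℕ, n ≠ 0 → g ^ n ≠ 1) (B : Block hS)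

omit [Countable G] in
/-- A connected set which is cut by `U` has a boundary vertex. -/
theorem A1_18_cross {M : Finset G} {V U : Set G} {x y : G} (h : Con M V x y) (hx : x ∈ U)
    (hy : y ∉ U) : (bdIn M V U).Nonempty := by
  by_contra hcon
  rw [not_nonempty_iff_eq_empty] at hcon
  have key : ∀ w, Con M V x w → w ∈ U := by
    intro w hw
    induction hw with
    | refl => exact hx
    | @tail b c _ hbc ih =>
      by_contra hc
      have h1 : b ∈ bdIn M V U := ⟨hbc.1, c, hbc.2.1, hbc.2.2, fun h => hc (h.1 ih)⟩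
      rw [hcon] at h1
      exact h1
  exact hy (key y h)

omit [Countable G] in
/-- Iterating children. -/
theorem A1_18_iter (C₁ : Finset G) (n : ℕ) : ∃ C : Finset G, ∀ (A : Set G) (p : G → G → ℝ),
    p ∈ Pt hS → ∀ c₀ : ℝ, 1 ≤ c₀ → (∀ z ∈ A, ∃ z' ∈ A, z⁻¹ * z' ∈ C₁ ∧ c₀ ≤ p z' z) →
    ∀ z ∈ A, ∃ y ∈ A, z⁻¹ * y ∈ C ∧ (n : ℝ) ≤ p y z := by
  classical
  induction n with
  | zero =>
    refine ⟨{1}, fun A p hp c₀ _ _ z hz => ⟨z, hz, ?_, ?_⟩⟩
    · rw [inv_mul_cancel]; exact Finset.mem_singleton_self 1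
    · rw [Pt.self hp]; exact le_of_eq Nat.cast_zero
  | succ n ih =>
    obtain ⟨C, hC⟩ := ih
    refine ⟨(C ×ˢ C₁).image fun q => q.1 * q.2, fun A p hp c₀ hc₀ hA z hz => ?_⟩
    obtain ⟨y, hy, hyC, hyn⟩ := hC A p hp c₀ hc₀ hA z hz
    obtain ⟨w, hw, hwC, hwn⟩ := hA y hy
    refine ⟨w, hw, ?_, ?_⟩
    · rw [Finset.mem_image]
      refine ⟨(z⁻¹ * y, y⁻¹ * w), Finset.mem_product.2 ⟨hyC, hwC⟩, ?_⟩
      change z⁻¹ * y * (y⁻¹ * w) = z⁻¹ * w
      group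
    · have h1 := Pt.add hp w y z
      push_cast
      linarith

omit [Countable G] in
/-- A boundary vertex has neighbours (or is) inside and outside. -/
theorem A1_18_nbr (M : Finset G) : ∃ D : Finset G, ∀ V U : Set G, ∀ z ∈ bdIn M V U,
    (∃ y ∈ V, y ∈ U ∧ z⁻¹ * y ∈ D) ∧ ∃ y ∈ V, y ∉ U ∧ z⁻¹ * y ∈ D := by
  classical
  refine ⟨insert 1 (M ∪ M.image fun m => m⁻¹), fun V U z hz => ?_⟩
  obtain ⟨hzV, y, hyV, hadj, hne⟩ := hz
  have hy : z⁻¹ * y ∈ insert 1 (M ∪ M.image fun m => m⁻¹) := by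
    obtain ⟨m, hm, h | h⟩ := hadj
    · rw [h, inv_mul_cancel_left]
      exact Finset.mem_insert_of_mem (Finset.mem_union_left _ hm)
    · rw [h, mul_inv_rev, inv_mul_cancel_right]
      exact Finset.mem_insert_of_mem
        (Finset.mem_union_right _ (Finset.mem_image_of_mem _ hm))
  have h1 : z⁻¹ * z ∈ insert 1 (M ∪ M.image fun m => m⁻¹) := by
    rw [inv_mul_cancel]; exact Finset.mem_insert_self _ _
  by_cases hz : z ∈ U
  · exact ⟨⟨z, hzV, hz, h1⟩, y, hyV, fun h => hne ⟨fun _ => h, fun _ => hz⟩, hy⟩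
  · refine ⟨⟨y, hyV, ?_, hy⟩, z, hzV, hz, h1⟩
    by_contra h
    exact hne ⟨fun h' => absurd h' hz, fun h' => absurd h' h⟩

include h4 hF htf in
theorem dd_fin : ∃ L₁ : ℝ, 0 ≤ L₁ ∧ ∀ p ∈ KV B, IsFin hS p → ∀ (c : ℝ), ∀ x ∈ B.V, ∀ y ∈ B.V,
    c + L₁ < p x 1 → c + L₁ < p y 1 → Con B.M (B.V ∩ {z | c < p z 1}) x y := by
  classical
  obtain ⟨C₁, L₁, hL₁, hsplit⟩ := split h4 hF htf B
  obtain ⟨L, hL, hempty⟩ := cls_empty h4 hF htf B
  have hδ : 0 ≤ δ := by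
    have h := h4 1 1 1 1
    simp only [res_self, add_zero, max_self] at h
    linarith
  refine ⟨L₁, hL₁, fun p hp hfin c x hx y hy hpx hpy => ?_⟩
  by_contra hcon
  obtain ⟨U, hUV, hxU, hyU, hbd, hU, hV, -, -⟩ := hsplit p hp c x hx y hy hpx hpy hcon
  have hpt : p ∈ Pt hS := KV_subset B hp
  obtain ⟨K, hK⟩ := hfin
  have hK' : ∀ z, res hS 1 z - 2 * K ≤ p z 1 := by
    intro z
    have h := hK z
    unfold gpb at h
    linarith
  have hK'' : ∀ z, - (2 * K) ≤ p z 1 := by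
    intro z
    have h := hK' z
    have h' := res_nonneg hS 1 z
    linarith
  set r : ℝ := 2 * (c + L₁ + 2 * K) with hr
  obtain ⟨n, hn⟩ := exists_nat_ge (c + L₁ + r + L + 2 * K)
  obtain ⟨Cn, hCn⟩ := A1_18_iter (hS := hS) C₁ n
  obtain ⟨D, hD⟩ := A1_18_nbr B.M
  have hfar : ∀ A ⊆ B.V, (∀ z ∈ A, ∃ z' ∈ A, z⁻¹ * z' ∈ C₁ ∧ δ / 2 + 1 ≤ p z' z) →
      ∀ z ∈ bdIn B.M B.V U, (∃ y ∈ A, z⁻¹ * y ∈ D) →
      ∃ y ∈ A, z⁻¹ * y ∈ (D ×ˢ Cn).image (fun q => q.1 * q.2) ∧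
        ∀ z' ∈ bdIn B.M B.V U, r + L ≤ res hS y z' := by
    rintro A - hA z hz ⟨y₀, hy₀, hy₀D⟩
    obtain ⟨w, hw, hwC, hwn⟩ := hCn A p hpt (δ / 2 + 1) (by linarith) hA y₀ hy₀
    refine ⟨w, hw, ?_, fun z' hz' => ?_⟩
    · rw [Finset.mem_image]
      refine ⟨(z⁻¹ * y₀, y₀⁻¹ * w), Finset.mem_product.2 ⟨hy₀D, hwC⟩, ?_⟩
      change z⁻¹ * y₀ * (y₀⁻¹ * w) = z⁻¹ * w
      group
    · have h1 := Pt.le hpt w z'
      have h2 := Pt.add hpt w z' 1
      have h3 := Pt.add hpt w y₀ 1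
      have h4 := hK'' y₀
      have h5 := hbd z' hz'
      linarith
  refine hempty r ((D ×ˢ Cn).image fun q => q.1 * q.2) U
    { sub := hUV
      ne := A1_18_cross (B.conn x hx y hy) hxU hyU
      bdd := fun z hz z' hz' => ?_
      inn := fun z hz => ?_
      out := fun z hz => ?_ }
  · have h1 := hbd z hz
    have h2 := hbd z' hz'
    have h3 := hK' z
    have h4 := hK' z'
    have h5 := res_triangle hS z 1 z'
    rw [res_comm hS z 1] at h5
    linarith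
  · obtain ⟨⟨y₀, -, hy₀U, hy₀D⟩, -⟩ := hD B.V U z hz
    exact hfar U hUV hU z hz ⟨y₀, hy₀U, hy₀D⟩
  · obtain ⟨-, ⟨y₀, hy₀V, hy₀U, hy₀D⟩⟩ := hD B.V U z hz
    exact hfar (B.V \ U) sdiff_subset hV z hz ⟨y₀, ⟨hy₀V, hy₀U⟩, hy₀D⟩

end Blk

end

section

open Filter Topology Set
open Vale.Agent.P239 Vale.Agent.P239.F
open scoped RealInnerProductSpace ENNReal

variable {G : Type*} [Group G] {S : Finset G} {hS : Subgroup.closure (S : Set G) = ⊤}

/-- Functions with finitely many values are constant along ultrafilters. -/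
theorem A1_19_const {ι α : Type*} (𝒰 : Ultrafilter ι) (s : Finset α) (g : ι → α)
    (h : ∀ᶠ i in (𝒰 : Filter ι), g i ∈ s) : ∃ a ∈ s, ∀ᶠ i in (𝒰 : Filter ι), g i = a := by
  have h1 : (⋃ a ∈ (s : Set α), {i | g i = a}) ∈ 𝒰 := by
    refine Filter.mem_of_superset h fun i hi => ?_
    exact mem_biUnion (Finset.mem_coe.2 hi) rfl
  obtain ⟨a, ha, h2⟩ := (Ultrafilter.finite_biUnion_mem_iff s.finite_toSet).1 h1
  exact ⟨a, ha, h2⟩

theorem A1_19_adj {M : Finset G} {a b : G} (h : Adj M a b) (g : G) : Adj M (g * a) (g * b) := by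
  obtain ⟨m, hm, h | h⟩ := h
  · exact ⟨m, hm, Or.inl (by rw [h, mul_assoc])⟩
  · exact ⟨m, hm, Or.inr (by rw [h, mul_assoc])⟩

theorem A1_19_con_trans {M : Finset G} {A A' : Set G} {x y : G} (h : Con M A x y) (g : G)
    (hA : ∀ a ∈ A, g * a ∈ A') : Con M A' (g * x) (g * y) := by
  induction h with
  | refl => exact Relation.ReflTransGen.refl
  | tail _ hbc ih => exact ih.tail ⟨hA _ hbc.1, hA _ hbc.2.1, A1_19_adj hbc.2.2 g⟩

/-- A finite path satisfies eventual conditions eventually. -/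
theorem A1_19_con_ev {ι : Type*} {l : Filter ι} {M : Finset G} {A : Set G} {A' : ι → Set G}
    {x y : G} (h : Con M A x y) (hA : ∀ a ∈ A, ∀ᶠ i in l, a ∈ A' i) :
    ∀ᶠ i in l, Con M (A' i) x y := by
  induction h with
  | refl => exact Eventually.of_forall fun _ => Relation.ReflTransGen.refl
  | @tail b c _ hbc ih =>
    filter_upwards [ih, hA b hbc.1, hA c hbc.2.1] with i h1 h2 h3
    exact h1.tail ⟨h2, h3, hbc.2.2⟩

/-- Iterating children. -/
theorem A1_19_iter (C₁ : Finset G) (n : ℕ) : ∃ C : Finset G, ∀ (A : Set G) (p : G → G → ℝ),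
    p ∈ Pt hS → ∀ c₀ : ℝ, 1 ≤ c₀ → (∀ z ∈ A, ∃ z' ∈ A, z⁻¹ * z' ∈ C₁ ∧ c₀ ≤ p z' z) →
    ∀ z ∈ A, ∃ y ∈ A, z⁻¹ * y ∈ C ∧ (n : ℝ) ≤ p y z := by
  classical
  induction n with
  | zero =>
    refine ⟨{1}, fun A p hp c₀ _ _ z hz => ⟨z, hz, ?_, ?_⟩⟩
    · rw [inv_mul_cancel]; exact Finset.mem_singleton_self 1
    · rw [Pt.self hp]; exact le_of_eq Nat.cast_zero
  | succ n ih =>
    obtain ⟨C, hC⟩ := ih
    refine ⟨(C ×ˢ C₁).image fun q => q.1 * q.2, fun A p hp c₀ hc₀ hA z hz => ?_⟩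
    obtain ⟨y, hy, hyC, hyn⟩ := hC A p hp c₀ hc₀ hA z hz
    obtain ⟨w, hw, hwC, hwn⟩ := hA y hy
    refine ⟨w, hw, ?_, ?_⟩
    · rw [Finset.mem_image]
      refine ⟨(z⁻¹ * y, y⁻¹ * w), Finset.mem_product.2 ⟨hyC, hwC⟩, ?_⟩
      change z⁻¹ * y * (y⁻¹ * w) = z⁻¹ * w
      group
    · have h1 := Pt.add hp w y z
      push_cast
      linarith

/-- A boundary vertex has neighbours (or is) inside and outside. -/
theorem A1_19_nbr (M : Finset G) : ∃ D : Finset G, ∀ V U : Set G, ∀ z ∈ bdIn M V U,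
    (∃ y ∈ V, y ∈ U ∧ z⁻¹ * y ∈ D) ∧ ∃ y ∈ V, y ∉ U ∧ z⁻¹ * y ∈ D := by
  classical
  refine ⟨insert 1 (M ∪ M.image fun m => m⁻¹), fun V U z hz => ?_⟩
  obtain ⟨hzV, y, hyV, hadj, hne⟩ := hz
  have hy : z⁻¹ * y ∈ insert 1 (M ∪ M.image fun m => m⁻¹) := by
    obtain ⟨m, hm, h | h⟩ := hadj
    · rw [h, inv_mul_cancel_left]
      exact Finset.mem_insert_of_mem (Finset.mem_union_left _ hm)
    · rw [h, mul_inv_rev, inv_mul_cancel_right]
      exact Finset.mem_insert_of_mem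
        (Finset.mem_union_right _ (Finset.mem_image_of_mem _ hm))
  have h1 : z⁻¹ * z ∈ insert 1 (M ∪ M.image fun m => m⁻¹) := by
    rw [inv_mul_cancel]; exact Finset.mem_insert_self _ _
  by_cases hz : z ∈ U
  · exact ⟨⟨z, hzV, hz, h1⟩, y, hyV, fun h => hne ⟨fun _ => h, fun _ => hz⟩, hy⟩
  · refine ⟨⟨y, hyV, ?_, hy⟩, z, hzV, hz, h1⟩
    by_contra h
    exact hne ⟨fun h' => absurd h' hz, fun h' => absurd h' h⟩

theorem A1_19_res (C : Finset G) {z w : G} (h : z⁻¹ * w ∈ C) :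
    res hS z w ≤ ∑ g ∈ C, res hS 1 g := by
  have h1 : res hS z w = res hS 1 (z⁻¹ * w) := by
    rw [← res_mul hS z⁻¹ z w, inv_mul_cancel]
  rw [h1]
  exact Finset.single_le_sum (f := fun g => res hS 1 g) (fun g _ => res_nonneg hS 1 g) h

/-- From boundary vertices one reaches far vertices of `A` in a bounded number of steps. -/
theorem A1_19_reach (D C₁ : Finset G) (N : ℝ) : ∃ C : Finset G, ∀ (A : Set G) (p : G → G → ℝ),
    p ∈ Pt hS → ∀ c₀ : ℝ, 1 ≤ c₀ → (∀ z ∈ A, ∃ z' ∈ A, z⁻¹ * z' ∈ C₁ ∧ c₀ ≤ p z' z) →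
    ∀ z, (∃ y ∈ A, z⁻¹ * y ∈ D) → ∃ w ∈ A, z⁻¹ * w ∈ C ∧ N ≤ p w z := by
  classical
  obtain ⟨n, hn⟩ := exists_nat_ge (N + ∑ g ∈ D, res hS 1 g)
  obtain ⟨Cn, hCn⟩ := A1_19_iter (hS := hS) C₁ n
  refine ⟨(D ×ˢ Cn).image fun q => q.1 * q.2, fun A p hp c₀ hc₀ hA z hz => ?_⟩
  obtain ⟨y, hy, hyD⟩ := hz
  obtain ⟨w, hw, hwC, hwn⟩ := hCn A p hp c₀ hc₀ hA y hy
  refine ⟨w, hw, ?_, ?_⟩
  · rw [Finset.mem_image]
    refine ⟨(z⁻¹ * y, y⁻¹ * w), Finset.mem_product.2 ⟨hyD, hwC⟩, ?_⟩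
    change z⁻¹ * y * (y⁻¹ * w) = z⁻¹ * w
    group
  · have h1 := Pt.add hp w y z
    have h2 := (_root_.abs_le.1 (Pt.abs_le hp y z)).1
    have h3 := A1_19_res (hS := hS) D hyD
    rw [res_comm] at h3
    linarith

section Blk

variable {δ : ℝ} (h4 : Four hS δ) [Countable G] {F : Finset G} (hF : CrossProp S F)
  (htf : ∀ g : G, g ≠ 1 → ∀ n : ℕ, n ≠ 0 → g ^ n ≠ 1) (B : Block hS)

include h4 hF in
/-- A set closed under children does not converge to `p`. -/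
theorem A1_19_ray (hδ : 0 ≤ δ) {C₁ : Finset G} {A : Set G} {p : G → G → ℝ} (hp : p ∈ Pt hS)
    (hA : ∀ z ∈ A, ∃ z' ∈ A, z⁻¹ * z' ∈ C₁ ∧ δ / 2 + 1 ≤ p z' z) {x : G} (hx : x ∈ A) :
    ¬ Conv hS A p := by
  intro hconv
  have h1 : ∀ z, ∃ z', z ∈ A → z' ∈ A ∧ z⁻¹ * z' ∈ C₁ ∧ δ / 2 + 1 ≤ p z' z := by
    intro z
    by_cases hz : z ∈ A
    · obtain ⟨z', h1, h2, h3⟩ := hA z hz
      exact ⟨z', fun _ => ⟨h1, h2, h3⟩⟩
    · exact ⟨z, fun h => absurd h hz⟩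
  choose κ hκ using h1
  have hw : ∀ n : ℕ, κ^[n] x ∈ A := by
    intro n
    induction n with
    | zero => exact hx
    | succ n ih =>
      rw [Function.iterate_succ_apply']
      exact (hκ _ ih).1
  obtain ⟨γ, -, -, hne, hlim, hcof⟩ := chain_conv h4 hF hp (Λ := ∑ g ∈ C₁, res hS 1 g)
    (c₀ := δ / 2 + 1) (by linarith) (by linarith) (fun n => κ^[n] x)
    (fun j => by
      rw [Function.iterate_succ_apply']
      exact A1_19_res (hS := hS) C₁ (hκ _ (hw j)).2.1)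
    (fun j => by
      rw [Function.iterate_succ_apply']
      exact (hκ _ (hw j)).2.2)
  have h2 : Tendsto (fun n => κ^[n] x) atTop (cofinite ⊓ 𝓟 A) :=
    tendsto_inf.2 ⟨hcof, tendsto_principal.2 (Eventually.of_forall hw)⟩
  exact hne (tendsto_nhds_unique hlim (hconv.comp h2))

include h4 hF htf in
/-- The main claim: the boundary of the splitting set converges to `p`. -/
theorem A1_19_claim (hδ : 0 ≤ δ) {C₁ : Finset G} {Ls Ld : ℝ} (hLs : 0 ≤ Ls) (hLd : 0 ≤ Ld)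
    (hfin : ∀ p ∈ KV B, IsFin hS p → ∀ (c : ℝ), ∀ x ∈ B.V, ∀ y ∈ B.V,
      c + Ld < p x 1 → c + Ld < p y 1 → Con B.M (B.V ∩ {z | c < p z 1}) x y)
    {p : G → G → ℝ} (hp : p ∈ KV B) {c : ℝ} {x : G} {U : Set G} (hUV : U ⊆ B.V)
    (hbd : ∀ z ∈ bdIn B.M B.V U, p z 1 ≤ c + Ls)
    (hU : ∀ z ∈ U, ∃ z' ∈ U, z⁻¹ * z' ∈ C₁ ∧ δ / 2 + 1 ≤ p z' z)
    (hV : ∀ z ∈ B.V \ U, ∃ z' ∈ B.V \ U, z⁻¹ * z' ∈ C₁ ∧ δ / 2 + 1 ≤ p z' z)
    (hUc : ∀ z ∈ U, c + Ls < p z 1 → Con B.M (B.V ∩ {z | c < p z 1}) x z)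
    (hVc : ∀ z ∈ B.V \ U, c + Ls < p z 1 → ¬ Con B.M (B.V ∩ {z | c < p z 1}) x z) :
    Conv hS (bdIn B.M B.V U) p := by
  classical
  have hpt : p ∈ Pt hS := KV_subset B hp
  rw [Conv, tendsto_iff_ultrafilter]
  intro 𝒰 h𝒰
  obtain ⟨β, hβ, hlim⟩ := exists_lim hS 𝒰 (fun z => z)
  by_cases hβp : β = p
  · rw [← hβp]; exact hlim
  exfalso
  have h𝒰c : (𝒰 : Filter G) ≤ cofinite := h𝒰.trans inf_le_left
  have h𝒰b : ∀ᶠ z in (𝒰 : Filter G), z ∈ bdIn B.M B.V U :=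
    (h𝒰.trans inf_le_right) (mem_principal_self _)
  -- the distances are bounded
  obtain ⟨K, hK⟩ : ∃ K : ℝ, ∀ᶠ z in (𝒰 : Filter G), res hS 1 z ≤ K := by
    by_contra hcon
    push Not at hcon
    have h1 : Tendsto (fun z => gpb hS 1 z p) (𝒰 : Filter G) atTop := by
      rw [tendsto_atTop]
      intro N
      filter_upwards [hcon (2 * N + (c + Ls)), h𝒰b] with z hz hzb
      have h3 := hbd z hzb
      unfold gpb
      linarith
    exact hβp (tendsto_nhds_unique hlim (tendsto_of_gpb hF hpt h1))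
  -- decomposition of the vertices
  have hdec : ∀ z, ∃ h f : G, h ∈ B.H ∧ (z ∈ B.V → f ∈ B.reps ∧ z = h * f) := by
    intro z
    by_cases hz : z ∈ B.V
    · obtain ⟨h, hh, f, hf, hzf⟩ := B.cof z hz
      exact ⟨h, f, hh, fun _ => ⟨hf, hzf⟩⟩
    · exact ⟨1, 1, B.H.one_mem, fun h => absurd h hz⟩
  choose h f hh hf using hdec
  obtain ⟨f₀, hf₀, hff⟩ := A1_19_const 𝒰 B.reps f (h𝒰b.mono fun z hz => (hf z hz.1).1)
  have hhz : ∀ᶠ z in (𝒰 : Filter G), h z = z * f₀⁻¹ := by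
    filter_upwards [hff, h𝒰b] with z h1 h2
    have h3 := (hf z h2.1).2
    rw [h1] at h3
    rw [eq_mul_inv_iff_mul_eq]
    exact h3.symm
  have hcof : Tendsto h (𝒰 : Filter G) cofinite := by
    have h1 : Tendsto (fun z : G => z * f₀⁻¹) (𝒰 : Filter G) cofinite :=
      ((mul_left_injective f₀⁻¹).tendsto_cofinite).mono_left h𝒰c
    exact h1.congr' (hhz.mono fun z hz => hz.symm)
  have hhb : Tendsto (fun z => hb hS (h z)) (𝒰 : Filter G) (𝓝 β) := by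
    have h1 := tendsto_hb_mul hS f₀⁻¹ (tendsto_id.mono_left h𝒰c : Tendsto (fun z : G => z)
      (𝒰 : Filter G) cofinite) hlim
    refine h1.congr' (hhz.mono fun z hz => ?_)
    change hb hS (z * f₀⁻¹) = hb hS (h z)
    rw [hz]
  have hcof' : Tendsto (fun z => (h z)⁻¹) (𝒰 : Filter G) cofinite :=
    inv_injective.tendsto_cofinite.comp hcof
  obtain ⟨β', hβ', hlim'⟩ := exists_lim hS 𝒰 (fun z => (h z)⁻¹)
  set K' : ℝ := K + res hS 1 f₀⁻¹ with hK'
  have hresh : ∀ᶠ z in (𝒰 : Filter G), res hS 1 (h z) ≤ K' := by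
    filter_upwards [hhz, hK] with z h1 h2
    have h3 := res_triangle hS 1 z (h z)
    have h4 : res hS z (h z) = res hS 1 f₀⁻¹ := by
      rw [h1]
      conv_lhs => rw [← mul_one z, mul_assoc, one_mul]
      rw [res_mul]
    linarith
  have hβfin : IsFin hS β' := isFin_of_bdd h4 hlim' (C := K') (by
    filter_upwards [hresh] with z hz
    rw [res_inv]; exact hz)
  have hβK : β' ∈ KV B := mem_KV_of_H B hcof' (fun z => B.H.inv_mem (hh z)) hlim'
  have hpz : Tendsto (fun z => act (h z)⁻¹ p) (𝒰 : Filter G) (𝓝 β') := by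
    refine cp_pt hS hF hcof' hlim' (y := β) ?_ (p := fun _ => p) (fun _ => hpt)
      tendsto_const_nhds (fun hh => hβp hh.symm)
    simpa using hhb
  -- far vertices on both sides
  obtain ⟨D, hD⟩ := A1_19_nbr B.M
  obtain ⟨C, hC⟩ := A1_19_reach (hS := hS) D C₁ (K + c + max Ls Ld + 1)
  have hX : ∀ z, ∃ w, z ∈ bdIn B.M B.V U → w ∈ U ∧ z⁻¹ * w ∈ C ∧
      K + c + max Ls Ld + 1 ≤ p w z := by
    intro z
    by_cases hz : z ∈ bdIn B.M B.V U
    · obtain ⟨⟨y₀, -, hy₀U, hy₀D⟩, -⟩ := hD B.V U z hz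
      obtain ⟨w, h1, h2, h3⟩ := hC U p hpt (δ / 2 + 1) (by linarith) hU z ⟨y₀, hy₀U, hy₀D⟩
      exact ⟨w, fun _ => ⟨h1, h2, h3⟩⟩
    · exact ⟨1, fun h => absurd h hz⟩
  have hY : ∀ z, ∃ w, z ∈ bdIn B.M B.V U → w ∈ B.V \ U ∧ z⁻¹ * w ∈ C ∧
      K + c + max Ls Ld + 1 ≤ p w z := by
    intro z
    by_cases hz : z ∈ bdIn B.M B.V U
    · obtain ⟨-, ⟨y₀, hy₀V, hy₀U, hy₀D⟩⟩ := hD B.V U z hz
      obtain ⟨w, h1, h2, h3⟩ := hC (B.V \ U) p hpt (δ / 2 + 1) (by linarith) hV z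
        ⟨y₀, ⟨hy₀V, hy₀U⟩, hy₀D⟩
      exact ⟨w, fun _ => ⟨h1, h2, h3⟩⟩
    · exact ⟨1, fun h => absurd h hz⟩
  choose X hX using hX
  choose Y hY using hY
  obtain ⟨ξ, -, hξ⟩ := A1_19_const 𝒰 C (fun z => z⁻¹ * X z) (h𝒰b.mono fun z hz => (hX z hz).2.1)
  obtain ⟨η, -, hη⟩ := A1_19_const 𝒰 C (fun z => z⁻¹ * Y z) (h𝒰b.mono fun z hz => (hY z hz).2.1)
  have hXe : ∀ᶠ z in (𝒰 : Filter G), h z * (f₀ * ξ) = X z := by
    filter_upwards [hhz, hξ] with z h1 h2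
    rw [h1, ← h2]; group
  have hYe : ∀ᶠ z in (𝒰 : Filter G), h z * (f₀ * η) = Y z := by
    filter_upwards [hhz, hη] with z h1 h2
    rw [h1, ← h2]; group
  have hXV : f₀ * ξ ∈ B.V := by
    obtain ⟨z, h1, h2⟩ := (hXe.and h𝒰b).exists
    rw [← mem_V_iff B (hh z), h1]
    exact hUV (hX z h2).1
  have hYV : f₀ * η ∈ B.V := by
    obtain ⟨z, h1, h2⟩ := (hYe.and h𝒰b).exists
    rw [← mem_V_iff B (hh z), h1]
    exact (hY z h2).1.1
  -- the levels
  obtain ⟨c', -, hc'⟩ := (isCompact_Icc (a := c - K') (b := c + K')).ultrafilter_le_nhds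
    (𝒰.map fun z => c + p 1 (h z)) (by
      rw [le_principal_iff]
      refine Ultrafilter.mem_map.2 ?_
      filter_upwards [hresh] with z hz
      have h1 := _root_.abs_le.1 (Pt.abs_le hpt 1 (h z))
      exact ⟨by linarith [h1.1], by linarith [h1.2]⟩)
  have hc' : Tendsto (fun z => c + p 1 (h z)) (𝒰 : Filter G) (𝓝 c') := hc'
  have hev : ∀ w, Tendsto (fun z => p (h z * w) (h z)) (𝒰 : Filter G) (𝓝 (β' w 1)) := by
    intro w
    have h1 := ((continuous_ev w 1).tendsto β').comp hpz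
    refine h1.congr fun z => ?_
    change p ((h z)⁻¹⁻¹ * w) ((h z)⁻¹⁻¹ * 1) = _
    rw [inv_inv, mul_one]
  have hrel : ∀ w z, p w (h z) = p w 1 + p 1 (h z) := fun w z => (Pt.add hpt w 1 (h z)).symm
  have hfar : ∀ (Z : G → G) (ζ : G), (∀ᶠ z in (𝒰 : Filter G), h z * ζ = Z z) →
      (∀ᶠ z in (𝒰 : Filter G), K + c + max Ls Ld + 1 ≤ p (Z z) z) →
      c' + max Ls Ld + 1 ≤ β' ζ 1 ∧ ∀ᶠ z in (𝒰 : Filter G), c + max Ls Ld + 1 ≤ p (Z z) 1 := by
    intro Z ζ h1 h2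
    have h3 : ∀ᶠ z in (𝒰 : Filter G), c + max Ls Ld + 1 ≤ p (Z z) 1 := by
      filter_upwards [h2, hK] with z h4 h5
      have h6 := Pt.add hpt (Z z) z 1
      have h7 := (_root_.abs_le.1 (Pt.abs_le hpt z 1)).1
      rw [res_comm] at h7
      linarith
    refine ⟨?_, h3⟩
    have h4 := ((hev ζ).sub hc')
    have h5 : max Ls Ld + 1 ≤ β' ζ 1 - c' := by
      refine ge_of_tendsto h4 ?_
      filter_upwards [h1, h3] with z h6 h7
      rw [h6, hrel]
      linarith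
    linarith
  obtain ⟨hX1, hX2⟩ := hfar X (f₀ * ξ) hXe (h𝒰b.mono fun z hz => (hX z hz).2.2)
  obtain ⟨hY1, hY2⟩ := hfar Y (f₀ * η) hYe (h𝒰b.mono fun z hz => (hY z hz).2.2)
  have hLd' := le_max_right Ls Ld
  have hLs' := le_max_left Ls Ld
  have hcon := hfin β' hβK hβfin (c' + 1 / 2) _ hXV _ hYV (by linarith) (by linarith)
  have hcon' : ∀ᶠ z in (𝒰 : Filter G), Con B.M (B.V ∩ {w | c < p (h z * w) 1})
      (f₀ * ξ) (f₀ * η) := by
    refine A1_19_con_ev hcon ?_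
    rintro w ⟨hwV, hw⟩
    have h1 := (hev w).sub hc'
    have h2 : 0 < β' w 1 - c' := by
      have : c' + 1 / 2 < β' w 1 := hw
      linarith
    filter_upwards [h1.eventually (lt_mem_nhds h2)] with z hz
    refine ⟨hwV, ?_⟩
    rw [hrel] at hz
    change c < p (h z * w) 1
    linarith
  obtain ⟨z, hz, h1, h2, h3, h4, h5⟩ :=
    (hcon'.and (hXe.and (hYe.and (hX2.and (hY2.and h𝒰b))))).exists
  have h6 := A1_19_con_trans (A' := B.V ∩ {w | c < p w 1}) hz (h z)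
    (fun a ha => ⟨B.inv _ (hh z) _ ha.1, ha.2⟩)
  rw [h1, h2] at h6
  have h7 := hUc (X z) (hX z h5).1 (by linarith)
  exact hVc (Y z) (hY z h5).1 (by linarith) (h7.trans h6)

include h4 hF htf in
theorem dd0 : ∃ L₁ : ℝ, 0 ≤ L₁ ∧ ∀ p ∈ KV B, ∀ (c : ℝ), ∀ x ∈ B.V, ∀ y ∈ B.V,
    c + L₁ < p x 1 → c + L₁ < p y 1 → Con B.M (B.V ∩ {z | c < p z 1}) x y := by
  classical
  obtain ⟨C₁, Ls, hLs, hsplit⟩ := split h4 hF htf B
  obtain ⟨Ld, hLd, hfin⟩ := dd_fin h4 hF htf B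
  have hδ : 0 ≤ δ := by
    have h := h4 1 1 1 1
    simp only [res_self, add_zero, max_self] at h
    linarith
  have h1 := le_max_left Ls Ld
  refine ⟨max Ls Ld, hLs.trans h1, fun p hp c x hx y hy hpx hpy => ?_⟩
  by_contra hcon
  obtain ⟨U, hUV, hxU, hyU, hbd, hU, hV, hUc, hVc⟩ :=
    hsplit p hp c x hx y hy (by linarith) (by linarith) hcon
  have hpt : p ∈ Pt hS := KV_subset B hp
  have hclaim := A1_19_claim h4 hF htf B hδ hLs hLd hfin hp hUV hbd hU hV hUc hVc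
  rcases B.bl U hUV p hclaim with h | h
  · exact A1_19_ray h4 hF hδ hpt hU hxU h
  · exact A1_19_ray h4 hF hδ hpt hV ⟨hy, hyU⟩ h

end Blk

end

section

open Filter Topology Set
open Vale.Agent.P239 Vale.Agent.P239.F
open scoped RealInnerProductSpace ENNReal

variable {G : Type*} [Group G] {S : Finset G} {hS : Subgroup.closure (S : Set G) = ⊤}

theorem A1_20_adj {M : Finset G} {a b : G} (h : Adj M a b) (g : G) : Adj M (g * a) (g * b) := by
  obtain ⟨m, hm, h | h⟩ := h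
  · exact ⟨m, hm, Or.inl (by rw [h, mul_assoc])⟩
  · exact ⟨m, hm, Or.inr (by rw [h, mul_assoc])⟩

theorem A1_20_map {M : Finset G} {A A' : Set G} {x y : G} (h : Con M A x y) (g : G)
    (hA : ∀ a ∈ A, g * a ∈ A') : Con M A' (g * x) (g * y) := by
  induction h with
  | refl => exact Relation.ReflTransGen.refl
  | tail _ hbc ih => exact ih.tail ⟨hA _ hbc.1, hA _ hbc.2.1, A1_20_adj hbc.2.2 g⟩

theorem A1_20_mono {M : Finset G} {A A' : Set G} {x y : G} (h : Con M A x y)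
    (hA : ∀ a ∈ A, a ∈ A') : Con M A' x y := by
  induction h with
  | refl => exact Relation.ReflTransGen.refl
  | tail _ hbc ih => exact ih.tail ⟨hA _ hbc.1, hA _ hbc.2.1, hbc.2.2⟩

/-- Paths are finite. -/
theorem A1_20_fin {M : Finset G} {A : Set G} {x y : G} (h : Con M A x y) :
    ∃ W : Finset G, (∀ w ∈ W, w ∈ A) ∧ Con M (W : Set G) x y := by
  classical
  induction h with
  | refl => exact ⟨∅, fun w hw => absurd hw (Finset.notMem_empty w), Relation.ReflTransGen.refl⟩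
  | @tail b c _ hbc ih =>
    obtain ⟨W, hWA, hW⟩ := ih
    refine ⟨insert b (insert c W), ?_, ?_⟩
    · intro w hw
      rcases Finset.mem_insert.1 hw with rfl | hw
      · exact hbc.1
      · rcases Finset.mem_insert.1 hw with rfl | hw
        · exact hbc.2.1
        · exact hWA w hw
    · refine (A1_20_mono hW fun a ha => ?_).tail ⟨?_, ?_, hbc.2.2⟩
      · exact Finset.mem_coe.2 (Finset.mem_insert_of_mem
          (Finset.mem_insert_of_mem (Finset.mem_coe.1 ha)))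
      · exact Finset.mem_coe.2 (Finset.mem_insert_self _ _)
      · exact Finset.mem_coe.2 (Finset.mem_insert_of_mem (Finset.mem_insert_self _ _))

/-- Local version of `dd`. -/
theorem A1_20_loc (B : Block hS) {L₁ : ℝ}
    (hL : ∀ p ∈ KV B, ∀ (c : ℝ), ∀ x ∈ B.V, ∀ y ∈ B.V,
      c + L₁ < p x 1 → c + L₁ < p y 1 → Con B.M (B.V ∩ {z | c < p z 1}) x y)
    (c : ℝ) {p₀ : G → G → ℝ} (hp₀ : p₀ ∈ KV B) (f : G) {x y : G} (hx : x ∈ B.V) (hy : y ∈ B.V) :
    ∃ W : Finset G, ∃ O ∈ 𝓝 p₀, ∀ p ∈ O, p ∈ KV B → c + L₁ + 1 ≤ p x f → c + L₁ + 1 ≤ p y f →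
      Con B.M (B.V ∩ {w | c < p w f ∧ w ∈ W}) x y := by
  have hcx : ∀ w : G, ContinuousAt (fun p : G → G → ℝ => p w f) p₀ := fun w =>
    ((continuous_apply f).comp (continuous_apply w)).continuousAt
  by_cases h1 : c + L₁ + 1 ≤ p₀ x f
  · by_cases h2 : c + L₁ + 1 ≤ p₀ y f
    · have hPt : p₀ ∈ Pt hS := KV_subset B hp₀
      have hx1 : c + p₀ f 1 + 1 / 2 + L₁ < p₀ x 1 := by
        have := Pt.add hPt x f 1; linarith
      have hy1 : c + p₀ f 1 + 1 / 2 + L₁ < p₀ y 1 := by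
        have := Pt.add hPt y f 1; linarith
      obtain ⟨W, hWA, hW⟩ := A1_20_fin (hL p₀ hp₀ (c + p₀ f 1 + 1 / 2) x hx y hy hx1 hy1)
      refine ⟨W, {p | ∀ w ∈ W, c < p w f}, ?_, ?_⟩
      · refine (W.eventually_all (p := fun w (p : G → G → ℝ) => c < p w f)).2 fun w hw => ?_
        have hlt : c < p₀ w f := by
          have h3 := (hWA w hw).2
          have h4 := Pt.add hPt w f 1
          change c + p₀ f 1 + 1 / 2 < p₀ w 1 at h3
          linarith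
        exact (hcx w).eventually (lt_mem_nhds hlt)
      · intro p hp _ _ _
        exact A1_20_mono hW fun a ha => ⟨(hWA a (Finset.mem_coe.1 ha)).1,
          hp a (Finset.mem_coe.1 ha), Finset.mem_coe.1 ha⟩
    · refine ⟨∅, {p | p y f < c + L₁ + 1}, (hcx y).eventually (gt_mem_nhds (not_le.1 h2)), ?_⟩
      intro p hp _ _ h3
      exact absurd h3 (not_le.2 hp)
  · refine ⟨∅, {p | p x f < c + L₁ + 1}, (hcx x).eventually (gt_mem_nhds (not_le.1 h1)), ?_⟩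
    intro p hp _ h3 _
    exact absurd h3 (not_le.2 hp)

/-- Version of `dd` for fixed vertices. -/
theorem A1_20_cpt (B : Block hS) {L₁ : ℝ}
    (hL : ∀ p ∈ KV B, ∀ (c : ℝ), ∀ x ∈ B.V, ∀ y ∈ B.V,
      c + L₁ < p x 1 → c + L₁ < p y 1 → Con B.M (B.V ∩ {z | c < p z 1}) x y)
    (c : ℝ) (f : G) {x y : G} (hx : x ∈ B.V) (hy : y ∈ B.V) :
    ∃ W : Finset G, ∀ p ∈ KV B, c + L₁ + 1 ≤ p x f → c + L₁ + 1 ≤ p y f →
      Con B.M (B.V ∩ {w | c < p w f ∧ w ∈ W}) x y := by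
  classical
  refine IsCompact.induction_on (p := fun K => ∃ W : Finset G, ∀ p ∈ K,
    c + L₁ + 1 ≤ p x f → c + L₁ + 1 ≤ p y f → Con B.M (B.V ∩ {w | c < p w f ∧ w ∈ W}) x y)
    (isCompact_KV B) ?_ ?_ ?_ ?_
  · exact ⟨∅, fun p hp => absurd hp (Set.notMem_empty p)⟩
  · rintro s t hst ⟨W, hW⟩
    exact ⟨W, fun p hp => hW p (hst hp)⟩
  · rintro s t ⟨W, hW⟩ ⟨W', hW'⟩
    refine ⟨W ∪ W', fun p hp h1 h2 => ?_⟩
    rcases hp with hp | hp
    · exact A1_20_mono (hW p hp h1 h2) fun a ha =>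
        ⟨ha.1, ha.2.1, Finset.mem_union_left _ ha.2.2⟩
    · exact A1_20_mono (hW' p hp h1 h2) fun a ha =>
        ⟨ha.1, ha.2.1, Finset.mem_union_right _ ha.2.2⟩
  · intro p₀ hp₀
    obtain ⟨W, O, hO, hW⟩ := A1_20_loc B hL c hp₀ f hx hy
    exact ⟨O ∩ KV B, inter_mem (mem_nhdsWithin_of_mem_nhds hO) self_mem_nhdsWithin, W,
      fun p hp => hW p hp.1 hp.2⟩

section Blk

variable {δ : ℝ} (h4 : Four hS δ) [Countable G] {F : Finset G} (hF : CrossProp S F)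
  (htf : ∀ g : G, g ≠ 1 → ∀ n : ℕ, n ≠ 0 → g ^ n ≠ 1) (B : Block hS)

include h4 hF htf in
theorem dd (c : ℝ) : ∃ L₂ : ℝ, ∀ C : Finset G, ∃ W : Finset G, ∀ p ∈ KV B, ∀ z ∈ B.V,
    ∀ x ∈ B.V, ∀ y ∈ B.V, z⁻¹ * x ∈ C → z⁻¹ * y ∈ C → L₂ ≤ p x z → L₂ ≤ p y z →
    Con B.M (B.V ∩ {w | c < p w z ∧ z⁻¹ * w ∈ W}) x y := by
  classical
  obtain ⟨L₁, hL₁, hL⟩ := dd0 h4 hF htf B
  refine ⟨c + L₁ + 1, fun C => ?_⟩
  have key : ∀ f x y : G, ∃ W : Finset G, x ∈ B.V → y ∈ B.V → ∀ p ∈ KV B,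
      c + L₁ + 1 ≤ p x f → c + L₁ + 1 ≤ p y f →
      Con B.M (B.V ∩ {w | c < p w f ∧ w ∈ W}) x y := by
    intro f x y
    by_cases hx : x ∈ B.V
    · by_cases hy : y ∈ B.V
      · obtain ⟨W, hW⟩ := A1_20_cpt B hL c f hx hy
        exact ⟨W, fun _ _ => hW⟩
      · exact ⟨∅, fun _ h => absurd h hy⟩
    · exact ⟨∅, fun h => absurd h hx⟩
  choose Wf hWf using key
  refine ⟨B.reps.biUnion fun f => C.biUnion fun a => C.biUnion fun b =>
    (Wf f (f * a) (f * b)).image fun w => f⁻¹ * w, ?_⟩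
  intro p hp z hz x hx y hy hxC hyC hpx hpy
  obtain ⟨h, hh, f, hf, rfl⟩ := B.cof z hz
  have hh' : h⁻¹ ∈ B.H := B.H.inv_mem hh
  have ex : f * ((h * f)⁻¹ * x) = h⁻¹ * x := by group
  have ey : f * ((h * f)⁻¹ * y) = h⁻¹ * y := by group
  have hx' : f * ((h * f)⁻¹ * x) ∈ B.V := by rw [ex]; exact B.inv _ hh' x hx
  have hy' : f * ((h * f)⁻¹ * y) ∈ B.V := by rw [ey]; exact B.inv _ hh' y hy
  have hp' : act h⁻¹ p ∈ KV B := act_mem_KV B hh' hp
  have e1 : ∀ w : G, act h⁻¹ p w f = p (h * w) (h * f) := fun w => by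
    rw [act_apply, inv_inv]
  have hpx' : c + L₁ + 1 ≤ act h⁻¹ p (f * ((h * f)⁻¹ * x)) f := by
    rw [e1, ex, mul_inv_cancel_left]; exact hpx
  have hpy' : c + L₁ + 1 ≤ act h⁻¹ p (f * ((h * f)⁻¹ * y)) f := by
    rw [e1, ey, mul_inv_cancel_left]; exact hpy
  have hcon := hWf f _ _ hx' hy' _ hp' hpx' hpy'
  have hcon' := A1_20_map (A' := B.V ∩ {w | c < p w (h * f) ∧ (h * f)⁻¹ * w ∈
    B.reps.biUnion fun f => C.biUnion fun a => C.biUnion fun b =>
      (Wf f (f * a) (f * b)).image fun w => f⁻¹ * w}) hcon h (by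
    rintro a ⟨haV, ha1, ha2⟩
    refine ⟨B.inv h hh a haV, ?_, ?_⟩
    · rw [← e1]; exact ha1
    · refine Finset.mem_biUnion.2 ⟨f, hf, Finset.mem_biUnion.2 ⟨_, hxC,
        Finset.mem_biUnion.2 ⟨_, hyC, Finset.mem_image.2 ⟨a, ha2, ?_⟩⟩⟩⟩
      group)
  rwa [ex, ey, mul_inv_cancel_left, mul_inv_cancel_left] at hcon'

end Blk

end

section

open Filter Topology Set
open Vale.Agent.P239 Vale.Agent.P239.F
open scoped RealInnerProductSpace ENNReal

variable {G : Type*} [Group G] {S : Finset G} {hS : Subgroup.closure (S : Set G) = ⊤}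

section Blk

variable {δ : ℝ} (h4 : Four hS δ) [Countable G] {F : Finset G} (hF : CrossProp S F)
  (htf : ∀ g : G, g ≠ 1 → ∀ n : ℕ, n ≠ 0 → g ^ n ≠ 1) (B : Block hS)

omit [Countable G] in
/-- Adjacent vertices are at bounded distance. -/
theorem A1_21_adj {M : Finset G} {b c : G} (h : Adj M b c) :
    res hS b c ≤ ∑ m ∈ M, res hS 1 m := by
  obtain ⟨m, hm, h | h⟩ := h
  · have h1 : res hS b c = res hS 1 m := by
      rw [h, ← res_mul hS b 1 m, mul_one]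
    rw [h1]
    exact Finset.single_le_sum (f := fun m => res hS 1 m) (fun i _ => res_nonneg hS 1 i) hm
  · have h1 : res hS b c = res hS 1 m := by
      rw [h, res_comm, ← res_mul hS c 1 m, mul_one]
    rw [h1]
    exact Finset.single_le_sum (f := fun m => res hS 1 m) (fun i _ => res_nonneg hS 1 i) hm

include h4 hF htf in
theorem push_con : ∃ (W : Finset G), ∀ q ∈ KV B, ∃ κ : G → G,
    (∀ z ∈ B.V, κ z ∈ B.V ∧ z⁻¹ * κ z ∈ W ∧ δ / 2 + 1 ≤ q (κ z) z) ∧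
    ∀ A ⊆ B.V, ∀ x ∈ A, ∀ y ∈ A, Con B.M A x y →
      Con B.M (push B W (δ / 2 + 1) q A) (κ x) (κ y) := by
  classical
  obtain ⟨L₂, hdd⟩ := dd h4 hF htf B (δ / 2 + 1)
  have hm0 : (0 : ℝ) ≤ ∑ m ∈ B.M, res hS 1 m := Finset.sum_nonneg fun i _ => res_nonneg hS 1 i
  obtain ⟨C, hC⟩ := children h4 hF htf B (|L₂| + (∑ m ∈ B.M, res hS 1 m) + |δ / 2 + 1|)
  obtain ⟨W, hW⟩ := hdd (C ∪ ((B.M ×ˢ C).image fun p => p.1 * p.2) ∪
    ((B.M ×ˢ C).image fun p => p.1⁻¹ * p.2))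
  refine ⟨W ∪ C, fun q hq => ?_⟩
  have hex : ∀ z : G, ∃ z' : G, z ∈ B.V → z' ∈ B.V ∧ z⁻¹ * z' ∈ C ∧
      |L₂| + (∑ m ∈ B.M, res hS 1 m) + |δ / 2 + 1| ≤ q z' z := by
    intro z
    by_cases hz : z ∈ B.V
    · obtain ⟨z', h1, h2, h3⟩ := hC q hq z hz
      exact ⟨z', fun _ => ⟨h1, h2, h3⟩⟩
    · exact ⟨z, fun h => absurd h hz⟩
  choose κ hκ using hex
  have hL2 : L₂ ≤ |L₂| := le_abs_self _
  have hL20 : 0 ≤ |L₂| := abs_nonneg _
  have hd : δ / 2 + 1 ≤ |δ / 2 + 1| := le_abs_self _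
  have hd0 : 0 ≤ |δ / 2 + 1| := abs_nonneg _
  have hqP := KV_subset B hq
  refine ⟨κ, fun z hz => ?_, fun A hA x hx y hy hcon => ?_⟩
  · obtain ⟨h1, h2, h3⟩ := hκ z hz
    exact ⟨h1, Finset.mem_union_right _ h2, by linarith⟩
  · clear hy
    induction hcon with
    | refl => exact Relation.ReflTransGen.refl
    | @tail b c _ hbc ih =>
      refine Relation.ReflTransGen.trans ih ?_
      obtain ⟨hb, hc, hadj⟩ := hbc
      obtain ⟨hb1, hb2, hb3⟩ := hκ b (hA hb)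
      obtain ⟨hc1, hc2, hc3⟩ := hκ c (hA hc)
      have hmem : b⁻¹ * κ c ∈ C ∪ ((B.M ×ˢ C).image fun p => p.1 * p.2) ∪
          ((B.M ×ˢ C).image fun p => p.1⁻¹ * p.2) := by
        obtain ⟨m, hm, h | h⟩ := hadj
        · refine Finset.mem_union_left _ (Finset.mem_union_right _ (Finset.mem_image.2
            ⟨(m, c⁻¹ * κ c), Finset.mem_product.2 ⟨hm, hc2⟩, ?_⟩))
          change m * (c⁻¹ * κ c) = b⁻¹ * κ c
          rw [h]; group
        · refine Finset.mem_union_right _ (Finset.mem_image.2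
            ⟨(m, c⁻¹ * κ c), Finset.mem_product.2 ⟨hm, hc2⟩, ?_⟩)
          change m⁻¹ * (c⁻¹ * κ c) = b⁻¹ * κ c
          rw [h]; group
      have hres : res hS b c ≤ ∑ m ∈ B.M, res hS 1 m := A1_21_adj hadj
      have h5 : L₂ ≤ q (κ c) b := by
        have h6 := Pt.add hqP (κ c) c b
        have h7 := (_root_.abs_le.1 (Pt.abs_le hqP c b)).1
        rw [res_comm] at h7
        linarith
      have h8 := hW q hq b (hA hb) (κ b) hb1 (κ c) hc1
        (Finset.mem_union_left _ (Finset.mem_union_left _ hb2)) hmem (by linarith) h5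
      refine Relation.ReflTransGen.mono ?_ _ _ h8
      rintro u v ⟨hu, hv, huv⟩
      exact ⟨⟨hu.1, b, hb, Finset.mem_union_left _ hu.2.2, hu.2.1.le⟩,
        ⟨hv.1, b, hb, Finset.mem_union_left _ hv.2.2, hv.2.1.le⟩, huv⟩

end Blk

end

section

/-! Proof of A1.22. -/


open Filter Topology Set
open Vale.Agent.P239 Vale.Agent.P239.F
open scoped RealInnerProductSpace ENNReal

variable {G : Type*} [Group G] {S : Finset G} {hS : Subgroup.closure (S : Set G) = ⊤}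

section Blk

variable {δ : ℝ} (h4 : Four hS δ) [Countable G] {F : Finset G} (hF : CrossProp S F)
  (htf : ∀ g : G, g ≠ 1 → ∀ n : ℕ, n ≠ 0 → g ^ n ≠ 1) (B : Block hS)

omit [Countable G] in
/-- Being of finite type is invariant under the action (one direction). -/
theorem A1_22_fin {β : G → G → ℝ} (hβ : β ∈ Pt hS) (g : G) (h : IsFin hS (act g β)) :
    IsFin hS β := by
  obtain ⟨C, hC⟩ := h
  refine ⟨C + res hS 1 g⁻¹, fun y => ?_⟩
  have h1 := hC (g * y)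
  unfold gpb at h1 ⊢
  rw [act_apply, inv_mul_cancel_left, mul_one] at h1
  have h2 := res_triangle hS 1 g⁻¹ y
  have h3 : res hS g⁻¹ y = res hS 1 (g * y) := by
    rw [← res_mul hS g g⁻¹ y, mul_inv_cancel]
  have h4 := Pt.add hβ y 1 g⁻¹
  have h5 := Pt.le hβ 1 g⁻¹
  linarith

omit [Countable G] in
/-- Chains in iterated pushes. -/
theorem A1_22_chain (W : Finset G) (c : ℝ) (q : G → G → ℝ) (A : Set G) (n : ℕ) :
    ∀ z ∈ (push B W c q)^[n] A, ∃ u : ℕ → G, u 0 ∈ A ∧ u n = z ∧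
      ∀ j, j < n → (u j)⁻¹ * u (j + 1) ∈ W ∧ c ≤ q (u (j + 1)) (u j) := by
  induction n with
  | zero => intro z hz; exact ⟨fun _ => z, hz, rfl, fun j hj => absurd hj (Nat.not_lt_zero j)⟩
  | succ n ih =>
    intro z hz
    rw [Function.iterate_succ_apply'] at hz
    obtain ⟨-, v, hv, hW, hc⟩ := hz
    obtain ⟨u, h0, hn, hu⟩ := ih v hv
    refine ⟨fun j => if j ≤ n then u j else z, ?_, ?_, ?_⟩
    · simpa using h0
    · simp
    · intro j hj
      rcases Nat.lt_or_ge j n with h | h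
      · have h1 : j ≤ n := h.le
        have h2 : j + 1 ≤ n := h
        simp only [h1, h2, if_true]
        exact hu j h
      · have h1 : j = n := le_antisymm (Nat.lt_succ_iff.1 hj) h
        subst h1
        simp only [le_refl, if_true]
        have h2 : ¬ (j + 1 ≤ j) := by omega
        simp only [h2, if_false, hn]
        exact ⟨hW, hc⟩

include h4 hF in
/-- The case where the translations go to infinity. -/
theorem A1_22_core {x y : G → G → ℝ} {q : G → G → ℝ} (hq : q ∈ Pt hS) (hqx : q ≠ x)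
    {ι : Type*} (𝒰 : Ultrafilter ι) (h : ι → G) (hh : Tendsto h 𝒰 cofinite)
    (hx : Tendsto (fun i => hb hS (h i)) 𝒰 (𝓝 x))
    (hy : Tendsto (fun i => hb hS (h i)⁻¹) 𝒰 (𝓝 y))
    (n : ι → ℕ) (hn : Tendsto n 𝒰 atTop)
    (v : ι → ℕ → G) (f : G) (h0 : ∀ i, v i 0 = f) (W : Finset G)
    (hW : ∀ i j, j < n i → (v i j)⁻¹ * v i (j + 1) ∈ W)
    {c₀ : ℝ} (hc₀ : 0 < c₀) (hc : δ / 2 ≤ c₀)
    (hgain : ∀ i j, j < n i → c₀ ≤ act (h i)⁻¹ q (v i (j + 1)) (v i j)) :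
    Tendsto (fun i => hb hS (h i * v i (n i))) 𝒰 (𝓝 x) := by
  have hh' : Tendsto (fun i => (h i)⁻¹) 𝒰 cofinite :=
    (inv_injective.tendsto_cofinite).comp hh
  have hq' : Tendsto (fun i => act (h i)⁻¹ q) 𝒰 (𝓝 y) := by
    refine cp_pt hS hF hh' hy (y := x) ?_ (p := fun _ => q) (fun _ => hq) tendsto_const_nhds hqx
    simpa using hx
  obtain ⟨γ, hγ, -, hγy, hlim⟩ := koenig h4 hF 𝒰 n hn v f h0 W hW (fun i => act (h i)⁻¹ q)
    (fun _ => Pt.act hq _) hc₀ hc hgain hq'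
  have h1 := cp_pt hS hF hh hx hy (p := fun i => hb hS (v i (n i))) (fun i => hb_mem hS _) hlim hγy
  simpa only [act_hb] using h1

include h4 hF in
/-- A1.22. Escape. -/
theorem escape_lim {g : G} {a b : G → G → ℝ} (ha : ¬ IsFin hS a) (hb' : ¬ IsFin hS b)
    (htf' : ∀ n : ℕ, n ≠ 0 → g ^ n ≠ 1)
    (hga : Tendsto (fun n : ℕ => hb hS (g ^ n)) atTop (𝓝 a))
    (hgb : Tendsto (fun n : ℕ => hb hS (g⁻¹ ^ n)) atTop (𝓝 b)) (P W : Finset G)
    {q : G → G → ℝ} (hq : q ∈ Pt hS) (hqa : q ≠ a) (hqb : q ≠ b) {c₀ : ℝ} (hc₀ : 0 < c₀)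
    (hc : δ / 2 ≤ c₀) {ι : Type*} (𝒰 : Ultrafilter ι) (n : ι → ℕ) (z : ι → G)
    (hn : Tendsto n 𝒰 atTop)
    (hz : ∀ i, z i ∈ (push B W c₀ q)^[n i] {v | ∃ k : ℤ, ∃ w ∈ P, v = g ^ k * w})
    {β : G → G → ℝ} (hβ : Tendsto (fun i => hb hS (z i)) 𝒰 (𝓝 β)) : β ≠ q ∧ ¬ IsFin hS β := by
  classical
  -- chains
  have hch := fun i => A1_22_chain B W c₀ q _ (n i) (z i) (hz i)
  choose u hu0 hun hu using hch
  choose k fi hfi hkf using hu0
  -- the starting vertex is constant along the ultrafilter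
  obtain ⟨f, hf⟩ : ∃ f : G, ∀ᶠ i in (𝒰 : Filter ι), fi i = f := by
    have h1 : (P : Set G) ∈ 𝒰.map fi := by
      rw [Ultrafilter.mem_map]
      exact Filter.Eventually.of_forall (f := (𝒰 : Filter ι)) (fun i => hfi i)
    obtain ⟨f, -, h2⟩ := Ultrafilter.eq_pure_of_finite_mem P.finite_toSet h1
    refine ⟨f, ?_⟩
    have h3 : ({f} : Set G) ∈ 𝒰.map fi := by rw [h2]; exact mem_singleton f
    rw [Ultrafilter.mem_map] at h3
    exact h3
  -- translated chains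
  let n' : ι → ℕ := fun i => if fi i = f then n i else 0
  let v : ι → ℕ → G := fun i j => if fi i = f then (g ^ k i)⁻¹ * u i j else f
  have hnn : ∀ᶠ i in (𝒰 : Filter ι), n' i = n i := by
    filter_upwards [hf] with i hi
    simp only [n', hi, if_true]
  have hn' : Tendsto n' 𝒰 atTop :=
    hn.congr' (by filter_upwards [hnn] with i hi using hi.symm)
  have h0 : ∀ i, v i 0 = f := by
    intro i
    by_cases hi : fi i = f
    · simp only [v, hi, if_true, hkf]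
      rw [inv_mul_cancel_left]
    · simp only [v, hi, if_false]
  have hW : ∀ i j, j < n' i → (v i j)⁻¹ * v i (j + 1) ∈ W := by
    intro i j hj
    by_cases hi : fi i = f
    · simp only [n', hi, if_true] at hj
      simp only [v, hi, if_true]
      rw [mul_inv_rev, inv_inv, mul_assoc, mul_inv_cancel_left]
      exact (hu i j hj).1
    · simp only [n', hi, if_false] at hj
      exact absurd hj (Nat.not_lt_zero j)
  have hgain : ∀ i j, j < n' i → c₀ ≤ act (g ^ k i)⁻¹ q (v i (j + 1)) (v i j) := by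
    intro i j hj
    by_cases hi : fi i = f
    · simp only [n', hi, if_true] at hj
      simp only [v, hi, if_true, act_apply, inv_inv, mul_inv_cancel_left]
      exact (hu i j hj).2
    · simp only [n', hi, if_false] at hj
      exact absurd hj (Nat.not_lt_zero j)
  have hzv : ∀ᶠ i in (𝒰 : Filter ι), g ^ k i * v i (n' i) = z i := by
    filter_upwards [hf, hnn] with i hi hi'
    rw [hi']
    simp only [v, hi, if_true, mul_inv_cancel_left, hun]
  -- injectivity of powers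
  have hinj : Function.Injective fun m : ℤ => g ^ m := by
    rw [injective_zpow_iff_not_isOfFinOrder]
    intro h
    obtain ⟨m, hm, hm'⟩ := isOfFinOrder_iff_pow_eq_one.1 h
    exact htf' m hm.ne' hm'
  have hcof : Tendsto (fun m : ℤ => g ^ m) cofinite cofinite := hinj.tendsto_cofinite
  have hpos : Tendsto (fun m : ℤ => hb hS (g ^ m)) atTop (𝓝 a) := by
    have h1 : Tendsto Int.toNat atTop atTop := by
      refine tendsto_atTop.2 fun m => ?_
      filter_upwards [eventually_ge_atTop (m : ℤ)] with x hx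
      omega
    refine (hga.comp h1).congr' ?_
    filter_upwards [eventually_ge_atTop (0 : ℤ)] with x hx
    change hb hS (g ^ x.toNat) = hb hS (g ^ x)
    rw [← zpow_natCast, Int.toNat_of_nonneg hx]
  have hneg : Tendsto (fun m : ℤ => hb hS (g ^ m)⁻¹) atTop (𝓝 b) := by
    have h1 : Tendsto Int.toNat atTop atTop := by
      refine tendsto_atTop.2 fun m => ?_
      filter_upwards [eventually_ge_atTop (m : ℤ)] with x hx
      omega
    refine (hgb.comp h1).congr' ?_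
    filter_upwards [eventually_ge_atTop (0 : ℤ)] with x hx
    change hb hS (g⁻¹ ^ x.toNat) = hb hS (g ^ x)⁻¹
    rw [inv_pow, ← zpow_natCast, Int.toNat_of_nonneg hx]
  -- cases
  rcases (𝒰.map k).le_cofinite_or_eq_pure with hk | ⟨k₀, hk⟩
  · have hk' : Tendsto k 𝒰 cofinite := hk
    have hgk : Tendsto (fun i => g ^ k i) 𝒰 cofinite := hcof.comp hk'
    rw [Int.cofinite_eq, Ultrafilter.le_sup_iff] at hk
    rcases hk with hk | hk
    · -- `k → -∞`
      have hk2 : Tendsto (fun i => - k i) 𝒰 atTop := tendsto_neg_atBot_atTop.comp hk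
      have e : ∀ i, g ^ k i = (g ^ (- k i))⁻¹ := fun i => by rw [zpow_neg, inv_inv]
      have hx : Tendsto (fun i => hb hS (g ^ k i)) 𝒰 (𝓝 b) := by
        simp only [e]
        exact hneg.comp hk2
      have hy : Tendsto (fun i => hb hS (g ^ k i)⁻¹) 𝒰 (𝓝 a) := by
        simp only [e, inv_inv]
        exact hpos.comp hk2
      have h1 := A1_22_core h4 hF hq hqb 𝒰 _ hgk hx hy n' hn' v f h0 W hW hc₀ hc hgain
      have h2 : Tendsto (fun i => hb hS (z i)) 𝒰 (𝓝 b) :=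
        h1.congr' (by filter_upwards [hzv] with i hi; rw [hi])
      have h3 : β = b := tendsto_nhds_unique hβ h2
      rw [h3]
      exact ⟨hqb.symm, hb'⟩
    · -- `k → +∞`
      have hk2 : Tendsto k 𝒰 atTop := hk
      have hx : Tendsto (fun i => hb hS (g ^ k i)) 𝒰 (𝓝 a) := hpos.comp hk2
      have hy : Tendsto (fun i => hb hS (g ^ k i)⁻¹) 𝒰 (𝓝 b) := hneg.comp hk2
      have h1 := A1_22_core h4 hF hq hqa 𝒰 _ hgk hx hy n' hn' v f h0 W hW hc₀ hc hgain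
      have h2 : Tendsto (fun i => hb hS (z i)) 𝒰 (𝓝 a) :=
        h1.congr' (by filter_upwards [hzv] with i hi; rw [hi])
      have h3 : β = a := tendsto_nhds_unique hβ h2
      rw [h3]
      exact ⟨hqa.symm, ha⟩
  · -- `k` is constant
    have hk1 : ∀ᶠ i in (𝒰 : Filter ι), k i = k₀ := by
      have h3 : ({k₀} : Set ℤ) ∈ 𝒰.map k := by rw [hk]; exact mem_singleton k₀
      rw [Ultrafilter.mem_map] at h3
      exact h3
    have hq' : Tendsto (fun i => act (g ^ k i)⁻¹ q) 𝒰 (𝓝 (act (g ^ k₀)⁻¹ q)) := by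
      refine tendsto_const_nhds.congr' ?_
      filter_upwards [hk1] with i hi
      rw [hi]
    obtain ⟨γ, hγ, hγf, hγq, hlim⟩ := koenig h4 hF 𝒰 n' hn' v f h0 W hW
      (fun i => act (g ^ k i)⁻¹ q) (fun _ => Pt.act hq _) hc₀ hc hgain hq'
    have h1 : Tendsto (fun i => hb hS (z i)) 𝒰 (𝓝 (act (g ^ k₀) γ)) := by
      have h2 := ((continuous_act (g ^ k₀)).tendsto γ).comp hlim
      refine h2.congr' ?_
      filter_upwards [hzv, hk1] with i hi hi'
      change act (g ^ k₀) (hb hS (v i (n' i))) = hb hS (z i)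
      rw [act_hb, ← hi', hi]
    have h3 : β = act (g ^ k₀) γ := tendsto_nhds_unique hβ h1
    rw [h3]
    refine ⟨fun h => hγq ?_, fun h => hγf (A1_22_fin hγ _ h)⟩
    rw [← h, act_act, inv_mul_cancel, act_one]

end Blk

end

section

/-! Connections in `V` avoiding a neighbourhood of a third point. -/


open Filter Topology Set
open Vale.Agent.P239 Vale.Agent.P239.F
open scoped RealInnerProductSpace ENNReal

variable {G : Type*} [Group G] {S : Finset G} {hS : Subgroup.closure (S : Set G) = ⊤}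

section Blk

variable {δ : ℝ} (h4 : Four hS δ) [Countable G] {F : Finset G} (hF : CrossProp S F)
  (htf : ∀ g : G, g ≠ 1 → ∀ n : ℕ, n ≠ 0 → g ^ n ≠ 1) (B : Block hS)

/-- Powers of an element of infinite order leave finite sets. -/
theorem A1_23_pow_cof {G : Type*} [Group G] {m : G} (hm : ∀ n : ℕ, n ≠ 0 → m ^ n ≠ 1) :
    Tendsto (fun n : ℕ => m ^ n) atTop cofinite := by
  rw [← Nat.cofinite_eq_atTop]
  refine Function.Injective.tendsto_cofinite ?_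
  have key : ∀ a b : ℕ, a < b → m ^ a ≠ m ^ b := by
    intro a b hab h
    have h1 : m ^ b = m ^ a * m ^ (b - a) := by
      rw [← pow_add]
      congr 1
      omega
    rw [h1] at h
    exact hm (b - a) (by omega) (mul_eq_left.1 h.symm)
  intro a b hab
  rcases lt_trichotomy a b with h | h | h
  · exact absurd hab (key a b h)
  · exact h
  · exact absurd hab.symm (key b a h)

theorem A1_23_mul_cof {G : Type*} [Group G] {ι : Type*} {l : Filter ι} {f : ι → G}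
    (hf : Tendsto f l cofinite) (z : G) : Tendsto (fun i => f i * z) l cofinite :=
  (mul_left_injective z).tendsto_cofinite.comp hf

theorem A1_23_con_mono {G : Type*} [Group G] {M : Finset G} {A A' : Set G} (h : A ⊆ A') {x y : G}
    (hxy : Con M A x y) : Con M A' x y := by
  induction hxy with
  | refl => exact Relation.ReflTransGen.refl
  | tail _ hbc ih => exact Relation.ReflTransGen.tail ih ⟨h hbc.1, h hbc.2.1, hbc.2.2⟩

theorem A1_23_adj_mul {G : Type*} [Group G] {M : Finset G} {x y : G} (h : Adj M x y) (g : G) :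
    Adj M (g * x) (g * y) := by
  obtain ⟨s, hs, h | h⟩ := h
  · exact ⟨s, hs, Or.inl (by rw [h, mul_assoc])⟩
  · exact ⟨s, hs, Or.inr (by rw [h, mul_assoc])⟩

theorem A1_23_con_mul {G : Type*} [Group G] {M : Finset G} {A A' : Set G} (g : G)
    (h : ∀ z ∈ A, g * z ∈ A') {x y : G} (hxy : Con M A x y) : Con M A' (g * x) (g * y) := by
  induction hxy with
  | refl => exact Relation.ReflTransGen.refl
  | tail _ hbc ih =>
    exact Relation.ReflTransGen.tail ih ⟨h _ hbc.1, h _ hbc.2.1, A1_23_adj_mul hbc.2.2 g⟩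

/-- A connection uses finitely many vertices. -/
theorem A1_23_con_fin {G : Type*} [Group G] {M : Finset G} {V : Set G} {x y : G} (hx : x ∈ V)
    (h : Con M V x y) : ∃ P : Finset G, (P : Set G) ⊆ V ∧ x ∈ P ∧ y ∈ P ∧ Con M (P : Set G) x y := by
  classical
  induction h with
  | refl =>
    exact ⟨{x}, by simpa using hx, by simp, by simp, Relation.ReflTransGen.refl⟩
  | @tail b c _ hbc ih =>
    obtain ⟨P, hP, hxP, hbP, hcon⟩ := ih
    refine ⟨insert c P, ?_, Finset.mem_insert_of_mem hxP, Finset.mem_insert_self _ _, ?_⟩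
    · intro z hz
      rw [Finset.mem_coe, Finset.mem_insert] at hz
      rcases hz with rfl | hz
      · exact hbc.2.1
      · exact hP hz
    · refine Relation.ReflTransGen.tail (A1_23_con_mono ?_ hcon)
        ⟨Finset.mem_coe.2 (Finset.mem_insert_of_mem hbP),
          Finset.mem_coe.2 (Finset.mem_insert_self _ _), hbc.2.2⟩
      exact Finset.coe_subset.2 (Finset.subset_insert _ _)

omit [Countable G] in
theorem A1_23_isFin_hb (z : G) : IsFin hS (hb hS z) :=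
  ⟨gp hS z z, fun x => by rw [gpb_hb_one, gp_comm]; exact gp_le hS z x⟩

/-- The axis: translates of the finite set `P`. -/
theorem A1_23_axis {G : Type*} [Group G] {M : Finset G} {P : Finset G} {g z₀ : G}
    (hcon : Con M (P : Set G) z₀ (g * z₀)) (n : ℕ) :
    Con M {v | ∃ k : ℤ, ∃ w ∈ P, v = g ^ k * w} z₀ (g ^ n * z₀) ∧
      Con M {v | ∃ k : ℤ, ∃ w ∈ P, v = g ^ k * w} z₀ (g⁻¹ ^ n * z₀) := by
  have hstep : ∀ k : ℤ, Con M {v | ∃ k : ℤ, ∃ w ∈ P, v = g ^ k * w} (g ^ k * z₀)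
      (g ^ (k + 1) * z₀) := by
    intro k
    have h1 := A1_23_con_mul (A' := {v | ∃ k : ℤ, ∃ w ∈ P, v = g ^ k * w}) (g ^ k)
      (fun z hz => ⟨k, z, hz, rfl⟩) hcon
    rwa [← mul_assoc, ← zpow_add_one] at h1
  constructor
  · induction n with
    | zero => rw [pow_zero, one_mul]; exact Relation.ReflTransGen.refl
    | succ n ih =>
      refine Relation.ReflTransGen.trans ih ?_
      have h1 := hstep (n : ℤ)
      have h2 : g ^ ((n : ℤ) + 1) = g ^ (n + 1) := by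
        rw [← zpow_natCast g (n + 1)]; push_cast; rfl
      rw [h2, zpow_natCast] at h1
      exact h1
  · induction n with
    | zero => rw [pow_zero, one_mul]; exact Relation.ReflTransGen.refl
    | succ n ih =>
      refine Relation.ReflTransGen.trans ih ?_
      have h1 := (hstep (-((n : ℤ) + 1))).symm
      have h2 : g ^ (-((n : ℤ) + 1)) = g⁻¹ ^ (n + 1) := by
        rw [zpow_neg, inv_pow, ← zpow_natCast g (n + 1)]; push_cast; rfl
      have h3 : g ^ (-((n : ℤ) + 1) + 1) = g⁻¹ ^ n := by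
        rw [neg_add_rev, neg_add_cancel_comm, zpow_neg, inv_pow, zpow_natCast]
      rw [h2, h3] at h1
      exact h1

omit [Countable G] in
/-- Bounded moves do not change limits. -/
theorem A1_23_lim {κ : G → G} {W : Finset G} {V : Set G}
    (hκ : ∀ z ∈ V, κ z ∈ V ∧ z⁻¹ * κ z ∈ W) (n : ℕ) {f : ℕ → G} {a : G → G → ℝ}
    (hf : Tendsto f atTop cofinite) (hfV : ∀ k, f k ∈ V)
    (ha : Tendsto (fun k => hb hS (f k)) atTop (𝓝 a)) :
    Tendsto (fun k => hb hS (κ^[n] (f k))) atTop (𝓝 a) := by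
  classical
  have hW : ∀ n : ℕ, ∃ Wn : Finset G, ∀ z ∈ V, κ^[n] z ∈ V ∧ z⁻¹ * κ^[n] z ∈ Wn := by
    intro n
    induction n with
    | zero => exact ⟨{1}, fun z hz => ⟨hz, by simp⟩⟩
    | succ n ih =>
      obtain ⟨Wn, hWn⟩ := ih
      refine ⟨Finset.image₂ (· * ·) Wn W, fun z hz => ?_⟩
      rw [Function.iterate_succ_apply']
      obtain ⟨h1, h2⟩ := hWn z hz
      obtain ⟨h3, h4⟩ := hκ _ h1
      refine ⟨h3, Finset.mem_image₂.2 ⟨_, h2, _, h4, ?_⟩⟩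
      group
  obtain ⟨Wn, hWn⟩ := hW n
  have h1 := tendsto_hb_mul' hS (f := f) (w := fun k => (f k)⁻¹ * κ^[n] (f k)) Wn
    (fun k => (hWn _ (hfV k)).2) hf ha
  simpa using h1

omit [Countable G] in
/-- Connections are preserved by pushing. -/
theorem A1_23_push {W : Finset G} {c : ℝ} {q : G → G → ℝ} {κ : G → G}
    (hκ : ∀ z ∈ B.V, κ z ∈ B.V ∧ z⁻¹ * κ z ∈ W ∧ c ≤ q (κ z) z)
    (hp : ∀ A ⊆ B.V, ∀ x ∈ A, ∀ y ∈ A, Con B.M A x y → Con B.M (push B W c q A) (κ x) (κ y))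
    {A₀ : Set G} (hA₀ : A₀ ⊆ B.V) (n : ℕ) :
    (push B W c q)^[n] A₀ ⊆ B.V ∧ (∀ x ∈ A₀, κ^[n] x ∈ (push B W c q)^[n] A₀) ∧
      ∀ x ∈ A₀, ∀ y ∈ A₀, Con B.M A₀ x y →
        Con B.M ((push B W c q)^[n] A₀) (κ^[n] x) (κ^[n] y) := by
  induction n with
  | zero => exact ⟨hA₀, fun x hx => hx, fun x _ y _ h => h⟩
  | succ n ih =>
    obtain ⟨h1, h2, h3⟩ := ih
    simp only [Function.iterate_succ_apply']
    refine ⟨fun z hz => hz.1, fun x hx => ?_, fun x hx y hy h => ?_⟩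
    · have h4 := hκ _ (h1 (h2 x hx))
      exact ⟨h4.1, _, h2 x hx, h4.2.1, h4.2.2⟩
    · exact hp _ h1 _ (h2 x hx) _ (h2 y hy) (h3 x hx y hy h)

include h4 hF htf in
/-- The pushed axis leaves a neighbourhood of `q` and finite sets. -/
theorem A1_23_main {g : G} (hg : g ∈ B.H) {a b : G → G → ℝ} (hab : a ≠ b)
    (ha : ¬ IsFin hS a) (hb' : ¬ IsFin hS b)
    (hga : Tendsto (fun n : ℕ => hb hS (g ^ n)) atTop (𝓝 a))
    (hgb : Tendsto (fun n : ℕ => hb hS (g⁻¹ ^ n)) atTop (𝓝 b))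
    {q : G → G → ℝ} (hq : q ∈ KV B) (hqa : q ≠ a) (hqb : q ≠ b) :
    ∃ O ∈ 𝓝 q, ∀ E : Set G, E.Finite → ∃ A ⊆ B.V,
      (∀ z ∈ A, z ∉ E ∧ hb hS z ∉ O) ∧ ∃ u v : ℕ → G, (∀ k, u k ∈ A ∧ v k ∈ A) ∧
        (∀ k, Con B.M A (u k) (v k)) ∧
        Tendsto (fun k => hb hS (u k)) atTop (𝓝 a) ∧ Tendsto (fun k => hb hS (v k)) atTop (𝓝 b) := by
  have hδ : 0 ≤ δ := by
    have h := h4 1 1 1 1
    rw [res_self] at h
    simpa using h
  have hg1 : g ≠ 1 := by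
    rintro rfl
    simp only [inv_one, one_pow] at hga hgb
    exact hab (tendsto_nhds_unique hga hgb)
  have hgtf := htf g hg1
  have hgtf' : ∀ n : ℕ, n ≠ 0 → g⁻¹ ^ n ≠ 1 := htf g⁻¹ (inv_ne_one.2 hg1)
  obtain ⟨z₀, hz₀⟩ := V_nonempty B
  obtain ⟨P, hPV, hz₀P, -, hPcon⟩ := A1_23_con_fin hz₀ (B.conn z₀ hz₀ (g * z₀) (B.inv g hg _ hz₀))
  have hax := A1_23_axis hPcon
  set A₀ : Set G := {v | ∃ k : ℤ, ∃ w ∈ P, v = g ^ k * w} with hA₀def
  have hA₀ : A₀ ⊆ B.V := by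
    rintro _ ⟨k, w, hw, rfl⟩
    exact B.inv _ (B.H.zpow_mem hg k) _ (hPV hw)
  have hgA : ∀ k : ℕ, g ^ k * z₀ ∈ A₀ := fun k => ⟨k, z₀, hz₀P, by rw [zpow_natCast]⟩
  have hgA' : ∀ k : ℕ, g⁻¹ ^ k * z₀ ∈ A₀ := fun k =>
    ⟨-k, z₀, hz₀P, by rw [zpow_neg, zpow_natCast, inv_pow]⟩
  obtain ⟨W, hW⟩ := push_con h4 hF htf B
  obtain ⟨κ, hκ, hκp⟩ := hW q hq
  have hpush := A1_23_push B hκ hκp hA₀
  let Z : ℕ → Set G := fun n => (push B W (δ / 2 + 1) q)^[n] A₀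
  let ι := {p : ℕ × G // p.2 ∈ Z p.1}
  have hesc : ∀ (𝒰 : Ultrafilter ι) (β : G → G → ℝ),
      Tendsto (fun i : ι => i.1.1) 𝒰 atTop → Tendsto (fun i : ι => hb hS i.1.2) 𝒰 (𝓝 β) →
      β ≠ q ∧ ¬ IsFin hS β := fun 𝒰 β h1 h2 =>
    escape_lim h4 hF B ha hb' hgtf hga hgb P W (KV_subset B hq) hqa hqb (c₀ := δ / 2 + 1)
      (by linarith) (by linarith) 𝒰 (fun i => i.1.1) (fun i => i.1.2) h1 (fun i => i.2) h2
  -- a neighbourhood of `q`
  have hO : ∃ O ∈ 𝓝 q, ∀ᶠ n in (atTop : Filter ℕ), ∀ z ∈ Z n, hb hS z ∉ O := by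
    by_contra hcon
    push Not at hcon
    let l : Filter ι := comap (fun i : ι => i.1.1) atTop ⊓ comap (fun i : ι => hb hS i.1.2) (𝓝 q)
    have hl : l.NeBot := by
      rw [Filter.inf_neBot_iff]
      intro s hs s' hs'
      obtain ⟨t, ht, hts⟩ := Filter.mem_comap.1 hs
      obtain ⟨O, hO, hOs⟩ := Filter.mem_comap.1 hs'
      obtain ⟨n, hn, hn'⟩ := ((hcon O hO).and_eventually ht).exists
      obtain ⟨z, hz, hzO⟩ := hn
      exact ⟨⟨(n, z), hz⟩, hts hn', hOs hzO⟩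
    have h := hesc (Ultrafilter.of l) q
      (tendsto_comap.mono_left ((Ultrafilter.of_le l).trans inf_le_left))
      (tendsto_comap.mono_left ((Ultrafilter.of_le l).trans inf_le_right))
    exact h.1 rfl
  -- finite sets
  have hE : ∀ e : G, ∀ᶠ n in (atTop : Filter ℕ), e ∉ Z n := by
    intro e
    by_contra hcon
    rw [not_eventually] at hcon
    simp only [not_not] at hcon
    let l : Filter ι := comap (fun i : ι => i.1.1) atTop ⊓ 𝓟 {i : ι | i.1.2 = e}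
    have hl : l.NeBot := by
      rw [Filter.inf_neBot_iff]
      intro s hs s' hs'
      obtain ⟨t, ht, hts⟩ := Filter.mem_comap.1 hs
      obtain ⟨n, hn, hn'⟩ := (hcon.and_eventually ht).exists
      exact ⟨⟨(n, e), hn⟩, hts hn', hs' rfl⟩
    have h := hesc (Ultrafilter.of l) (hb hS e)
      (tendsto_comap.mono_left ((Ultrafilter.of_le l).trans inf_le_left))
      (by
        refine tendsto_const_nhds.congr' ?_
        have h1 : {i : ι | i.1.2 = e} ∈ (Ultrafilter.of l : Filter ι) :=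
          (Ultrafilter.of_le l).trans inf_le_right (mem_principal_self _)
        filter_upwards [h1] with i hi
        rw [hi])
    exact h.2 (A1_23_isFin_hb e)
  obtain ⟨O, hO, hZO⟩ := hO
  refine ⟨O, hO, fun E hEf => ?_⟩
  have hE' : ∀ᶠ n in (atTop : Filter ℕ), ∀ e ∈ E, e ∉ Z n :=
    (Filter.eventually_all_finite hEf).2 fun e _ => hE e
  obtain ⟨n, hn1, hn2⟩ := (hZO.and hE').exists
  obtain ⟨h1, h2, h3⟩ := hpush n
  refine ⟨Z n, h1, fun z hz => ⟨fun hzE => hn2 z hzE hz, hn1 z hz⟩,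
    fun k => κ^[n] (g ^ k * z₀), fun k => κ^[n] (g⁻¹ ^ k * z₀),
    fun k => ⟨h2 _ (hgA k), h2 _ (hgA' k)⟩, fun k => ?_, ?_, ?_⟩
  · exact h3 _ (hgA k) _ (hgA' k) (Relation.ReflTransGen.trans (hax k).1.symm (hax k).2)
  · exact A1_23_lim (fun z hz => ⟨(hκ z hz).1, (hκ z hz).2.1⟩) n
      (A1_23_mul_cof (A1_23_pow_cof hgtf) z₀) (fun k => hA₀ (hgA k))
      (tendsto_hb_mul hS z₀ (A1_23_pow_cof hgtf) hga)
  · exact A1_23_lim (fun z hz => ⟨(hκ z hz).1, (hκ z hz).2.1⟩) n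
      (A1_23_mul_cof (A1_23_pow_cof hgtf') z₀) (fun k => hA₀ (hgA' k))
      (tendsto_hb_mul hS z₀ (A1_23_pow_cof hgtf') hgb)

include h4 hF htf in
theorem paths_V : ∃ a ∈ Pt hS, ∃ b ∈ Pt hS, a ≠ b ∧ ¬ IsFin hS a ∧ ¬ IsFin hS b ∧
    ∀ q ∈ Pt hS, q ≠ a → q ≠ b → ∃ O ∈ 𝓝 q, ∀ E : Set G, E.Finite → ∃ A ⊆ B.V,
      (∀ z ∈ A, z ∉ E ∧ hb hS z ∉ O) ∧ ∃ u v : ℕ → G, (∀ k, u k ∈ A ∧ v k ∈ A) ∧
        (∀ k, Con B.M A (u k) (v k)) ∧
        Tendsto (fun k => hb hS (u k)) atTop (𝓝 a) ∧ Tendsto (fun k => hb hS (v k)) atTop (𝓝 b) := by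
  obtain ⟨g, hg, a, haP, b, hbP, hab, ha, hb', hga, hgb⟩ := blk_lox h4 hF htf B
  refine ⟨a, haP, b, hbP, hab, ha, hb', fun q _ hqa hqb => ?_⟩
  by_cases hq : q ∈ KV B
  · exact A1_23_main h4 hF htf B hg hab ha hb' hga hgb hq hqa hqb
  · obtain ⟨z₀, hz₀⟩ := V_nonempty B
    obtain ⟨O, -, hO⟩ := A1_23_main h4 hF htf B hg hab ha hb' hga hgb (hb_mem_KV B hz₀)
      (fun h => ha (h ▸ A1_23_isFin_hb z₀)) (fun h => hb' (h ▸ A1_23_isFin_hb z₀))
    refine ⟨(KV B)ᶜ, (isClosed_KV B).isOpen_compl.mem_nhds hq, fun E hE => ?_⟩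
    obtain ⟨A, hAV, hA, h⟩ := hO E hE
    exact ⟨A, hAV, fun z hz => ⟨(hA z hz).1, fun h' => h' (hb_mem_KV B (hAV hz))⟩, h⟩

end Blk

end

section

open Filter Topology Set
open Vale.Agent.P239 Vale.Agent.P239.F
open scoped RealInnerProductSpace ENNReal

variable {G : Type*} [Group G] {S : Finset G} {hS : Subgroup.closure (S : Set G) = ⊤}

section Blk

theorem A1_24_mono {T : Finset G} {A A' : Set G} (h : A ⊆ A') {x y : G} (hc : Con T A x y) :
    Con T A' x y :=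
  Relation.ReflTransGen.mono (fun _ _ hab => ⟨h hab.1, h hab.2.1, hab.2.2⟩) _ _ hc

theorem A1_24_mul {T : Finset G} {A : Set G} (g : G) {x y : G} (hc : Con T A x y) :
    Con T {w | g⁻¹ * w ∈ A} (g * x) (g * y) := by
  induction hc with
  | refl => exact Relation.ReflTransGen.refl
  | tail _ hbc ih =>
    refine Relation.ReflTransGen.tail ih ⟨?_, ?_, ?_⟩
    · simpa using hbc.1
    · simpa using hbc.2.1
    · obtain ⟨s, hs, h | h⟩ := hbc.2.2
      · exact ⟨s, hs, Or.inl (by rw [h, mul_assoc])⟩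
      · exact ⟨s, hs, Or.inr (by rw [h, mul_assoc])⟩

/-- refining the steps of a path -/
theorem A1_24_sub {M T : Finset G} {A A' : Set G} (key : ∀ z ∈ A, ∀ m ∈ M, Con T A' z (z * m))
    {x y : G} (h : Con M A x y) : Con T A' x y := by
  induction h with
  | refl => exact Relation.ReflTransGen.refl
  | tail _ hbc ih =>
    refine Relation.ReflTransGen.trans ih ?_
    obtain ⟨m, hm, h | h⟩ := hbc.2.2
    · rw [h]; exact key _ hbc.1 m hm
    · have h3 := (key _ hbc.2.1 m hm).symm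
      rwa [← h] at h3

open Classical in
include hS in
/-- every element is joined to `1` by a finite path -/
theorem A1_24_path (g : G) : ∃ D : Finset G, Con S (D : Set G) 1 g := by
  have hg : g ∈ Subgroup.closure (S : Set G) := by rw [hS]; exact Subgroup.mem_top g
  induction hg using Subgroup.closure_induction with
  | mem x hx =>
    refine ⟨{1, x}, Relation.ReflTransGen.single ⟨by simp, by simp, x, hx, Or.inl ?_⟩⟩
    rw [one_mul]
  | one => exact ⟨∅, Relation.ReflTransGen.refl⟩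
  | mul x y _ _ hx hy =>
    obtain ⟨D, hD⟩ := hx
    obtain ⟨D', hD'⟩ := hy
    refine ⟨D ∪ D'.image (fun w => x * w), ?_⟩
    refine Relation.ReflTransGen.trans (A1_24_mono ?_ hD) ?_
    · intro z hz
      exact Finset.mem_coe.2 (Finset.mem_union_left _ (Finset.mem_coe.1 hz))
    · have h1 := A1_24_mul x hD'
      rw [mul_one] at h1
      refine A1_24_mono ?_ h1
      intro z hz
      refine Finset.mem_coe.2 (Finset.mem_union_right _ (Finset.mem_image.2 ⟨x⁻¹ * z, hz, ?_⟩))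
      rw [mul_inv_cancel_left]
  | inv x _ hx =>
    obtain ⟨D, hD⟩ := hx
    have h1 := (A1_24_mul x⁻¹ hD).symm
    rw [inv_mul_cancel, mul_one] at h1
    refine ⟨D.image (fun w => x⁻¹ * w), A1_24_mono ?_ h1⟩
    intro z hz
    refine Finset.mem_coe.2 (Finset.mem_image.2 ⟨x⁻¹⁻¹ * z, hz, ?_⟩)
    rw [mul_inv_cancel_left]

/-- a right translate by a finite set stays away from a point -/
theorem A1_24_nhd {q : G → G → ℝ} {O : Set (G → G → ℝ)} (hO : O ∈ 𝓝 q) (D : Finset G) :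
    ∃ O' ∈ 𝓝 q, ∃ E' : Set G, E'.Finite ∧
      ∀ z, z ∉ E' → hb hS z ∉ O → ∀ d ∈ D, hb hS (z * d) ∉ O' := by
  classical
  by_contra hcon
  push Not at hcon
  let ι := {p : G × G // p.2 ∈ D ∧ hb hS p.1 ∉ O}
  let l : Filter ι := Filter.comap (fun p : ι => p.1.1) cofinite ⊓
    Filter.comap (fun p : ι => hb hS (p.1.1 * p.1.2)) (𝓝 q)
  have hl : l.NeBot := by
    rw [Filter.inf_neBot_iff]
    intro s hs s' hs'
    obtain ⟨K, hK, hKs⟩ := Filter.mem_comap.1 hs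
    obtain ⟨O', hO', hOs⟩ := Filter.mem_comap.1 hs'
    obtain ⟨z, hz, hzO, d, hd, hdO⟩ := hcon O' hO' Kᶜ (by simpa using hK)
    refine ⟨⟨(z, d), hd, hzO⟩, hKs ?_, hOs hdO⟩
    simpa using hz
  have h1 : Tendsto (fun p : ι => p.1.1) l cofinite :=
    Filter.tendsto_comap.mono_left inf_le_left
  have h2 : Tendsto (fun p : ι => hb hS (p.1.1 * p.1.2)) l (𝓝 q) :=
    Filter.tendsto_comap.mono_left inf_le_right
  have h3 : Tendsto (fun p : ι => p.1.1 * p.1.2) l cofinite := by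
    intro s hs
    rw [Filter.mem_cofinite] at hs
    have h4 : (⋃ d ∈ D, (fun z : G => z * d) ⁻¹' sᶜ).Finite := by
      refine Set.Finite.biUnion D.finite_toSet fun d _ => ?_
      exact hs.preimage (fun x _ y _ hxy => mul_right_cancel hxy)
    have h5 := h1 (Filter.mem_cofinite.2 (by simpa using h4) :
      (⋃ d ∈ D, (fun z : G => z * d) ⁻¹' sᶜ)ᶜ ∈ cofinite)
    rw [Filter.mem_map] at h5 ⊢
    filter_upwards [h5] with p hp
    by_contra hps
    exact hp (Set.mem_iUnion₂.2 ⟨p.1.2, p.2.1, hps⟩)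
  have h4 := tendsto_hb_mul' hS (f := fun p : ι => p.1.1 * p.1.2) (w := fun p : ι => p.1.2⁻¹)
    (D.image fun d => d⁻¹) (fun p => Finset.mem_image_of_mem _ p.2.1) h3 h2
  have h5 : ∀ᶠ p : ι in l, hb hS (p.1.1 * p.1.2 * p.1.2⁻¹) ∈ O := h4 hO
  obtain ⟨p, hp⟩ := h5.exists
  rw [mul_inv_cancel_right] at hp
  exact p.2.2 hp

variable {δ : ℝ} (h4 : Four hS δ) [Countable G] {F : Finset G} (hF : CrossProp S F)
  (htf : ∀ g : G, g ≠ 1 → ∀ n : ℕ, n ≠ 0 → g ^ n ≠ 1) (B : Block hS)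

include h4 hF htf B in
theorem paths_S : ∃ a ∈ Pt hS, ∃ b ∈ Pt hS, a ≠ b ∧ ¬ IsFin hS a ∧ ¬ IsFin hS b ∧
    ∀ q ∈ Pt hS, q ≠ a → q ≠ b → ∃ O ∈ 𝓝 q, ∀ E : Set G, E.Finite → ∃ A : Set G,
      (∀ z ∈ A, z ∉ E ∧ hb hS z ∉ O) ∧ ∃ u v : ℕ → G,
        (∀ k, Con S A (u k) (v k)) ∧
        Tendsto (fun k => hb hS (u k)) atTop (𝓝 a) ∧ Tendsto (fun k => hb hS (v k)) atTop (𝓝 b) := by
  classical
  obtain ⟨a, ha, b, hb', hab, hfa, hfb, hq⟩ := paths_V h4 hF htf B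
  refine ⟨a, ha, b, hb', hab, hfa, hfb, fun q hqP hqa hqb => ?_⟩
  obtain ⟨O, hO, hE⟩ := hq q hqP hqa hqb
  choose D hD using fun g : G => A1_24_path (hS := hS) g
  let DD : Finset G := insert 1 (B.M.biUnion D)
  have hDD : ∀ m ∈ B.M, Con S (DD : Set G) 1 m := fun m hm =>
    A1_24_mono (fun z hz => Finset.mem_coe.2 (Finset.mem_insert_of_mem
      (Finset.mem_biUnion.2 ⟨m, hm, Finset.mem_coe.1 hz⟩))) (hD m)
  obtain ⟨O', hO', E', hE', hOE⟩ := A1_24_nhd (hS := hS) hO DD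
  refine ⟨O', hO', fun E hEf => ?_⟩
  have hfin : ((⋃ d ∈ DD, (fun z : G => z * d) ⁻¹' E) ∪ E').Finite := by
    refine Set.Finite.union ?_ hE'
    refine Set.Finite.biUnion DD.finite_toSet fun d _ => ?_
    exact hEf.preimage (fun x _ y _ hxy => mul_right_cancel hxy)
  obtain ⟨A, -, hA, u, v, -, hcon, hu, hv⟩ := hE _ hfin
  refine ⟨{w | ∃ z ∈ A, z⁻¹ * w ∈ DD}, ?_, u, v, fun k => ?_, hu, hv⟩
  · rintro w ⟨z, hz, hw⟩
    have h1 := hA z hz
    rw [Set.mem_union, not_or] at h1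
    constructor
    · intro hwE
      refine h1.1.1 (Set.mem_iUnion₂.2 ⟨z⁻¹ * w, hw, ?_⟩)
      change z * (z⁻¹ * w) ∈ E
      rwa [mul_inv_cancel_left]
    · have h2 := hOE z h1.1.2 h1.2 _ hw
      rwa [mul_inv_cancel_left] at h2
  · refine A1_24_sub (fun z hz m hm => ?_) (hcon k)
    have h1 := A1_24_mul z (hDD m hm)
    rw [mul_one] at h1
    refine A1_24_mono ?_ h1
    intro w hw
    exact ⟨z, hz, hw⟩

end Blk

end

end Vale.Agent.P239.F.D
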