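import Vale.Agent.P239.F.D3

/-! Module A: a block gives, for all points `q ≠ a, b`, connections from `a` to `b` avoiding a
neighbourhood of `q`. Definitions. -/

namespace Vale.Agent.P239.F.D

open Filter Topology Set
open Vale.Agent.P239 Vale.Agent.P239.F
open scoped RealInnerProductSpace ENNReal

variable {G : Type*} [Group G] {S : Finset G} {hS : Subgroup.closure (S : Set G) = ⊤}

/-- `hb` of the elements of `V` and their limits. -/
def KV (B : Block hS) : Set (G → G → ℝ) := closure (hb hS '' B.V)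

theorem KV_subset (B : Block hS) : KV B ⊆ Pt hS := closure_mono (image_subset_range _ _)

theorem isClosed_KV (B : Block hS) : IsClosed (KV B) := isClosed_closure

theorem isCompact_KV (B : Block hS) : IsCompact (KV B) :=
  (isCompact_Pt hS).of_isClosed_subset (isClosed_KV B) (KV_subset B)

theorem hb_mem_KV (B : Block hS) {z : G} (hz : z ∈ B.V) : hb hS z ∈ KV B :=
  subset_closure ⟨z, hz, rfl⟩

theorem act_mem_KV (B : Block hS) {h : G} (hh : h ∈ B.H) {β : G → G → ℝ} (hβ : β ∈ KV B) :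
    act h β ∈ KV B := by
  have h1 : KV B ⊆ act h ⁻¹' KV B := by
    refine closure_minimal ?_ ((isClosed_KV B).preimage (continuous_act h))
    rintro _ ⟨z, hz, rfl⟩
    change act h (hb hS z) ∈ KV B
    rw [act_hb]
    exact hb_mem_KV B (B.inv h hh z hz)
  exact h1 hβ

theorem mem_V_iff (B : Block hS) {h : G} (hh : h ∈ B.H) {z : G} : h * z ∈ B.V ↔ z ∈ B.V :=
  ⟨fun hz => by simpa using B.inv h⁻¹ (B.H.inv_mem hh) _ hz, fun hz => B.inv h hh z hz⟩

theorem V_nonempty (B : Block hS) : B.V.Nonempty := by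
  obtain ⟨β, hβ, -⟩ := B.two
  by_contra h
  rw [not_nonempty_iff_eq_empty] at h
  rw [Lim, mem_ofPred_eq, h, principal_empty, inf_bot_eq] at hβ
  exact hβ.neBot.ne (by rw [Filter.map_bot, inf_bot_eq])



section Geo

variable {δ : ℝ} (h4 : Four hS δ) [Countable G] {F : Finset G} (hF : CrossProp S F)





end Geo

section Blk

variable {δ : ℝ} (h4 : Four hS δ) [Countable G] {F : Finset G} (hF : CrossProp S F)
  (htf : ∀ g : G, g ≠ 1 → ∀ n : ℕ, n ≠ 0 → g ^ n ≠ 1) (B : Block hS)





/-- The class of sets used in the proof of `dd0`: bounded boundary, and from every boundary vertex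
one reaches in a bounded number of steps vertices of `U` and of `V \ U` far from the boundary. -/
structure Cls (r : ℝ) (C : Finset G) (L : ℝ) (U : Set G) : Prop where
  sub : U ⊆ B.V
  ne : (bdIn B.M B.V U).Nonempty
  bdd : ∀ z ∈ bdIn B.M B.V U, ∀ z' ∈ bdIn B.M B.V U, res hS z z' ≤ r
  inn : ∀ z ∈ bdIn B.M B.V U, ∃ y ∈ U, z⁻¹ * y ∈ C ∧ ∀ z' ∈ bdIn B.M B.V U, r + L ≤ res hS y z'
  out : ∀ z ∈ bdIn B.M B.V U, ∃ y ∈ B.V \ U, z⁻¹ * y ∈ C ∧
    ∀ z' ∈ bdIn B.M B.V U, r + L ≤ res hS y z'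











/-- Vertices of `V` obtained from `A` by steps in `W` with gain at least `c` away from `q`. -/
def push (W : Finset G) (c : ℝ) (q : G → G → ℝ) (A : Set G) : Set G :=
  {z | z ∈ B.V ∧ ∃ v ∈ A, v⁻¹ * z ∈ W ∧ c ≤ q z v}





end Blk

end Vale.Agent.P239.F.D
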