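import Vale.Agent.P239.F.A1

namespace Vale.Agent.P239.F.D

section

open Classical in
/-- The part of the wall of `U` whose inner endpoint is in `σ`. -/
noncomputable def wl {G : Type*} (U σ : Set G) (x y : G) : ZMod 2 :=
  if (x ∈ U ∧ y ∉ U ∧ x ∈ σ) ∨ (y ∈ U ∧ x ∉ U ∧ y ∈ σ) then 1 else 0

end

section

/-! Proof of `Hyp.countable` (A2.1). -/


open Filter Topology Set
open Vale.Agent.P239 Vale.Agent.P239.F
open scoped RealInnerProductSpace ENNReal

variable {G : Type*} [Group G] {S T : Finset G}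

/-- A group generated by a finite symmetric set is countable. -/
theorem A2_1_countable {S : Finset G} (hS : Subgroup.closure (S : Set G) = ⊤)
    (hsym : ∀ s ∈ S, s⁻¹ ∈ S) : Countable G := by
  refine Function.Surjective.countable (f := fun l : List S => (l.map fun s : S => (s : G)).prod)
    fun x => ?_
  have hx : x ∈ Subgroup.closure (S : Set G) := by rw [hS]; trivial
  induction hx using Subgroup.closure_induction_right with
  | one => exact ⟨[], rfl⟩
  | mul_right x _ s hs ih =>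
    obtain ⟨l, hl⟩ := ih
    refine ⟨l ++ [⟨s, hs⟩], ?_⟩
    change (List.map (fun s : S => (s : G)) (l ++ [⟨s, hs⟩])).prod = x * s
    rw [List.map_append, List.prod_append]
    exact congrArg₂ _ hl (by rw [List.map_singleton, List.prod_singleton])
  | mul_inv_cancel x _ s hs ih =>
    obtain ⟨l, hl⟩ := ih
    refine ⟨l ++ [⟨s⁻¹, hsym s hs⟩], ?_⟩
    change (List.map (fun s : S => (s : G)) (l ++ [⟨s⁻¹, hsym s hs⟩])).prod = x * s⁻¹
    rw [List.map_append, List.prod_append]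
    exact congrArg₂ _ hl (by rw [List.map_singleton, List.prod_singleton])

/-- Countability of the group. -/
theorem Hyp.countable (h : Hyp S T) : Countable G :=
  A2_1_countable h.gen h.symS

end

section

/-! Module A, A2.2: the crossing property from `H¹ = 0`. -/


open Filter Topology Set
open Vale.Agent.P239 Vale.Agent.P239.F
open scoped RealInnerProductSpace ENNReal

variable {G : Type*} [Group G] {S T : Finset G}

/-- A function constant along the edges inside `X` is constant along connections in `X`. -/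
theorem A2_2_const {X : Set G} {g : G → ZMod 2}
    (hg : ∀ a b, a ∈ X → b ∈ X → Adj S a b → g a = g b) {x y : G} (h : Con S X x y) :
    g x = g y := by
  induction h with
  | refl => rfl
  | tail _ hbc ih => exact ih.trans (hg _ _ hbc.1 hbc.2.1 hbc.2.2)

theorem A2_2_ind (p q r : Prop) [Decidable p] [Decidable q] [Decidable r] :
    (if ¬ (p ↔ q) then (1 : ZMod 2) else 0) + (if ¬ (q ↔ r) then (1 : ZMod 2) else 0) =
      if ¬ (p ↔ r) then (1 : ZMod 2) else 0 := by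
  have h2 : (1 : ZMod 2) + 1 = 0 := by decide
  by_cases hp : p <;> by_cases hq : q <;> by_cases hr : r <;> simp [hp, hq, hr, h2]

/-- The crossing property. -/
theorem Hyp.crossProp (h : Hyp S T) : ∃ F : Finset G, CrossProp S F := by
  classical
  refine ⟨insert 1 T, ?_⟩
  intro A B x y z w hxA hxB hyA hyB hzA hzB hwA hwB hxy hyw hzw hxz
  by_contra hcon
  push Not at hcon
  let c : G → G → ZMod 2 := fun a b => if (¬ (a ∈ A ↔ b ∈ A)) ∧ a ∈ B then 1 else 0
  have key : ∀ u v : G, u⁻¹ * v ∈ T → ∀ v' : G, u⁻¹ * v' ∈ T →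
      ¬ ((u ∈ A ↔ v ∈ A) ∧ (u ∈ A ↔ v' ∈ A)) → (u ∈ B ↔ v ∈ B) ∧ (u ∈ B ↔ v' ∈ B) := by
    intro u v hv v' hv' hne
    have e0 : u * 1 = u := mul_one u
    have e1 : u * (u⁻¹ * v) = v := mul_inv_cancel_left u v
    have e2 : u * (u⁻¹ * v') = v' := mul_inv_cancel_left u v'
    have m0 : (1 : G) ∈ insert 1 T := Finset.mem_insert_self _ _
    have m1 : u⁻¹ * v ∈ insert 1 T := Finset.mem_insert_of_mem hv
    have m2 : u⁻¹ * v' ∈ insert 1 T := Finset.mem_insert_of_mem hv'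
    have hA1 : ∃ a ∈ insert 1 T, u * a ∈ A := by
      by_contra hno
      push Not at hno
      have a0 := hno 1 m0
      have a1 := hno _ m1
      have a2 := hno _ m2
      rw [e0] at a0
      rw [e1] at a1
      rw [e2] at a2
      exact hne ⟨⟨fun q => absurd q a0, fun q => absurd q a1⟩,
        ⟨fun q => absurd q a0, fun q => absurd q a2⟩⟩
    have hA2 : ∃ a ∈ insert 1 T, u * a ∉ A := by
      by_contra hno
      push Not at hno
      have a0 := hno 1 m0
      have a1 := hno _ m1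
      have a2 := hno _ m2
      rw [e0] at a0
      rw [e1] at a1
      rw [e2] at a2
      exact hne ⟨⟨fun _ => a1, fun _ => a0⟩, ⟨fun _ => a2, fun _ => a0⟩⟩
    have hB : (∃ a ∈ insert 1 T, u * a ∈ B) → ∀ a ∈ insert 1 T, u * a ∈ B := by
      intro hB1
      exact hcon u hA1 hA2 hB1
    by_cases hu : u ∈ B
    · have hall := hB ⟨1, m0, by rw [e0]; exact hu⟩
      have b1 := hall _ m1
      have b2 := hall _ m2
      rw [e1] at b1
      rw [e2] at b2
      exact ⟨⟨fun _ => b1, fun _ => hu⟩, ⟨fun _ => b2, fun _ => hu⟩⟩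
    · have hno : ∀ a ∈ insert 1 T, u * a ∉ B := by
        intro a ha hab
        have h0 := hB ⟨a, ha, hab⟩ 1 m0
        rw [e0] at h0
        exact hu h0
      have b1 := hno _ m1
      have b2 := hno _ m2
      rw [e1] at b1
      rw [e2] at b2
      exact ⟨⟨fun q => absurd q hu, fun q => absurd q b1⟩,
        ⟨fun q => absurd q hu, fun q => absurd q b2⟩⟩
  have hclosed : ∀ u v v' : G, u⁻¹ * v ∈ T → v⁻¹ * v' ∈ T → u⁻¹ * v' ∈ T →
      c u v + c v v' = c u v' := by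
    intro u v v' h1 _ h3
    by_cases hconst : (u ∈ A ↔ v ∈ A) ∧ (u ∈ A ↔ v' ∈ A)
    · have c1 : c u v = 0 := if_neg fun q => q.1 hconst.1
      have c2 : c v v' = 0 := if_neg fun q => q.1 (hconst.1.symm.trans hconst.2)
      have c3 : c u v' = 0 := if_neg fun q => q.1 hconst.2
      rw [c1, c2, c3, add_zero]
    · obtain ⟨hb1, -⟩ := key u v h1 v' h3 hconst
      by_cases hu : u ∈ B
      · have hv : v ∈ B := hb1.1 hu
        have hin := A2_2_ind (u ∈ A) (v ∈ A) (v' ∈ A)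
        simp only [c, hu, hv, and_true]
        exact hin
      · have hv : v ∉ B := fun q => hu (hb1.2 q)
        have c1 : c u v = 0 := if_neg fun q => hu q.2
        have c2 : c v v' = 0 := if_neg fun q => hv q.2
        have c3 : c u v' = 0 := if_neg fun q => hu q.2
        rw [c1, c2, c3, add_zero]
  obtain ⟨f, hf⟩ := h.exT c hclosed
  have hadj : ∀ a b, Adj S a b → a⁻¹ * b ∈ T := by
    rintro a b ⟨s, hs, rfl | rfl⟩
    · rw [inv_mul_cancel_left]
      exact h.sub hs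
    · rw [mul_inv_rev, mul_assoc, inv_mul_cancel, mul_one]
      exact h.symT s (h.sub hs)
  have heq : ∀ p q : ZMod 2, p + q = 0 → p = q := by decide
  have f1 : f x = f y := by
    refine A2_2_const (S := S) (X := A) (g := f) (fun a b ha hb hab => ?_) hxy
    have h1 := hf a b (hadj a b hab)
    have h2 : c a b = 0 := if_neg fun q => q.1 ⟨fun _ => hb, fun _ => ha⟩
    exact heq _ _ (h1.symm.trans h2)
  have f2 : f y = f w := by
    refine A2_2_const (S := S) (X := Bᶜ) (g := f) (fun a b ha hb hab => ?_) hyw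
    have h1 := hf a b (hadj a b hab)
    have h2 : c a b = 0 := if_neg fun q => ha q.2
    exact heq _ _ (h1.symm.trans h2)
  have f3 : f z = f w := by
    refine A2_2_const (S := S) (X := Aᶜ) (g := f) (fun a b ha hb hab => ?_) hzw
    have h1 := hf a b (hadj a b hab)
    have h2 : c a b = 0 := if_neg fun q => q.1 ⟨fun r => absurd r ha, fun r => absurd r hb⟩
    exact heq _ _ (h1.symm.trans h2)
  have f4 : f x + (if x ∈ A then 1 else 0) = f z + (if z ∈ A then 1 else 0) := by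
    refine A2_2_const (S := S) (X := B) (g := fun a => f a + (if a ∈ A then 1 else 0))
      (fun a b ha hb hab => ?_) hxz
    have h1 := hf a b (hadj a b hab)
    have h5 : ∀ p q : ZMod 2, 1 = p + q → p + 1 = q := by decide
    have h6 : ∀ p q : ZMod 2, 1 = p + q → p = q + 1 := by decide
    by_cases haA : a ∈ A <;> by_cases hbA : b ∈ A
    · have h2 : c a b = 0 := if_neg fun q => q.1 ⟨fun _ => hbA, fun _ => haA⟩
      simp only [haA, hbA, if_true]
      rw [heq _ _ (h1.symm.trans h2)]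
    · have h2 : c a b = 1 := if_pos ⟨fun q => hbA (q.1 haA), ha⟩
      simp only [haA, hbA, if_true, if_false, add_zero]
      exact h5 _ _ (h2.symm.trans h1)
    · have h2 : c a b = 1 := if_pos ⟨fun q => haA (q.2 hbA), ha⟩
      simp only [haA, hbA, if_true, if_false, add_zero]
      exact h6 _ _ (h2.symm.trans h1)
    · have h2 : c a b = 0 := if_neg fun q => q.1 ⟨fun r => absurd r haA, fun r => absurd r hbA⟩
      simp only [haA, hbA, if_false, add_zero]
      exact heq _ _ (h1.symm.trans h2)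
  rw [if_pos hxA, if_neg hzA, add_zero, f1, f2, ← f3] at f4
  have h7 : ∀ p : ZMod 2, p + 1 ≠ p := by decide
  exact h7 _ f4

end

section

open Filter Topology Set
open Vale.Agent.P239 Vale.Agent.P239.F
open scoped RealInnerProductSpace ENNReal

variable {G : Type*} [Group G] {S T : Finset G}

section Level

variable (hS : Subgroup.closure (S : Set G) = ⊤)

open MeasureTheory in
omit [Group G] in
/-- Tonelli: for almost every level the weighted number of intervals containing it is finite. -/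
theorem A2_3_ae [Countable G] (J : G → Set ℝ) (hJ : ∀ z, MeasurableSet (J z)) (c : G → ℝ≥0∞)
    (h : ∑' z, c z * volume (J z) ≠ ∞) :
    ∀ᵐ t ∂(volume : Measure ℝ), ∑' z, (J z).indicator (fun _ => c z) t ≠ ∞ := by
  have h1 : ∫⁻ t, ∑' z, (J z).indicator (fun _ => c z) t = ∑' z, c z * volume (J z) := by
    rw [lintegral_tsum (fun z => (measurable_const.indicator (hJ z)).aemeasurable)]
    exact tsum_congr fun z => lintegral_indicator_const (hJ z) (c z)
  have h2 : Measurable fun t : ℝ => ∑' z, (J z).indicator (fun _ => c z) t :=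
    Measurable.ennreal_tsum fun z => measurable_const.indicator (hJ z)
  filter_upwards [ae_lt_top h2 (h1 ▸ h)] with t ht
  exact ht.ne

/-- The interval of levels at `z`. -/
noncomputable def A2_3_J (F : Finset G) (φ : G → ℝ) (z : G) : Set ℝ :=
  Icc (φ z - osF F φ z) (φ z + osF F φ z)

open Classical in
/-- The neighbourhood `{1} ∪ T ∪ T⁻¹`. -/
noncomputable def A2_3_F (T : Finset G) : Finset G := {1} ∪ T ∪ T.image (·⁻¹)

theorem A2_3_bd (T : Finset G) (φ : G → ℝ) (t : ℝ) :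
    bd T {z | t < φ z} ⊆ {z | t ∈ A2_3_J (A2_3_F T) φ z} := by
  classical
  rintro z ⟨y, hy, hzy⟩
  have h1 : (1 : G) ∈ A2_3_F T := by simp [A2_3_F]
  obtain ⟨m, hm, rfl⟩ : ∃ m ∈ A2_3_F T, y = z * m := by
    obtain ⟨s, hs, h | h⟩ := hy
    · exact ⟨s, by simp [A2_3_F, hs], h⟩
    · refine ⟨s⁻¹, ?_, by rw [h]; group⟩
      simp only [A2_3_F, Finset.mem_union, Finset.mem_image]
      exact Or.inr ⟨s, hs, rfl⟩
  have h2 := le_osF φ z h1 hm
  rw [mul_one, abs_le] at h2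
  simp only [mem_ofPred_eq] at hzy
  rw [mem_ofPred_eq, A2_3_J, mem_Icc]
  by_cases h3 : t < φ z
  · have h4 : φ (z * m) ≤ t := by
      by_contra h5
      exact hzy ⟨fun _ => not_le.1 h5, fun _ => h3⟩
    have := osF_nonneg (A2_3_F T) φ z
    constructor <;> linarith
  · have h4 : t < φ (z * m) := by
      by_contra h5
      exact hzy ⟨fun h6 => absurd h6 h3, fun h6 => absurd h6 h5⟩
    have := osF_nonneg (A2_3_F T) φ z
    rw [not_lt] at h3
    constructor <;> linarith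

theorem A2_3_osF (F : Finset G) (x : G) : osF F (gp hS x) = osF F (pot hS x).1 := by
  funext z
  simp only [osF, gp_eq, sub_sub_sub_cancel_right]

open MeasureTheory in
theorem A2_3_vol (F : Finset G) (φ : G → ℝ) (z : G) :
    volume (A2_3_J F φ z) = ENNReal.ofReal (2 * osF F φ z) := by
  rw [A2_3_J, Real.volume_Icc]
  congr 1
  ring

open MeasureTheory in
theorem good_level [Countable G] (T : Finset G) (x : G) {α β : ℝ} (hαβ : α < β) :
    ∃ t ∈ Ioo α β, (∀ z, gp hS x z ≠ t) ∧ ∀ (y : G) (α' β' : ℝ), α' < β' →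
      ∃ s ∈ Ioo α' β', (∀ z, gp hS y z ≠ s) ∧
        (bd T {z | t < gp hS x z} ∩ bd T {z | s < gp hS y z}).Finite := by
  classical
  obtain ⟨C, hC0, hC⟩ := exists_osF_bound hS (A2_3_F T)
  set J : G → G → Set ℝ := fun x => A2_3_J (A2_3_F T) (gp hS x) with hJ
  have hJm : ∀ x z, MeasurableSet (J x z) := fun x z => measurableSet_Icc
  have hsum : ∀ y, ∑' z, ENNReal.ofReal (2 * osF (A2_3_F T) (gp hS y) z) * volume (J x z) ≠ ∞ := by
    intro y
    have h1 : Summable fun z => osF (A2_3_F T) (gp hS y) z * osF (A2_3_F T) (gp hS x) z := by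
      rw [A2_3_osF, A2_3_osF]
      exact summable_mul_of_sq (hC _).1 (hC _).1
    have h2 : ∀ z, ENNReal.ofReal (2 * osF (A2_3_F T) (gp hS y) z) * volume (J x z) =
        ENNReal.ofReal (4 * (osF (A2_3_F T) (gp hS y) z * osF (A2_3_F T) (gp hS x) z)) := by
      intro z
      rw [hJ, A2_3_vol, ← ENNReal.ofReal_mul (by have := osF_nonneg (A2_3_F T) (gp hS y) z; linarith)]
      congr 1
      ring
    rw [tsum_congr h2, ← ENNReal.ofReal_tsum_of_nonneg (fun z => mul_nonneg (by norm_num)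
      (mul_nonneg (osF_nonneg _ _ _) (osF_nonneg _ _ _))) (h1.mul_left 4)]
    exact ENNReal.ofReal_ne_top
  have hae : ∀ᵐ t ∂(volume : Measure ℝ), (∀ y, ∑' z, (J x z).indicator
      (fun _ => ENNReal.ofReal (2 * osF (A2_3_F T) (gp hS y) z)) t ≠ ∞) ∧ t ∉ range (gp hS x) := by
    refine (ae_all_iff.2 fun y => A2_3_ae (J x) (hJm x) _ (hsum y)).and ?_
    exact (countable_range (gp hS x)).ae_notMem volume
  obtain ⟨t, ht, ht1, ht2⟩ := MeasureTheory.Measure.exists_mem_of_measure_ne_zero_of_ae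
    (μ := volume) (s := Ioo α β) (by rw [Real.volume_Ioo]; simpa using hαβ) (ae_restrict_of_ae hae)
  refine ⟨t, ht, fun z hz => ht2 ⟨z, hz⟩, fun y α' β' h' => ?_⟩
  have hae2 : ∀ᵐ s ∂(volume : Measure ℝ), ∑' z, (J y z).indicator
      (fun _ => (J x z).indicator (fun _ => (1 : ℝ≥0∞)) t) s ≠ ∞ := by
    refine A2_3_ae (J y) (hJm y) _ ?_
    have h1 := ht1 y
    refine ne_of_eq_of_ne (tsum_congr fun z => ?_) h1
    rw [hJ, A2_3_vol]
    by_cases h2 : t ∈ A2_3_J (A2_3_F T) (gp hS x) z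
    · rw [indicator_of_mem h2, indicator_of_mem h2, one_mul]
    · rw [indicator_of_notMem h2, indicator_of_notMem h2, zero_mul]
  obtain ⟨s, hs, hs1, hs2⟩ := MeasureTheory.Measure.exists_mem_of_measure_ne_zero_of_ae
    (μ := volume) (s := Ioo α' β') (by rw [Real.volume_Ioo]; simpa using h')
    (ae_restrict_of_ae (hae2.and ((countable_range (gp hS y)).ae_notMem volume)))
  refine ⟨s, hs, fun z hz => hs2 ⟨z, hz⟩, ?_⟩
  refine (ENNReal.finite_const_le_of_tsum_ne_top hs1 one_ne_zero).subset ?_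
  rintro z ⟨hz1, hz2⟩
  have h1 : t ∈ J x z := A2_3_bd T (gp hS x) t hz1
  have h2 : s ∈ J y z := A2_3_bd T (gp hS y) s hz2
  rw [mem_ofPred_eq, indicator_of_mem h2, indicator_of_mem h1]

end Level

end

section

/-! Proof of `bd_level_lim` (A2.4). -/


open Filter Topology Set
open Vale.Agent.P239 Vale.Agent.P239.F
open scoped RealInnerProductSpace ENNReal

variable {G : Type*} [Group G] {S T : Finset G}

section Level

variable (hS : Subgroup.closure (S : Set G) = ⊤)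

/-- Increment of `gp x` along an edge. -/
theorem A2_4_incr (x z m : G) :
    gp hS x (z * m) - gp hS x z = ⟪tr z (vec hS m), vec hS x⟫ := by
  rw [← inner_vec, ← inner_vec, vec_mul, inner_add_right, add_sub_cancel_right, real_inner_comm]

theorem bd_level_lim (T : Finset G) (x : G) (t : ℝ) {l : Filter G} [l.NeBot]
    (hl : l ≤ cofinite ⊓ 𝓟 (bd T {z | t < gp hS x z})) {q : G → G → ℝ}
    (hq : Tendsto (hb hS) l (𝓝 q)) : gpb hS 1 x q = t := by
  classical
  have hqP : q ∈ Pt hS := Pt.of_tendsto (f := fun z : G => z) hq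
  have h1 : Tendsto (fun z : G => gp hS x z) l (𝓝 (gpb hS 1 x q)) :=
    (tendsto_hb_iff (f := fun z : G => z) hqP).1 hq x
  have hcof : l ≤ cofinite := hl.trans inf_le_left
  have hbd : ∀ᶠ z in l, z ∈ bd T {z | t < gp hS x z} := by
    have := hl.trans inf_le_right
    exact le_principal_iff.1 this
  -- the error term
  have h2 : Tendsto (fun z : G => ∑ m ∈ T ∪ T.image (fun s => s⁻¹),
      |⟪tr z (vec hS m), vec hS x⟫|) l (𝓝 0) := by
    have h0 : (0 : ℝ) = ∑ m ∈ T ∪ T.image (fun s => s⁻¹), |(0 : ℝ)| := by simp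
    rw [h0]
    refine tendsto_finsetSum _ fun m _ => ?_
    exact ((tendsto_inner_tr (vec hS m) (vec hS x)).mono_left hcof).abs
  have h3 : ∀ᶠ z in l, ‖gp hS x z - t‖ ≤ ∑ m ∈ T ∪ T.image (fun s => s⁻¹),
      |⟪tr z (vec hS m), vec hS x⟫| := by
    filter_upwards [hbd] with z hz
    obtain ⟨y, hy, hne⟩ := hz
    have key : ∃ m ∈ T ∪ T.image (fun s => s⁻¹), y = z * m := by
      obtain ⟨s, hs, h | h⟩ := hy
      · exact ⟨s, Finset.mem_union_left _ hs, h⟩
      · refine ⟨s⁻¹, Finset.mem_union_right _ (Finset.mem_image_of_mem _ hs), ?_⟩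
        rw [h, mul_inv_cancel_right]
    obtain ⟨m, hm, rfl⟩ := key
    have h4 : |gp hS x z - t| ≤ |gp hS x (z * m) - gp hS x z| := by
      simp only [Set.mem_ofPred_eq] at hne
      rcases lt_or_ge t (gp hS x z) with h | h
      · have h5 : ¬ t < gp hS x (z * m) := fun h6 => hne ⟨fun _ => h6, fun _ => h⟩
        rw [abs_of_pos (by linarith), abs_of_nonpos (by linarith)]
        linarith
      · have h5 : t < gp hS x (z * m) := by
          by_contra h6
          exact hne ⟨fun h7 => absurd h7 (not_lt.2 h), fun h7 => absurd h7 h6⟩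
        rw [abs_of_nonpos (by linarith), abs_of_nonneg (by linarith)]
        linarith
    rw [Real.norm_eq_abs]
    refine h4.trans ?_
    rw [A2_4_incr]
    exact Finset.single_le_sum (f := fun m => |⟪tr z (vec hS m), vec hS x⟫|)
      (fun _ _ => abs_nonneg _) hm
  have h5 : Tendsto (fun z : G => gp hS x z - t) l (𝓝 0) := squeeze_zero_norm' h3 h2
  have h6 : Tendsto (fun z : G => gp hS x z - t) l (𝓝 (gpb hS 1 x q - t)) :=
    h1.sub tendsto_const_nhds
  have := tendsto_nhds_unique h6 h5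
  linarith

end Level

end

section

/-! Proof of `exists_cells` (A2.5). -/


open Filter Topology Set
open Vale.Agent.P239 Vale.Agent.P239.F
open scoped RealInnerProductSpace ENNReal

variable {G : Type*} [Group G] {S T : Finset G}

section Level

variable (hS : Subgroup.closure (S : Set G) = ⊤)

theorem A2_5_basis {q : G → G → ℝ} (hq : q ∈ Pt hS) {O : Set (G → G → ℝ)} (hO : O ∈ 𝓝 q) :
    ∃ (Y : Set G) (ε : G → ℝ), Y.Finite ∧ (∀ y, 0 < ε y) ∧
      ∀ β ∈ Pt hS, (∀ y ∈ Y, |gpb hS 1 y β - gpb hS 1 y q| < ε y) → β ∈ O := by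
  let Φ : Pt hS → G → ℝ := fun p y => gpb hS 1 y p
  have ht : Tendsto (fun p : Pt hS => (p : G → G → ℝ)) (comap Φ (𝓝 (Φ ⟨q, hq⟩))) (𝓝 q) := by
    rw [tendsto_iff (fun i => i.2) hq]
    intro y
    have hy : Tendsto (fun g : G → ℝ => g y) (𝓝 (Φ ⟨q, hq⟩)) (𝓝 (Φ ⟨q, hq⟩ y)) :=
      (continuous_apply y).tendsto (Φ ⟨q, hq⟩)
    exact hy.comp tendsto_comap
  have h1 := ht hO
  rw [Filter.mem_map, Filter.mem_comap] at h1
  obtain ⟨V, hV, hsub⟩ := h1
  rw [nhds_pi, Filter.mem_pi] at hV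
  obtain ⟨I, hI, s, hs, hIs⟩ := hV
  choose ε hε hball using fun y => Metric.mem_nhds_iff.1 (hs y)
  refine ⟨I, ε, hI, hε, fun β hβ h => ?_⟩
  exact hsub (show Φ ⟨β, hβ⟩ ∈ V from hIs fun y hy =>
    hball y (by rw [Metric.mem_ball, Real.dist_eq]; exact h y hy))

theorem A2_5_bd_subset (T : Finset G) {ι : Type*} (J : Set ι) (A : ι → Set G) (B : Set G)
    (h : ∀ z z', (∀ j ∈ J, (z ∈ A j ↔ z' ∈ A j)) → (z ∈ B ↔ z' ∈ B)) :
    bd T B ⊆ ⋃ j ∈ J, bd T (A j) := by
  rintro z ⟨z', hadj, hne⟩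
  by_contra hc
  refine hne (h z z' fun j hj => ?_)
  by_contra hj'
  exact hc (mem_iUnion₂.2 ⟨j, hj, z', hadj, hj'⟩)

theorem A2_5_cell (T : Finset G) (x : G) (t : ℝ)
    (hgood : ∀ (y : G) (α' β' : ℝ), α' < β' → ∃ s ∈ Ioo α' β', (∀ z, gp hS y z ≠ s) ∧
        (bd T {z | t < gp hS x z} ∩ bd T {z | s < gp hS y z}).Finite)
    {q : G → G → ℝ} (hq : q ∈ Pt hS) {O : Set (G → G → ℝ)} (hO : O ∈ 𝓝 q) :
    ∃ (σ : Set G) (W : Set (G → G → ℝ)), W ∈ 𝓝 q ∧ (∀ β ∈ W, W ∈ 𝓝 β) ∧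
      (∀ z ∈ σ, hb hS z ∈ O) ∧
      (bd T {z | t < gp hS x z} ∩ bd T σ).Finite ∧ (∀ z, hb hS z ∈ W → z ∈ σ) := by
  obtain ⟨Y, ε, hY, hε, hYO⟩ := A2_5_basis hS hq hO
  have h1 : ∀ y, ∃ s ∈ Ioo (gpb hS 1 y q - ε y) (gpb hS 1 y q - ε y / 2),
      (∀ z, gp hS y z ≠ s) ∧ (bd T {z | t < gp hS x z} ∩ bd T {z | s < gp hS y z}).Finite :=
    fun y => hgood y _ _ (by have := hε y; linarith)
  have h2 : ∀ y, ∃ s ∈ Ioo (gpb hS 1 y q + ε y / 2) (gpb hS 1 y q + ε y),
      (∀ z, gp hS y z ≠ s) ∧ (bd T {z | t < gp hS x z} ∩ bd T {z | s < gp hS y z}).Finite :=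
    fun y => hgood y _ _ (by have := hε y; linarith)
  choose a ha ha' hafin using h1
  choose b hb' hb'' hbfin using h2
  refine ⟨{z | ∀ y ∈ Y, a y < gp hS y z ∧ gp hS y z < b y},
    {β | ∀ y ∈ Y, |gpb hS 1 y β - gpb hS 1 y q| < ε y / 2}, ?_, ?_, ?_, ?_, ?_⟩
  · have hopen : IsOpen {β : G → G → ℝ | ∀ y ∈ Y, |gpb hS 1 y β - gpb hS 1 y q| < ε y / 2} := by
      have : {β : G → G → ℝ | ∀ y ∈ Y, |gpb hS 1 y β - gpb hS 1 y q| < ε y / 2} =
          ⋂ y ∈ Y, {β : G → G → ℝ | |gpb hS 1 y β - gpb hS 1 y q| < ε y / 2} := by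
        ext β; simp
      rw [this]
      exact hY.isOpen_biInter fun y _ =>
        isOpen_lt (((continuous_gpb hS 1 y).sub continuous_const).abs) continuous_const
    refine hopen.mem_nhds fun y _ => ?_
    rw [sub_self, abs_zero]; have := hε y; linarith
  · have hopen : IsOpen {β : G → G → ℝ | ∀ y ∈ Y, |gpb hS 1 y β - gpb hS 1 y q| < ε y / 2} := by
      have : {β : G → G → ℝ | ∀ y ∈ Y, |gpb hS 1 y β - gpb hS 1 y q| < ε y / 2} =
          ⋂ y ∈ Y, {β : G → G → ℝ | |gpb hS 1 y β - gpb hS 1 y q| < ε y / 2} := by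
        ext β; simp
      rw [this]
      exact hY.isOpen_biInter fun y _ =>
        isOpen_lt (((continuous_gpb hS 1 y).sub continuous_const).abs) continuous_const
    exact fun β hβ => hopen.mem_nhds hβ
  · intro z hz
    refine hYO _ (hb_mem hS z) fun y hy => ?_
    rw [gpb_hb_one, abs_lt]
    have h1 := (ha y).1
    have h2 := (hb' y).2
    obtain ⟨h3, h4⟩ := hz y hy
    constructor <;> linarith
  · have hsub : bd T {z | ∀ y ∈ Y, a y < gp hS y z ∧ gp hS y z < b y} ⊆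
        ⋃ p ∈ (Y ×ˢ (univ : Set Bool)), bd T {z | (if p.2 then a p.1 else b p.1) < gp hS p.1 z} := by
      refine A2_5_bd_subset T (Y ×ˢ (univ : Set Bool))
        (fun p : G × Bool => {z | (if p.2 then a p.1 else b p.1) < gp hS p.1 z}) _ ?_
      intro z z' h
      have key : ∀ u v : G, (∀ j ∈ (Y ×ˢ (univ : Set Bool)),
          (u ∈ {z | (if j.2 then a j.1 else b j.1) < gp hS j.1 z} ↔
            v ∈ {z | (if j.2 then a j.1 else b j.1) < gp hS j.1 z})) →
          (∀ y ∈ Y, a y < gp hS y u ∧ gp hS y u < b y) →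
          (∀ y ∈ Y, a y < gp hS y v ∧ gp hS y v < b y) := by
        intro u v huv hu y hy
        have e1 := huv (y, true) ⟨hy, mem_univ _⟩
        have e2 := huv (y, false) ⟨hy, mem_univ _⟩
        simp only [mem_ofPred_eq, if_true, Bool.false_eq_true, if_false] at e1 e2
        refine ⟨e1.1 (hu y hy).1, lt_of_le_of_ne (not_lt.1 fun hlt => ?_) (hb'' y v)⟩
        exact absurd (e2.2 hlt) (not_lt.2 (hu y hy).2.le)
      exact ⟨key z z' h, key z' z fun j hj => (h j hj).symm⟩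
    refine Set.Finite.subset (Set.Finite.biUnion (hY.prod (finite_univ : (univ : Set Bool).Finite))
      (t := fun p : G × Bool => bd T {z | t < gp hS x z} ∩
        bd T {z | (if p.2 then a p.1 else b p.1) < gp hS p.1 z}) ?_) ?_
    · rintro ⟨y, c⟩ -
      cases c
      · simpa using hbfin y
      · simpa using hafin y
    · rintro z ⟨hz1, hz2⟩
      obtain ⟨p, hp, hp'⟩ := mem_iUnion₂.1 (hsub hz2)
      exact mem_iUnion₂.2 ⟨p, hp, hz1, hp'⟩
  · intro z hz y hy
    have h0 := hz y hy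
    rw [gpb_hb_one, abs_lt] at h0
    have h1 := (ha y).2
    have h2 := (hb' y).1
    constructor <;> linarith

theorem exists_cells (T : Finset G) (x : G) (t : ℝ)
    (hgood : ∀ (y : G) (α' β' : ℝ), α' < β' → ∃ s ∈ Ioo α' β', (∀ z, gp hS y z ≠ s) ∧
        (bd T {z | t < gp hS x z} ∩ bd T {z | s < gp hS y z}).Finite)
    (O : (G → G → ℝ) → Set (G → G → ℝ)) (hO : ∀ q ∈ Pt hS, gpb hS 1 x q = t → O q ∈ 𝓝 q) :
    ∃ (n : ℕ) (q : Fin n → G → G → ℝ) (σ : Fin n → Set G),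
      (∀ i, q i ∈ Pt hS ∧ gpb hS 1 x (q i) = t) ∧ (∀ i, ∀ z ∈ σ i, hb hS z ∈ O (q i)) ∧
      (∀ i, (bd T {z | t < gp hS x z} ∩ bd T (σ i)).Finite) ∧
      (∀ i j, i ≠ j → Disjoint (σ i) (σ j)) ∧
      (bd T {z | t < gp hS x z} \ ⋃ i, σ i).Finite := by
  classical
  have hcell : ∀ q : G → G → ℝ, ∃ (σ : Set G) (W : Set (G → G → ℝ)), q ∈ Pt hS →
      gpb hS 1 x q = t → W ∈ 𝓝 q ∧ (∀ β ∈ W, W ∈ 𝓝 β) ∧ (∀ z ∈ σ, hb hS z ∈ O q) ∧
      (bd T {z | t < gp hS x z} ∩ bd T σ).Finite ∧ (∀ z, hb hS z ∈ W → z ∈ σ) := by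
    intro q
    by_cases hq : q ∈ Pt hS ∧ gpb hS 1 x q = t
    · obtain ⟨σ, W, h⟩ := A2_5_cell hS T x t hgood hq.1 (hO q hq.1 hq.2)
      exact ⟨σ, W, fun _ _ => h⟩
    · exact ⟨∅, ∅, fun h1 h2 => absurd ⟨h1, h2⟩ hq⟩
  choose σ₀ W hW using hcell
  have hK : IsCompact (Pt hS ∩ {q | gpb hS 1 x q = t}) :=
    (isCompact_Pt hS).inter_right (isClosed_eq (continuous_gpb hS 1 x) continuous_const)
  obtain ⟨s, hsK, hcov⟩ := hK.elim_nhds_subcover W fun q hq => (hW q hq.1 hq.2).1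
  let e := s.equivFin
  let q : Fin s.card → G → G → ℝ := fun i => (e.symm i : G → G → ℝ)
  have hq : ∀ i, q i ∈ Pt hS ∧ gpb hS 1 x (q i) = t := fun i => hsK _ (e.symm i).2
  have hcover : ∀ i, ∀ z, z ∈ σ₀ (q i) → ∃ j, z ∈ σ₀ (q j) \ ⋃ k, ⋃ (_ : k < j), σ₀ (q k) := by
    intro i z hz
    have hex : ∃ j : Fin s.card, z ∈ σ₀ (q j) := ⟨i, hz⟩
    obtain ⟨j, hj, hmin⟩ := WellFounded.has_min (wellFounded_lt : WellFounded
      ((· < ·) : Fin s.card → Fin s.card → Prop)) {j | z ∈ σ₀ (q j)} hex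
    refine ⟨j, hj, fun hk => ?_⟩
    obtain ⟨k, hkj, hk'⟩ := mem_iUnion₂.1 hk
    exact hmin k hk' hkj
  refine ⟨s.card, q, fun j => σ₀ (q j) \ ⋃ k, ⋃ (_ : k < j), σ₀ (q k), hq, ?_, ?_, ?_, ?_⟩
  · intro i z hz
    exact (hW _ (hq i).1 (hq i).2).2.2.1 z hz.1
  · intro i
    have hsub : bd T (σ₀ (q i) \ ⋃ k, ⋃ (_ : k < i), σ₀ (q k)) ⊆
        ⋃ j ∈ (univ : Set (Fin s.card)), bd T (σ₀ (q j)) := by
      refine A2_5_bd_subset T univ (fun j => σ₀ (q j)) _ fun z z' h => ?_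
      have h' : ∀ j, (z ∈ σ₀ (q j) ↔ z' ∈ σ₀ (q j)) := fun j => h j (mem_univ j)
      simp only [Set.mem_sdiff, mem_iUnion, h']
    refine Set.Finite.subset (Set.Finite.biUnion (finite_univ : (univ : Set (Fin s.card)).Finite)
      (t := fun j => bd T {z | t < gp hS x z} ∩ bd T (σ₀ (q j)))
      fun j _ => (hW _ (hq j).1 (hq j).2).2.2.2.1) ?_
    rintro z ⟨hz1, hz2⟩
    obtain ⟨p, hp, hp'⟩ := mem_iUnion₂.1 (hsub hz2)
    exact mem_iUnion₂.2 ⟨p, hp, hz1, hp'⟩
  · have hlt : ∀ i j : Fin s.card, i < j → Disjoint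
        (σ₀ (q i) \ ⋃ k, ⋃ (_ : k < i), σ₀ (q k)) (σ₀ (q j) \ ⋃ k, ⋃ (_ : k < j), σ₀ (q k)) := by
      intro i j hij
      rw [Set.disjoint_left]
      rintro z hz1 hz2
      exact hz2.2 (mem_iUnion₂.2 ⟨i, hij, hz1.1⟩)
    intro i j hij
    rcases lt_or_gt_of_ne hij with h | h
    · exact hlt i j h
    · exact (hlt j i h).symm
  · by_contra hinf
    have hne : (cofinite ⊓ 𝓟 (bd T {z | t < gp hS x z} \
        ⋃ j, (σ₀ (q j) \ ⋃ k, ⋃ (_ : k < j), σ₀ (q k)))).NeBot := by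
      rw [cofinite_inf_principal_neBot_iff]
      exact hinf
    let 𝒰 := Ultrafilter.of (cofinite ⊓ 𝓟 (bd T {z | t < gp hS x z} \
        ⋃ j, (σ₀ (q j) \ ⋃ k, ⋃ (_ : k < j), σ₀ (q k))))
    have h𝒰 : (𝒰 : Filter G) ≤ cofinite ⊓ 𝓟 (bd T {z | t < gp hS x z} \
        ⋃ j, (σ₀ (q j) \ ⋃ k, ⋃ (_ : k < j), σ₀ (q k))) := Ultrafilter.of_le _
    obtain ⟨β, hβ, hlim⟩ := exists_lim hS 𝒰 (fun z => z)
    have hβt : gpb hS 1 x β = t :=
      bd_level_lim hS T x t (l := (𝒰 : Filter G))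
        (h𝒰.trans (inf_le_inf le_rfl (principal_mono.2 sdiff_subset))) hlim
    obtain ⟨p, hp⟩ := mem_iUnion.1 (hcov ⟨hβ, hβt⟩)
    obtain ⟨hps, hpW⟩ := mem_iUnion.1 hp
    have hWβ : W p ∈ 𝓝 β := (hW p (hsK p hps).1 (hsK p hps).2).2.1 β hpW
    have hev : ∀ᶠ z in (𝒰 : Filter G), z ∈ σ₀ p := by
      filter_upwards [hlim hWβ] with z hz
      exact (hW p (hsK p hps).1 (hsK p hps).2).2.2.2.2 z hz
    have hev2 : ∀ᶠ z in (𝒰 : Filter G), z ∈ bd T {z | t < gp hS x z} \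
        ⋃ j, (σ₀ (q j) \ ⋃ k, ⋃ (_ : k < j), σ₀ (q k)) :=
      (h𝒰.trans inf_le_right) (mem_principal_self _)
    obtain ⟨z, hz1, hz2⟩ := (hev.and hev2).exists
    have hpi : q (e ⟨p, hps⟩) = p := by
      change ((e.symm (e ⟨p, hps⟩) : s) : G → G → ℝ) = p
      rw [Equiv.symm_apply_apply]
    obtain ⟨j, hj⟩ := hcover (e ⟨p, hps⟩) z (by rw [hpi]; exact hz1)
    exact hz2.2 (mem_iUnion.2 ⟨j, hj⟩)

end Level

end

section

open Filter Topology Set
open Vale.Agent.P239 Vale.Agent.P239.F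
open scoped RealInnerProductSpace ENNReal

variable {G : Type*} [Group G] {S T : Finset G}

theorem A2_6_adj {x y : G} (h : x⁻¹ * y ∈ T) : Adj T x y :=
  ⟨x⁻¹ * y, h, Or.inl (by group)⟩

theorem A2_6_alg {x y z : G} (U σ : Set G)
    (h1 : x⁻¹ * y ∈ T) (h2 : y⁻¹ * z ∈ T) (h3 : x⁻¹ * z ∈ T)
    (hne : wl U σ x y + wl U σ y z + wl U σ x z ≠ 0) :
    (x ∈ bd T U ∩ bd T σ) ∨ (y ∈ bd T U ∩ bd T σ) ∨ (z ∈ bd T U ∩ bd T σ) := by
  by_contra hcon
  push Not at hcon
  obtain ⟨nx, ny, nz⟩ := hcon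
  have axy : Adj T x y := A2_6_adj h1
  have ayz : Adj T y z := A2_6_adj h2
  have axz : Adj T x z := A2_6_adj h3
  have key : ∀ v u w : G, v ∉ bd T U ∩ bd T σ → Adj T v u → Adj T v w →
      (v ∈ U ↔ u ∈ U) ∨ (v ∈ σ ↔ w ∈ σ) := by
    intro v u w hv hu hw
    by_contra hc
    push Not at hc
    exact hv ⟨⟨u, hu, fun h => by tauto⟩, ⟨w, hw, fun h => by tauto⟩⟩
  have k1 := key x y z nx axy axz
  have k2 := key x z y nx axz axy
  have k3 := key y x z ny axy.symm ayz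
  have k4 := key y z x ny ayz axy.symm
  have k5 := key z x y nz axz.symm ayz.symm
  have k6 := key z y x nz ayz.symm axz.symm
  have k7 := key x y y nx axy axy
  have k8 := key x z z nx axz axz
  have k9 := key y z z ny ayz ayz
  have k10 := key y x x ny axy.symm axy.symm
  have k11 := key z x x nz axz.symm axz.symm
  have k12 := key z y y nz ayz.symm ayz.symm
  apply hne
  have two : (1 : ZMod 2) + 1 = 0 := by decide
  unfold wl
  by_cases ux : x ∈ U <;> by_cases uy : y ∈ U <;> by_cases uz : z ∈ U <;>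
    by_cases sx : x ∈ σ <;> by_cases sy : y ∈ σ <;> by_cases sz : z ∈ σ <;>
    simp_all

theorem exists_w (h : Hyp S T) (U σ : Set G) (hfin : (bd T U ∩ bd T σ).Finite) :
    ∃ (w : G → ZMod 2) (E : Set G), E.Finite ∧
      ∀ x y, x⁻¹ * y ∈ S → x ∉ E → w x + w y = wl U σ x y := by
  classical
  set b : G → G → G → ZMod 2 := fun x y z =>
    if x⁻¹ * y ∈ T ∧ y⁻¹ * z ∈ T ∧ x⁻¹ * z ∈ T then wl U σ x y + wl U σ y z + wl U σ x z else 0
    with hb
  have two : ∀ a : ZMod 2, a + a = 0 := by decide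
  have hbfin : {p : G × G × G | b p.1 p.2.1 p.2.2 ≠ 0}.Finite := by
    set N : G → Set G := fun v => (fun t => v * t) '' ((T : Set G) ∪ {1}) with hN
    have hNf : ∀ v, (N v).Finite := fun v => (T.finite_toSet.union (finite_singleton 1)).image _
    refine ((hfin.biUnion (t := fun v => (N v) ×ˢ ((N v) ×ˢ (N v)))
      fun v _ => (hNf v).prod ((hNf v).prod (hNf v))).subset ?_)
    rintro ⟨x, y, z⟩ hp
    change b x y z ≠ 0 at hp
    have hT : x⁻¹ * y ∈ T ∧ y⁻¹ * z ∈ T ∧ x⁻¹ * z ∈ T := by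
      by_contra hc
      exact hp (if_neg hc)
    have hv : wl U σ x y + wl U σ y z + wl U σ x z ≠ 0 := by
      intro h0
      apply hp
      rw [hb]
      change (if _ then _ else _) = _
      rw [if_pos hT, h0]
    obtain ⟨h1, h2, h3⟩ := hT
    have m1 : ∀ v, v ∈ N v := fun v => ⟨1, Or.inr rfl, mul_one v⟩
    have m2 : ∀ v u : G, v⁻¹ * u ∈ T → u ∈ N v := fun v u hu =>
      ⟨v⁻¹ * u, Or.inl hu, by change v * (v⁻¹ * u) = u; group⟩
    have m3 : ∀ v u : G, v⁻¹ * u ∈ T → v ∈ N u := fun v u hu =>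
      m2 u v (by have := h.symT _ hu; simpa [mul_inv_rev] using this)
    rcases A2_6_alg U σ h1 h2 h3 hv with hx | hy | hz
    · exact mem_biUnion hx ⟨m1 x, m2 x y h1, m2 x z h3⟩
    · exact mem_biUnion hy ⟨m3 x y h1, m1 y, m2 y z h2⟩
    · exact mem_biUnion hz ⟨m3 x z h3, m3 y z h2, m1 z⟩
  obtain ⟨c, hcf, hc⟩ := h.fill b hbfin (by
    intro x y z w hxy hxz hxw hyz hyw hzw
    simp only [hb, hxy, hxz, hxw, hyz, hyw, hzw, and_self, if_true]
    have e : ∀ a1 a2 a3 a4 a5 a6 : ZMod 2,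
        (a4 + a6 + a5) + (a2 + a6 + a3) + (a1 + a5 + a3) + (a1 + a4 + a2) = 0 := by decide
    exact e _ _ _ _ _ _)
  obtain ⟨f, hf⟩ := h.exS (fun x y => wl U σ x y + c x y) (by
    intro x y z hxy hyz hxz
    have e := hc x y z hxy hyz hxz
    have hT : x⁻¹ * y ∈ T ∧ y⁻¹ * z ∈ T ∧ x⁻¹ * z ∈ T := ⟨h.sub hxy, h.sub hyz, h.sub hxz⟩
    have e2 : b x y z = wl U σ x y + wl U σ y z + wl U σ x z := if_pos hT
    rw [e2] at e
    have e3 : ∀ a1 a2 a3 b1 b2 b3 : ZMod 2, a1 + a2 + a3 = b1 + b2 + b3 →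
        a1 + b1 + (a2 + b2) = a3 + b3 := by decide
    exact e3 _ _ _ _ _ _ e)
  refine ⟨f, {x | ∃ y, c x y ≠ 0}, ?_, ?_⟩
  · refine (hcf.image Prod.fst).subset ?_
    rintro x ⟨y, hy⟩
    exact ⟨(x, y), hy, rfl⟩
  · intro x y hxy hx
    have h0 : c x y = 0 := by
      by_contra hne
      exact hx ⟨y, hne⟩
    have := hf x y hxy
    simp only [h0, add_zero] at this
    exact this.symm

end

section

/-! A2.7: summing up the fillings of the pieces of a wall. -/


open Filter Topology Set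
open Vale.Agent.P239 Vale.Agent.P239.F
open scoped RealInnerProductSpace ENNReal

variable {G : Type*} [Group G] {S T : Finset G}

/-- Adjacency with respect to a symmetric set. -/
theorem A2_7_adj (hsym : ∀ s ∈ S, s⁻¹ ∈ S) {x y : G} (h : Adj S x y) : x⁻¹ * y ∈ S := by
  obtain ⟨s, hs, h | h⟩ := h
  · rw [h, inv_mul_cancel_left]
    exact hs
  · rw [h]
    have : (y * s)⁻¹ * y = s⁻¹ := by group
    rw [this]
    exact hsym s hs

/-- The set of neighbours of a finite set is finite. -/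
theorem A2_7_fin (S : Finset G) {X : Set G} (hX : X.Finite) : {x : G | ∃ s ∈ S, x * s ∈ X}.Finite := by
  refine ((hX.prod S.finite_toSet).image fun p : G × G => p.1 * p.2⁻¹).subset ?_
  rintro x ⟨s, hs, hx⟩
  exact ⟨(x * s, s), ⟨hx, hs⟩, by simp⟩

omit [Group G] in
/-- The pieces of the wall sum up to the wall. -/
theorem A2_7_sum (U : Set G) {n : ℕ} (σ : Fin n → Set G)
    (hdis : ∀ i j, i ≠ j → Disjoint (σ i) (σ j)) {x y : G}
    (hx : x ∈ U → y ∉ U → x ∈ ⋃ i, σ i) (hy : y ∈ U → x ∉ U → y ∈ ⋃ i, σ i) :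
    ∑ i, wl U (σ i) x y = U.indicator 1 x + U.indicator 1 y := by
  classical
  by_cases h1 : x ∈ U <;> by_cases h2 : y ∈ U
  · rw [indicator_of_mem h1, indicator_of_mem h2]
    have : ∀ i, wl U (σ i) x y = 0 := fun i => by
      unfold wl
      rw [if_neg (by tauto)]
    rw [Finset.sum_congr rfl fun i _ => this i, Finset.sum_const_zero]
    rfl
  · rw [indicator_of_mem h1, indicator_of_notMem h2]
    obtain ⟨i, hi⟩ := mem_iUnion.1 (hx h1 h2)
    rw [Finset.sum_eq_single i]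
    · unfold wl
      rw [if_pos (by tauto), Pi.one_apply, add_zero]
    · intro j _ hj
      have : x ∉ σ j := fun h => (Set.disjoint_left.1 (hdis j i hj)) h hi
      unfold wl
      rw [if_neg (by tauto)]
    · intro h
      exact absurd (Finset.mem_univ i) h
  · rw [indicator_of_notMem h1, indicator_of_mem h2]
    obtain ⟨i, hi⟩ := mem_iUnion.1 (hy h2 h1)
    rw [Finset.sum_eq_single i]
    · unfold wl
      rw [if_pos (by tauto), Pi.one_apply, zero_add]
    · intro j _ hj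
      have : y ∉ σ j := fun h => (Set.disjoint_left.1 (hdis j i hj)) h hi
      unfold wl
      rw [if_neg (by tauto)]
    · intro h
      exact absurd (Finset.mem_univ i) h
  · rw [indicator_of_notMem h1, indicator_of_notMem h2]
    have : ∀ i, wl U (σ i) x y = 0 := fun i => by
      unfold wl
      rw [if_neg (by tauto)]
    rw [Finset.sum_congr rfl fun i _ => this i, Finset.sum_const_zero, add_zero]

theorem A2_7_two (a b : ZMod 2) (h : a + b = 0) : a = b := by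
  revert a b
  decide

theorem A2_7_cases (a : ZMod 2) : a ≠ 1 → a = 0 := by
  revert a
  decide

theorem A2_7_add (a b c : ZMod 2) : a + b = c → a = b + c := by
  revert a b c
  decide

/-- A2.7. Summing up. -/
theorem sum_w' (h : Hyp S T) (U : Set G) {n : ℕ} (σ : Fin n → Set G) (w : Fin n → G → ZMod 2)
    (E : Fin n → Set G) (hE : ∀ i, (E i).Finite)
    (hw : ∀ i x y, x⁻¹ * y ∈ S → x ∉ E i → w i x + w i y = wl U (σ i) x y)
    (hdis : ∀ i j, i ≠ j → Disjoint (σ i) (σ j)) (hcov : (bd T U \ ⋃ i, σ i).Finite) :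
    ∃ (ε : ZMod 2) (E' : Set G), E'.Finite ∧ (∀ x ∉ E', x ∈ U → ∑ i, w i x = 1 + ε) ∧
      (∀ x ∉ E', x ∉ U → ∑ i, w i x = ε) := by
  classical
  set X : Set G := bd T U \ ⋃ i, σ i with hXdef
  have hB : ((⋃ i, E i) ∪ X ∪ {x : G | ∃ s ∈ S, x * s ∈ X}).Finite :=
    ((finite_iUnion hE).union hcov).union (A2_7_fin S hcov)
  set B : Set G := (⋃ i, E i) ∪ X ∪ {x : G | ∃ s ∈ S, x * s ∈ X} with hBdef
  let v : G → ZMod 2 := fun x => ∑ i, w i x + U.indicator 1 x
  have key : ∀ x y, x ∉ B → x⁻¹ * y ∈ S → v x = v y := by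
    intro x y hxB hxy
    rw [hBdef, mem_union, mem_union, not_or, not_or] at hxB
    obtain ⟨⟨hxE, hxX⟩, hxS⟩ := hxB
    have hadj : Adj T x y := ⟨x⁻¹ * y, h.sub hxy, Or.inl (by group)⟩
    have hs : ∑ i, w i x + ∑ i, w i y = U.indicator 1 x + U.indicator 1 y := by
      rw [← Finset.sum_add_distrib, ← A2_7_sum U σ hdis (x := x) (y := y)]
      · refine Finset.sum_congr rfl fun i _ => hw i x y hxy fun hi => hxE (mem_iUnion.2 ⟨i, hi⟩)
      · intro hxU hyU
        by_contra hc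
        exact hxX ⟨⟨y, hadj, by tauto⟩, hc⟩
      · intro hyU hxU
        by_contra hc
        refine hxS ⟨x⁻¹ * y, hxy, ?_⟩
        rw [mul_inv_cancel_left]
        exact ⟨⟨x, hadj.symm, by tauto⟩, hc⟩
    apply A2_7_two
    have : v x + v y = (∑ i, w i x + ∑ i, w i y) + (U.indicator 1 x + U.indicator 1 y) := by
      simp only [v]
      ring
    rw [this, hs]
    exact CharTwo.add_self_eq_zero _
  have hfin : {x | ∃ y, Adj S x y ∧ ¬ (x ∈ {z | v z = 1} ↔ y ∈ {z | v z = 1})}.Finite := by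
    refine hB.subset ?_
    rintro x ⟨y, hxy, hne⟩
    by_contra hxB
    apply hne
    rw [mem_ofPred_eq, mem_ofPred_eq, key x y hxB (A2_7_adj h.symS hxy)]
  rcases h.oneEnd _ hfin with hA | hA
  · refine ⟨0, _, hA, fun x hx hxU => ?_, fun x hx hxU => ?_⟩
    · have h0 : v x = 0 := A2_7_cases _ hx
      simp only [v, indicator_of_mem hxU, Pi.one_apply] at h0
      exact A2_7_add _ _ _ h0
    · have h0 : v x = 0 := A2_7_cases _ hx
      simp only [v, indicator_of_notMem hxU, add_zero] at h0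
      exact h0
  · refine ⟨1, _, hA, fun x hx hxU => ?_, fun x hx hxU => ?_⟩
    · have h0 : v x = 1 := by
        by_contra hc
        exact hx hc
      simp only [v, indicator_of_mem hxU, Pi.one_apply] at h0
      exact A2_7_add _ _ _ h0
    · have h0 : v x = 1 := by
        by_contra hc
        exact hx hc
      simp only [v, indicator_of_notMem hxU, add_zero] at h0
      exact h0

end

section

open Filter Topology Set
open Vale.Agent.P239 Vale.Agent.P239.F
open scoped RealInnerProductSpace ENNReal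

variable {G : Type*} [Group G] {S T : Finset G}

theorem A2_8_con {A : Set G} {w : G → ZMod 2}
    (hw : ∀ x y, Adj S x y → x ∈ A → y ∈ A → w x = w y) {z z' : G} (h : Con S A z z') :
    w z = w z' := by
  induction h with
  | refl => rfl
  | tail _ hbc ih => exact ih.trans (hw _ _ hbc.2.2 hbc.1 hbc.2.1)

/-- A2.8. Near a point of infinite type a function with locally trivial coboundary is constant. -/
theorem const_near (hS : Subgroup.closure (S : Set G) = ⊤) {δ : ℝ} (h4 : Four hS δ)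
    [Countable G]
    {F : Finset G} (hF : CrossProp S F) {β : G → G → ℝ} (hβ : β ∈ Pt hS) (hfin : ¬ IsFin hS β)
    {O : Set (G → G → ℝ)} (hO : O ∈ 𝓝 β) (w : G → ZMod 2)
    (hw : ∀ x y, Adj S x y → hb hS x ∈ O → hb hS y ∈ O → w x = w y) :
    ∃ O' ∈ 𝓝 β, ∀ z z', hb hS z ∈ O' → hb hS z' ∈ O' → w z = w z' := by
  obtain ⟨O', hO', h⟩ := near_conn h4 hF hβ hfin hO
  exact ⟨O', hO', fun z z' hz hz' => A2_8_con (fun x y hxy hx hy => hw x y hxy hx hy)
    (h z z' hz hz')⟩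

end

section

/-! Module A, end: `block_false`. -/


open Filter Topology Set
open Vale.Agent.P239 Vale.Agent.P239.F
open scoped RealInnerProductSpace ENNReal

variable {G : Type*} [Group G] {S T : Finset G}

theorem A2_9_isFin_hb (hS : Subgroup.closure (S : Set G) = ⊤) (z : G) : IsFin hS (hb hS z) :=
  ⟨gp hS z z, fun x => by
    rw [gpb_hb_one, gp_comm]
    exact gp_le hS z x⟩

theorem A2_9_nhds (hS : Subgroup.closure (S : Set G) = ⊤) {β : G → G → ℝ} (hfin : ¬ IsFin hS β)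
    {E : Set G} (hE : E.Finite) : {γ : G → G → ℝ | ∀ z ∈ E, γ ≠ hb hS z} ∈ 𝓝 β := by
  have h1 : (hb hS '' E)ᶜ ∈ 𝓝 β := by
    refine (hE.image _).isClosed.isOpen_compl.mem_nhds ?_
    rintro ⟨z, -, hz⟩
    exact hfin (hz ▸ A2_9_isFin_hb hS z)
  refine mem_of_superset h1 fun γ hγ z hz hγz => hγ ⟨z, hz, hγz.symm⟩

theorem A2_9_exists (hS : Subgroup.closure (S : Set G) = ⊤) {β : G → G → ℝ} (hβ : β ∈ Pt hS)
    {N : Set (G → G → ℝ)} (hN : N ∈ 𝓝 β) : ∃ z, hb hS z ∈ N := by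
  obtain ⟨γ, hγ, z, rfl⟩ := mem_closure_iff_nhds.1 hβ N hN
  exact ⟨z, hγ⟩

theorem A2_9_zmod {p q : ZMod 2} (h : p + q = 0) : p = q := by
  revert p q; decide

theorem A2_9_adj (h : Hyp S T) {x y : G} (hxy : Adj S x y) : x⁻¹ * y ∈ S := by
  obtain ⟨s, hs, rfl | rfl⟩ := hxy
  · rwa [inv_mul_cancel_left]
  · rw [mul_inv_rev, inv_mul_cancel_right]
    exact h.symS s hs

theorem A2_9_core (h : Hyp S T) [Countable G] {F : Finset G} (hF : CrossProp S F) {δ : ℝ}
    (h4 : Four h.gen δ) {a b : G → G → ℝ} (ha : a ∈ Pt h.gen) (hb' : b ∈ Pt h.gen)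
    (hna : ¬ IsFin h.gen a) (hnb : ¬ IsFin h.gen b)
    (hpaths : ∀ q ∈ Pt h.gen, q ≠ a → q ≠ b → ∃ O ∈ 𝓝 q, ∀ E : Set G, E.Finite → ∃ A : Set G,
      (∀ z ∈ A, z ∉ E ∧ hb h.gen z ∉ O) ∧ ∃ u v : ℕ → G,
        (∀ k, Con S A (u k) (v k)) ∧
        Tendsto (fun k => hb h.gen (u k)) atTop (𝓝 a) ∧
        Tendsto (fun k => hb h.gen (v k)) atTop (𝓝 b))
    (x : G) (hlt : gpb h.gen 1 x a < gpb h.gen 1 x b) : False := by
  classical
  obtain ⟨t, ⟨hta, htb⟩, -, hgood⟩ := good_level h.gen T x hlt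
  have hO0 : ∀ q : G → G → ℝ, ∃ O : Set (G → G → ℝ), q ∈ Pt h.gen → gpb h.gen 1 x q = t →
      O ∈ 𝓝 q ∧ ∀ E : Set G, E.Finite → ∃ A : Set G,
      (∀ z ∈ A, z ∉ E ∧ hb h.gen z ∉ O) ∧ ∃ u v : ℕ → G,
        (∀ k, Con S A (u k) (v k)) ∧
        Tendsto (fun k => hb h.gen (u k)) atTop (𝓝 a) ∧
        Tendsto (fun k => hb h.gen (v k)) atTop (𝓝 b) := by
    intro q
    by_cases hq : q ∈ Pt h.gen ∧ gpb h.gen 1 x q = t
    · obtain ⟨O, hO, hO'⟩ := hpaths q hq.1
        (fun hqa => by rw [hqa] at hq; exact hta.ne hq.2)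
        (fun hqb => by rw [hqb] at hq; exact htb.ne' hq.2)
      exact ⟨O, fun _ _ => ⟨hO, hO'⟩⟩
    · exact ⟨univ, fun h1 h2 => absurd ⟨h1, h2⟩ hq⟩
  choose O hO using hO0
  obtain ⟨n, q, σ, hq, hσ, hfin, hdis, hcov⟩ :=
    exists_cells h.gen T x t hgood O (fun q hq hqt => (hO q hq hqt).1)
  set U : Set G := {z | t < gp h.gen x z} with hU
  choose w E hE hw using fun i => exists_w h U (σ i) (hfin i)
  obtain ⟨ε, E', hE', hin, hout⟩ := sum_w' h U σ w E hE hw hdis hcov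
  -- near `a` and near `b` the functions are constant
  have hOa : {β : G → G → ℝ | gpb h.gen 1 x β < t} ∈ 𝓝 a :=
    (isOpen_lt (continuous_gpb h.gen 1 x) continuous_const).mem_nhds hta
  have hOb : {β : G → G → ℝ | t < gpb h.gen 1 x β} ∈ 𝓝 b :=
    (isOpen_lt continuous_const (continuous_gpb h.gen 1 x)).mem_nhds htb
  have hnear_a : ∀ i, ∃ O' ∈ 𝓝 a, ∀ z z', hb h.gen z ∈ O' → hb h.gen z' ∈ O' →
      w i z = w i z' := by
    intro i
    refine const_near h.gen h4 hF ha hna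
      (inter_mem hOa (A2_9_nhds h.gen hna (hE i))) (w i) ?_
    rintro p p' hpp ⟨h1, h2⟩ ⟨h3, -⟩
    rw [mem_ofPred_eq, gpb_hb_one] at h1 h3
    have h5 := hw i p p' (A2_9_adj h hpp) fun hp => h2 p hp rfl
    refine A2_9_zmod (h5.trans ?_)
    unfold wl
    rw [if_neg]
    rintro (⟨h6, -, -⟩ | ⟨h6, -, -⟩)
    · exact absurd h1 (not_lt.2 (le_of_lt h6))
    · exact absurd h3 (not_lt.2 (le_of_lt h6))
  have hnear_b : ∀ i, ∃ O' ∈ 𝓝 b, ∀ z z', hb h.gen z ∈ O' → hb h.gen z' ∈ O' →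
      w i z = w i z' := by
    intro i
    refine const_near h.gen h4 hF hb' hnb
      (inter_mem hOb (A2_9_nhds h.gen hnb (hE i))) (w i) ?_
    rintro p p' hpp ⟨h1, h2⟩ ⟨h3, -⟩
    rw [mem_ofPred_eq, gpb_hb_one] at h1 h3
    have h5 := hw i p p' (A2_9_adj h hpp) fun hp => h2 p hp rfl
    refine A2_9_zmod (h5.trans ?_)
    unfold wl
    rw [if_neg]
    rintro (⟨-, h6, -⟩ | ⟨-, h6, -⟩)
    · exact h6 h3
    · exact h6 h1
  choose Na hNa hNa' using hnear_a
  choose Nb hNb hNb' using hnear_b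
  -- transport along the paths
  have hpath : ∀ i, ∀ z z', hb h.gen z ∈ Na i → hb h.gen z' ∈ Nb i → w i z = w i z' := by
    intro i z z' hz hz'
    obtain ⟨A, hA, u, v, hcon, hu, hv⟩ := (hO (q i) (hq i).1 (hq i).2).2 (E i) (hE i)
    obtain ⟨k, hk, hk'⟩ := ((hu.eventually_mem (hNa i)).and (hv.eventually_mem (hNb i))).exists
    have hstep : ∀ p p', Con S A p p' → w i p = w i p' := by
      intro p p' hpp
      induction hpp with
      | refl => rfl
      | @tail p₁ p₂ _ h2 ih =>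
        rw [ih]
        obtain ⟨hp₁, hp₂, hadj⟩ := h2
        have h5 := hw i p₁ p₂ (A2_9_adj h hadj) (hA p₁ hp₁).1
        refine A2_9_zmod (h5.trans ?_)
        unfold wl
        rw [if_neg]
        rintro (⟨-, -, h6⟩ | ⟨-, -, h6⟩)
        · exact (hA p₁ hp₁).2 (hσ i p₁ h6)
        · exact (hA p₂ hp₂).2 (hσ i p₂ h6)
    rw [hNa' i z (u k) hz hk, hstep _ _ (hcon k), hNb' i z' (v k) hz' hk']
  -- two vertices
  obtain ⟨z, ⟨hz1, hz2⟩, hz3⟩ := A2_9_exists h.gen ha (inter_mem (inter_mem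
    (Filter.iInter_mem.2 hNa) hOa) (A2_9_nhds h.gen hna hE'))
  obtain ⟨z', ⟨hz1', hz2'⟩, hz3'⟩ := A2_9_exists h.gen hb' (inter_mem (inter_mem
    (Filter.iInter_mem.2 hNb) hOb) (A2_9_nhds h.gen hnb hE'))
  rw [mem_ofPred_eq, gpb_hb_one] at hz2 hz2'
  have e1 : ∑ i, w i z = ε := hout z (fun hz => hz3 z hz rfl) (not_lt.2 hz2.le)
  have e2 : ∑ i, w i z' = 1 + ε := hin z' (fun hz => hz3' z' hz rfl) hz2'
  have e3 : ∑ i, w i z = ∑ i, w i z' := Finset.sum_congr rfl fun i _ =>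
    hpath i z z' (mem_iInter.1 hz1 i) (mem_iInter.1 hz1' i)
  rw [e1, e2] at e3
  have key : ∀ η : ZMod 2, η = 1 + η → False := by decide
  exact key ε e3

theorem block_false (h : Hyp S T) (B : Block h.gen) : False := by
  have hc : Countable G := Hyp.countable h
  obtain ⟨F, hF⟩ := Hyp.crossProp h
  obtain ⟨δ, -, h4⟩ := exists_four_point h.gen hF
  have hP : ∃ a ∈ Pt h.gen, ∃ b ∈ Pt h.gen, a ≠ b ∧ ¬ IsFin h.gen a ∧ ¬ IsFin h.gen b ∧
      ∀ q ∈ Pt h.gen, q ≠ a → q ≠ b → ∃ O ∈ 𝓝 q, ∀ E : Set G, E.Finite → ∃ A : Set G,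
        (∀ z ∈ A, z ∉ E ∧ hb h.gen z ∉ O) ∧ ∃ u v : ℕ → G,
          (∀ k, Con S A (u k) (v k)) ∧
          Tendsto (fun k => hb h.gen (u k)) atTop (𝓝 a) ∧
          Tendsto (fun k => hb h.gen (v k)) atTop (𝓝 b) := by
    first
    | exact paths_S h4 hF h.tf B
    | exact paths_S h4 hF h.tf
  obtain ⟨a, ha, b, hb', hab, hna, hnb, hpaths⟩ := hP
  by_cases hx : ∃ x, gpb h.gen 1 x a ≠ gpb h.gen 1 x b
  · obtain ⟨x, hx⟩ := hx
    rcases lt_or_gt_of_ne hx with hlt | hlt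
    · exact A2_9_core h hF h4 ha hb' hna hnb hpaths x hlt
    · refine A2_9_core h hF h4 hb' ha hnb hna ?_ x hlt
      intro q hq hqb hqa
      obtain ⟨O, hO, hO'⟩ := hpaths q hq hqa hqb
      refine ⟨O, hO, fun E hE => ?_⟩
      obtain ⟨A, hA, u, v, h1, h2, h3⟩ := hO' E hE
      exact ⟨A, hA, v, u, fun k => (h1 k).symm, h3, h2⟩
  · push Not at hx
    refine hab (funext fun x => funext fun y => ?_)
    rw [gpb_add ha, gpb_add hb', hx x, hx y]

end

end Vale.Agent.P239.F.D
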