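import Vale.Agent.P239.AHHarm

/-!
Bilinear area estimates and their consequences for crossing potentials.
-/

namespace Vale.Agent.P239.F

open scoped ENNReal InnerProductSpace
open MeasureTheory Filter Topology
open Vale.Agent.P239

variable {G : Type*} [Group G] {S : Finset G}

/-- Total oscillation over the translate `u F`. -/
noncomputable def osF (F : Finset G) (c : G → ℝ) (u : G) : ℝ :=
  ∑ a ∈ F, ∑ b ∈ F, |c (u * a) - c (u * b)|

theorem osF_nonneg (F : Finset G) (c : G → ℝ) (u : G) : 0 ≤ osF F c u :=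
  Finset.sum_nonneg fun _ _ => Finset.sum_nonneg fun _ _ => abs_nonneg _

theorem le_osF {F : Finset G} (c : G → ℝ) (u : G) {a b : G} (ha : a ∈ F) (hb : b ∈ F) :
    |c (u * a) - c (u * b)| ≤ osF F c u :=
  (Finset.single_le_sum (f := fun b => |c (u * a) - c (u * b)|) (fun _ _ => abs_nonneg _) hb).trans
    (Finset.single_le_sum (f := fun a => ∑ b ∈ F, |c (u * a) - c (u * b)|)
      (fun _ _ => Finset.sum_nonneg fun _ _ => abs_nonneg _) ha)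

theorem osF_trans (F : Finset G) (c : G → ℝ) (k u : G) :
    osF F (fun x => c (k⁻¹ * x)) u = osF F c (k⁻¹ * u) := by
  simp only [osF, mul_assoc]

/-- The oscillation is square summable. -/
theorem exists_osF_bound (hS : Subgroup.closure (S : Set G) = ⊤) (F : Finset G) :
    ∃ C : ℝ, 0 ≤ C ∧ ∀ f : Dir S, SqS (osF F f.1) ∧ ∑' u, osF F f.1 u ^ 2 ≤ C * en S f f := by
  obtain ⟨C, hC0, hC⟩ := exists_osc_bound hS F
  refine ⟨(F.card : ℝ) ^ 4 * C, by positivity, fun f => ?_⟩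
  have hle : ∀ u : G, osF F f.1 u ^ 2 ≤
      (F.card : ℝ) ^ 2 * ∑ p ∈ F ×ˢ F, (f.1 (u * p.1) - f.1 (u * p.2)) ^ 2 := by
    intro u
    have h1 : osF F f.1 u = ∑ p ∈ F ×ˢ F, |f.1 (u * p.1) - f.1 (u * p.2)| := by
      rw [Finset.sum_product]; rfl
    rw [h1]
    have h2 := sq_sum_le_card_mul_sum_sq (s := F ×ˢ F)
      (f := fun p : G × G => |f.1 (u * p.1) - f.1 (u * p.2)|)
    refine h2.trans (le_of_eq ?_)
    rw [Finset.card_product]
    push_cast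
    rw [sq]
    congr 1
    exact Finset.sum_congr rfl fun p _ => sq_abs _
  have hsum : Summable fun u : G =>
      (F.card : ℝ) ^ 2 * ∑ p ∈ F ×ˢ F, (f.1 (u * p.1) - f.1 (u * p.2)) ^ 2 := by
    refine Summable.mul_left _ (summable_sum fun p hp => ?_)
    rw [Finset.mem_product] at hp
    exact (hC f p.1 hp.1 p.2 hp.2).1
  have h1 : SqS (osF F f.1) := Summable.of_nonneg_of_le (fun u => sq_nonneg _) hle hsum
  refine ⟨h1, (h1.tsum_le_tsum hle hsum).trans ?_⟩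
  rw [tsum_mul_left, Summable.tsum_finsetSum (fun p hp => by
    rw [Finset.mem_product] at hp
    exact (hC f p.1 hp.1 p.2 hp.2).1)]
  have h2 : ∑ p ∈ F ×ˢ F, ∑' u : G, (f.1 (u * p.1) - f.1 (u * p.2)) ^ 2 ≤
      ∑ p ∈ F ×ˢ F, C * en S f f := Finset.sum_le_sum fun p hp => by
    rw [Finset.mem_product] at hp
    exact (hC f p.1 hp.1 p.2 hp.2).2
  rw [Finset.sum_const, Finset.card_product, nsmul_eq_mul] at h2
  push_cast at h2
  calc (F.card : ℝ) ^ 2 * ∑ p ∈ F ×ˢ F, ∑' u : G, (f.1 (u * p.1) - f.1 (u * p.2)) ^ 2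
      ≤ (F.card : ℝ) ^ 2 * ((F.card : ℝ) * F.card * (C * en S f f)) :=
        mul_le_mul_of_nonneg_left h2 (by positivity)
    _ = (F.card : ℝ) ^ 4 * C * en S f f := by ring

/-- Bilinear area estimate. -/
theorem area_bilin [Countable G] (F : Finset G) {T₁ T₂ : Set ℝ} (c₁ c₂ : G → ℝ)
    (hT : ∀ t ∈ T₁, ∀ s ∈ T₂, ∃ u : G, (∃ a ∈ F, t < c₁ (u * a)) ∧ (∃ b ∈ F, c₁ (u * b) < t) ∧
      (∃ a ∈ F, s < c₂ (u * a)) ∧ (∃ b ∈ F, c₂ (u * b) < s)) :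
    volume T₁ * volume T₂ ≤ ∑' u : G, ENNReal.ofReal (osF F c₁ u * osF F c₂ u) := by
  let J := (F × F) × (F × F)
  let R : J × G → Set (ℝ × ℝ) := fun i =>
    (Set.Ioo (c₁ (i.2 * i.1.1.1)) (c₁ (i.2 * i.1.1.2))) ×ˢ
      (Set.Ioo (c₂ (i.2 * i.1.2.1)) (c₂ (i.2 * i.1.2.2)))
  have hcov : T₁ ×ˢ T₂ ⊆ ⋃ i : J × G, R i := by
    rintro ⟨t, s⟩ ⟨ht, hs⟩
    obtain ⟨u, ⟨a, ha, h1⟩, ⟨b, hb, h2⟩, ⟨a', ha', h3⟩, ⟨b', hb', h4⟩⟩ := hT t ht s hs
    exact Set.mem_iUnion.2 ⟨(((⟨b, hb⟩, ⟨a, ha⟩), (⟨b', hb'⟩, ⟨a', ha'⟩)), u), ⟨⟨h2, h1⟩, ⟨h4, h3⟩⟩⟩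
  have hvol : volume (T₁ ×ˢ T₂) = volume T₁ * volume T₂ := by
    rw [Measure.volume_eq_prod, Measure.prod_prod]
  have hR : ∀ i : J × G, volume (R i) ≤
      ENNReal.ofReal |c₁ (i.2 * i.1.1.1) - c₁ (i.2 * i.1.1.2)| *
      ENNReal.ofReal |c₂ (i.2 * i.1.2.1) - c₂ (i.2 * i.1.2.2)| := by
    intro i
    rw [Measure.volume_eq_prod, Measure.prod_prod, Real.volume_Ioo, Real.volume_Ioo]
    refine mul_le_mul' (ENNReal.ofReal_le_ofReal ?_) (ENNReal.ofReal_le_ofReal ?_)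
    · rw [abs_sub_comm]; exact le_abs_self _
    · rw [abs_sub_comm]; exact le_abs_self _
  have hos : ∀ (c : G → ℝ) (u : G), ENNReal.ofReal (osF F c u) =
      ∑ p : F × F, ENNReal.ofReal |c (u * p.1) - c (u * p.2)| := by
    intro c u
    rw [← ENNReal.ofReal_sum_of_nonneg fun _ _ => abs_nonneg _, Fintype.sum_prod_type]
    congr 1
    rw [osF, ← Finset.sum_coe_sort F (fun a => ∑ b ∈ F, |c (u * a) - c (u * b)|)]
    refine Finset.sum_congr rfl fun a _ => ?_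
    rw [← Finset.sum_coe_sort F (fun b => |c (u * a) - c (u * b)|)]
  calc volume T₁ * volume T₂ = volume (T₁ ×ˢ T₂) := hvol.symm
    _ ≤ volume (⋃ i : J × G, R i) := measure_mono hcov
    _ ≤ ∑' i : J × G, volume (R i) := measure_iUnion_le _
    _ ≤ ∑' i : J × G, ENNReal.ofReal |c₁ (i.2 * i.1.1.1) - c₁ (i.2 * i.1.1.2)| *
      ENNReal.ofReal |c₂ (i.2 * i.1.2.1) - c₂ (i.2 * i.1.2.2)| := ENNReal.tsum_le_tsum hR
    _ = ∑' u : G, ∑' j : J, ENNReal.ofReal |c₁ (u * j.1.1) - c₁ (u * j.1.2)| *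
      ENNReal.ofReal |c₂ (u * j.2.1) - c₂ (u * j.2.2)| := by
      rw [ENNReal.tsum_prod', ENNReal.tsum_comm]
    _ = ∑' u : G, ENNReal.ofReal (osF F c₁ u * osF F c₂ u) := by
      refine tsum_congr fun u => ?_
      rw [ENNReal.ofReal_mul (osF_nonneg _ _ _), hos, hos, Finset.sum_mul_sum, tsum_fintype,
        Fintype.sum_prod_type]

theorem summable_mul_of_sq {φ ψ : G → ℝ} (hφ : SqS φ) (hψ : SqS ψ) :
    Summable fun u => φ u * ψ u := by
  have hadd : Summable fun u => φ u ^ 2 + ψ u ^ 2 := Summable.add (f := fun u => φ u ^ 2) hφ hψ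
  refine Summable.of_norm_bounded hadd fun u => ?_
  rw [Real.norm_eq_abs, abs_mul]
  nlinarith [sq_nonneg (|φ u| - |ψ u|), sq_abs (φ u), sq_abs (ψ u), abs_nonneg (φ u),
    abs_nonneg (ψ u), sq_nonneg (φ u), sq_nonneg (ψ u)]

/-- Convolution coefficients of square summable functions vanish at infinity. -/
theorem tendsto_conv_zero {φ ψ : G → ℝ} (hφ : SqS φ) (hψ : SqS ψ) :
    Tendsto (fun g : G => ∑' u, φ (g⁻¹ * u) * ψ u) cofinite (𝓝 0) := by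
  classical
  let Ψ : lp (fun _ : G => ℝ) 2 := ⟨ψ, sqS_iff.1 hψ⟩
  let Φ : G → lp (fun _ : G => ℝ) 2 := fun g => ⟨fun u => φ (g⁻¹ * u), sqS_iff.1 (hφ.trans g)⟩
  have hin : ∀ g, ⟪Φ g, Ψ⟫_ℝ = ∑' u, φ (g⁻¹ * u) * ψ u := by
    intro g
    rw [← (lp.hasSum_inner (𝕜 := ℝ) (Φ g) Ψ).tsum_eq]
    refine tsum_congr fun u => ?_
    simp [Φ, Ψ, mul_comm]
  have hnorm : ∀ g : G, ‖Φ g‖ = ‖Φ 1‖ := by
    intro g
    have h1 : ∀ g, ‖Φ g‖ ^ 2 = ∑' u, φ u ^ 2 := by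
      intro g
      have h := lp.hasSum_norm (by norm_num : 0 < (2 : ℝ≥0∞).toReal) (Φ g)
      have h2 := h.tsum_eq
      simp only [ENNReal.toReal_ofNat, Real.rpow_ofNat, Real.norm_eq_abs, sq_abs] at h2
      rw [← h2]
      exact (Equiv.mulLeft g⁻¹).tsum_eq (fun u => φ u ^ 2)
    exact (pow_left_inj₀ (norm_nonneg _) (norm_nonneg _) two_ne_zero).1 ((h1 g).trans (h1 1).symm)
  rw [Metric.tendsto_nhds]
  intro ε hε
  have hsum : HasSum (fun p : G => lp.single 2 p (Ψ p)) Ψ := lp.hasSum_single (by norm_num) Ψ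
  obtain ⟨T, hT⟩ := ((Metric.tendsto_nhds.1 hsum (ε / (2 * (‖Φ 1‖ + 1))) (by positivity))).exists
  have hfin : Tendsto (fun h : G => ∑ p ∈ T, φ (h⁻¹ * p) * ψ p) cofinite (𝓝 0) := by
    have h0 : (0 : ℝ) = ∑ p ∈ T, 0 * ψ p := by simp
    rw [h0]
    refine tendsto_finsetSum _ fun p _ => Tendsto.mul_const _ ?_
    have h1 : Tendsto (fun q : G => φ q) cofinite (𝓝 0) := by
      have h2 := Summable.tendsto_cofinite_zero hφ
      have h3 := (Real.continuous_sqrt.tendsto 0).comp h2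
      rw [Real.sqrt_zero] at h3
      rw [tendsto_zero_iff_abs_tendsto_zero]
      refine h3.congr fun q => ?_
      simp only [Function.comp_apply, Real.sqrt_sq_eq_abs]
    refine h1.comp (Function.Injective.tendsto_cofinite ?_)
    intro a b hab
    simpa using hab
  filter_upwards [Metric.tendsto_nhds.1 hfin (ε / 2) (by positivity)] with h hh
  rw [dist_zero_right] at hh ⊢
  have h1 : ⟪Φ h, ∑ p ∈ T, lp.single 2 p (Ψ p)⟫_ℝ = ∑ p ∈ T, φ (h⁻¹ * p) * ψ p := by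
    rw [inner_sum]
    refine Finset.sum_congr rfl fun p _ => ?_
    rw [lp.inner_single_right]
    simp [Φ, Ψ, mul_comm]
  have h2 : ⟪Φ h, Ψ⟫_ℝ = ⟪Φ h, Ψ - ∑ p ∈ T, lp.single 2 p (Ψ p)⟫_ℝ +
      ∑ p ∈ T, φ (h⁻¹ * p) * ψ p := by
    rw [inner_sub_right, h1]; ring
  rw [← hin, h2]
  refine (norm_add_le _ _).trans_lt ?_
  have h3 : ‖⟪Φ h, Ψ - ∑ p ∈ T, lp.single 2 p (Ψ p)⟫_ℝ‖ ≤ ε / 2 := by
    refine (norm_inner_le_norm _ _).trans ?_
    rw [hnorm, ← dist_eq_norm, dist_comm]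
    have h4 : ‖Φ 1‖ * (ε / (2 * (‖Φ 1‖ + 1))) ≤ ε / 2 := by
      rw [mul_div_assoc', div_le_div_iff₀ (by positivity) (by positivity)]
      nlinarith [norm_nonneg (Φ 1)]
    exact (mul_le_mul_of_nonneg_left hT.le (norm_nonneg _)).trans h4
  linarith

/-- Two potentials with four corners cross at all intermediate levels. -/
theorem cross_area [Countable G] (hS : Subgroup.closure (S : Set G) = ⊤) {F : Finset G}
    (hF : CrossProp S F) {a b a' b' : G} {f g : Dir S} (hf : IsPot a b f) (hg : IsPot a' b' g)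
    {t₁ t₂ s₁ s₂ : ℝ} (ht : t₁ < t₂) (hs : s₁ < s₂) {p q r s : G}
    (hp : t₂ ≤ f.1 p) (hp' : s₂ ≤ g.1 p) (hq : f.1 q ≤ t₁) (hq' : s₂ ≤ g.1 q)
    (hr : t₂ ≤ f.1 r) (hr' : g.1 r ≤ s₁) (hs' : f.1 s ≤ t₁) (hs'' : g.1 s ≤ s₁) :
    (t₂ - t₁) * (s₂ - s₁) ≤ ∑' u : G, osF F (cD t₁ t₂ f).1 u * osF F (cD s₁ s₂ g).1 u := by
  obtain ⟨C, hC0, hC⟩ := exists_osF_bound hS F
  set c₁ := cD t₁ t₂ f with hc₁
  set c₂ := cD s₁ s₂ g with hc₂
  let T₁ : Set ℝ := Set.Ioo t₁ t₂ \ Set.range f.1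
  let T₂ : Set ℝ := Set.Ioo s₁ s₂ \ Set.range g.1
  have hV₁ : volume T₁ = ENNReal.ofReal (t₂ - t₁) := by
    rw [measure_sdiff_null ((Set.countable_range _).measure_zero _), Real.volume_Ioo]
  have hV₂ : volume T₂ = ENNReal.ofReal (s₂ - s₁) := by
    rw [measure_sdiff_null ((Set.countable_range _).measure_zero _), Real.volume_Ioo]
  have harea := area_bilin F (T₁ := T₁) (T₂ := T₂) c₁.1 c₂.1 (by
    rintro t ⟨⟨ht1, ht2⟩, htr⟩ s₀ ⟨⟨hs1, hs2⟩, hsr⟩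
    have htr' : ∀ u, f.1 u ≠ t := fun u hu => htr ⟨u, hu⟩
    have hsr' : ∀ u, g.1 u ≠ s₀ := fun u hu => hsr ⟨u, hu⟩
    have hfb : f.1 b < t := ((hf.mem_range hS s).1.trans hs').trans_lt ht1
    have hgb : g.1 b' < s₀ := ((hg.mem_range hS s).1.trans hs'').trans_lt hs1
    have hfa : t < f.1 a := ht2.trans_le (hp.trans (hf.mem_range hS p).2)
    have hga : s₀ < g.1 a' := hs2.trans_le (hp'.trans (hg.mem_range hS p).2)
    obtain ⟨u, ⟨α, hα, h1⟩, ⟨β, hβ, h2⟩, ⟨α', hα', h3⟩, ⟨β', hβ', h4⟩⟩ :=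
      hF {u | t < f.1 u} {u | s₀ < g.1 u} p r q s (ht2.trans_le hp) (hs2.trans_le hp')
        (ht2.trans_le hr) (not_lt.2 (hr'.trans hs1.le))
        (not_lt.2 (hq.trans ht1.le)) (hs2.trans_le hq')
        (not_lt.2 (hs'.trans ht1.le)) (not_lt.2 (hs''.trans hs1.le))
        ((hf.con hS hfb (ht2.trans_le hp)).symm.trans (hf.con hS hfb (ht2.trans_le hr)))
        ((hg.con' hS hga (hr'.trans_lt hs1) hsr').symm.trans
          (hg.con' hS hga (hs''.trans_lt hs1) hsr'))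
        ((hf.con' hS hfa (hq.trans_lt ht1) htr').symm.trans
          (hf.con' hS hfa (hs'.trans_lt ht1) htr'))
        ((hg.con hS hgb (hs2.trans_le hp')).symm.trans (hg.con hS hgb (hs2.trans_le hq')))
    refine ⟨u, ⟨α, hα, ?_⟩, ⟨β, hβ, ?_⟩, ⟨α', hα', ?_⟩, ⟨β', hβ', ?_⟩⟩
    · exact lt_max_of_lt_right (lt_min ht2 h1)
    · exact max_lt ht1 ((min_le_right _ _).trans_lt (lt_of_le_of_ne (not_lt.1 h2) (htr' _)))
    · exact lt_max_of_lt_right (lt_min hs2 h3)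
    · exact max_lt hs1 ((min_le_right _ _).trans_lt (lt_of_le_of_ne (not_lt.1 h4) (hsr' _))))
  have hsm : Summable fun u => osF F c₁.1 u * osF F c₂.1 u :=
    summable_mul_of_sq (hC c₁).1 (hC c₂).1
  rw [hV₁, hV₂, ← ENNReal.ofReal_mul (by linarith),
    ← ENNReal.ofReal_tsum_of_nonneg
      (fun u => mul_nonneg (osF_nonneg _ _ _) (osF_nonneg _ _ _)) hsm,
    ENNReal.ofReal_le_ofReal_iff
      (tsum_nonneg fun u => mul_nonneg (osF_nonneg _ _ _) (osF_nonneg _ _ _))] at harea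
  exact harea

theorem cD_trD (t₁ t₂ : ℝ) (k : G) (f : Dir S) : cD t₁ t₂ (trD k f) = trD k (cD t₁ t₂ f) := rfl

/-- A clamped potential which is nearly constant on a large finite set does not cross. -/
theorem slab [Countable G] (hS : Subgroup.closure (S : Set G) = ⊤) {F : Finset G}
    (hF : CrossProp S F) {a' b' : G} {g : Dir S} (hg : IsPot a' b' g)
    {s₁ s₂ L : ℝ} (hs : s₁ < s₂) (hL : 0 < L) :
    ∃ E : Finset G, ∃ η : ℝ, 0 < η ∧ ∀ (x y : G) (w : Dir S) (t₁ : ℝ), IsPot x y w →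
      (∀ u ∈ E, ∀ α ∈ F, ∀ β ∈ F,
        |clp t₁ (t₁ + L) (w.1 (u * α)) - clp t₁ (t₁ + L) (w.1 (u * β))| ≤ η) →
      ¬ ∃ p q r s : G, t₁ + L ≤ w.1 p ∧ s₂ ≤ g.1 p ∧ w.1 q ≤ t₁ ∧ s₂ ≤ g.1 q ∧
        t₁ + L ≤ w.1 r ∧ g.1 r ≤ s₁ ∧ w.1 s ≤ t₁ ∧ g.1 s ≤ s₁ := by
  classical
  obtain ⟨C, hC0, hC⟩ := exists_osF_bound hS F
  set ψ : G → ℝ := osF F (cD s₁ s₂ g).1 with hψdef
  have hψ : Summable fun u => ψ u ^ 2 := (hC (cD s₁ s₂ g)).1
  set A : ℝ := L * (s₂ - s₁) with hA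
  have hApos : 0 < A := mul_pos hL (by linarith)
  set lam : ℝ := A / (4 * (C * L + 1)) with hlam
  have hlampos : 0 < lam := by positivity
  have hlamM : lam * (C * L) ≤ A / 4 := by
    rw [hlam, div_mul_eq_mul_div, div_le_div_iff₀ (by positivity) (by norm_num)]
    nlinarith
  obtain ⟨E, hE⟩ := (Metric.tendsto_nhds.1 hψ.hasSum (lam * (A / 4)) (by positivity)).exists
  rw [Real.dist_eq, abs_sub_comm] at hE
  have hE' : ∑' u, ψ u ^ 2 - ∑ u ∈ E, ψ u ^ 2 < lam * (A / 4) := (le_abs_self _).trans_lt hE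
  set K : ℝ := (F.card : ℝ) ^ 2 with hK
  set Q : ℝ := ∑ u ∈ E, ψ u with hQ
  have hQ0 : 0 ≤ Q := Finset.sum_nonneg fun u _ => osF_nonneg _ _ _
  have hK0 : 0 ≤ K := by positivity
  refine ⟨E, A / (4 * (K * Q + 1)), by positivity, fun x y w t₁ hw hη => ?_⟩
  rintro ⟨p, q, r, s, hp, hp', hq, hq', hr, hr', hs1, hs2⟩
  set η : ℝ := A / (4 * (K * Q + 1)) with hηdef
  have hη0 : 0 < η := by positivity
  have h1 := cross_area hS hF hw hg (by linarith : t₁ < t₁ + L) hs (p := p) (q := q) (r := r)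
    (s := s) hp hp' hq hq' hr hr' hs1 hs2
  set φ : G → ℝ := osF F (cD t₁ (t₁ + L) w).1 with hφdef
  have hφ : Summable fun u => φ u ^ 2 := (hC (cD t₁ (t₁ + L) w)).1
  have hφM : ∑' u, φ u ^ 2 ≤ C * L := by
    refine (hC (cD t₁ (t₁ + L) w)).2.trans (mul_le_mul_of_nonneg_left ?_ hC0)
    have := hw.en_clamp (by linarith : t₁ ≤ t₁ + L) ((hw.mem_range hS q).1.trans hq)
      (hp.trans (hw.mem_range hS p).2)
    linarith
  have hφE : ∀ u ∈ E, φ u ≤ K * η := by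
    intro u hu
    have h2 : φ u ≤ ∑ α ∈ F, ∑ β ∈ F, η :=
      Finset.sum_le_sum fun α hα => Finset.sum_le_sum fun β hβ => hη u hu α hα β hβ
    rw [Finset.sum_const, Finset.sum_const, nsmul_eq_mul, nsmul_eq_mul] at h2
    rw [hK]
    linarith
  have hψ0 : ∀ u, 0 ≤ ψ u := fun u => osF_nonneg _ _ _
  have hφ0 : ∀ u, 0 ≤ φ u := fun u => osF_nonneg _ _ _
  have hpt : ∀ u, φ u * ψ u ≤ (if u ∈ E then K * η * ψ u - ψ u ^ 2 / lam else 0) +
      (lam * φ u ^ 2 + ψ u ^ 2 / lam) := by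
    intro u
    by_cases hu : u ∈ E
    · rw [if_pos hu]
      have h3 := mul_le_mul_of_nonneg_right (hφE u hu) (hψ0 u)
      have h4 : 0 ≤ lam * φ u ^ 2 := by positivity
      linarith
    · rw [if_neg hu, zero_add]
      have h3 : 0 ≤ (lam * φ u - ψ u) ^ 2 / lam := by positivity
      have h4 : (lam * φ u - ψ u) ^ 2 / lam = lam * φ u ^ 2 - 2 * (φ u * ψ u) + ψ u ^ 2 / lam := by
        field_simp
        ring
      have h5 : 0 ≤ φ u * ψ u := mul_nonneg (hφ0 u) (hψ0 u)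
      linarith
  have hs1 : Summable fun u => (if u ∈ E then K * η * ψ u - ψ u ^ 2 / lam else 0) :=
    summable_of_ne_finset_zero (s := E) fun u hu => if_neg hu
  have hs2 : Summable fun u => lam * φ u ^ 2 + ψ u ^ 2 / lam :=
    (hφ.mul_left lam).add (hψ.div_const lam)
  have h2 : ∑' u, φ u * ψ u ≤ ∑' u, ((if u ∈ E then K * η * ψ u - ψ u ^ 2 / lam else 0) +
      (lam * φ u ^ 2 + ψ u ^ 2 / lam)) :=
    (summable_mul_of_sq hφ hψ).tsum_le_tsum hpt (hs1.add hs2)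
  rw [hs1.tsum_add hs2, (hφ.mul_left lam).tsum_add (hψ.div_const lam), tsum_mul_left,
    tsum_div_const, tsum_eq_sum (s := E) (fun u hu => if_neg hu)] at h2
  have h3 : ∑ u ∈ E, (if u ∈ E then K * η * ψ u - ψ u ^ 2 / lam else 0) =
      K * η * Q - (∑ u ∈ E, ψ u ^ 2) / lam := by
    rw [hQ, Finset.mul_sum, Finset.sum_div, ← Finset.sum_sub_distrib]
    exact Finset.sum_congr rfl fun u hu => if_pos hu
  rw [h3] at h2
  have h4 : (∑' u, ψ u ^ 2) / lam - (∑ u ∈ E, ψ u ^ 2) / lam < A / 4 := by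
    rw [← sub_div, div_lt_iff₀ hlampos]
    linarith
  have h5 : lam * ∑' u, φ u ^ 2 ≤ A / 4 :=
    (mul_le_mul_of_nonneg_left hφM hlampos.le).trans hlamM
  have h6 : K * η * Q ≤ A / 4 := by
    rw [hηdef, show K * (A / (4 * (K * Q + 1))) * Q = K * Q * A / (4 * (K * Q + 1)) by ring,
      div_le_div_iff₀ (by positivity) (by norm_num)]
    nlinarith [mul_nonneg hK0 hQ0]
  have h7 : (t₁ + L - t₁) * (s₂ - s₁) = A := by rw [hA]; ring
  rw [h7] at h1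
  linarith

/-- Engine of the convergence property. -/
theorem finite_cross [Countable G] (hS : Subgroup.closure (S : Set G) = ⊤) {F : Finset G}
    (hF : CrossProp S F) {a b a' b' : G} {f g : Dir S} (hf : IsPot a b f) (hg : IsPot a' b' g)
    {t₁ t₂ s₁ s₂ : ℝ} (ht : t₁ < t₂) (hs : s₁ < s₂) :
    {k : G | ∃ p q r s : G, t₂ ≤ f.1 (k⁻¹ * p) ∧ s₂ ≤ g.1 p ∧ f.1 (k⁻¹ * q) ≤ t₁ ∧ s₂ ≤ g.1 q ∧
      t₂ ≤ f.1 (k⁻¹ * r) ∧ g.1 r ≤ s₁ ∧ f.1 (k⁻¹ * s) ≤ t₁ ∧ g.1 s ≤ s₁}.Finite := by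
  obtain ⟨C, hC0, hC⟩ := exists_osF_bound hS F
  have h0 := tendsto_conv_zero (hC (cD t₁ t₂ f)).1 (hC (cD s₁ s₂ g)).1
  have hpos : 0 < (t₂ - t₁) * (s₂ - s₁) := mul_pos (by linarith) (by linarith)
  have h1 := (tendsto_order.1 h0).2 _ hpos
  rw [Filter.eventually_cofinite] at h1
  refine h1.subset ?_
  rintro k ⟨p, q, r, s, hp, hp', hq, hq', hr, hr', hs1, hs2⟩
  simp only [Set.mem_ofPred_eq, not_lt]
  have h2 := cross_area hS hF (hf.trans k) hg ht hs (p := p) (q := q) (r := r) (s := s)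
    hp hp' hq hq' hr hr' hs1 hs2
  refine h2.trans (le_of_eq (tsum_congr fun u => ?_))
  rw [cD_trD]
  congr 1
  exact osF_trans F (cD t₁ t₂ f).1 k u

end Vale.Agent.P239.F
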