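import Vale.Agent.P239.F.C0c

/-!
Module C0, part h: domination by the harmonic function of a cut; the probability of staying in a
set forever.
-/

namespace Vale.Agent.P239.F

open Filter Topology Set
open Vale.Agent.P239
open scoped RealInnerProductSpace

variable {G : Type*} [Group G] {S : Finset G}

/-- Domination: a harmonic function `0 ≤ h ≤ M` below `1 - phi A` is below `M (1 - phi A)`. -/
theorem dom_of (hp : HypS S) {A : Set G} {B : Finset (G → G → ℝ)} (hB : NB hp B)
    (hA' : HasPhi S A) (hA : ConvB hp.gen (bd S A) B) {h : G → ℝ} {M : ℝ}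
    (hh : avg S h = h) (h0 : ∀ x, 0 ≤ h x) (hM : ∀ x, h x ≤ M)
    (h1 : ∀ x, h x ≤ 1 - phi S A x) (x : G) : h x ≤ M * (1 - phi S A x) := by
  classical
  have hM0 : 0 ≤ M := (h0 x).trans (hM x)
  refine le_of_forall_pos_le_add fun ε hε => ?_
  obtain ⟨f, hf, hfx⟩ := hB x (ε / 2) (by positivity)
  -- a neighbourhood where `f` vanishes
  set O : Set (G → G → ℝ) := {γ | ∀ z, hb hp.gen z = γ → f.1 z = 0} with hO
  have hOn : ∀ β ∈ B, O ∈ 𝓝 β := by
    intro β hβ
    obtain ⟨O', hO', hsub⟩ := mem_comap.1 (hf.2 β hβ)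
    refine mem_of_superset hO' fun γ hγ z hz => ?_
    exact hsub (show hb hp.gen z ∈ O' by rw [hz]; exact hγ)
  have hfin := phi_off_of hp hA' hA hOn (show 0 < ε / 2 by positivity)
  set E := {x | hb hp.gen x ∉ O ∧ ε / 2 ≤ |phi S A x - A.indicator 1 x|} with hE
  -- pointwise bound
  have hpt : ∀ y, h y ≤ (M • Aᶜ.indicator (1 : G → ℝ) + ((fun _ : G => ε / 2) +
      (E.indicator (1 : G → ℝ) + ((fun _ : G => (1 : ℝ)) - f.1))) : G → ℝ) y := by
    intro y
    have hf1 := (hf.1 y).1
    have hf2 := (hf.1 y).2
    have hEn := ind_nonneg E y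
    simp only [Pi.add_apply, Pi.smul_apply, smul_eq_mul, Pi.sub_apply]
    by_cases hy : y ∈ A
    · rw [indicator_of_notMem (Set.notMem_compl_iff.2 hy), mul_zero, zero_add]
      by_cases hyE : y ∈ E
      · rw [indicator_of_mem hyE]
        have := h1 y
        have := hA'.nonneg hp y
        simp only [Pi.one_apply]
        linarith
      · rw [indicator_of_notMem hyE]
        by_cases hyO : hb hp.gen y ∈ O
        · have h3 : f.1 y = 0 := hyO y rfl
          have := h1 y
          have := hA'.nonneg hp y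
          linarith
        · have h3 : |phi S A y - A.indicator 1 y| < ε / 2 := by
            by_contra hcon
            exact hyE ⟨hyO, not_lt.1 hcon⟩
          rw [indicator_of_mem hy, Pi.one_apply] at h3
          have h4 := (abs_lt.1 h3).1
          have := h1 y
          linarith
    · rw [indicator_of_mem (show y ∈ Aᶜ from hy), Pi.one_apply, mul_one]
      have := hM y
      linarith
  obtain ⟨hc1, hc2⟩ := hA'.compl hp
  have hEconv : ConvB hp.gen E B := convB_of_finite hp.gen hfin B
  have t1 := hc1.tendsto x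
  have t2 := iter_zero_of_conv hp hB hEconv x
  have t3 := iter_tendsto hp f x
  have t : Tendsto (fun n => M * (avg S)^[n] (Aᶜ.indicator 1) x + (ε / 2 +
      ((avg S)^[n] (E.indicator 1) x + (1 - (avg S)^[n] f.1 x)))) atTop
      (𝓝 (M * phi S Aᶜ x + (ε / 2 + (0 + (1 - (HpD hp f).1 x))))) :=
    (t1.const_mul M).add (tendsto_const_nhds.add (t2.add (t3.const_sub 1)))
  have hle : ∀ n, h x ≤ M * (avg S)^[n] (Aᶜ.indicator 1) x + (ε / 2 +
      ((avg S)^[n] (E.indicator 1) x + (1 - (avg S)^[n] f.1 x))) := by
    intro n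
    have := iter_mono (S := S) hpt n x
    rw [iter_harm hh, iter_add, iter_add, iter_add, iter_sub, iter_smul, iter_const hp,
      iter_const hp] at this
    simpa only [Pi.add_apply, Pi.smul_apply, smul_eq_mul, Pi.sub_apply] using this
  have := ge_of_tendsto' t hle
  have h5 := hc2 x
  have h6 : phi S Aᶜ x = 1 - phi S A x := by linarith
  rw [h6] at this
  linarith

/-! ### staying in a set -/

/-- one step of the walk killed outside `U` -/
noncomputable def kil (S : Finset G) (U : Set G) (f : G → ℝ) : G → ℝ := U.indicator (avg S f)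

/-- the probability of staying in `U` forever -/
noncomputable def stay (S : Finset G) (U : Set G) (x : G) : ℝ :=
  ⨅ n : ℕ, (kil S U)^[n] (U.indicator 1) x

theorem kil_mono {U : Set G} {f g : G → ℝ} (h : ∀ x, f x ≤ g x) (x : G) :
    kil S U f x ≤ kil S U g x := by
  unfold kil
  by_cases hx : x ∈ U
  · rw [indicator_of_mem hx, indicator_of_mem hx]; exact avg_mono h x
  · rw [indicator_of_notMem hx, indicator_of_notMem hx]

theorem avg_nonneg {f : G → ℝ} (h : ∀ x, 0 ≤ f x) (x : G) : 0 ≤ avg S f x :=
  div_nonneg (Finset.sum_nonneg fun _ _ => h _) (Nat.cast_nonneg _)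

theorem avg_le_one (hp : HypS S) {f : G → ℝ} (h : ∀ x, f x ≤ 1) (x : G) : avg S f x ≤ 1 := by
  have := avg_mono (S := S) (f := f) (g := fun _ => 1) h x
  rwa [avg_const hp] at this

theorem kil_iter_nonneg (U : Set G) (n : ℕ) (x : G) :
    0 ≤ (kil S U)^[n] (U.indicator 1) x := by
  induction n generalizing x with
  | zero => exact ind_nonneg U x
  | succ n ih =>
    rw [Function.iterate_succ_apply', kil]
    by_cases hx : x ∈ U
    · rw [indicator_of_mem hx]; exact avg_nonneg ih x
    · rw [indicator_of_notMem hx]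

theorem kil_iter_le (hp : HypS S) (U : Set G) (n : ℕ) (x : G) :
    (kil S U)^[n] (U.indicator 1) x ≤ U.indicator 1 x := by
  induction n generalizing x with
  | zero => exact le_rfl
  | succ n ih =>
    rw [Function.iterate_succ_apply', kil]
    by_cases hx : x ∈ U
    · rw [indicator_of_mem hx, indicator_of_mem hx]
      exact avg_le_one hp (fun y => (ih y).trans (ind_le_one U y)) x
    · rw [indicator_of_notMem hx, indicator_of_notMem hx]

theorem kil_iter_anti (hp : HypS S) (U : Set G) (n : ℕ) (x : G) :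
    (kil S U)^[n + 1] (U.indicator 1) x ≤ (kil S U)^[n] (U.indicator 1) x := by
  induction n generalizing x with
  | zero =>
    have := kil_iter_le hp U 1 x
    simpa using this
  | succ n ih =>
    have e1 := Function.iterate_succ_apply' (kil S U) (n + 1) (U.indicator 1)
    have e2 := Function.iterate_succ_apply' (kil S U) n (U.indicator 1)
    rw [e1, congrFun e2 x]
    exact kil_mono ih x

theorem stay_tendsto (hp : HypS S) (U : Set G) (x : G) :
    Tendsto (fun n => (kil S U)^[n] (U.indicator 1) x) atTop (𝓝 (stay S U x)) :=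
  tendsto_atTop_ciInf (antitone_nat_of_succ_le fun n => kil_iter_anti hp U n x)
    ⟨0, by rintro _ ⟨n, rfl⟩; exact kil_iter_nonneg U n x⟩

theorem stay_nonneg (U : Set G) (x : G) : 0 ≤ stay S U x :=
  le_ciInf fun n => kil_iter_nonneg U n x

theorem stay_le (hp : HypS S) (U : Set G) (x : G) : stay S U x ≤ U.indicator 1 x :=
  le_of_tendsto' (stay_tendsto hp U x) fun n => kil_iter_le hp U n x

theorem stay_le_one (hp : HypS S) (U : Set G) (x : G) : stay S U x ≤ 1 :=
  (stay_le hp U x).trans (ind_le_one U x)

theorem stay_of_notMem (hp : HypS S) {U : Set G} {x : G} (hx : x ∉ U) : stay S U x = 0 := by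
  have h := stay_le hp U x
  rw [indicator_of_notMem hx] at h
  exact le_antisymm h (stay_nonneg U x)

/-- `stay` is harmonic inside `U` -/
theorem stay_harm (hp : HypS S) {U : Set G} {x : G} (hx : x ∈ U) :
    stay S U x = avg S (stay S U) x := by
  have h1 : Tendsto (fun n => (kil S U)^[n + 1] (U.indicator 1) x) atTop (𝓝 (stay S U x)) :=
    (stay_tendsto hp U x).comp (tendsto_add_atTop_nat 1)
  have h2 : Tendsto (fun n => (kil S U)^[n + 1] (U.indicator 1) x) atTop
      (𝓝 (avg S (stay S U) x)) := by
    have h3 : Tendsto (fun n => (∑ s ∈ S, (kil S U)^[n] (U.indicator 1) (x * s)) / (S.card : ℝ))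
        atTop (𝓝 ((∑ s ∈ S, stay S U (x * s)) / (S.card : ℝ))) :=
      (tendsto_finsetSum S fun s _ => stay_tendsto hp U (x * s)).div_const _
    refine h3.congr fun n => ?_
    rw [Function.iterate_succ_apply', kil, indicator_of_mem hx]; rfl
  exact tendsto_nhds_unique h1 h2

/-- subharmonic minorants are below `stay` -/
theorem le_stay {U : Set G} {v : G → ℝ} (h1 : ∀ x, v x ≤ U.indicator 1 x)
    (h2 : ∀ x, v x ≤ kil S U v x) (x : G) : v x ≤ stay S U x := by
  have key : ∀ n y, v y ≤ (kil S U)^[n] (U.indicator 1) y := by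
    intro n
    induction n with
    | zero => exact h1
    | succ n ih =>
      intro y
      rw [Function.iterate_succ_apply']
      exact (h2 y).trans (kil_mono ih y)
  exact le_ciInf fun n => key n x

/-- **(STAY)** -/
theorem stay_ge (hp : HypS S) {φ : G → ℝ} (hφ : avg S φ = φ) (h1 : ∀ x, φ x ≤ 1) (x : G) :
    2 * φ x - 1 ≤ stay S {x | 1 / 2 < φ x} x := by
  set U : Set G := {x | 1 / 2 < φ x} with hU
  have hφ' : avg S (fun y => 2 * φ y - 1) = fun y => 2 * φ y - 1 := by
    have e : (fun y => 2 * φ y - 1) = (2 : ℝ) • φ - fun _ => (1 : ℝ) := by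
      funext y; simp [smul_eq_mul]
    rw [e, avg_sub, avg_smul, avg_const hp, hφ]
  refine (le_max_left _ 0).trans (le_stay (v := fun y => max (2 * φ y - 1) 0) ?_ ?_ x)
  · intro y
    by_cases hy : y ∈ U
    · rw [indicator_of_mem hy]
      exact max_le (by have := h1 y; simp only [Pi.one_apply]; linarith) zero_le_one
    · rw [indicator_of_notMem hy]
      have : φ y ≤ 1 / 2 := not_lt.1 hy
      exact max_le (by linarith) le_rfl
  · intro y
    unfold kil
    by_cases hy : y ∈ U
    · rw [indicator_of_mem hy]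
      refine max_le ?_ (avg_nonneg (fun z => le_max_right _ _) y)
      have := avg_mono (S := S) (f := fun y => 2 * φ y - 1) (g := fun y => max (2 * φ y - 1) 0)
        (fun z => le_max_left _ _) y
      rwa [hφ'] at this
    · rw [indicator_of_notMem hy]
      have : φ y ≤ 1 / 2 := not_lt.1 hy
      exact max_le (by linarith) le_rfl

/-- a lower bound of `stay` on the inner boundary layer extends to `U` -/
theorem stay_ge_of_boundary (hp : HypS S) {U : Set G} {c : ℝ} (hc1 : c ≤ 1)
    (hb : ∀ x ∈ U, (∃ s ∈ S, x * s ∉ U) → c ≤ stay S U x) : ∀ x ∈ U, c ≤ stay S U x := by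
  have key : ∀ n, ∀ x ∈ U, c ≤ (kil S U)^[n] (U.indicator 1) x := by
    intro n
    induction n with
    | zero => intro x hx; simp only [Function.iterate_zero, id_eq, indicator_of_mem hx,
        Pi.one_apply]; exact hc1
    | succ n ih =>
      intro x hx
      by_cases hxb : ∃ s ∈ S, x * s ∉ U
      · exact (hb x hx hxb).trans
          (ciInf_le ⟨0, by rintro _ ⟨n, rfl⟩; exact kil_iter_nonneg U n x⟩ _)
      · push Not at hxb
        rw [Function.iterate_succ_apply', kil, indicator_of_mem hx, avg,
          le_div_iff₀ hp.card_pos]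
        have h2 : ∑ s ∈ S, c ≤ ∑ s ∈ S, (kil S U)^[n] (U.indicator 1) (x * s) :=
          Finset.sum_le_sum fun s hs => ih _ (hxb s hs)
        rw [Finset.sum_const, nsmul_eq_mul] at h2
        linarith
  exact fun x hx => le_ciInf fun n => key n x hx

/-- `stay` vanishes on sets without harmonic measure -/
theorem stay_eq_zero (hp : HypS S) {U : Set G} {x : G}
    (h : Tendsto (fun n => (avg S)^[n] (U.indicator 1) x) atTop (𝓝 0)) : stay S U x = 0 := by
  have key : ∀ n y, (kil S U)^[n] (U.indicator 1) y ≤ (avg S)^[n] (U.indicator 1) y := by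
    intro n
    induction n with
    | zero => intro y; exact le_rfl
    | succ n ih =>
      intro y
      rw [Function.iterate_succ_apply', Function.iterate_succ_apply', kil]
      by_cases hy : y ∈ U
      · rw [indicator_of_mem hy]; exact avg_mono ih y
      · rw [indicator_of_notMem hy]
        have := iter_mono (S := S) (ind_nonneg U) (n + 1) y
        rw [iter_const hp, Function.iterate_succ_apply'] at this
        exact this
  exact le_antisymm (le_of_tendsto_of_tendsto' (stay_tendsto hp U x) h fun n => key n x)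
    (stay_nonneg U x)

/-- a Green-type function: superharmonic, at least one on a finite set, vanishing at infinity -/
theorem exists_green (hp : HypS S) {F : Set G} (hF : F.Finite) :
    ∃ w : G → ℝ, (∀ x, 0 ≤ w x) ∧ (∀ x ∈ F, 1 ≤ w x) ∧ (∀ x, avg S w x ≤ w x) ∧
      Tendsto w cofinite (𝓝 0) := by
  classical
  obtain ⟨q, hq0, hq1, hq⟩ := avg_contr hp
  set f : G → ℝ := F.indicator 1 with hf
  have hfs : SqS f := by
    refine summable_of_hasFiniteSupport (hF.subset fun y hy => ?_)
    by_contra hy'
    apply hy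
    show (F.indicator 1 y : ℝ) ^ 2 = 0
    rw [indicator_of_notMem hy']; simp
  have h1 : ∀ n, SqS ((avg S)^[n] f) ∧ ∑' x, (avg S)^[n] f x ^ 2 ≤ q ^ n * ∑' x, f x ^ 2 := by
    intro n
    induction n with
    | zero => exact ⟨hfs, by simp⟩
    | succ n ih =>
      rw [Function.iterate_succ_apply']
      obtain ⟨a1, a2⟩ := hq _ ih.1
      refine ⟨a1, a2.trans ?_⟩
      rw [pow_succ', mul_assoc]
      exact mul_le_mul_of_nonneg_left ih.2 hq0
  set C : ℝ := ∑' x, f x ^ 2 with hC
  have hC0 : 0 ≤ C := tsum_nonneg fun _ => sq_nonneg _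
  have hnn : ∀ n x, 0 ≤ (avg S)^[n] f x := by
    intro n x
    have := iter_mono (S := S) (ind_nonneg F) n x
    rwa [iter_const hp] at this
  have hb : ∀ n x, (avg S)^[n] f x ≤ Real.sqrt q ^ n * Real.sqrt C := by
    intro n x
    have h2 : (avg S)^[n] f x ^ 2 ≤ q ^ n * C :=
      ((h1 n).1.le_tsum x fun _ _ => sq_nonneg _).trans (h1 n).2
    have h3 : (Real.sqrt q ^ n * Real.sqrt C) ^ 2 = q ^ n * C := by
      rw [mul_pow, ← pow_mul, mul_comm n 2, pow_mul, Real.sq_sqrt hq0, Real.sq_sqrt hC0]
    rw [← h3] at h2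
    exact (pow_le_pow_iff_left₀ (hnn n x) (by positivity) two_ne_zero).1 h2
  have hr1 : Real.sqrt q < 1 := by
    rw [Real.sqrt_lt' one_pos]; simpa using hq1
  have hgeo : Summable fun n => Real.sqrt q ^ n * Real.sqrt C :=
    (summable_geometric_of_lt_one (Real.sqrt_nonneg q) hr1).mul_right _
  have hsum : ∀ x, Summable fun n => (avg S)^[n] f x := fun x =>
    Summable.of_nonneg_of_le (fun n => hnn n x) (fun n => hb n x) hgeo
  refine ⟨fun x => ∑' n, (avg S)^[n] f x, fun x => tsum_nonneg fun n => hnn n x, ?_, ?_, ?_⟩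
  · intro x hx
    have := (hsum x).le_tsum 0 fun n _ => hnn n x
    simpa [hf, hx] using this
  · intro x
    have e : avg S (fun x => ∑' n, (avg S)^[n] f x) x = ∑' n, (avg S)^[n + 1] f x := by
      rw [avg]
      rw [← Summable.tsum_finsetSum fun s _ => hsum (x * s)]
      rw [← tsum_div_const]
      refine tsum_congr fun n => ?_
      rw [Function.iterate_succ_apply']; rfl
    rw [e]
    show _ ≤ ∑' n, (avg S)^[n] f x
    rw [(hsum x).tsum_eq_zero_add]
    have := hnn 0 x
    linarith
  · rw [Metric.tendsto_nhds]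
    intro ε hε
    -- uniform tail
    obtain ⟨N, hN⟩ : ∃ N, ∑' n, Real.sqrt q ^ (n + N) * Real.sqrt C < ε / 2 := by
      have := tendsto_sum_nat_add fun n => Real.sqrt q ^ n * Real.sqrt C
      exact ((this.eventually_lt_const (show 0 < ε / 2 by positivity))).exists
    have hfinN : Tendsto (fun x => ∑ n ∈ Finset.range N, (avg S)^[n] f x) cofinite (𝓝 0) := by
      have : Tendsto (fun x => ∑ n ∈ Finset.range N, (avg S)^[n] f x) cofinite
          (𝓝 (∑ n ∈ Finset.range N, (0 : ℝ))) :=
        tendsto_finsetSum _ fun n _ => sqS_tendsto (h1 n).1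
      simpa using this
    filter_upwards [(Metric.tendsto_nhds.1 hfinN) (ε / 2) (by positivity)] with x hx
    rw [Real.dist_eq, sub_zero] at hx ⊢
    have h4 : ∑' n, (avg S)^[n] f x = ∑ n ∈ Finset.range N, (avg S)^[n] f x +
        ∑' n, (avg S)^[n + N] f x := ((hsum x).sum_add_tsum_nat_add N).symm
    have h5 : ∑' n, (avg S)^[n + N] f x ≤ ∑' n, Real.sqrt q ^ (n + N) * Real.sqrt C :=
      ((summable_nat_add_iff N).2 (hsum x)).tsum_le_tsum (fun n => hb (n + N) x)
        ((summable_nat_add_iff N).2 hgeo)
    have h6 : 0 ≤ ∑' n, (avg S)^[n + N] f x := tsum_nonneg fun n => hnn _ x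
    have h7 : 0 ≤ ∑ n ∈ Finset.range N, (avg S)^[n] f x := Finset.sum_nonneg fun n _ => hnn n x
    rw [h4, abs_of_nonneg (by positivity)]
    rw [abs_of_nonneg h7] at hx
    linarith

/-- restriction of `stay` to a subset with finite relative boundary -/
theorem stay_restrict (hp : HypS S) {U U' F : Set G} {w : G → ℝ} (hU : U' ⊆ U)
    (hF : ∀ x ∈ U', x ∉ F → ∀ s ∈ S, x * s ∈ U → x * s ∈ U') (hw0 : ∀ x, 0 ≤ w x)
    (hw1 : ∀ x ∈ F, 1 ≤ w x) (hw2 : ∀ x, avg S w x ≤ w x) {x : G} (hx : x ∈ U') :
    stay S U x - w x ≤ stay S U' x := by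
  classical
  set k : G → ℝ := U'.indicator (fun y => stay S U y - w y) with hk
  have hle : ∀ y, avg S k y ≤ avg S (fun y => max (k y) 0) y := avg_mono fun y => le_max_left _ _
  have key := le_stay (S := S) (U := U') (v := fun y => max (k y) 0) (fun y => ?_) (fun y => ?_) x
  · refine le_trans ?_ key
    refine le_trans (le_of_eq ?_) (le_max_left _ _)
    rw [hk, indicator_of_mem hx]
  · by_cases hy : y ∈ U'
    · rw [indicator_of_mem hy, hk]
      simp only [indicator_of_mem hy, Pi.one_apply]
      exact max_le (by have := stay_le_one hp U y; have := hw0 y; linarith) zero_le_one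
    · rw [indicator_of_notMem hy, hk]
      simp only [indicator_of_notMem hy, max_self, le_refl]
  · unfold kil
    by_cases hy : y ∈ U'
    · rw [indicator_of_mem hy]
      refine max_le ?_ (avg_nonneg (fun z => le_max_right _ _) y)
      by_cases hyF : y ∈ F
      · refine le_trans ?_ (avg_nonneg (fun z => le_max_right _ _) y)
        rw [hk, indicator_of_mem hy]
        have := stay_le_one hp U y
        have := hw1 y hyF
        linarith
      · refine le_trans ?_ (hle y)
        rw [hk, indicator_of_mem hy, stay_harm hp (hU hy)]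
        have h1 : avg S (stay S U) y - avg S w y ≤ avg S k y := by
          rw [avg, avg, avg, ← sub_div, ← Finset.sum_sub_distrib]
          refine div_le_div_of_nonneg_right (Finset.sum_le_sum fun s hs => ?_) (Nat.cast_nonneg _)
          by_cases h2 : y * s ∈ U'
          · rw [hk, indicator_of_mem h2]
          · have h3 : y * s ∉ U := fun h => h2 (hF y hy hyF s hs h)
            rw [hk, indicator_of_notMem h2, stay_of_notMem hp h3]
            linarith [hw0 (y * s)]
        have h2 := hw2 y
        simp only [hk] at h1 ⊢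
        linarith
    · rw [indicator_of_notMem hy, hk]
      simp only [indicator_of_notMem hy, max_self, le_refl]

/-- **(ONE)** In a set where `stay` is bounded below, a subset with finite relative boundary and
without harmonic measure is finite. -/
theorem finite_of_stay (hp : HypS S) {U U' F : Set G} {c : ℝ} (hc : 0 < c)
    (hst : ∀ x ∈ U, c ≤ stay S U x) (hU : U' ⊆ U) (hFf : F.Finite)
    (hF : ∀ x ∈ U', x ∉ F → ∀ s ∈ S, x * s ∈ U → x * s ∈ U')
    (h0 : ∀ x, Tendsto (fun n => (avg S)^[n] (U'.indicator 1) x) atTop (𝓝 0)) : U'.Finite := by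
  obtain ⟨w, hw0, hw1, hw2, hw3⟩ := exists_green hp hFf
  have h1 : ∀ x ∈ U', c ≤ w x := by
    intro x hx
    have h2 := stay_restrict hp hU hF hw0 hw1 hw2 hx
    rw [stay_eq_zero hp (h0 x)] at h2
    have := hst x (hU hx)
    linarith
  have h2 := (Metric.tendsto_nhds.1 hw3) c hc
  rw [eventually_cofinite] at h2
  refine h2.subset fun x hx => ?_
  have h3 := h1 x hx
  simp only [mem_ofPred_eq, Real.dist_eq, sub_zero, not_lt]
  exact h3.trans (le_abs_self _)

end Vale.Agent.P239.F
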