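import Vale.Agent.P239.F.C0Def

/-! Neighbourhood filters of points. -/

namespace Vale.Agent.P239.F.N

open Filter Topology Set
open Vale.Agent.P239 Vale.Agent.P239.F

variable {G : Type*} [Group G] {S T : Finset G}

variable (hS : Subgroup.closure (S : Set G) = ⊤)

/-- The trace on `G` of the punctured neighbourhoods of the point `β`. -/
noncomputable def nf (β : G → G → ℝ) : Filter G := cofinite ⊓ comap (hb hS) (𝓝 β)

theorem mem_nf {β : G → G → ℝ} {A : Set G} :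
    A ∈ nf hS β ↔ ∃ O ∈ 𝓝 β, {x | hb hS x ∈ O ∧ x ∉ A}.Finite := by
  unfold nf
  rw [mem_inf_iff_superset]
  constructor
  · rintro ⟨U, hU, V, ⟨O, hO, hOV⟩, hUV⟩
    refine ⟨O, hO, (mem_cofinite.1 hU).subset ?_⟩
    rintro x ⟨hx, hxA⟩ hxU
    exact hxA (hUV ⟨hxU, hOV hx⟩)
  · rintro ⟨O, hO, hfin⟩
    refine ⟨{x | hb hS x ∈ O ∧ x ∉ A}ᶜ, hfin.compl_mem_cofinite, hb hS ⁻¹' O,
      preimage_mem_comap hO, ?_⟩
    rintro x ⟨h1, h2⟩
    by_contra h3
    exact h1 ⟨h2, h3⟩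

theorem conv_iff {A : Set G} {β : G → G → ℝ} :
    Conv hS A β ↔ ∀ O ∈ 𝓝 β, {x | x ∈ A ∧ hb hS x ∉ O}.Finite := by
  unfold Conv
  rw [tendsto_def]
  refine forall₂_congr fun O _ => ?_
  rw [mem_inf_principal, mem_cofinite]
  refine iff_of_eq (congrArg Set.Finite ?_)
  ext x
  simp

theorem mem_lim {A : Set G} {β : G → G → ℝ} :
    β ∈ Lim hS A ↔ ∀ O ∈ 𝓝 β, {x | x ∈ A ∧ hb hS x ∈ O}.Infinite := by
  unfold Lim
  rw [Set.mem_ofPred_eq, mapClusterPt_iff_frequently]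
  refine forall₂_congr fun O _ => ?_
  rw [frequently_inf_principal, frequently_cofinite_iff_infinite]

theorem conv_iff_lim {A : Set G} {β : G → G → ℝ} : β ∉ Lim hS A ↔ Aᶜ ∈ nf hS β := by
  rw [mem_lim, mem_nf]
  push Not
  refine exists_congr fun O => and_congr_right fun _ => ?_
  refine iff_of_eq (congrArg Set.Finite ?_)
  ext x
  simp [and_comm]

theorem _root_.Vale.Agent.P239.F.Conv.mono {A B : Set G} {β : G → G → ℝ} (h : Conv hS B β) (hAB : A ⊆ B) : Conv hS A β :=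
  Tendsto.mono_left h (inf_le_inf_left _ (principal_mono.2 hAB))

theorem _root_.Vale.Agent.P239.F.Conv.of_finite {A : Set G} (hA : A.Finite) (β : G → G → ℝ) : Conv hS A β := by
  rw [conv_iff]
  intro O _
  exact hA.subset fun x hx => hx.1

theorem _root_.Vale.Agent.P239.F.Conv.union {A B : Set G} {β : G → G → ℝ} (hA : Conv hS A β) (hB : Conv hS B β) :
    Conv hS (A ∪ B) β := by
  rw [conv_iff] at *
  intro O hO
  refine ((hA O hO).union (hB O hO)).subset ?_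
  rintro x ⟨h | h, h2⟩
  · exact Or.inl ⟨h, h2⟩
  · exact Or.inr ⟨h, h2⟩

theorem nf_cofinite {A : Set G} (hA : Aᶜ.Finite) (β : G → G → ℝ) : A ∈ nf hS β := by
  rw [mem_nf]
  exact ⟨univ, univ_mem, hA.subset fun x hx => hx.2⟩

theorem _root_.Vale.Agent.P239.F.Conv.compl_mem {A : Set G} {β β' : G → G → ℝ} (hA : Conv hS A β) (hne : β ≠ β') :
    Aᶜ ∈ nf hS β' := by
  obtain ⟨O, O', hO, hO', h1, h2, hd⟩ := t2_separation hne
  rw [conv_iff] at hA
  rw [mem_nf]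
  refine ⟨O', hO'.mem_nhds h2, (hA O (hO.mem_nhds h1)).subset ?_⟩
  rintro x ⟨hx, hxA⟩
  refine ⟨not_not.1 hxA, fun hxO => ?_⟩
  exact Set.disjoint_left.1 hd hxO hx

/-- A set converging to `β` is finite away from `β`. -/
theorem _root_.Vale.Agent.P239.F.Conv.finite_inter {A B : Set G} {β : G → G → ℝ} (hA : Conv hS A β) (hB : Bᶜ ∈ nf hS β) :
    (A ∩ B).Finite := by
  rw [conv_iff] at hA
  rw [mem_nf] at hB
  obtain ⟨O, hO, h1⟩ := hB
  refine ((hA O hO).union h1).subset ?_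
  rintro x ⟨hxA, hxB⟩
  by_cases hx : hb hS x ∈ O
  · exact Or.inr ⟨hx, fun h => h hxB⟩
  · exact Or.inl ⟨hxA, hx⟩

end Vale.Agent.P239.F.N
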