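import Vale.Agent.P239.F.C0h
import Vale.Agent.P239.S.Depth

/-!
Depth of the canonical sets and of the complements of increasing unions of canonical sets.
-/

namespace Vale.Agent.P239.F.H

open Filter Topology Set
open Vale.Agent.P239 Vale.Agent.P239.F
open scoped RealInnerProductSpace

variable {G : Type*} [Group G] {S : Finset G}

/-- a harmonic function with supremum one is close to one on neighbourhoods of infinite connected
sets -/
theorem depth_c (hp : HypS S) {φ : G → ℝ} (hφ : avg S φ = φ) (h1 : ∀ x, φ x ≤ 1)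
    (hsup : ∀ ε > 0, ∃ x, 1 - ε < φ x) (N : Finset G) {c : ℝ} (hc : c < 1) :
    ∃ K : Set G, K.Infinite ∧ (∀ x ∈ K, ∀ y ∈ K, Con S K x y) ∧
      ∀ x ∈ K, ∀ k ∈ N, c < φ (x * k) := by
  have := hp.inf
  obtain ⟨C, hC, hC'⟩ := P239.S.harnack_finset hp.gen hp.symS N
  have hc' : 0 < 1 - c := by linarith
  have hh := harm_of_avg_eq hp hφ
  obtain ⟨x, hx⟩ := hsup ((1 - c) / C) (by positivity)
  refine ⟨{y | Con S {u | 1 - (1 - c) / C < φ u} x y},
    P239.S.comp_infinite hp.gen hp.symS φ hh hx, fun y hy z hz => P239.S.con_comp hy hz,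
    fun y hy f hf => ?_⟩
  have hy' : 1 - (1 - c) / C < φ y := by
    induction hy with
    | refl => exact hx
    | tail _ h _ => exact h.2.1
  have h2 := hC' (fun x => 1 - φ x) (fun x => by linarith [h1 x]) (fun x => by
    have := hh x
    rw [← neg_eq_zero, ← Finset.sum_neg_distrib]
    rw [← this]
    exact Finset.sum_congr rfl fun s _ => by ring) y f hf
  have h3 : C * (1 - φ y) < 1 - c := by
    have : 1 - φ y < (1 - c) / C := by linarith
    calc C * (1 - φ y) < C * ((1 - c) / C) := mul_lt_mul_of_pos_left this hC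
      _ = 1 - c := by field_simp
  linarith

theorem bd_compl (A : Set G) : bd S Aᶜ = bd S A := by
  ext x
  unfold bd
  simp only [mem_ofPred_eq, mem_compl_iff]
  refine exists_congr fun y => and_congr_right fun _ => ?_
  tauto

/-- the infimum of a decreasing sequence of harmonic functions of cuts, if positive somewhere, has
supremum one -/
theorem inf_one (hp : HypS S) {A : ℕ → Set G} {B : ℕ → Finset (G → G → ℝ)}
    (hB : ∀ k, NB hp (B k)) (hphi : ∀ k, HasPhi S (A k))
    (hcut : ∀ k, ConvB hp.gen (bd S (A k)) (B k))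
    (hanti : ∀ k x, phi S (A (k + 1)) x ≤ phi S (A k) x) {y : G}
    (hy : 0 < ⨅ k, phi S (A k) y) :
    avg S (fun x => ⨅ k, phi S (A k) x) = (fun x => ⨅ k, phi S (A k) x) ∧
      (∀ x, 0 ≤ ⨅ k, phi S (A k) x) ∧ (∀ k x, (⨅ k, phi S (A k) x) ≤ phi S (A k) x) ∧
      ∀ ε > 0, ∃ x, 1 - ε < ⨅ k, phi S (A k) x := by
  have hbdd : ∀ x, BddBelow (Set.range fun k => phi S (A k) x) := fun x =>
    ⟨0, by rintro _ ⟨k, rfl⟩; exact (hphi k).nonneg hp x⟩
  have hlim : ∀ x, Tendsto (fun k => phi S (A k) x) atTop (𝓝 (⨅ k, phi S (A k) x)) := fun x =>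
    tendsto_atTop_ciInf (antitone_nat_of_succ_le fun k => hanti k x) (hbdd x)
  set ψ : G → ℝ := fun x => ⨅ k, phi S (A k) x with hψ
  have hψle : ∀ k x, ψ x ≤ phi S (A k) x := fun k x => ciInf_le (hbdd x) k
  have hψ0 : ∀ x, 0 ≤ ψ x := fun x => le_ciInf fun k => (hphi k).nonneg hp x
  have hψ1 : ∀ x, ψ x ≤ 1 := fun x => (hψle 0 x).trans ((hphi 0).le_one hp x)
  have hψh : avg S ψ = ψ := by
    funext x
    have t1 : Tendsto (fun k => avg S (phi S (A k)) x) atTop (𝓝 (avg S ψ x)) :=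
      (tendsto_finsetSum S fun s _ => hlim (x * s)).div_const _
    refine tendsto_nhds_unique t1 ((hlim x).congr fun k => ?_)
    rw [(hphi k).harm]
  set M : ℝ := ⨆ x, ψ x with hM
  have hMb : BddAbove (Set.range ψ) := ⟨1, by rintro _ ⟨x, rfl⟩; exact hψ1 x⟩
  have hle : ∀ x, ψ x ≤ M := fun x => le_ciSup hMb x
  have hkey : ∀ x, ψ x ≤ M * ψ x := by
    intro x
    have t : Tendsto (fun k => M * phi S (A k) x) atTop (𝓝 (M * ψ x)) := (hlim x).const_mul M
    refine ge_of_tendsto' t fun k => ?_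
    obtain ⟨hc1, hc2⟩ := (hphi k).compl hp
    have e : ∀ z, 1 - phi S (A k)ᶜ z = phi S (A k) z := fun z => by linarith [hc2 z]
    have := dom_of hp (hB k) hc1 (by rw [bd_compl]; exact hcut k) hψh hψ0 hle
      (fun z => by rw [e z]; exact hψle k z) x
    rwa [e x] at this
  have hM1 : 1 ≤ M := by
    have := hkey y
    have hy' : 0 < ψ y := hy
    nlinarith
  refine ⟨hψh, hψ0, hψle, fun ε hε => ?_⟩
  exact exists_lt_of_lt_ciSup (show 1 - ε < M by linarith)

/-- depth of the complement of an increasing union of canonical sets: all `phi (A k)` are above `c`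
on a neighbourhood of an infinite connected set -/
theorem depth_inf (hp : HypS S) {A : ℕ → Set G} {B : ℕ → Finset (G → G → ℝ)}
    (hB : ∀ k, NB hp (B k)) (hphi : ∀ k, HasPhi S (A k))
    (hcut : ∀ k, ConvB hp.gen (bd S (A k)) (B k))
    (hanti : ∀ k x, phi S (A (k + 1)) x ≤ phi S (A k) x) {y : G} {r : ℝ} (hr : 0 < r)
    (hy : ∀ k, r ≤ phi S (A k) y) (N : Finset G) {c : ℝ} (hc : c < 1) :
    ∃ K : Set G, K.Infinite ∧ (∀ x ∈ K, ∀ y ∈ K, Con S K x y) ∧
      ∀ x ∈ K, ∀ f ∈ N, ∀ k, c < phi S (A k) (x * f) := by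
  obtain ⟨h1, h2, h3, h4⟩ := inf_one hp hB hphi hcut hanti
    (lt_of_lt_of_le hr (le_ciInf hy))
  obtain ⟨K, hK, hK', hK''⟩ := depth_c hp h1 (fun x => (h3 0 x).trans ((hphi 0).le_one hp x)) h4 N hc
  exact ⟨K, hK, hK', fun x hx f hf k => (hK'' x hx f hf).trans_le (h3 k _)⟩

end Vale.Agent.P239.F.H
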