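import Vale.Agent.P239.F.C0Def

/-!
Module C, second half (C4-C7): definitions and the list `CIn` of everything that is taken from the
modules D, C0-C3 and B.
-/

namespace Vale.Agent.P239.F

open Filter Topology Set
open Vale.Agent.P239
open scoped Pointwise

variable {G : Type*} [Group G] {S : Finset G} (hS : Subgroup.closure (S : Set G) = ⊤)

/-- centres of nontrivial cuts -/
def Cent : Set (G → G → ℝ) := {c | ∃ A : Set G, IsCut hS A c ∧ Nontriv hS A c}

/-- directed edges at scale `M` crossed by a nontrivial cut with centre `c` -/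
def Ec (M : Finset G) (c : G → G → ℝ) : Set (G × G) :=
  {e | e.1⁻¹ * e.2 ∈ M ∧ ∃ A : Set G, IsCut hS A c ∧ Nontriv hS A c ∧ e.1 ∈ HH S A ∧ e.2 ∉ HH S A}

/-- endpoints of the crossed edges -/
def Vc (M : Finset G) (c : G → G → ℝ) : Set G :=
  {x | ∃ y, (x, y) ∈ Ec hS M c ∨ (y, x) ∈ Ec hS M c}

/-- stabilizer of a point, as a set -/
def Stb (c : G → G → ℝ) : Set G := {g | act g c = c}

/-- the atom at `c` containing `G` near the point `p` -/
def Kp (c p : G → G → ℝ) : Set G :=
  {x | ∀ A : Set G, IsCut hS A c → Nontriv hS A c → (x ∈ HH S A ↔ p ∈ Lim hS (HH S A))}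

/-- its canonical set -/
noncomputable def Hp (c p : G → G → ℝ) : Set G := HH S (Kp hS c p)

/-- Everything used from the other modules. -/
structure CIn (T : Finset G) : Prop where
  hyp : Hyp S T
  /-- compactness -/
  lim_nonempty : ∀ A : Set G, A.Infinite → (Lim hS A).Nonempty
  conv_iff : ∀ (A : Set G) (β : G → G → ℝ), Conv hS A β ↔ ∀ β' ∈ Lim hS A, β' = β
  /-- ultrafilter limits of vertices exist -/
  exists_lim : ∀ (U : Ultrafilter G) (k : G → G), ∃ β, Tendsto (fun n => hb hS (k n)) U (𝓝 β)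
  /-- ultrafilter limits of points exist and are points -/
  exists_limP : ∀ (U : Ultrafilter G) (q : G → G → G → ℝ), (∀ n, q n ∈ Lim hS univ) →
    ∃ β ∈ Lim hS univ, Tendsto q U (𝓝 β)
  /-- points are not vertices -/
  ne_hb : ∀ β ∈ Lim hS univ, ∀ z : G, β ≠ hb hS z
  /-- bounded changes on the right do not change limits -/
  shift : ∀ (U : Ultrafilter G) (k : G → G) (β : G → G → ℝ) (s : G), Tendsto k U cofinite →
    Tendsto (fun n => hb hS (k n)) U (𝓝 β) → Tendsto (fun n => hb hS (k n * s)) U (𝓝 β)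
  /-- `act g` is compatible with `hb` -/
  act_hb : ∀ g z : G, act g (hb hS z) = hb hS (g * z)
  /-- a set whose boundary does not accumulate at `β` is constant near `β` -/
  const_near : ∀ β ∈ Lim hS univ, ∀ A : Set G, β ∉ Lim hS (bd S A) →
    β ∉ Lim hS A ∨ β ∉ Lim hS Aᶜ
  /-- convergence property on vertices -/
  cvg : ∀ (U : Ultrafilter G) (k w : G → G) (x y q : G → G → ℝ), Tendsto k U cofinite →
    Tendsto (fun n => hb hS (k n)) U (𝓝 x) → Tendsto (fun n => hb hS (k n)⁻¹) U (𝓝 y) →
    Tendsto (fun n => hb hS (w n)) U (𝓝 q) → q ≠ y →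
    Tendsto (fun n => hb hS (k n * w n)) U (𝓝 x)
  /-- convergence property on points -/
  cvgP : ∀ (U : Ultrafilter G) (k : G → G) (p : G → G → G → ℝ) (x y q : G → G → ℝ),
    Tendsto k U cofinite → (∀ n, p n ∈ Lim hS univ) →
    Tendsto (fun n => hb hS (k n)) U (𝓝 x) → Tendsto (fun n => hb hS (k n)⁻¹) U (𝓝 y) →
    Tendsto p U (𝓝 q) → q ≠ y →
    Tendsto (fun n => act (k n) (p n)) U (𝓝 x)
  /-- for a point of finite type `k_n → x` implies `k_n c → x` -/
  fin_act : ∀ (U : Ultrafilter G) (k : G → G) (c x : G → G → ℝ), c ∈ Lim hS univ → IsFin hS c →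
    Tendsto k U cofinite → Tendsto (fun n => hb hS (k n)) U (𝓝 x) →
    Tendsto (fun n => act (k n) c) U (𝓝 x)
  /-- (CM): if `g` has the two limit points `a ≠ b` and `s` fixes `b` then `s` fixes `a` -/
  cm : ∀ (g s : G) (a b : G → G → ℝ), a ∈ Lim hS univ → b ∈ Lim hS univ → a ≠ b →
    Tendsto (fun n : ℕ => hb hS (g ^ n)) atTop (𝓝 a) →
    Tendsto (fun n : ℕ => hb hS (g⁻¹ ^ n)) atTop (𝓝 b) → act s b = b → act s a = a
  /-- all orbits of points are infinite -/
  orb : ∀ β ∈ Lim hS univ, (range fun g : G => act g β).Infinite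
  /-- there are at least two points -/
  two : ∃ β ∈ Lim hS univ, ∃ β' ∈ Lim hS univ, β ≠ β'
  /-- canonical sets: equivariance -/
  HH_smul : ∀ (g : G) (A : Set G), HH S (g • A) = g • HH S A
  /-- the canonical set of a cut differs from it only near the centre -/
  HH_near : ∀ (A : Set G) (β : G → G → ℝ), IsCut hS A β → Conv hS (symmDiff (HH S A) A) β
  /-- monotonicity and insensitivity to sets converging to the centre -/
  HH_mono : ∀ (A B : Set G) (β : G → G → ℝ), IsCut hS A β → IsCut hS B β →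
    Conv hS (A \ B) β → HH S A ⊆ HH S B
  /-- disjoint cuts have disjoint canonical sets -/
  HH_disj : ∀ (A B : Set G) (β : G → G → ℝ), IsCut hS A β → IsCut hS B β →
    Conv hS (A ∩ B) β → Disjoint (HH S A) (HH S B)
  /-- a union of components of the canonical set does not converge to the centre -/
  HH_comp : ∀ (A C : Set G) (β : G → G → ℝ), IsCut hS A β → C ⊆ HH S A → C.Nonempty →
    (∀ x ∈ C, ∀ y ∈ HH S A, Adj S x y → y ∈ C) → ¬ Conv hS C β
  /-- stay lemma: if finitely many elements translate the boundary vertices of `HH S A` to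
  finitely many vertices keeping `HH S A`, then a subset with finite boundary inside `HH S A`
  converging to the centre is finite -/
  HH_stay : ∀ (A C : Set G) (β : G → G → ℝ) (F : Set G), IsCut hS A β → F.Finite →
    (∀ x ∈ HH S A, x ∈ bd S (HH S A) → ∃ g : G, g • HH S A = HH S A ∧ g * x ∈ F) →
    C ⊆ HH S A → {x | x ∈ C ∧ ∃ y ∈ HH S A \ C, Adj S x y}.Finite → Conv hS C β → C.Finite
  /-- exact nestedness for different centres -/
  nest : ∀ (A B : Set G) (c d : G → G → ℝ), IsCut hS A c → Nontriv hS A c → IsCut hS B d →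
    Nontriv hS B d → c ≠ d → HH S A ⊆ HH S B ∨ HH S B ⊆ HH S A ∨ Disjoint (HH S A) (HH S B) ∨
      HH S A ∪ HH S B = univ
  /-- discreteness (module B) -/
  fin : ∀ x y : G, x⁻¹ * y ∈ S → {c | (x, y) ∈ Ec hS S c}.Finite

end Vale.Agent.P239.F
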