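import Vale.Agent.P239.F.Base
import Vale.Agent.P239.F.Area

/-!
Horofunctions, compactness and the convergence property.
-/

namespace Vale.Agent.P239.F

open Filter Topology Set
open Vale.Agent.P239
open scoped RealInnerProductSpace

variable {G : Type*} [Group G] {S : Finset G} (hS : Subgroup.closure (S : Set G) = ⊤)

/-- Horofunctions in terms of potentials. -/
theorem hb_eq (z a b : G) : hb hS z a b = res hS 1 a - res hS 1 b -
    2 * (((pot hS a).1 z - (pot hS a).1 1) - ((pot hS b).1 z - (pot hS b).1 1)) := by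
  rw [hb, res_eq, res_eq, res_one, res_one, gp_eq hS a z, gp_eq hS b z]
  ring

/-- Differences of potentials in terms of horofunctions. -/
theorem pot_sub_eq (z a b : G) : (pot hS a - pot hS b).1 z = (pot hS a - pot hS b).1 1 +
    (res hS 1 a - res hS 1 b - hb hS z a b) / 2 := by
  rw [hb_eq]
  change (pot hS a).1 z - (pot hS b).1 z = (pot hS a).1 1 - (pot hS b).1 1 + _
  ring

theorem abs_hb_le (z a b : G) : |hb hS z a b| ≤ res hS a b := by
  rw [hb, abs_le]
  have h1 := res_triangle hS a b z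
  have h2 := res_triangle hS b a z
  rw [res_comm hS b a] at h2
  constructor <;> linarith

theorem hb_anti (z a b : G) : hb hS z a b = - hb hS z b a := by
  rw [hb, hb]; ring

theorem act_hb (g z : G) : act g (hb hS z) = hb hS (g * z) := by
  funext x y
  simp only [act, hb]
  have h : ∀ x, res hS (g⁻¹ * x) z = res hS x (g * z) := by
    intro x
    rw [← res_mul hS g, mul_inv_cancel_left]
  rw [h, h]

theorem act_act (g h : G) (β : G → G → ℝ) : act g (act h β) = act (g * h) β := by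
  funext x y
  simp only [act, mul_inv_rev, mul_assoc]

theorem act_one (β : G → G → ℝ) : act 1 β = β := by
  funext x y
  simp only [act, inv_one, one_mul]

theorem continuous_act (g : G) : Continuous (act (G := G) g) :=
  continuous_pi fun x => continuous_pi fun y =>
    (continuous_apply (g⁻¹ * y)).comp (continuous_apply (g⁻¹ * x))

/-- The compact box containing all horofunctions. -/
theorem exists_lim_ultra {ι : Type*} (U : Ultrafilter ι) (z : ι → G → G → ℝ)
    (hz : ∀ i, ∀ a b, |z i a b| ≤ res hS a b) :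
    ∃ β : G → G → ℝ, Tendsto z U (𝓝 β) := by
  have hc : IsCompact (Set.pi univ fun a : G => Set.pi univ fun b : G =>
      Set.Icc (-(res hS a b)) (res hS a b)) :=
    isCompact_univ_pi fun a => isCompact_univ_pi fun b => isCompact_Icc
  obtain ⟨β, _, hβ⟩ := hc.ultrafilter_le_nhds (U.map z) (by
    rw [le_principal_iff]
    refine Ultrafilter.mem_map.2 (Filter.univ_mem' fun i => ?_)
    intro a _ b _
    exact abs_le.1 (hz i a b))
  exact ⟨β, hβ⟩

omit [Group G] in
theorem continuous_ev (a b : G) : Continuous fun β : G → G → ℝ => β a b :=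
  (continuous_apply b).comp (continuous_apply a)

theorem closure_abs_le {β : G → G → ℝ} (hβ : β ∈ closure (range (hb hS))) (a b : G) :
    |β a b| ≤ res hS a b := by
  have hcl : IsClosed {β : G → G → ℝ | |β a b| ≤ res hS a b} :=
    isClosed_le (continuous_abs.comp ((continuous_apply b).comp (continuous_apply a)))
      continuous_const
  have hsub : range (hb hS) ⊆ {β : G → G → ℝ | |β a b| ≤ res hS a b} := by
    rintro _ ⟨z, rfl⟩
    exact abs_hb_le hS z a b
  exact closure_minimal hsub hcl hβ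

theorem act_mem_closure (g : G) {β : G → G → ℝ} (hβ : β ∈ closure (range (hb hS))) :
    act g β ∈ closure (range (hb hS)) := by
  have h := mem_closure_image (f := act g) (continuous_act g).continuousAt hβ
  refine closure_mono ?_ h
  rintro _ ⟨_, ⟨z, rfl⟩, rfl⟩
  exact ⟨g * z, (act_hb hS g z).symm⟩

omit [Group G] in
theorem tendsto_val {ι : Type*} {l : Filter ι} {β : ι → G → G → ℝ} {x : G → G → ℝ} :
    Tendsto β l (𝓝 x) ↔ ∀ a b, Tendsto (fun i => β i a b) l (𝓝 (x a b)) := by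
  rw [tendsto_pi_nhds]
  exact forall_congr' fun a => tendsto_pi_nhds

/-- Right translation does not change limits. -/
theorem tendsto_hb_mul {ι : Type*} {l : Filter ι} {k : ι → G} (hk : Tendsto k l cofinite)
    {x : G → G → ℝ} (hx : Tendsto (fun i => hb hS (k i)) l (𝓝 x)) (q : G) :
    Tendsto (fun i => hb hS (k i * q)) l (𝓝 x) := by
  rw [tendsto_val] at hx ⊢
  intro a b
  have h1 : ∀ k : G, hb hS (k * q) a b = hb hS k a b -
      2 * en S (trD k (pot hS q)) (pot hS a - pot hS b) := by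
    intro k
    have hp : IsPot (k * q) k (trD k (pot hS q)) := by
      have := (pot_isPot hS q).trans k
      rwa [mul_one] at this
    rw [hp, pot_sub_eq hS (k * q), pot_sub_eq hS k]
    ring
  have h2 := (tendsto_inner_trD (pot hS q) (grad S (pot hS a - pot hS b))).comp hk
  have h3 := (hx a b).sub (h2.const_mul 2)
  rw [mul_zero, sub_zero] at h3
  refine h3.congr fun i => ?_
  rw [h1]; rfl

theorem closure_anti {β : G → G → ℝ} (hβ : β ∈ closure (range (hb hS))) (a b : G) :
    β a b = - β b a := by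
  have hcl : IsClosed {β : G → G → ℝ | β a b = - β b a} :=
    isClosed_eq (continuous_ev a b) (continuous_ev b a).neg
  have hsub : range (hb hS) ⊆ {β : G → G → ℝ | β a b = - β b a} := by
    rintro _ ⟨z, rfl⟩
    exact hb_anti hS z a b
  exact closure_minimal hsub hcl hβ

/-- Different points are separated by a potential. -/
theorem exists_lt_of_ne {p q : G → G → ℝ} (hp : p ∈ closure (range (hb hS)))
    (hq : q ∈ closure (range (hb hS))) (hpq : p ≠ q) : ∃ a b, p a b < q a b := by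
  by_contra hc
  push Not at hc
  apply hpq
  funext a b
  refine le_antisymm ?_ (hc a b)
  have := hc b a
  rw [closure_anti hS hp b a, closure_anti hS hq b a] at this
  linarith

/-- The convergence property. -/
theorem conv_prop [Countable G] {F : Finset G} (hF : CrossProp S F) {ι : Type*} {l : Filter ι}
    {k : ι → G} (hk : Tendsto k l cofinite) {x y b : G → G → ℝ}
    (hx : Tendsto (fun i => hb hS (k i)) l (𝓝 x))
    (hy : Tendsto (fun i => hb hS (k i)⁻¹) l (𝓝 y)) {β : ι → G → G → ℝ}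
    (hβ : ∀ i, β i ∈ closure (range (hb hS))) (hb' : Tendsto β l (𝓝 b)) (hne : b ≠ y) :
    Tendsto (fun i => act (k i) (β i)) l (𝓝 x) := by
  rw [tendsto_iff_ultrafilter]
  intro U hU
  have hk := hk.mono_left hU
  have hx := hx.mono_left hU
  have hy := hy.mono_left hU
  have hb' := hb'.mono_left hU
  obtain ⟨x', hx'⟩ := exists_lim_ultra hS U (fun i => act (k i) (β i))
    (fun i => closure_abs_le hS (act_mem_closure hS _ (hβ i)))
  suffices h : x' = x by
    rw [← h]; exact hx'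
  by_contra hxx
  have hxc : x ∈ closure (range (hb hS)) :=
    mem_closure_of_tendsto hx (Eventually.of_forall fun i => ⟨k i, rfl⟩)
  have hyc : y ∈ closure (range (hb hS)) :=
    mem_closure_of_tendsto hy (Eventually.of_forall fun i => ⟨(k i)⁻¹, rfl⟩)
  have hbc : b ∈ closure (range (hb hS)) := by
    have := mem_closure_of_tendsto hb' (Eventually.of_forall hβ)
    rwa [closure_closure] at this
  have hxc' : x' ∈ closure (range (hb hS)) := by
    have := mem_closure_of_tendsto hx' (Eventually.of_forall fun i => act_mem_closure hS (k i) (hβ i))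
    rwa [closure_closure] at this
  obtain ⟨a₁, b₁, h₁⟩ := exists_lt_of_ne hS hbc hyc hne
  obtain ⟨a₂, b₂, h₂⟩ := exists_lt_of_ne hS hxc' hxc hxx
  set f := pot hS a₁ - pot hS b₁ with hf
  set g := pot hS a₂ - pot hS b₂ with hg
  set κ₁ : ℝ := f.1 1 + (res hS 1 a₁ - res hS 1 b₁) / 2 with hκ₁
  set κ₂ : ℝ := g.1 1 + (res hS 1 a₂ - res hS 1 b₂) / 2 with hκ₂
  have ef : ∀ z, f.1 z = κ₁ - hb hS z a₁ b₁ / 2 := fun z => by
    rw [hf, pot_sub_eq, hκ₁, hf]; ring
  have eg : ∀ z, g.1 z = κ₂ - hb hS z a₂ b₂ / 2 := fun z => by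
    rw [hg, pot_sub_eq, hκ₂, hg]; ring
  obtain ⟨t₁, ht₁, ht₁'⟩ := exists_between (show κ₁ - y a₁ b₁ / 2 < κ₁ - b a₁ b₁ / 2 by linarith)
  obtain ⟨t₂, ht₂, ht₂'⟩ := exists_between ht₁'
  obtain ⟨s₁, hs₁, hs₁'⟩ := exists_between (show κ₂ - x a₂ b₂ / 2 < κ₂ - x' a₂ b₂ / 2 by linarith)
  obtain ⟨s₂, hs₂, hs₂'⟩ := exists_between hs₁'
  have hkinv : Tendsto (fun i => (k i)⁻¹) U cofinite :=
    (inv_injective.tendsto_cofinite).comp hk
  have hfin := finite_cross hS hF (pot_sub_isPot hS a₁ b₁) (pot_sub_isPot hS a₂ b₂) ht₂ hs₂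
  have hnot := hk.eventually (hfin.eventually_cofinite_notMem)
  -- limits of the two potentials
  have lf : ∀ {z : ι → G} {p : G → G → ℝ}, Tendsto (fun i => hb hS (z i)) U (𝓝 p) →
      Tendsto (fun i => f.1 (z i)) U (𝓝 (κ₁ - p a₁ b₁ / 2)) := by
    intro z p hz
    simp only [ef]
    exact ((tendsto_val.1 hz a₁ b₁).div_const 2).const_sub κ₁
  have lg : ∀ {z : ι → G} {p : G → G → ℝ}, Tendsto (fun i => hb hS (z i)) U (𝓝 p) →
      Tendsto (fun i => g.1 (z i)) U (𝓝 (κ₂ - p a₂ b₂ / 2)) := by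
    intro z p hz
    simp only [eg]
    exact ((tendsto_val.1 hz a₂ b₂).div_const 2).const_sub κ₂
  have lβ : Tendsto (fun i => κ₁ - β i a₁ b₁ / 2) U (𝓝 (κ₁ - b a₁ b₁ / 2)) :=
    ((tendsto_val.1 hb' a₁ b₁).div_const 2).const_sub κ₁
  have lx' : Tendsto (fun i => κ₂ - act (k i) (β i) a₂ b₂ / 2) U (𝓝 (κ₂ - x' a₂ b₂ / 2)) :=
    ((tendsto_val.1 hx' a₂ b₂).div_const 2).const_sub κ₂
  -- the fourth kind of vertex
  have hp : ∀ᶠ i in (U : Filter ι), ∃ p : G, t₂ ≤ f.1 ((k i)⁻¹ * p) ∧ s₂ ≤ g.1 p := by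
    filter_upwards [lβ.eventually (lt_mem_nhds ht₂'), lx'.eventually (lt_mem_nhds hs₂')]
      with i hi hi'
    have hopen1 : IsOpen {γ : G → G → ℝ | t₂ < κ₁ - act (k i)⁻¹ γ a₁ b₁ / 2} :=
      isOpen_lt continuous_const (continuous_const.sub
        (((continuous_ev a₁ b₁).comp (continuous_act (k i)⁻¹)).div_const 2))
    have hopen2 : IsOpen {γ : G → G → ℝ | s₂ < κ₂ - γ a₂ b₂ / 2} :=
      isOpen_lt continuous_const (continuous_const.sub ((continuous_ev a₂ b₂).div_const 2))
    have hopen : IsOpen {γ : G → G → ℝ | t₂ < κ₁ - act (k i)⁻¹ γ a₁ b₁ / 2 ∧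
        s₂ < κ₂ - γ a₂ b₂ / 2} := hopen1.inter hopen2
    have hmem : act (k i) (β i) ∈ {γ : G → G → ℝ | t₂ < κ₁ - act (k i)⁻¹ γ a₁ b₁ / 2 ∧
        s₂ < κ₂ - γ a₂ b₂ / 2} := by
      refine ⟨?_, hi'⟩
      rw [act_act, inv_mul_cancel, act_one]
      exact hi
    obtain ⟨_, ⟨h1, h2⟩, ⟨p, rfl⟩⟩ :=
      mem_closure_iff.1 (act_mem_closure hS (k i) (hβ i)) _ hopen hmem
    rw [act_hb] at h1
    exact ⟨p, by rw [ef]; exact h1.le, by rw [eg]; exact h2.le⟩
  obtain ⟨i₀, hi₀, hi₁⟩ := (hp.and ((lf hy).eventually (gt_mem_nhds ht₁))).exists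
  obtain ⟨q, hq₁, hq₂⟩ := hi₀
  have e1 := (lf (tendsto_hb_mul hS hkinv hy q)).eventually (gt_mem_nhds ht₁)
  have e2 := (lg (tendsto_hb_mul hS hk hx ((k i₀)⁻¹ * q))).eventually (gt_mem_nhds hs₁)
  have e3 := (lg (tendsto_hb_mul hS hk hx (k i₀)⁻¹)).eventually (gt_mem_nhds hs₁)
  obtain ⟨i, ⟨p, hp₁, hp₂⟩, e1, e2, e3, hni⟩ := (hp.and (e1.and (e2.and (e3.and hnot)))).exists
  refine hni ⟨p, q, k i * ((k i₀)⁻¹ * q), k i * (k i₀)⁻¹, hp₁, hp₂, e1.le, hq₂, ?_, e2.le, ?_,
    e3.le⟩
  · rw [inv_mul_cancel_left]; exact hq₁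
  · rw [inv_mul_cancel_left]; exact hi₁.le

end Vale.Agent.P239.F
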