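import Vale.Agent.P239.F.C0d
import Vale.Agent.P239.F.C0h
import Vale.Agent.P239.F.C1
import Vale.Agent.P239.F.ConvG
import Vale.Agent.P239.F.C4Def
import Vale.Agent.P239.S.Disc
import Vale.Agent.P239.S.Cap
import Vale.Agent.P239.F.C3Depth

/-! Application of module B to the cuts of the group: finitely many centres across an edge. -/

namespace Vale.Agent.P239.F.BF

open Filter Topology Set
open Vale.Agent.P239 Vale.Agent.P239.F Vale.Agent.P239.F.N
open scoped Pointwise

variable {G : Type*} [Group G]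

/-- the type of points with the action of `G` -/
def Pnt (G : Type*) : Type _ := G → G → ℝ

noncomputable instance : MulAction G (Pnt G) where
  smul g β := (act g β : G → G → ℝ)
  one_smul β := F.act_one β
  mul_smul g h β := (F.act_act g h β).symm

theorem smul_def (g : G) (β : Pnt G) : g • β = (act g β : G → G → ℝ) := rfl

variable {S T : Finset G} (hS : Subgroup.closure (S : Set G) = ⊤)

/-- the family of cuts -/
def TT : Set (Set G × Pnt G) :=
  {p | ∃ A : Set G, IsCut hS A p.2 ∧ Nontriv hS A p.2 ∧ (p.1 = HH S A ∨ p.1 = (HH S A)ᶜ)}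

theorem bd_compl' (M : Finset G) (A : Set G) : bd M Aᶜ = bd M A := by
  ext x
  refine exists_congr fun y => and_congr_right fun _ => not_congr ?_
  exact not_iff_not

/-! ### equivariance -/

theorem tendsto_act (g : G) {ι : Type*} {l : Filter ι} {f : ι → G → G → ℝ} {β : G → G → ℝ}
    (h : Tendsto f l (𝓝 β)) : Tendsto (fun i => act g (f i)) l (𝓝 (act g β)) :=
  ((F.continuous_act g).tendsto β).comp h

theorem conv_smul (g : G) {A : Set G} {β : G → G → ℝ} (h : Conv hS A β) :
    Conv hS (g • A) (act g β) := by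
  rw [conv_iff] at h ⊢
  intro O hO
  have hO' : act g ⁻¹' O ∈ 𝓝 β := (F.continuous_act g).continuousAt hO
  refine ((h _ hO').image fun x => g * x).subset ?_
  rintro x ⟨hx, hxO⟩
  refine ⟨g⁻¹ * x, ⟨?_, ?_⟩, mul_inv_cancel_left g x⟩
  · rw [mem_smul_set_iff_inv_smul_mem] at hx
    exact hx
  · intro h'
    apply hxO
    have h2 : act g (hb hS (g⁻¹ * x)) ∈ O := h'
    rwa [F.act_hb, mul_inv_cancel_left] at h2

theorem lim_smul (g : G) {β : G → G → ℝ} (h : β ∈ Lim hS univ) : act g β ∈ Lim hS univ := by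
  rw [mem_lim] at h ⊢
  intro O hO
  have hO' : act g ⁻¹' O ∈ 𝓝 β := (F.continuous_act g).continuousAt hO
  refine ((h _ hO').image (f := fun x => g * x) (fun a _ b _ hab => mul_left_cancel hab)).mono ?_
  rintro _ ⟨x, ⟨_, hx⟩, rfl⟩
  refine ⟨trivial, ?_⟩
  have h2 : act g (hb hS x) ∈ O := hx
  rwa [F.act_hb] at h2

theorem bd_smul (g : G) (A : Set G) : bd S (g • A) = g • bd S A := by
  ext x
  rw [mem_smul_set_iff_inv_smul_mem]
  simp only [bd, mem_ofPred_eq, mem_smul_set_iff_inv_smul_mem, smul_eq_mul]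
  constructor
  · rintro ⟨y, ⟨s, hs, hxy⟩, h⟩
    refine ⟨g⁻¹ * y, ⟨s, hs, ?_⟩, h⟩
    rcases hxy with h' | h'
    · left; rw [h', mul_assoc]
    · right; rw [h', mul_assoc]
  · rintro ⟨y, ⟨s, hs, hxy⟩, h⟩
    refine ⟨g * y, ⟨s, hs, ?_⟩, by rwa [inv_mul_cancel_left]⟩
    rcases hxy with h' | h'
    · left
      rw [h', ← mul_assoc, mul_inv_cancel_left]
    · right
      rw [mul_assoc, ← h', mul_inv_cancel_left]

theorem isCut_smul (g : G) {A : Set G} {β : G → G → ℝ} (h : IsCut hS A β) :
    IsCut hS (g • A) (act g β) :=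
  ⟨lim_smul hS g h.1, by rw [bd_smul]; exact conv_smul hS g h.2⟩

theorem conv_of_smul (g : G) {A : Set G} {β : G → G → ℝ} (h : Conv hS (g • A) (act g β)) :
    Conv hS A β := by
  have := conv_smul hS g⁻¹ h
  rwa [inv_smul_smul, F.act_act, inv_mul_cancel, F.act_one] at this

theorem nontriv_smul (g : G) {A : Set G} {β : G → G → ℝ} (h : Nontriv hS A β) :
    Nontriv hS (g • A) (act g β) := by
  refine ⟨fun h' => h.1 (conv_of_smul hS g h'), fun h' => h.2 (conv_of_smul hS g ?_)⟩
  rwa [smul_set_compl]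

theorem avg_iter_smul (g : G) (n : ℕ) (f : G → ℝ) (x : G) :
    (avg S)^[n] (fun y => f (g⁻¹ * y)) x = (avg S)^[n] f (g⁻¹ * x) := by
  induction n generalizing f with
  | zero => rfl
  | succ n ih =>
    rw [Function.iterate_succ_apply, Function.iterate_succ_apply, ← ih]
    have : avg S (fun y => f (g⁻¹ * y)) = fun y => avg S f (g⁻¹ * y) := by
      funext y
      simp only [avg, mul_assoc]
    rw [this]

theorem phi_smul' (g : G) (A : Set G) (x : G) : phi S (g • A) x = phi S A (g⁻¹ * x) := by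
  unfold phi
  congr 1
  funext n
  rw [← avg_iter_smul]
  have : (g • A).indicator (1 : G → ℝ) = fun y => A.indicator 1 (g⁻¹ * y) := by
    funext y
    by_cases hy : g⁻¹ * y ∈ A
    · rw [indicator_of_mem hy, indicator_of_mem]
      · rfl
      · rw [mem_smul_set_iff_inv_smul_mem]; exact hy
    · rw [indicator_of_notMem hy, indicator_of_notMem]
      rw [mem_smul_set_iff_inv_smul_mem]; exact hy
  rw [this]

theorem HH_smul' (g : G) (A : Set G) : HH S (g • A) = g • HH S A := by
  ext x
  rw [mem_smul_set_iff_inv_smul_mem, mem_HH, mem_HH, phi_smul', smul_eq_mul]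

/-! ### harmonicity in both forms -/

theorem sum_of_avg (hp : HypS S) {h : G → ℝ} (hh : avg S h = h) (x : G) :
    ∑ s ∈ S, (h (x * s) - h x) = 0 := by
  have hc : (S.card : ℝ) ≠ 0 := by
    have := Finset.card_pos.2 ⟨1, hp.oneS⟩
    exact_mod_cast this.ne'
  have h1 := congrFun hh x
  simp only [avg] at h1
  rw [div_eq_iff hc] at h1
  rw [Finset.sum_sub_distrib, h1, Finset.sum_const, nsmul_eq_mul]
  ring

theorem avg_of_sum (hp : HypS S) {h : G → ℝ} (hh : ∀ x, ∑ s ∈ S, (h (x * s) - h x) = 0) :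
    avg S h = h := by
  have hc : (S.card : ℝ) ≠ 0 := by
    have := Finset.card_pos.2 ⟨1, hp.oneS⟩
    exact_mod_cast this.ne'
  funext x
  have h1 := hh x
  rw [Finset.sum_sub_distrib, Finset.sum_const, nsmul_eq_mul] at h1
  simp only [avg]
  rw [div_eq_iff hc]
  linarith

/-! ### fixed points -/

theorem pt_closure {β : G → G → ℝ} (h : β ∈ Lim hS univ) : β ∈ closure (range (hb hS)) := by
  rw [mem_closure_iff_clusterPt]
  refine ClusterPt.mono h (le_principal_iff.2 (Filter.mem_map.2 ?_))
  exact Eventually.of_forall fun z => ⟨z, rfl⟩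

/-- A nontrivial element fixes at most two points. -/
theorem fix_three [Countable G] {F : Finset G} (hF : CrossProp S F)
    (htf : ∀ g : G, g ≠ 1 → ∀ n : ℕ, n ≠ 0 → g ^ n ≠ 1) {h : G} (hh : h ≠ 1)
    {a b c : G → G → ℝ} (ha : a ∈ closure (range (hb hS))) (hb' : b ∈ closure (range (hb hS)))
    (hc : c ∈ closure (range (hb hS)))
    (hfa : act h a = a) (hfb : act h b = b) (hfc : act h c = c) : a = b ∨ b = c ∨ a = c := by
  set 𝒰 : Ultrafilter ℕ := hyperfilter ℕ with h𝒰
  have hinj : Function.Injective fun n : ℕ => h ^ n := by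
    have key : ∀ i j : ℕ, i < j → h ^ i ≠ h ^ j := by
      intro i j hij heq
      apply htf h hh (j - i) (by omega)
      have : h ^ j = h ^ i * h ^ (j - i) := by rw [← pow_add]; congr 1; omega
      rw [this] at heq
      exact (mul_eq_left.1 heq.symm)
    intro i j hij
    by_contra hne
    rcases lt_or_gt_of_ne hne with h' | h'
    · exact key i j h' hij
    · exact key j i h' hij.symm
  have hk : Tendsto (fun n : ℕ => h ^ n) 𝒰 cofinite :=
    hinj.tendsto_cofinite.mono_left (Filter.hyperfilter_le_cofinite)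
  obtain ⟨x, hxl⟩ := exists_lim_ultra hS 𝒰 (fun n : ℕ => hb hS (h ^ n))
    (fun n => abs_hb_le hS _)
  obtain ⟨y, hyl⟩ := exists_lim_ultra hS 𝒰 (fun n : ℕ => hb hS (h ^ n)⁻¹)
    (fun n => abs_hb_le hS _)
  have key : ∀ p : G → G → ℝ, p ∈ closure (range (hb hS)) → act h p = p → p ≠ y → p = x := by
    intro p hp hfp hne
    have h1 := conv_prop hS hF hk hxl hyl (β := fun _ => p) (fun _ => hp) tendsto_const_nhds hne
    have h2 : ∀ n : ℕ, act (h ^ n) p = p := by
      intro n
      induction n with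
      | zero => rw [pow_zero, Vale.Agent.P239.F.act_one]
      | succ n ih => rw [pow_succ, ← Vale.Agent.P239.F.act_act, hfp, ih]
    simp only [h2] at h1
    exact tendsto_nhds_unique tendsto_const_nhds h1
  by_cases h1 : a = y
  · by_cases h2 : b = y
    · exact Or.inl (h1.trans h2.symm)
    · by_cases h3 : c = y
      · exact Or.inr (Or.inr (h1.trans h3.symm))
      · exact Or.inr (Or.inl ((key b hb' hfb h2).trans (key c hc hfc h3).symm))
  · by_cases h2 : b = y
    · by_cases h3 : c = y
      · exact Or.inr (Or.inl (h2.trans h3.symm))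
      · exact Or.inr (Or.inr ((key a ha hfa h1).trans (key c hc hfc h3).symm))
    · exact Or.inl ((key a ha hfa h1).trans (key b hb' hfb h2).symm)

/-! ### the input -/

/-- what is used -/
structure BIn (hyp : Hyp S T) (F : Finset G) : Prop where
  cross : CrossProp S F
  nb : ∀ β ∈ Lim hyp.gen univ, NB hyp.toHypS {β}
  nest : ∀ (A B : Set G) (c d : G → G → ℝ), IsCut hyp.gen A c → Nontriv hyp.gen A c →
    IsCut hyp.gen B d → Nontriv hyp.gen B d → c ≠ d →
    HH S A ⊆ HH S B ∨ HH S B ⊆ HH S A ∨ Disjoint (HH S A) (HH S B) ∨ HH S A ∪ HH S B = univ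

variable {hyp : Hyp S T} {F : Finset G}

/-- Properties of a member of the family. -/
structure Mem (hyp : Hyp S T) (U : Set G) (c : G → G → ℝ) : Prop where
  pt : c ∈ Lim hyp.gen univ
  cb : ConvB hyp.gen (bd S U) {c}
  cbT : Conv hyp.gen (bd T U) c
  hasPhi : HasPhi S U
  lo : ∀ x ∈ U, 1 / 2 ≤ phi S U x
  hi : ∀ x, 1 / 2 < phi S U x → x ∈ U
  inf : U.Infinite
  infc : Uᶜ.Infinite

theorem BIn.mem (I : BIn hyp F) {U : Set G} {c : Pnt G} (h : (U, c) ∈ TT hyp.gen) :
    Mem hyp U c := by
  obtain ⟨A, h1, h2, h3⟩ := h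
  have hcb := (convB_singleton hyp.gen).2 h1.2
  have hB := I.nb c h1.1
  have hphi := hasPhi_of hyp.toHypS hB hcb
  have e1 : ConvB hyp.gen (bd S (HH S A)) {c} := HH_bd hyp.toHypS hphi hcb S
  have e2 : ConvB hyp.gen (bd T (HH S A)) {c} := HH_bd hyp.toHypS hphi hcb T
  obtain ⟨e3, e4⟩ := phi_HH hyp.toHypS hB hcb
  have e5 := HH_nontriv_of hyp.toHypS hphi h1.2 h2
  have i1 : (HH S A).Infinite := fun h => e5.1 (Conv.of_finite hyp.gen h c)
  have i2 : (HH S A)ᶜ.Infinite := fun h => e5.2 (Conv.of_finite hyp.gen h c)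
  rcases h3 with rfl | rfl
  · refine ⟨h1.1, e1, (convB_singleton hyp.gen).1 e2, e3, fun x hx => ?_, fun x hx => ?_, i1, i2⟩
    · rw [e4]; exact (mem_HH.1 hx).le
    · rw [e4] at hx; exact mem_HH.2 hx
  · obtain ⟨e6, e7⟩ := e3.compl hyp.toHypS
    refine ⟨h1.1, by rw [bd_compl']; exact e1, by rw [bd_compl']; exact (convB_singleton hyp.gen).1 e2,
      e6, fun x hx => ?_, fun x hx => ?_, i2, by rw [compl_compl]; exact i1⟩
    · have := e7 x
      have h4 : ¬ (1 / 2 < phi S A x) := hx
      rw [e4] at this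
      linarith
    · intro h4
      have := e7 x
      have h5 := mem_HH.1 h4
      rw [e4] at this
      linarith

theorem BIn.cutFam [Countable G] (I : BIn hyp F) : P239S.CutFam (T : Set G) (TT hyp.gen) where
  smul := by
    rintro g U c ⟨A, h1, h2, h3⟩
    refine ⟨g • A, isCut_smul hyp.gen g h1, nontriv_smul hyp.gen g h2, ?_⟩
    rw [HH_smul']
    rcases h3 with h3 | h3
    · left; change g • U = _; rw [show U = HH S A from h3]
    · right; change g • U = _; rw [show U = (HH S A)ᶜ from h3, smul_set_compl]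
  compl := by
    rintro U c ⟨A, h1, h2, h3⟩
    refine ⟨A, h1, h2, ?_⟩
    rcases h3 with h3 | h3
    · right; change Uᶜ = _; rw [show U = HH S A from h3]
    · left; change Uᶜ = _; rw [show U = (HH S A)ᶜ from h3, compl_compl]
  nested := by
    rintro U V c d ⟨A, h1, h2, h3⟩ ⟨B, h4, h5, h6⟩ hcd
    have h := I.nest A B c d h1 h2 h4 h5 hcd
    change U = _ ∨ U = _ at h3
    change V = _ ∨ V = _ at h6
    rcases h3 with rfl | rfl <;> rcases h6 with rfl | rfl
    · rcases h with h | h | h | h
      · exact Or.inl h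
      · exact Or.inr (Or.inl h)
      · exact Or.inr (Or.inr (Or.inl h.inter_eq))
      · exact Or.inr (Or.inr (Or.inr h))
    · rcases h with h | h | h | h
      · refine Or.inr (Or.inr (Or.inl ?_))
        ext x; constructor
        · rintro ⟨a, b⟩; exact b (h a)
        · exact fun h => h.elim
      · refine Or.inr (Or.inr (Or.inr ?_))
        ext x; simp only [mem_union, mem_compl_iff, mem_univ, iff_true]
        by_cases hx : x ∈ HH S B
        · exact Or.inl (h hx)
        · exact Or.inr hx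
      · exact Or.inl fun x hx hx' => Set.disjoint_left.1 h hx hx'
      · refine Or.inr (Or.inl fun x hx => ?_)
        have : x ∈ HH S A ∪ HH S B := h ▸ mem_univ x
        exact this.resolve_right hx
    · rcases h with h | h | h | h
      · refine Or.inr (Or.inr (Or.inr ?_))
        ext x; simp only [mem_union, mem_compl_iff, mem_univ, iff_true]
        by_cases hx : x ∈ HH S A
        · exact Or.inr (h hx)
        · exact Or.inl hx
      · refine Or.inr (Or.inr (Or.inl ?_))
        ext x; constructor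
        · rintro ⟨a, b⟩; exact a (h b)
        · exact fun h => h.elim
      · exact Or.inr (Or.inl fun x hx hx' => Set.disjoint_left.1 h hx' hx)
      · refine Or.inl fun x hx => ?_
        have : x ∈ HH S A ∪ HH S B := h ▸ mem_univ x
        exact this.resolve_left hx
    · rcases h with h | h | h | h
      · exact Or.inr (Or.inl (compl_subset_compl.2 h))
      · exact Or.inl (compl_subset_compl.2 h)
      · refine Or.inr (Or.inr (Or.inr ?_))
        rw [← compl_inter, h.inter_eq, compl_empty]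
      · refine Or.inr (Or.inr (Or.inl ?_))
        rw [← compl_union, h, compl_univ]
  fin := by
    intro U V c d hU hV hcd
    have h1 := (I.mem hU).cbT
    have h2 := (I.mem hV).cbT
    refine (h1.finite_inter hyp.gen (h2.compl_mem hyp.gen (Ne.symm hcd))).subset ?_
    rintro x ⟨hxU, hxV, y, hxy, hyU, hyV⟩
    have hadj : Adj T x y := ⟨x⁻¹ * y, hxy, Or.inl (mul_inv_cancel_left x y).symm⟩
    exact ⟨⟨y, hadj, fun h => hyU (h.1 hxU)⟩, ⟨y, hadj, fun h => hyV (h.1 hxV)⟩⟩
  inf := by
    intro U c hU hfin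
    have hm := I.mem hU
    set D := P239S.Ov (T : Set G) U U with hD
    have hfin' : (bd S U).Finite := by
      refine (hfin.union (S.finite_toSet.biUnion (t := fun s => (fun x => x * s) '' D)
        fun s _ => hfin.image _)).subset ?_
      rintro x ⟨y, hxy, hne⟩
      have hxy' : x⁻¹ * y ∈ S := by
        obtain ⟨s, hs, h | h⟩ := hxy
        · rw [h, inv_mul_cancel_left]; exact hs
        · rw [h]
          have : (y * s)⁻¹ * y = s⁻¹ := by group
          rw [this]; exact hyp.symS s hs
      have hyx' : y⁻¹ * x ∈ S := by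
        have := hyp.symS _ hxy'
        rwa [mul_inv_rev, inv_inv] at this
      by_cases hx : x ∈ U
      · left
        have hy : y ∉ U := fun hy => hne ⟨fun _ => hy, fun _ => hx⟩
        exact ⟨hx, hx, y, hyp.sub hxy', hy, hy⟩
      · right
        have hy : y ∈ U := by
          by_contra hy
          exact hne ⟨fun h => absurd h hx, fun h => absurd h hy⟩
        simp only [mem_iUnion]
        exact ⟨y⁻¹ * x, hyx', y, ⟨hy, hy, x, hyp.sub hyx', hx, hx⟩, mul_inv_cancel_left y x⟩
    rcases hyp.oneEnd U hfin' with h | h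
    · exact hm.inf h
    · exact hm.infc h
  three := by
    rintro h U V W a b c hh ha hb' hc hfa hfb hfc
    exact fix_three hyp.gen I.cross hyp.tf hh (pt_closure hyp.gen (I.mem ha).pt)
      (pt_closure hyp.gen (I.mem hb').pt) (pt_closure hyp.gen (I.mem hc).pt) hfa hfb hfc

theorem BIn.deepFam (I : BIn hyp F) : P239S.DeepFam S (TT hyp.gen) where
  deep1 := by
    intro U c hU N
    have hm := I.mem hU
    have hB := I.nb c hm.pt
    obtain ⟨A, h1, h2, h3⟩ := hU
    -- constant sequence
    have hc1 : HasPhi S (U) := hm.hasPhi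
    have hpos : ∃ y, 1 / 2 ≤ phi S U y := by
      obtain ⟨y, hy⟩ := hm.inf.nonempty
      exact ⟨y, hm.lo y hy⟩
    obtain ⟨y, hy⟩ := hpos
    obtain ⟨K, hK, hK', hK''⟩ := H.depth_inf hyp.toHypS (A := fun _ => U) (B := fun _ => {c})
      (fun _ => hB) (fun _ => hc1) (fun _ => hm.cb) (fun _ _ => le_rfl) (y := y)
      (r := 1 / 2) (by norm_num) (fun _ => hy) N (c := 1 / 2) (by norm_num)
    exact ⟨K, hK, hK', fun x hx f hf => hm.hi _ (hK'' x hx f hf 0)⟩
  deep2 := by
    intro U c hU hc hmono hy N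
    obtain ⟨y, hy⟩ := hy
    have hm := fun n => I.mem (hU n)
    have hcompl : ∀ n, HasPhi S (U n)ᶜ ∧ ∀ x, phi S (U n) x + phi S (U n)ᶜ x = 1 := fun n =>
      (hm n).hasPhi.compl hyp.toHypS
    have hlow : ∀ n, 1 / 2 ≤ phi S (U n)ᶜ y := by
      intro n
      by_contra hcon
      refine hy n ((hm n).hi y ?_)
      have := (hcompl n).2 y
      linarith
    obtain ⟨K, hK, hK', hK''⟩ := H.depth_inf hyp.toHypS (A := fun n => (U n)ᶜ)
      (B := fun n => {c n}) (fun n => I.nb _ (hm n).pt) (fun n => (hcompl n).1)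
      (fun n => by rw [bd_compl']; exact (hm n).cb)
      (fun n x => (hcompl (n + 1)).1.mono (hcompl n).1 (compl_subset_compl.2 (hmono n)) x) (y := y)
      (r := 1 / 2) (by norm_num) hlow N (c := 1 / 2) (by norm_num)
    refine ⟨K, hK, hK', fun x hx f hf n h => ?_⟩
    have h1 := hK'' x hx f hf n
    have h2 := (hm n).lo _ h
    have h3 := (hcompl n).2 (x * f)
    linarith

/-- Finitely many centres separate two vertices. -/
theorem BIn.fin [Countable G] (I : BIn hyp F) (x y : G) :
    {c : G → G → ℝ | ∃ A : Set G, IsCut hyp.gen A c ∧ Nontriv hyp.gen A c ∧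
      x ∈ HH S A ∧ y ∉ HH S A}.Finite := by
  have h1T : (1 : G) ∈ T := hyp.sub hyp.oneS
  have hcap : P239S.CapProp S T :=
    P239.S.cap h1T hyp.symS hyp.symT hyp.sub hyp.oneEnd hyp.exS hyp.fill
  refine (P239S.discrete hcap hyp.symS hyp.gen hyp.sub hyp.symT h1T hyp.tf I.cutFam I.deepFam
    x y).subset ?_
  rintro c ⟨A, h1, h2, h3, h4⟩
  exact ⟨HH S A, ⟨A, h1, h2, Or.inl rfl⟩, h3, h4⟩

end Vale.Agent.P239.F.BF
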