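import Vale.Agent.P239.AHExist
import Vale.Agent.P239.AHGap

/-! Interface file for the full proof: `G` one-ended, torsion free, `H^2` with finite supports
vanishes, then finite energy harmonic functions are constant. -/

namespace Vale.Agent.P239.F

open Filter Topology Set
open Vale.Agent.P239
open scoped RealInnerProductSpace

variable {G : Type*} [Group G]

/-- A set with finite coboundary is finite or cofinite. -/
def OneEnded (S : Finset G) : Prop :=
  ∀ A : Set G, {x | ∃ y, Adj S x y ∧ ¬ (x ∈ A ↔ y ∈ A)}.Finite → A.Finite ∨ Aᶜ.Finite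

/-- Closed 1-cochains modulo 2 at scale `T` are exact. -/
def H1Ex (T : Finset G) : Prop :=
  ∀ c : G → G → ZMod 2,
    (∀ x y z, x⁻¹ * y ∈ T → y⁻¹ * z ∈ T → x⁻¹ * z ∈ T → c x y + c y z = c x z) →
    ∃ f : G → ZMod 2, ∀ x y, x⁻¹ * y ∈ T → c x y = f x + f y

/-- A finitely supported 2-cocycle modulo 2 at scale `T` is, at scale `S`, the coboundary of a
finitely supported 1-cochain (ordered cochains). -/
def H2Fill (S T : Finset G) : Prop :=
  ∀ b : G → G → G → ZMod 2, {p : G × G × G | b p.1 p.2.1 p.2.2 ≠ 0}.Finite →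
    (∀ x y z w, x⁻¹ * y ∈ T → x⁻¹ * z ∈ T → x⁻¹ * w ∈ T → y⁻¹ * z ∈ T → y⁻¹ * w ∈ T →
      z⁻¹ * w ∈ T → b y z w + b x z w + b x y w + b x y z = 0) →
    ∃ c : G → G → ZMod 2, {p : G × G | c p.1 p.2 ≠ 0}.Finite ∧
      ∀ x y z, x⁻¹ * y ∈ S → y⁻¹ * z ∈ S → x⁻¹ * z ∈ S → b x y z = c x y + c y z + c x z

/-- All standing hypotheses on the group. -/
structure Hyp (S T : Finset G) : Prop where
  gen : Subgroup.closure (S : Set G) = ⊤
  symS : ∀ s ∈ S, s⁻¹ ∈ S
  symT : ∀ s ∈ T, s⁻¹ ∈ T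
  oneS : (1 : G) ∈ S
  sub : S ⊆ T
  inf : Infinite G
  oneEnd : OneEnded S
  exS : H1Ex S
  exT : H1Ex T
  fill : H2Fill S T
  tf : ∀ g : G, g ≠ 1 → ∀ n : ℕ, n ≠ 0 → g ^ n ≠ 1
  gap : ∃ C : ℝ, 0 < C ∧ ∀ f : G → ℝ, (Summable fun x => f x ^ 2) →
      ∑' x, f x ^ 2 ≤ C * ∑ s ∈ S, ∑' x, (f (x * s) - f x) ^ 2

/-- There is a nonconstant harmonic function of finite energy. -/
def HasHD (S : Finset G) : Prop :=
  ∃ u : Dir S, (∀ y : G, ∑ s ∈ S, (u.1 (y * s) - u.1 y) = 0) ∧ ∃ x y, u.1 x ≠ u.1 y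

variable {S : Finset G} (hS : Subgroup.closure (S : Set G) = ⊤)

/-- The horofunction cocycle of the vertex `z`. -/
noncomputable def hb (z : G) : G → G → ℝ := fun x y => res hS x z - res hS y z

/-- `A` accumulates (if at all) only at the point `β`. -/
def Conv (A : Set G) (β : G → G → ℝ) : Prop := Tendsto (hb hS) (cofinite ⊓ 𝓟 A) (𝓝 β)

/-- Points at infinity of the set `V`. -/
def Lim (V : Set G) : Set (G → G → ℝ) := {β | MapClusterPt β (cofinite ⊓ 𝓟 V) (hb hS)}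

/-- Gromov product of `x` with the point `β`, based at `w`. -/
noncomputable def gpb (w x : G) (β : G → G → ℝ) : ℝ := (res hS w x - β x w) / 2

/-- The point `β` is at finite distance. -/
def IsFin (β : G → G → ℝ) : Prop := ∃ C : ℝ, ∀ x, gpb hS 1 x β ≤ C

/-- The action on points. -/
def act (g : G) (β : G → G → ℝ) : G → G → ℝ := fun x y => β (g⁻¹ * x) (g⁻¹ * y)

/-- The `T`-boundary of `A`. -/
def bd (T : Finset G) (A : Set G) : Set G := {x | ∃ y, Adj T x y ∧ ¬ (x ∈ A ↔ y ∈ A)}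

/-- The `M`-boundary of `U` inside `V`. -/
def bdIn (M : Finset G) (V U : Set G) : Set G :=
  {x | x ∈ V ∧ ∃ y ∈ V, Adj M x y ∧ ¬ (x ∈ U ↔ y ∈ U)}

/-- A block: a subgroup acting cofinitely on a connected set `V` with two limit points, which is
not separated by any set whose boundary in `V` accumulates at one point only. -/
structure Block where
  H : Subgroup G
  V : Set G
  M : Finset G
  reps : Finset G
  inv : ∀ h ∈ H, ∀ x ∈ V, h * x ∈ V
  cof : ∀ x ∈ V, ∃ h ∈ H, ∃ f ∈ reps, x = h * f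
  conn : ∀ x ∈ V, ∀ y ∈ V, Con M V x y
  two : ∃ β ∈ Lim hS V, ∃ β' ∈ Lim hS V, β ≠ β'
  bl : ∀ U ⊆ V, ∀ β, Conv hS (bdIn M V U) β → Conv hS U β ∨ Conv hS (V \ U) β

end Vale.Agent.P239.F
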