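import Vale.Agent.P239.F.Base

/-! Combinatorial part of the block construction: equivariant nested families of atoms,
orientations, the block of an orientation; it is connected and cofinite. -/

namespace Vale.Agent.P239.F

set_option linter.unusedSectionVars false

open Set
open Vale.Agent.P239

variable {G : Type*} [Group G] {Q : Type*}

/-- left translate of a set -/
def tr (g : G) (U : Set G) : Set G := {x | g⁻¹ * x ∈ U}

theorem mem_tr {g : G} {U : Set G} {x : G} : x ∈ tr g U ↔ g⁻¹ * x ∈ U := Iff.rfl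

theorem mul_mem_tr {g : G} {U : Set G} {x : G} : g * x ∈ tr g U ↔ x ∈ U := by
  rw [mem_tr, inv_mul_cancel_left]

theorem tr_mul (g h : G) (U : Set G) : tr (g * h) U = tr g (tr h U) := by
  ext x
  simp only [mem_tr, mul_inv_rev, mul_assoc]

theorem tr_one (U : Set G) : tr 1 U = U := by
  ext x
  simp [mem_tr]

theorem adj_mul {S : Finset G} {x y : G} (h : Adj S x y) (g : G) : Adj S (g * x) (g * y) := by
  obtain ⟨s, hs, h | h⟩ := h
  · exact ⟨s, hs, Or.inl (by rw [h, mul_assoc])⟩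
  · exact ⟨s, hs, Or.inr (by rw [h, mul_assoc])⟩

theorem rtg_symm {S : Finset G} {x y : G} (h : Relation.ReflTransGen (Adj S) x y) :
    Relation.ReflTransGen (Adj S) y x := by
  induction h with
  | refl => exact Relation.ReflTransGen.refl
  | tail _ h2 ih => exact Relation.ReflTransGen.head h2.symm ih

/-- Any two points are joined by a path. -/
theorem adj_path {S : Finset G} (hS : Subgroup.closure (S : Set G) = ⊤) (x y : G) :
    Relation.ReflTransGen (Adj S) x y := by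
  have key : ∀ g : G, ∀ x : G, Relation.ReflTransGen (Adj S) x (x * g) := by
    intro g
    have hg : g ∈ Subgroup.closure (S : Set G) := hS ▸ Subgroup.mem_top g
    induction hg using Subgroup.closure_induction with
    | mem s hs => exact fun x => Relation.ReflTransGen.single ⟨s, hs, Or.inl rfl⟩
    | one => intro x; rw [mul_one]
    | mul a b _ _ ha hb => intro x; rw [← mul_assoc]; exact (ha x).trans (hb (x * a))
    | inv a _ ha =>
      intro x
      have h1 := ha (x * a⁻¹)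
      rw [inv_mul_cancel_right] at h1
      exact rtg_symm h1
  have := key (x⁻¹ * y) x
  rwa [mul_inv_cancel_left] at this

/-- A nested family: at every `c` a set `At c` of pairwise disjoint sets. -/
structure AtomFam (S : Finset G) (At : Q → Set (Set G)) : Prop where
  disj : ∀ c, ∀ U ∈ At c, ∀ U' ∈ At c, U ≠ U' → Disjoint U U'
  ne : ∀ c, ∀ U ∈ At c, U.Nonempty
  two : ∀ c, ∃ U ∈ At c, ∃ U' ∈ At c, U ≠ U'
  fin : ∀ x y, Adj S x y → {c | ∃ U ∈ At c, x ∈ U ∧ y ∉ U}.Finite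
  conn : ∀ c, ∀ U ∈ At c, ∀ x ∈ U, ∀ y ∈ U, Con S U x y
  nest : ∀ c c', c ≠ c' → ∃ U ∈ At c, ∃ U' ∈ At c', U ∪ U' = univ
  strict : ∀ c c', c ≠ c' → ∀ U ∈ At c, U ∉ At c'

variable {S : Finset G} {At : Q → Set (Set G)}

theorem AtomFam.proper (h : AtomFam S At) {c : Q} {U : Set G} (hU : U ∈ At c) : ∃ x, x ∉ U := by
  obtain ⟨U₁, h1, U₂, h2, hne⟩ := h.two c
  by_cases hU1 : U = U₁
  · subst hU1
    obtain ⟨x, hx⟩ := h.ne c U₂ h2
    exact ⟨x, fun hxU => Set.disjoint_left.1 (h.disj c U hU U₂ h2 hne) hxU hx⟩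
  · obtain ⟨x, hx⟩ := h.ne c U₁ h1
    exact ⟨x, fun hxU => Set.disjoint_left.1 (h.disj c U hU U₁ h1 hU1) hxU hx⟩

theorem AtomFam.eq_of_mem (h : AtomFam S At) {c : Q} {U U' : Set G} (hU : U ∈ At c)
    (hU' : U' ∈ At c) {x : G} (hx : x ∈ U) (hx' : x ∈ U') : U = U' := by
  by_contra hne
  exact Set.disjoint_left.1 (h.disj c U hU U' hU' hne) hx hx'

theorem mem_of_union {U U' : Set G} (h : U ∪ U' = univ) {x : G} (hx : x ∉ U) : x ∈ U' :=
  ((mem_union _ _ _).1 (h.symm ▸ mem_univ x)).resolve_left hx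

theorem AtomFam.nest_unique (h : AtomFam S At) {c c' : Q} (hne : c ≠ c') {U V U' V' : Set G}
    (hU : U ∈ At c) (hV : V ∈ At c) (hU' : U' ∈ At c') (hV' : V' ∈ At c')
    (h1 : U ∪ U' = univ) (h2 : V ∪ V' = univ) : U = V := by
  by_contra hUV
  have hd := h.disj c U hU V hV hUV
  rw [union_comm] at h1 h2
  by_cases he : U' = V'
  · subst he
    obtain ⟨x, hx⟩ := h.proper hU'
    exact Set.disjoint_left.1 hd (mem_of_union h1 hx) (mem_of_union h2 hx)
  · have hd' := h.disj c' U' hU' V' hV' he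
    apply h.strict c c' hne V hV
    have : V = U' := by
      ext x
      constructor
      · intro hx
        by_contra hx'
        exact Set.disjoint_left.1 hd (mem_of_union h1 hx') hx
      · intro hx
        exact mem_of_union h2 (fun hx' => Set.disjoint_left.1 hd' hx hx')
    rw [this]
    exact hU'

open Classical in
/-- the atom at `c` in the direction of `c'` -/
noncomputable def tow (At : Q → Set (Set G)) (c c' : Q) : Set G :=
  if hc : ∃ U ∈ At c, ∃ U' ∈ At c', U ∪ U' = univ then hc.choose else ∅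

theorem AtomFam.tow_spec (h : AtomFam S At) {c c' : Q} (hne : c ≠ c') :
    tow At c c' ∈ At c ∧ ∃ U' ∈ At c', tow At c c' ∪ U' = univ := by
  unfold tow
  rw [dif_pos (h.nest c c' hne)]
  exact (h.nest c c' hne).choose_spec

theorem AtomFam.tow_mem (h : AtomFam S At) {c c' : Q} (hne : c ≠ c') : tow At c c' ∈ At c :=
  (h.tow_spec hne).1

theorem AtomFam.eq_tow (h : AtomFam S At) {c c' : Q} (hne : c ≠ c') {U U' : Set G}
    (hU : U ∈ At c) (hU' : U' ∈ At c') (hu : U ∪ U' = univ) : U = tow At c c' := by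
  obtain ⟨h1, V', h2, h3⟩ := h.tow_spec hne
  exact h.nest_unique hne hU h1 hU' h2 hu h3

theorem AtomFam.tow_union (h : AtomFam S At) {c c' : Q} (hne : c ≠ c') :
    tow At c c' ∪ tow At c' c = univ := by
  obtain ⟨h1, V', h2, h3⟩ := h.tow_spec hne
  rw [← h.eq_tow hne.symm h2 h1 (by rw [union_comm]; exact h3)]
  exact h3

/-- an atom different from the one in the direction of `c'` lies in the atom of `c'` directed to
`c` -/
theorem AtomFam.sub_tow (h : AtomFam S At) {c c' : Q} (hne : c ≠ c') {U : Set G} (hU : U ∈ At c)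
    (hU1 : U ≠ tow At c c') : U ⊆ tow At c' c := by
  intro x hx
  refine mem_of_union (h.tow_union hne) fun hx' => ?_
  exact hU1 (h.eq_of_mem hU (h.tow_mem hne) hx hx')

/-- of three elements at most one separates the other two -/
theorem AtomFam.three (h : AtomFam S At) {a b c : Q} (hab : a ≠ b) (hac : a ≠ c) (hbc : b ≠ c)
    (h1 : tow At b a ≠ tow At b c) : tow At a b = tow At a c := by
  by_contra h2
  have u1 := h.tow_union hab
  have u2 := h.tow_union hac
  have u3 := h.tow_union hbc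
  -- `A_c ⊆ C_b`, `B_c ⊆ C_a`
  have s1 : tow At a c ⊆ tow At b a := h.sub_tow hab (h.tow_mem hac) (Ne.symm h2)
  have s2 : tow At b a ⊆ tow At c b := h.sub_tow hbc (h.tow_mem hab.symm) h1
  have s3 : tow At b c ⊆ tow At a b := h.sub_tow hab.symm (h.tow_mem hbc) (Ne.symm h1)
  have s4 : tow At a b ⊆ tow At c a := h.sub_tow hac (h.tow_mem hab) h2
  by_cases h3 : tow At c a = tow At c b
  · obtain ⟨x, hx⟩ := h.proper (h.tow_mem hac.symm)
    rw [union_comm] at u3
    exact hx (s4 (s3 (mem_of_union u3 (h3 ▸ hx))))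
  · refine h.strict b c hbc _ (h.tow_mem hbc) ?_
    have : tow At b c = tow At c a := by
      refine subset_antisymm (s3.trans s4) fun x hx => ?_
      rw [union_comm] at u3
      refine mem_of_union u3 fun hx' => ?_
      exact h3 (h.eq_of_mem (h.tow_mem hac.symm) (h.tow_mem hbc.symm) hx hx')
    rw [this]
    exact h.tow_mem hac.symm

/-- only finitely many elements separate two points -/
theorem AtomFam.finCross (hS : Subgroup.closure (S : Set G) = ⊤) (h : AtomFam S At) (x y : G) :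
    {c | ∃ U ∈ At c, x ∈ U ∧ y ∉ U}.Finite := by
  induction adj_path hS x y with
  | refl =>
    refine Set.finite_empty.subset ?_
    rintro c ⟨U, _, h1, h2⟩
    exact (h2 h1).elim
  | @tail b z _ hbz ih =>
    refine (ih.union (h.fin b z hbz)).subset ?_
    rintro c ⟨U, hU, h1, h2⟩
    by_cases hb : b ∈ U
    · exact Or.inr ⟨U, hU, hb, h2⟩
    · exact Or.inl ⟨U, hU, h1, hb⟩

/-- Two elements are adjacent if nothing separates them. -/
def AdjQ (At : Q → Set (Set G)) (a b : Q) : Prop :=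
  a ≠ b ∧ ∀ c, c ≠ a → c ≠ b → tow At c a = tow At c b

/-- the orientation towards `a` whose value at `a` is the atom directed to `b` -/
noncomputable def ori (At : Q → Set (Set G)) (a b : Q) : Q → Set G :=
  fun c => open Classical in if c = a then tow At a b else tow At c a

theorem ori_self (a b : Q) : ori At a b a = tow At a b := if_pos rfl

theorem ori_ne (a b : Q) {c : Q} (hc : c ≠ a) : ori At a b c = tow At c a := if_neg hc

theorem ori_comm {a b : Q} (hab : AdjQ At a b) : ori At a b = ori At b a := by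
  funext c
  by_cases ha : c = a
  · subst ha
    rw [ori_self, ori_ne _ _ hab.1]
  · by_cases hb : c = b
    · subst hb
      rw [ori_self, ori_ne _ _ ha]
    · rw [ori_ne _ _ ha, ori_ne _ _ hb, hab.2 c ha hb]

/-- Existence of an adjacent element in a given direction. -/
theorem AtomFam.exists_adjQ (hS : Subgroup.closure (S : Set G) = ⊤) (h : AtomFam S At) {a c₀ : Q}
    (hne : a ≠ c₀) : ∃ b, AdjQ At a b ∧ tow At a b = tow At a c₀ := by
  classical
  let D : Set Q := {c | c ≠ a ∧ (c = c₀ ∨ tow At c a ≠ tow At c c₀)}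
  have hfin : D.Finite := by
    obtain ⟨U₁, hU₁, U₂, hU₂, hU⟩ := h.two a
    obtain ⟨V₁, hV₁, V₂, hV₂, hV⟩ := h.two c₀
    obtain ⟨x₁, hx₁⟩ := h.ne a U₁ hU₁
    obtain ⟨x₂, hx₂⟩ := h.ne a U₂ hU₂
    obtain ⟨y₁, hy₁⟩ := h.ne c₀ V₁ hV₁
    obtain ⟨y₂, hy₂⟩ := h.ne c₀ V₂ hV₂
    refine ((((h.finCross hS x₁ y₁).union (h.finCross hS x₁ y₂)).union
      ((h.finCross hS x₂ y₁).union (h.finCross hS x₂ y₂))).union
        (Set.finite_singleton c₀)).subset ?_
    rintro c ⟨hca, hc⟩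
    by_cases hc0 : c = c₀
    · exact Or.inr hc0
    have hc1 := hc.resolve_left hc0
    have e1 : x₁ ∈ tow At c a ∨ x₂ ∈ tow At c a := by
      by_cases hU1 : U₁ = tow At a c
      · exact Or.inr (h.sub_tow (Ne.symm hca) hU₂ (fun h' => hU (hU1.trans h'.symm)) hx₂)
      · exact Or.inl (h.sub_tow (Ne.symm hca) hU₁ hU1 hx₁)
    have e2 : y₁ ∈ tow At c c₀ ∨ y₂ ∈ tow At c c₀ := by
      by_cases hV1 : V₁ = tow At c₀ c
      · exact Or.inr (h.sub_tow (Ne.symm hc0) hV₂ (fun h' => hV (hV1.trans h'.symm)) hy₂)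
      · exact Or.inl (h.sub_tow (Ne.symm hc0) hV₁ hV1 hy₁)
    have e3 : ∀ z, z ∈ tow At c c₀ → z ∉ tow At c a := fun z hz hz' =>
      hc1 (h.eq_of_mem (h.tow_mem hca) (h.tow_mem hc0) hz' hz)
    refine Or.inl ?_
    rcases e1 with e1 | e1
    · refine Or.inl ?_
      rcases e2 with e2 | e2
      · exact Or.inl ⟨_, h.tow_mem hca, e1, e3 _ e2⟩
      · exact Or.inr ⟨_, h.tow_mem hca, e1, e3 _ e2⟩
    · refine Or.inr ?_
      rcases e2 with e2 | e2
      · exact Or.inl ⟨_, h.tow_mem hca, e1, e3 _ e2⟩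
      · exact Or.inr ⟨_, h.tow_mem hca, e1, e3 _ e2⟩
  have hDne : D.Nonempty := ⟨c₀, Ne.symm hne, Or.inl rfl⟩
  obtain ⟨b, hb⟩ := Set.Finite.exists_minimalFor (fun c => tow At c a) D hfin hDne
  have hba : b ≠ a := hb.1.1
  refine ⟨b, ⟨Ne.symm hba, ?_⟩, ?_⟩
  · intro c hca hcb
    by_contra hsep
    -- `c` separates `a` and `b`
    have h1 : tow At b c = tow At b a := h.three (Ne.symm hcb) hba hca (fun h' => hsep h'.symm)
    have h2 : tow At c a ⊆ tow At b c := h.sub_tow hcb (h.tow_mem hca) hsep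
    have hcD : c ∈ D := by
      refine ⟨hca, ?_⟩
      by_cases hc0 : c = c₀
      · exact Or.inl hc0
      refine Or.inr ?_
      rcases hb.1.2 with hb0 | hb0
      · subst hb0; exact hsep
      · by_cases hbc0 : b = c₀
        · subst hbc0; exact hsep
        have h3 : tow At c b = tow At c c₀ := by
          refine h.three hcb hc0 hbc0 ?_
          rw [h1]; exact hb0
        rw [← h3]; exact hsep
    rw [h1] at h2
    have h4 : tow At b a ⊆ tow At c a := hb.2 hcD h2
    have h5 : tow At b a = tow At c a := subset_antisymm h4 h2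
    exact h.strict b c (Ne.symm hcb) _ (h.tow_mem hba) (h5 ▸ h.tow_mem hca)
  · rcases hb.1.2 with hb0 | hb0
    · rw [hb0]
    · by_cases hbc0 : b = c₀
      · rw [hbc0]
      exact h.three (Ne.symm hba) hne hbc0 hb0

/-- Orientations. -/
structure Ori (At : Q → Set (Set G)) (v : Q → Set G) : Prop where
  mem : ∀ c, v c ∈ At c
  tw : ∀ c c', c ≠ c' → v c = tow At c c' ∨ v c' = tow At c' c
  fin : ∀ x, {c | x ∉ v c}.Finite

theorem Ori.lam (h : AtomFam S At) {v : Q → Set G} (hv : Ori At v) {c c' : Q} {x : G}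
    (hx : x ∉ v c) (hx' : x ∉ v c') : v c ⊆ v c' ∨ v c' ⊆ v c := by
  by_cases hcc : c = c'
  · subst hcc; exact Or.inl subset_rfl
  by_cases h1 : v c = tow At c c'
  · by_cases h2 : v c' = tow At c' c
    · have := h.tow_union hcc
      rw [← h1, ← h2] at this
      exact (hx' (mem_of_union this hx)).elim
    · refine Or.inr ?_
      rw [h1]
      exact h.sub_tow (Ne.symm hcc) (hv.mem c') h2
  · have h2 := (hv.tw c c' hcc).resolve_left h1
    refine Or.inl ?_
    rw [h2]
    exact h.sub_tow hcc (hv.mem c) h1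

theorem AtomFam.ori (hS : Subgroup.closure (S : Set G) = ⊤) (h : AtomFam S At) {a b : Q}
    (hab : a ≠ b) : Ori At (ori At a b) := by
  refine ⟨?_, ?_, ?_⟩
  · intro c
    by_cases hc : c = a
    · subst hc; rw [ori_self]; exact h.tow_mem hab
    · rw [ori_ne _ _ hc]; exact h.tow_mem hc
  · intro c c' hcc
    by_cases hc : c = a
    · subst hc; right; rw [ori_ne _ _ (Ne.symm hcc)]
    · by_cases hc' : c' = a
      · subst hc'; left; rw [ori_ne _ _ hc]
      · rw [ori_ne _ _ hc, ori_ne _ _ hc']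
        by_cases h1 : tow At c a = tow At c c'
        · exact Or.inl h1
        · exact Or.inr (h.three (Ne.symm hcc) hc' hc (Ne.symm h1)).symm
  · intro x
    obtain ⟨U₁, hU₁, U₂, hU₂, hU⟩ := h.two a
    obtain ⟨x₁, hx₁⟩ := h.ne a U₁ hU₁
    obtain ⟨x₂, hx₂⟩ := h.ne a U₂ hU₂
    refine (((h.finCross hS x₁ x).union (h.finCross hS x₂ x)).union
        (Set.finite_singleton a)).subset ?_
    intro c hc
    by_cases hca : c = a
    · exact Or.inr hca
    change x ∉ F.ori At a b c at hc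
    rw [ori_ne _ _ hca] at hc
    refine Or.inl ?_
    by_cases hU1 : U₁ = tow At a c
    · exact Or.inr ⟨_, h.tow_mem hca,
        h.sub_tow (Ne.symm hca) hU₂ (fun h' => hU (hU1.trans h'.symm)) hx₂, hc⟩
    · exact Or.inl ⟨_, h.tow_mem hca, h.sub_tow (Ne.symm hca) hU₁ hU1 hx₁, hc⟩

/-- the edges of the block -/
def Ev (S : Finset G) (v : Q → Set G) (x y : G) : Prop := Adj S x y ∧ ∀ c, x ∈ v c ∨ y ∈ v c

/-- the vertices of the block -/
def Vv (S : Finset G) (v : Q → Set G) : Set G := {x | ∃ y, Ev S v x y}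

/-- `c` is the exit centre of `x`: the first one, seen from the block, which excludes `x` -/
def Ex (v : Q → Set G) (x : G) (c : Q) : Prop := x ∉ v c ∧ ∀ c', x ∉ v c' → v c ⊆ v c'

variable {v : Q → Set G}

theorem Ev.symm {x y : G} (h : Ev S v x y) : Ev S v y x := ⟨h.1.symm, fun c => (h.2 c).symm⟩

theorem Ev.left {x y : G} (h : Ev S v x y) : x ∈ Vv S v := ⟨y, h⟩

theorem Ev.right {x y : G} (h : Ev S v x y) : y ∈ Vv S v := ⟨x, h.symm⟩

theorem exists_ex (h : AtomFam S At) (hv : Ori At v) {x : G} {c : Q} (hx : x ∉ v c) :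
    ∃ c, Ex v x c := by
  obtain ⟨b, hb⟩ := Set.Finite.exists_minimalFor (fun c => v c) {c | x ∉ v c} (hv.fin x) ⟨c, hx⟩
  refine ⟨b, hb.1, fun c' hc' => ?_⟩
  rcases hv.lam h hb.1 hc' with h1 | h1
  · exact h1
  · exact hb.2 hc' h1

theorem Ex.move (h : AtomFam S At) (hv : Ori At v) {x y : G} {c c₁ : Q} (hx : Ex v x c)
    (hx1 : x ∉ v c₁) (hy1 : y ∉ v c₁) : Ex v y c := by
  have hy : y ∉ v c := fun hy => hy1 (hx.2 c₁ hx1 hy)
  refine ⟨hy, fun c' hc' => ?_⟩
  rcases hv.lam h hy hc' with h1 | h1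
  · exact h1
  · exact hx.2 c' (fun h2 => hx.1 (h1 h2))

theorem Ex.wall {x y : G} {c : Q} (hx : Ex v x c) (hy : y ∈ v c) (c' : Q) :
    x ∈ v c' ∨ y ∈ v c' := by
  by_contra hcon
  push Not at hcon
  exact hcon.2 (hx.2 c' hcon.1 hy)

/-- The wall of a set which is connected and has connected complement is connected. -/
theorem wall_con (hex : H1Ex S) {N V : Set G} (hN : ∀ x ∈ N, ∀ y ∈ N, Con S N x y)
    (hN' : ∀ x ∈ Nᶜ, ∀ y ∈ Nᶜ, Con S Nᶜ x y)
    (hV : ∀ x ∈ N, ∀ y ∉ N, Adj S x y → x ∈ V ∧ y ∈ V)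
    {w y w' y' : G} (hw : w ∈ N) (hy : y ∉ N) (hwy : Adj S w y)
    (hw' : w' ∈ N) (hy' : y' ∉ N) (hwy' : Adj S w' y') : Con S V w w' := by
  classical
  let c : G → G → ZMod 2 := fun a b => if ¬ (a ∈ N ↔ b ∈ N) ∧ Con S V w a then 1 else 0
  have hadj : ∀ {a b : G}, a⁻¹ * b ∈ S → Adj S a b := fun {a b} h =>
    ⟨_, h, Or.inl (by rw [mul_inv_cancel_left])⟩
  have hVV : ∀ {a b : G}, Adj S a b → ¬ (a ∈ N ↔ b ∈ N) → a ∈ V ∧ b ∈ V := by
    intro a b hab hne
    by_cases ha : a ∈ N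
    · have hb : b ∉ N := fun hb => hne (iff_of_true ha hb)
      exact hV a ha b hb hab
    · have hb : b ∈ N := by
        by_contra hb
        exact hne (iff_of_false ha hb)
      exact (hV b hb a ha hab.symm).symm
  have hstep : ∀ {a b : G}, Adj S a b → a ∈ V → b ∈ V → (Con S V w a ↔ Con S V w b) := by
    intro a b hab ha hb
    exact ⟨fun h => h.tail ⟨ha, hb, hab⟩, fun h => h.tail ⟨hb, ha, hab.symm⟩⟩
  obtain ⟨f, hf⟩ := hex c (by
    intro a b d hab hbd had
    have hab := hadj hab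
    have hbd := hadj hbd
    have had := hadj had
    have e1 : (a ∈ N ↔ b ∈ N) ∨ (¬ (a ∈ N ↔ b ∈ N) ∧ (Con S V w a ↔ Con S V w b)) := by
      by_cases h : (a ∈ N ↔ b ∈ N)
      · exact Or.inl h
      · exact Or.inr ⟨h, hstep hab (hVV hab h).1 (hVV hab h).2⟩
    have e2 : (b ∈ N ↔ d ∈ N) ∨ (¬ (b ∈ N ↔ d ∈ N) ∧ (Con S V w b ↔ Con S V w d)) := by
      by_cases h : (b ∈ N ↔ d ∈ N)
      · exact Or.inl h
      · exact Or.inr ⟨h, hstep hbd (hVV hbd h).1 (hVV hbd h).2⟩
    have e3 : (a ∈ N ↔ d ∈ N) ∨ (¬ (a ∈ N ↔ d ∈ N) ∧ (Con S V w a ↔ Con S V w d)) := by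
      by_cases h : (a ∈ N ↔ d ∈ N)
      · exact Or.inl h
      · exact Or.inr ⟨h, hstep had (hVV had h).1 (hVV had h).2⟩
    simp only [c]
    have h11 : (1 : ZMod 2) + 1 = 0 := by decide
    by_cases ha : a ∈ N <;> by_cases hb : b ∈ N <;> by_cases hd : d ∈ N <;>
      simp_all
    all_goals exact CharTwo.add_self_eq_zero _)
  have hconst : ∀ {A : Set G}, (∀ a ∈ A, ∀ b ∈ A, (a ∈ N ↔ b ∈ N)) → ∀ {a b : G},
      Con S A a b → f a = f b := by
    intro A hA a b hab
    induction hab with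
    | refl => rfl
    | @tail b d _ hbd ih =>
      rw [ih]
      obtain ⟨hb, hd, s, hs, h | h⟩ := hbd
      · have h1 := hf b d (by rw [h, inv_mul_cancel_left]; exact hs)
        have h2 : c b d = 0 := if_neg fun h' => h'.1 (hA b hb d hd)
        rw [h2] at h1
        exact CharTwo.add_eq_zero.1 h1.symm
      · have h1 := hf d b (by rw [h, inv_mul_cancel_left]; exact hs)
        have h2 : c d b = 0 := if_neg fun h' => h'.1 (hA d hd b hb)
        rw [h2] at h1
        exact (CharTwo.add_eq_zero.1 h1.symm).symm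
  have hfN : f w = f w' := hconst (fun a ha b hb => iff_of_true ha hb) (hN w hw w' hw')
  have hfN' : f y = f y' := hconst (fun a ha b hb => iff_of_false ha hb) (hN' y hy y' hy')
  have hne : ∀ {a b : G}, a ∈ N → b ∉ N → ¬ (a ∈ N ↔ b ∈ N) := fun ha hb h => hb (h.1 ha)
  have hsum : f w + f y = 1 := by
    obtain ⟨s, hs, h | h⟩ := hwy
    · rw [← hf w y (by rw [h, inv_mul_cancel_left]; exact hs)]
      exact if_pos ⟨hne hw hy, Relation.ReflTransGen.refl⟩
    · rw [add_comm, ← hf y w (by rw [h, inv_mul_cancel_left]; exact hs)]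
      refine if_pos ⟨fun h' => hy (h'.2 hw), ?_⟩
      have hh := hV w hw y hy ⟨s, hs, Or.inr h⟩
      exact Relation.ReflTransGen.single ⟨hh.1, hh.2, ⟨s, hs, Or.inr h⟩⟩
  rw [hfN, hfN'] at hsum
  have hh := hV w' hw' y' hy' hwy'
  obtain ⟨s, hs, h | h⟩ := id hwy'
  · rw [← hf w' y' (by rw [h, inv_mul_cancel_left]; exact hs)] at hsum
    by_contra hcon
    have : c w' y' = 0 := if_neg fun h' => hcon h'.2
    rw [this] at hsum
    exact absurd hsum (by decide)
  · rw [add_comm, ← hf y' w' (by rw [h, inv_mul_cancel_left]; exact hs)] at hsum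
    by_contra hcon
    have : c y' w' = 0 := if_neg fun h' => hcon (h'.2.tail ⟨hh.2, hh.1, hwy'.symm⟩)
    rw [this] at hsum
    exact absurd hsum (by decide)

theorem Con.mem_of_left {A : Set G} {x y : G} (h : Con S A x y) (hx : x ∈ A) : y ∈ A := by
  induction h with
  | refl => exact hx
  | tail _ h2 _ => exact h2.2.1

/-- connectivity inside one branch of the block -/
theorem branch_con (hS : Subgroup.closure (S : Set G) = ⊤) (hex : H1Ex S) (h : AtomFam S At)
    (hv : Ori At v) {z : G} {c : Q} (hz : Ex v z c) {w w' : G} (hw : Con S (v c)ᶜ z w)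
    (hw' : Con S (v c)ᶜ z w') (hwV : w ∈ Vv S v) (hwV' : w' ∈ Vv S v) : Con S (Vv S v) w w' := by
  let N : Set G := {u | Con S (v c)ᶜ z u}
  have hNv : ∀ u ∈ N, u ∉ v c := fun u hu => Con.mem_of_left hu hz.1
  have hExt : ∀ u ∈ N, Ex v u c := fun u hu => hz.move h hv hz.1 (hNv u hu)
  have hclosed : ∀ u ∈ N, ∀ u', Adj S u u' → u' ∉ v c → u' ∈ N := fun u hu u' hadj hu' =>
    Relation.ReflTransGen.tail hu ⟨hNv u hu, hu', hadj⟩
  have hNN : ∀ u ∈ N, Con S N z u := by
    intro u hu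
    induction hu with
    | refl => exact Relation.ReflTransGen.refl
    | @tail b d hb hbd ih =>
      exact ih.tail ⟨hb, Relation.ReflTransGen.tail hb hbd, hbd.2.2⟩
  have hN : ∀ x ∈ N, ∀ y ∈ N, Con S N x y := fun x hx y hy => (hNN x hx).symm.trans (hNN y hy)
  have hvN : v c ⊆ Nᶜ := fun u hu hu' => hNv u hu' hu
  obtain ⟨p₀, hp₀⟩ := h.ne c _ (hv.mem c)
  have hto : ∀ u, u ∉ N → ∃ p ∈ v c, Con S Nᶜ u p := by
    intro u
    refine Relation.ReflTransGen.head_induction_on
      (motive := fun u _ => u ∉ N → ∃ p ∈ v c, Con S Nᶜ u p) (adj_path hS u p₀) ?_ ?_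
    · intro _
      exact ⟨p₀, hp₀, Relation.ReflTransGen.refl⟩
    · intro a b hab _ ih ha
      by_cases hav : a ∈ v c
      · exact ⟨a, hav, Relation.ReflTransGen.refl⟩
      · have hb : b ∉ N := fun hb => ha (hclosed b hb a hab.symm hav)
        obtain ⟨p, hp, hcon⟩ := ih hb
        exact ⟨p, hp, Relation.ReflTransGen.head ⟨ha, hb, hab⟩ hcon⟩
  have hmono : ∀ {x y : G}, Con S (v c) x y → Con S Nᶜ x y := by
    intro x y hxy
    exact Relation.ReflTransGen.mono (fun a b hab => ⟨hvN hab.1, hvN hab.2.1, hab.2.2⟩) _ _ hxy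
  have hN' : ∀ x ∈ Nᶜ, ∀ y ∈ Nᶜ, Con S Nᶜ x y := by
    intro x hx y hy
    obtain ⟨p, hp, hxp⟩ := hto x hx
    obtain ⟨q, hq, hyq⟩ := hto y hy
    exact (hxp.trans (hmono (h.conn c _ (hv.mem c) p hp q hq))).trans hyq.symm
  have hV : ∀ x ∈ N, ∀ y ∉ N, Adj S x y → x ∈ Vv S v ∧ y ∈ Vv S v := by
    intro x hx y hy hxy
    have hyv : y ∈ v c := by
      by_contra hyv
      exact hy (hclosed x hx y hxy hyv)
    have he : Ev S v x y := ⟨hxy, fun c' => (hExt x hx).wall hyv c'⟩
    exact ⟨he.left, he.right⟩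
  obtain ⟨y, hy⟩ := hwV
  obtain ⟨y', hy'⟩ := hwV'
  have hyv : y ∈ v c := (hy.2 c).resolve_left (hNv w hw)
  have hyv' : y' ∈ v c := (hy'.2 c).resolve_left (hNv w' hw')
  exact wall_con hex hN hN' hV hw (hvN hyv) hy.1 hw' (hvN hyv') hy'.1

/-- The block is connected. -/
theorem block_conn (hS : Subgroup.closure (S : Set G) = ⊤) (hex : H1Ex S) (h : AtomFam S At)
    (hv : Ori At v) {x y : G} (hx : x ∈ Vv S v) (hy : y ∈ Vv S v) : Con S (Vv S v) x y := by
  have key : ∀ z, Relation.ReflTransGen (Adj S) x z → ∀ w ∈ Vv S v,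
      (w = z ∨ ∃ c, Ex v z c ∧ Con S (v c)ᶜ z w) → Con S (Vv S v) x w := by
    intro z hz
    induction hz with
    | refl =>
      rintro w hw (rfl | ⟨c, hc, hzw⟩)
      · exact Relation.ReflTransGen.refl
      · exact branch_con hS hex h hv hc Relation.ReflTransGen.refl hzw hx hw
    | @tail z z' _ hzz' ih =>
      intro w hw hcase
      by_cases hE : Ev S v z z'
      · have h1 : Con S (Vv S v) x z' :=
          (ih z hE.left (Or.inl rfl)).tail ⟨hE.left, hE.right, hzz'⟩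
        rcases hcase with rfl | ⟨c, hc, hzw⟩
        · exact h1
        · exact h1.trans (branch_con hS hex h hv hc Relation.ReflTransGen.refl hzw hE.right hw)
      · obtain ⟨c₁, hc₁⟩ : ∃ c₁, z ∉ v c₁ ∧ z' ∉ v c₁ := by
          by_contra hcon
          push Not at hcon
          exact hE ⟨hzz', fun c => or_iff_not_imp_left.2 (hcon c)⟩
        rcases hcase with rfl | ⟨c, hc, hzw⟩
        · obtain ⟨c, hc⟩ := exists_ex h hv hc₁.1
          exact ih w hw (Or.inr ⟨c, hc, Relation.ReflTransGen.single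
            ⟨hc.1, (hc.move h hv hc₁.1 hc₁.2).1, hzz'⟩⟩)
        · have hc' : Ex v z c := hc.move h hv hc₁.2 hc₁.1
          exact ih w hw (Or.inr ⟨c, hc', Relation.ReflTransGen.head ⟨hc'.1, hc.1, hzz'⟩ hzw⟩)
  exact key y (adj_path hS x y) y hy (Or.inl rfl)

section Act

variable [MulAction G Q]

/-- The stabiliser of an orientation. -/
def stab (v : Q → Set G) : Subgroup G where
  carrier := {g | ∀ c, v (g • c) = tr g (v c)}
  mul_mem' := by
    intro a b ha hb c
    rw [mul_smul, ha, hb, tr_mul]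
  one_mem' := by
    intro c
    rw [one_smul, tr_one]
  inv_mem' := by
    intro a ha c
    have h1 := ha (a⁻¹ • c)
    rw [smul_inv_smul] at h1
    rw [h1, ← tr_mul, inv_mul_cancel, tr_one]

theorem mem_stab {g : G} : g ∈ stab v ↔ ∀ c, v (g • c) = tr g (v c) := Iff.rfl

theorem stab_mem {g : G} (hg : g ∈ stab v) {x : G} {c : Q} : g * x ∈ v c ↔ x ∈ v (g⁻¹ • c) := by
  have h1 := mem_stab.1 hg (g⁻¹ • c)
  rw [smul_inv_smul] at h1
  rw [h1, mul_mem_tr]

theorem block_inv {g : G} (hg : g ∈ stab v) {x : G} (hx : x ∈ Vv S v) : g * x ∈ Vv S v := by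
  obtain ⟨y, hy, hc⟩ := hx
  refine ⟨g * y, adj_mul hy g, fun c => ?_⟩
  rw [stab_mem hg, stab_mem hg]
  exact hc _

/-- There are finitely many orbits of vertices of the block. -/
theorem block_cof (h : AtomFam S At)
    (heq : ∀ (g : G) (c : Q), ∀ U ∈ At c, tr g U ∈ At (g • c)) (hv : Ori At v) :
    ∃ reps : Finset G, ∀ x ∈ Vv S v, ∃ g ∈ stab v, ∃ f ∈ reps, x = g * f := by
  classical
  let O : G → Set (Q → Set G) := fun t => {w | (∀ c, w c ∈ At c) ∧ ∀ c, 1 ∈ w c ∨ t ∈ w c}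
  have hO : ∀ t, Adj S 1 t → (O t).Finite := by
    intro t ht
    let C : Set Q := {c | ∃ U ∈ At c, (1 : G) ∈ U ∧ t ∉ U} ∪ {c | ∃ U ∈ At c, t ∈ U ∧ (1 : G) ∉ U}
    have hC : C.Finite := (h.fin 1 t ht).union (h.fin t 1 ht.symm)
    refine Set.Finite.of_finite_image (f := fun w => {c | c ∈ C ∧ (1 : G) ∈ w c})
      (hC.finite_subsets.subset ?_) ?_
    · rintro _ ⟨w, _, rfl⟩
      exact fun c hc => hc.1
    · intro w hw w' hw' hww
      funext c
      have hww : {c | c ∈ C ∧ (1 : G) ∈ w c} = {c | c ∈ C ∧ (1 : G) ∈ w' c} := hww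
      by_cases hc : c ∈ C
      · by_cases h1 : (1 : G) ∈ w c
        · have h2 : c ∈ {c | c ∈ C ∧ (1 : G) ∈ w' c} := hww ▸ ⟨hc, h1⟩
          exact h.eq_of_mem (hw.1 c) (hw'.1 c) h1 h2.2
        · have h2 : (1 : G) ∉ w' c := by
            intro h2
            have h3 : c ∈ {c | c ∈ C ∧ (1 : G) ∈ w c} := hww.symm ▸ ⟨hc, h2⟩
            exact h1 h3.2
          exact h.eq_of_mem (hw.1 c) (hw'.1 c) ((hw.2 c).resolve_left h1)
            ((hw'.2 c).resolve_left h2)
      · have h1 : ∀ U ∈ At c, (1 : G) ∈ U ∨ t ∈ U → (1 : G) ∈ U := by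
          rintro U hU (h1 | h1)
          · exact h1
          · by_contra h2
            exact hc (Or.inr ⟨U, hU, h1, h2⟩)
        exact h.eq_of_mem (hw.1 c) (hw'.1 c) (h1 _ (hw.1 c) (hw.2 c)) (h1 _ (hw'.1 c) (hw'.2 c))
  have hfinT : {t : G | Adj S 1 t}.Finite := by
    refine ((S.finite_toSet).union ((S.finite_toSet).image fun s => s⁻¹)).subset ?_
    rintro t ⟨s, hs, ht | ht⟩
    · left; rw [ht, one_mul]; exact hs
    · right; exact ⟨s, hs, (eq_inv_of_mul_eq_one_left ht.symm).symm⟩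
  let wf : G → Q → Set G := fun x c => tr x⁻¹ (v (x • c))
  have hfin : (wf '' Vv S v).Finite := by
    refine (hfinT.biUnion (t := fun t => O t) fun t ht => hO t ht).subset ?_
    rintro _ ⟨x, ⟨y, hxy, hc⟩, rfl⟩
    refine Set.mem_biUnion (x := x⁻¹ * y) ?_ ⟨fun c => ?_, fun c => ?_⟩
    · have := adj_mul hxy x⁻¹
      rwa [inv_mul_cancel] at this
    · have := heq x⁻¹ (x • c) _ (hv.mem (x • c))
      rwa [inv_smul_smul] at this
    · change x⁻¹⁻¹ * 1 ∈ v (x • c) ∨ x⁻¹⁻¹ * (x⁻¹ * y) ∈ v (x • c)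
      rw [inv_inv, mul_one, mul_inv_cancel_left]
      exact hc _
  obtain ⟨R, hRV, hR⟩ := Set.exists_subset_bijOn (Vv S v) wf
  have hRfin : R.Finite := by
    refine Set.Finite.of_finite_image ?_ hR.injOn
    rw [hR.image_eq]
    exact hfin
  refine ⟨hRfin.toFinset, fun x hx => ?_⟩
  obtain ⟨f, hf, hfx⟩ := hR.surjOn (Set.mem_image_of_mem wf hx)
  refine ⟨x * f⁻¹, ?_, f, hRfin.mem_toFinset.2 hf, by rw [inv_mul_cancel_right]⟩
  rw [mem_stab]
  intro c
  have h1 : tr f⁻¹ (v (f • (f⁻¹ • c))) = tr x⁻¹ (v (x • (f⁻¹ • c))) := congrFun hfx (f⁻¹ • c)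
  rw [smul_inv_smul] at h1
  rw [tr_mul, h1, ← tr_mul, mul_inv_cancel, tr_one, mul_smul]

end Act

end Vale.Agent.P239.F
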