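import Vale.Agent.P239.F.BlkAbs

/-! Walls and branches of a block. -/

namespace Vale.Agent.P239.F

set_option linter.unusedSectionVars false

open Set
open Vale.Agent.P239

variable {G : Type*} [Group G] {Q : Type*} {S : Finset G} {At : Q → Set (Set G)}

theorem ex_ori (h : AtomFam S At) {a b : Q} (hab : a ≠ b) {x : G} (hx : x ∉ tow At a b) :
    Ex (ori At a b) x a := by
  refine ⟨by rw [ori_self]; exact hx, fun c hc => ?_⟩
  by_cases hca : c = a
  · rw [hca]
  rw [ori_ne _ _ hca] at hc ⊢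
  rw [ori_self]
  by_cases h1 : tow At a b = tow At a c
  · have := h.tow_union (Ne.symm hca)
    rw [← h1] at this
    exact (hc (mem_of_union this hx)).elim
  · exact h.sub_tow (Ne.symm hca) (h.tow_mem hab) h1

/-- both sides of the wall at `a` lie in the block -/
theorem bd_sub_left (h : AtomFam S At) {a b : Q} (hab : a ≠ b) :
    bd S (tow At a b) ⊆ Vv S (ori At a b) := by
  rintro x ⟨y, hxy, hne⟩
  by_cases hx : x ∈ tow At a b
  · have hy : y ∉ tow At a b := fun hy => hne (iff_of_true hx hy)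
    have := (ex_ori h hab hy).wall (y := x) (by rw [ori_self]; exact hx)
    exact ⟨y, hxy, fun c => (this c).symm⟩
  · have hy : y ∈ tow At a b := by
      by_contra hy
      exact hne (iff_of_false hx hy)
    exact ⟨y, hxy, (ex_ori h hab hx).wall (by rw [ori_self]; exact hy)⟩

/-- both sides of the wall at `b` lie in the block -/
theorem bd_sub_right (h : AtomFam S At) {a b : Q} (hab : AdjQ At a b) :
    bd S (tow At b a) ⊆ Vv S (ori At a b) := by
  rw [ori_comm hab]
  exact bd_sub_left h (Ne.symm hab.1)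

variable {v : Q → Set G}

/-- `N` is a branch of the block, attached at the centre `c` -/
def IsBr (S : Finset G) (v : Q → Set G) (c : Q) (N : Set G) : Prop :=
  ∃ z, Ex v z c ∧ N = {w | Con S (v c)ᶜ z w}

theorem IsBr.ex (h : AtomFam S At) (hv : Ori At v) {c : Q} {N : Set G} (hN : IsBr S v c N) {w : G}
    (hw : w ∈ N) : Ex v w c := by
  obtain ⟨z, hz, rfl⟩ := hN
  exact hz.move h hv hz.1 (Con.mem_of_left hw hz.1)

theorem IsBr.notMem {c : Q} {N : Set G} (hN : IsBr S v c N) {w : G} (hw : w ∈ N) : w ∉ v c := by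
  obtain ⟨z, hz, rfl⟩ := hN
  exact Con.mem_of_left hw hz.1

theorem IsBr.nonempty {c : Q} {N : Set G} (hN : IsBr S v c N) : N.Nonempty := by
  obtain ⟨z, hz, rfl⟩ := hN
  exact ⟨z, Relation.ReflTransGen.refl⟩

theorem IsBr.mem_adj {c : Q} {N : Set G} (hN : IsBr S v c N) {w w' : G} (hw : w ∈ N)
    (hww : Adj S w w') (hw' : w' ∉ v c) : w' ∈ N := by
  have h1 := hN.notMem hw
  obtain ⟨z, hz, rfl⟩ := hN
  exact Relation.ReflTransGen.tail hw ⟨h1, hw', hww⟩

/-- an edge leaving a branch ends in `v c` and belongs to the block -/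
theorem IsBr.leave (h : AtomFam S At) (hv : Ori At v) {c : Q} {N : Set G} (hN : IsBr S v c N)
    {w w' : G} (hw : w ∈ N) (hw' : w' ∉ N) (hww : Adj S w w') : w' ∈ v c ∧ Ev S v w w' := by
  have h1 : w' ∈ v c := by
    by_contra h1
    exact hw' (hN.mem_adj hw hww h1)
  exact ⟨h1, hww, (hN.ex h hv hw).wall h1⟩

theorem exists_br (h : AtomFam S At) (hv : Ori At v) {x : G} {c : Q} (hx : x ∉ v c) :
    ∃ c N, IsBr S v c N ∧ x ∈ N := by
  obtain ⟨c, hc⟩ := exists_ex h hv hx
  exact ⟨c, _, ⟨x, hc, rfl⟩, Relation.ReflTransGen.refl⟩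

theorem Ex.unique (h : AtomFam S At) (hv : Ori At v) {x : G} {c c' : Q} (hc : Ex v x c)
    (hc' : Ex v x c') : c = c' := by
  by_contra hne
  have h1 : v c = v c' := subset_antisymm (hc.2 c' hc'.1) (hc'.2 c hc.1)
  exact h.strict c c' hne _ (hv.mem c) (h1 ▸ hv.mem c')

theorem IsBr.unique (h : AtomFam S At) (hv : Ori At v) {c c' : Q} {N N' : Set G}
    (hN : IsBr S v c N) (hN' : IsBr S v c' N') {x : G} (hx : x ∈ N) (hx' : x ∈ N') :
    c = c' ∧ N = N' := by
  have h1 : c = c' := (hN.ex h hv hx).unique h hv (hN'.ex h hv hx')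
  subst h1
  refine ⟨rfl, ?_⟩
  obtain ⟨z, hz, rfl⟩ := hN
  obtain ⟨z', hz', rfl⟩ := hN'
  have hx1 : Con S (v c)ᶜ z x := hx
  have hx2 : Con S (v c)ᶜ z' x := hx'
  ext w
  exact ⟨fun hw => hx2.trans (hx1.symm.trans hw), fun hw => hx1.trans (hx2.symm.trans hw)⟩

/-- the points of a branch lying in the block are the endpoints of edges leaving the branch -/
theorem IsBr.mem_V {c : Q} {N : Set G} (hN : IsBr S v c N) {w : G} (hw : w ∈ N)
    (hwV : w ∈ Vv S v) : ∃ y ∈ v c, Ev S v w y := by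
  obtain ⟨y, hy⟩ := hwV
  exact ⟨y, (hy.2 c).resolve_left (hN.notMem hw), hy⟩

theorem mem_V_of_forall (h1 : (1 : G) ∈ S) {x : G} (hx : ∀ c, x ∈ v c) : x ∈ Vv S v :=
  ⟨x, ⟨1, h1, Or.inl (mul_one x).symm⟩, fun c => Or.inl (hx c)⟩

/-- a branch is connected -/
theorem IsBr.conn {c : Q} {N : Set G} (hN : IsBr S v c N) {x y : G} (hx : x ∈ N) (hy : y ∈ N) :
    Con S N x y := by
  obtain ⟨z, hz, rfl⟩ := hN
  have hNN : ∀ u, Con S (v c)ᶜ z u → Con S {w | Con S (v c)ᶜ z w} z u := by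
    intro u hu
    induction hu with
    | refl => exact Relation.ReflTransGen.refl
    | @tail b d hb hbd ih =>
      exact ih.tail ⟨hb, Relation.ReflTransGen.tail hb hbd, hbd.2.2⟩
  exact (hNN x hx).symm.trans (hNN y hy)

section Act

variable [MulAction G Q]

theorem con_mul {A : Set G} {x y : G} (g : G) (h : Con S A x y) :
    Con S (tr g A) (g * x) (g * y) := by
  induction h with
  | refl => exact Relation.ReflTransGen.refl
  | tail _ h2 ih => exact ih.tail ⟨mul_mem_tr.2 h2.1, mul_mem_tr.2 h2.2.1, adj_mul h2.2.2 g⟩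

theorem tr_compl (g : G) (A : Set G) : tr g Aᶜ = (tr g A)ᶜ := rfl

theorem Ex.act {g : G} (hg : g ∈ stab v) {x : G} {c : Q} (hx : Ex v x c) :
    Ex v (g * x) (g • c) := by
  refine ⟨?_, fun c' hc' => ?_⟩
  · rw [mem_stab.1 hg, mul_mem_tr]; exact hx.1
  · rw [stab_mem hg] at hc'
    have h1 := hx.2 _ hc'
    have h2 := mem_stab.1 hg (g⁻¹ • c')
    rw [smul_inv_smul] at h2
    rw [h2, mem_stab.1 hg]
    exact fun u hu => h1 hu

theorem IsBr.act {g : G} (hg : g ∈ stab v) {c : Q} {N : Set G} (hN : IsBr S v c N) :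
    IsBr S v (g • c) (tr g N) := by
  obtain ⟨z, hz, rfl⟩ := hN
  refine ⟨g * z, hz.act hg, ?_⟩
  rw [mem_stab.1 hg, ← tr_compl]
  ext w
  constructor
  · intro hw
    have := con_mul g (show Con S (v c)ᶜ z (g⁻¹ * w) from hw)
    rwa [mul_inv_cancel_left] at this
  · intro hw
    have := con_mul g⁻¹ (show Con S (tr g (v c)ᶜ) (g * z) w from hw)
    rwa [inv_mul_cancel_left, ← tr_mul, inv_mul_cancel, tr_one] at this

end Act

end Vale.Agent.P239.F
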