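import Vale.Agent.P239.F.Base

/-!
Definitions for module C: averaging operator, cuts, canonical sets.
-/

namespace Vale.Agent.P239.F

open Filter Topology Set
open Vale.Agent.P239

variable {G : Type*} [Group G]

/-- the averaging operator -/
noncomputable def avg (S : Finset G) (f : G → ℝ) : G → ℝ :=
  fun x => (∑ s ∈ S, f (x * s)) / S.card

/-- the harmonic function of a set -/
noncomputable def phi (S : Finset G) (A : Set G) (x : G) : ℝ :=
  limUnder atTop (fun n => ((avg S)^[n] (A.indicator 1)) x)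

/-- the canonical set -/
noncomputable def HH (S : Finset G) (A : Set G) : Set G := {x | 1 / 2 < phi S A x}

variable {S : Finset G} (hS : Subgroup.closure (S : Set G) = ⊤)

/-- `A` is a cut at `β` -/
def IsCut (A : Set G) (β : G → G → ℝ) : Prop := β ∈ Lim hS univ ∧ Conv hS (bd S A) β

/-- nontrivial with respect to `β` -/
def Nontriv (A : Set G) (β : G → G → ℝ) : Prop := ¬ Conv hS A β ∧ ¬ Conv hS Aᶜ β

/-- the part of the hypotheses used by the potential theory -/
structure HypS (S : Finset G) : Prop where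
  gen : Subgroup.closure (S : Set G) = ⊤
  symS : ∀ s ∈ S, s⁻¹ ∈ S
  oneS : (1 : G) ∈ S
  inf : Infinite G
  gap : ∃ C : ℝ, 0 < C ∧ ∀ f : G → ℝ, (Summable fun x => f x ^ 2) →
      ∑' x, f x ^ 2 ≤ C * ∑ s ∈ S, ∑' x, (f (x * s) - f x) ^ 2

theorem Hyp.toHypS {S T : Finset G} (h : Hyp S T) : HypS S :=
  ⟨h.gen, h.symS, h.oneS, h.inf, h.gap⟩

end Vale.Agent.P239.F
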