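import Vale.Agent.P239.F.C0Def

/-!
Module C0, part a: the averaging operator, the harmonic part of a function of finite energy.
-/

namespace Vale.Agent.P239.F

open Filter Topology Set
open Vale.Agent.P239
open scoped RealInnerProductSpace

variable {G : Type*} [Group G]

variable {S : Finset G}

theorem HypS.card_pos (h : HypS S) : (0 : ℝ) < S.card := by
  have := Finset.card_pos.2 ⟨1, h.oneS⟩
  exact_mod_cast this

theorem avg_mono {f g : G → ℝ} (h : ∀ x, f x ≤ g x) (x : G) : avg S f x ≤ avg S g x :=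
  div_le_div_of_nonneg_right (Finset.sum_le_sum fun _ _ => h _) (Nat.cast_nonneg _)

theorem avg_add (f g : G → ℝ) : avg S (f + g) = avg S f + avg S g := by
  funext x
  simp only [avg, Pi.add_apply, Finset.sum_add_distrib, add_div]

theorem avg_smul (c : ℝ) (f : G → ℝ) : avg S (c • f) = c • avg S f := by
  funext x
  simp only [avg, Pi.smul_apply, smul_eq_mul, ← Finset.mul_sum, mul_div_assoc]

theorem avg_sub (f g : G → ℝ) : avg S (f - g) = avg S f - avg S g := by
  funext x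
  simp only [avg, Pi.sub_apply, Finset.sum_sub_distrib, sub_div]

theorem avg_const (hS : HypS S) (c : ℝ) : avg S (fun _ => c) = fun _ => c := by
  funext x
  simp only [avg, Finset.sum_const, nsmul_eq_mul]
  exact mul_div_cancel_left₀ c hS.card_pos.ne'

theorem avg_trans (f : G → ℝ) (g : G) : avg S (fun x => f (g * x)) = fun x => avg S f (g * x) := by
  funext x
  simp only [avg, mul_assoc]

theorem avg_eq_of_harm (hS : HypS S) {f : G → ℝ}
    (hf : ∀ y, ∑ s ∈ S, (f (y * s) - f y) = 0) : avg S f = f := by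
  funext x
  have h := hf x
  rw [Finset.sum_sub_distrib, Finset.sum_const, nsmul_eq_mul, sub_eq_zero] at h
  rw [avg, h]
  exact mul_div_cancel_left₀ _ hS.card_pos.ne'

theorem harm_of_avg_eq (hS : HypS S) {f : G → ℝ} (hf : avg S f = f) (y : G) :
    ∑ s ∈ S, (f (y * s) - f y) = 0 := by
  have h := congrFun hf y
  rw [avg, div_eq_iff hS.card_pos.ne'] at h
  rw [Finset.sum_sub_distrib, Finset.sum_const, nsmul_eq_mul, h]
  ring

theorem iter_mono {f g : G → ℝ} (h : ∀ x, f x ≤ g x) (n : ℕ) (x : G) :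
    (avg S)^[n] f x ≤ (avg S)^[n] g x := by
  induction n generalizing x with
  | zero => exact h x
  | succ n ih => rw [Function.iterate_succ_apply', Function.iterate_succ_apply']; exact avg_mono ih x

theorem iter_add (f g : G → ℝ) (n : ℕ) :
    (avg S)^[n] (f + g) = (avg S)^[n] f + (avg S)^[n] g := by
  induction n with
  | zero => rfl
  | succ n ih => rw [Function.iterate_succ_apply', ih, avg_add, Function.iterate_succ_apply',
      Function.iterate_succ_apply']

theorem iter_sub (f g : G → ℝ) (n : ℕ) :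
    (avg S)^[n] (f - g) = (avg S)^[n] f - (avg S)^[n] g := by
  induction n with
  | zero => rfl
  | succ n ih => rw [Function.iterate_succ_apply', ih, avg_sub, Function.iterate_succ_apply',
      Function.iterate_succ_apply']

theorem iter_smul (c : ℝ) (f : G → ℝ) (n : ℕ) :
    (avg S)^[n] (c • f) = c • (avg S)^[n] f := by
  induction n with
  | zero => rfl
  | succ n ih => rw [Function.iterate_succ_apply', ih, avg_smul, Function.iterate_succ_apply']

theorem iter_const (hS : HypS S) (c : ℝ) (n : ℕ) :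
    (avg S)^[n] (fun _ => c) = fun _ => c := by
  induction n with
  | zero => rfl
  | succ n ih => rw [Function.iterate_succ_apply', ih, avg_const hS]

theorem iter_harm {f : G → ℝ} (hf : avg S f = f) (n : ℕ) : (avg S)^[n] f = f := by
  induction n with
  | zero => rfl
  | succ n ih => rw [Function.iterate_succ_apply', ih, hf]

theorem iter_trans (f : G → ℝ) (g : G) (n : ℕ) :
    (avg S)^[n] (fun x => f (g * x)) = fun x => (avg S)^[n] f (g * x) := by
  induction n with
  | zero => rfl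
  | succ n ih =>
    rw [Function.iterate_succ_apply', ih, avg_trans, Function.iterate_succ_apply']

/-! ### contraction on `ℓ²` -/

/-- pointwise inequality -/
theorem avg_sq_le (hS : HypS S) (f : G → ℝ) (x : G) :
    (avg S f x) ^ 2 ≤ (∑ s ∈ S, f (x * s) ^ 2) / S.card
      - (∑ s ∈ S, (f (x * s) - f x) ^ 2) / (S.card : ℝ) ^ 2 := by
  classical
  have hc := hS.card_pos
  set N : ℝ := (S.card : ℝ) with hN
  -- sum over pairs
  have h1 : ∑ s ∈ S, ∑ t ∈ S, (f (x * s) - f (x * t)) ^ 2 =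
      2 * N * ∑ s ∈ S, f (x * s) ^ 2 - 2 * (∑ s ∈ S, f (x * s)) ^ 2 := by
    have e : ∀ s t : G, (f (x * s) - f (x * t)) ^ 2 =
        f (x * s) ^ 2 + f (x * t) ^ 2 - 2 * (f (x * s) * f (x * t)) := fun s t => by ring
    simp only [e, Finset.sum_sub_distrib, Finset.sum_add_distrib, Finset.sum_const, nsmul_eq_mul,
      ← Finset.mul_sum, ← Finset.sum_mul]
    rw [← hN]; ring
  have h2 : 2 * ∑ s ∈ S, (f (x * s) - f x) ^ 2 ≤
      ∑ s ∈ S, ∑ t ∈ S, (f (x * s) - f (x * t)) ^ 2 := by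
    have hx : ∀ s ∈ S, (f (x * s) - f x) ^ 2 ≤ ∑ t ∈ S, (f (x * s) - f (x * t)) ^ 2 := by
      intro s _
      have := Finset.single_le_sum (f := fun t => (f (x * s) - f (x * t)) ^ 2)
        (fun t _ => sq_nonneg _) hS.oneS
      simpa using this
    rw [← Finset.add_sum_erase S (fun s => ∑ t ∈ S, (f (x * s) - f (x * t)) ^ 2) hS.oneS, two_mul]
    have h3 : ∑ s ∈ S, (f (x * s) - f x) ^ 2 = ∑ t ∈ S, (f (x * 1) - f (x * t)) ^ 2 := by
      refine Finset.sum_congr rfl fun s _ => ?_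
      rw [mul_one]; ring
    have h4 : ∑ s ∈ S, (f (x * s) - f x) ^ 2 ≤
        ∑ s ∈ S.erase 1, ∑ t ∈ S, (f (x * s) - f (x * t)) ^ 2 := by
      rw [← Finset.add_sum_erase S (fun s => (f (x * s) - f x) ^ 2) hS.oneS]
      simp only [mul_one, sub_self, ne_eq, OfNat.ofNat_ne_zero, not_false_eq_true, zero_pow,
        zero_add]
      exact Finset.sum_le_sum fun s hs => hx s (Finset.mem_of_mem_erase hs)
    calc ∑ s ∈ S, (f (x * s) - f x) ^ 2 + ∑ s ∈ S, (f (x * s) - f x) ^ 2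
        ≤ ∑ t ∈ S, (f (x * 1) - f (x * t)) ^ 2 +
          ∑ s ∈ S.erase 1, ∑ t ∈ S, (f (x * s) - f (x * t)) ^ 2 := add_le_add h3.le h4
      _ = _ := rfl
  rw [avg, div_pow]
  rw [h1] at h2
  rw [div_sub_div _ _ hc.ne' (pow_ne_zero 2 hc.ne'), div_le_div_iff₀ (pow_pos hc 2)
    (by positivity)]
  have h5 : (∑ s ∈ S, f (x * s)) ^ 2 ≤ N * ∑ s ∈ S, f (x * s) ^ 2 -
      ∑ s ∈ S, (f (x * s) - f x) ^ 2 := by linarith
  calc (∑ s ∈ S, f (x * s)) ^ 2 * (N * N ^ 2) ≤
      (N * ∑ s ∈ S, f (x * s) ^ 2 - ∑ s ∈ S, (f (x * s) - f x) ^ 2) * (N * N ^ 2) :=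
        mul_le_mul_of_nonneg_right h5 (by positivity)
    _ = _ := by ring

theorem avg_contr (hS : HypS S) : ∃ q : ℝ, 0 ≤ q ∧ q < 1 ∧ ∀ f : G → ℝ, SqS f →
    SqS (avg S f) ∧ ∑' x, avg S f x ^ 2 ≤ q * ∑' x, f x ^ 2 := by
  obtain ⟨C, hC, hgap⟩ := hS.gap
  have hc := hS.card_pos
  refine ⟨max 0 (1 - 1 / (C * (S.card : ℝ) ^ 2)), le_max_left _ _, ?_, fun f hf => ?_⟩
  · refine max_lt one_pos ?_
    have : 0 < 1 / (C * (S.card : ℝ) ^ 2) := by positivity
    linarith
  · have hs : ∀ s : G, Summable fun x => f (x * s) ^ 2 := fun s =>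
      (Equiv.mulRight s).summable_iff.2 hf
    have hst : ∀ s : G, ∑' x, f (x * s) ^ 2 = ∑' x, f x ^ 2 := fun s =>
      (Equiv.mulRight s).tsum_eq (fun x => f x ^ 2)
    have hd : ∀ s : G, Summable fun x => (f (x * s) - f x) ^ 2 := fun s => (sq_slice hf s).1
    have s1 : Summable fun x => ∑ s ∈ S, f (x * s) ^ 2 := summable_sum fun s _ => hs s
    have s2 : Summable fun x => ∑ s ∈ S, (f (x * s) - f x) ^ 2 := summable_sum fun s _ => hd s
    have s3 : Summable fun x => (∑ s ∈ S, f (x * s) ^ 2) / (S.card : ℝ) := s1.div_const _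
    have s4 : Summable fun x => (∑ s ∈ S, (f (x * s) - f x) ^ 2) / (S.card : ℝ) ^ 2 :=
      s2.div_const _
    have hle := avg_sq_le hS f
    have s5 : SqS (avg S f) := (s3.sub s4).of_nonneg_of_le (fun x => sq_nonneg _) hle
    refine ⟨s5, ?_⟩
    have h1 : ∑' x, avg S f x ^ 2 ≤ ∑' x, ((∑ s ∈ S, f (x * s) ^ 2) / (S.card : ℝ)
        - (∑ s ∈ S, (f (x * s) - f x) ^ 2) / (S.card : ℝ) ^ 2) :=
      s5.tsum_le_tsum hle (s3.sub s4)
    have h2 : ∑' x, ((∑ s ∈ S, f (x * s) ^ 2) / (S.card : ℝ)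
        - (∑ s ∈ S, (f (x * s) - f x) ^ 2) / (S.card : ℝ) ^ 2) =
        ∑' x, f x ^ 2 - (∑ s ∈ S, ∑' x, (f (x * s) - f x) ^ 2) / (S.card : ℝ) ^ 2 := by
      rw [s3.tsum_sub s4, tsum_div_const, tsum_div_const, Summable.tsum_finsetSum fun s _ => hs s,
        Summable.tsum_finsetSum fun s _ => hd s]
      simp only [hst, Finset.sum_const, nsmul_eq_mul]
      rw [mul_div_cancel_left₀ _ hc.ne']
    have h3 := hgap f hf
    have h4 : (∑' x, f x ^ 2) / (C * (S.card : ℝ) ^ 2) ≤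
        (∑ s ∈ S, ∑' x, (f (x * s) - f x) ^ 2) / (S.card : ℝ) ^ 2 := by
      rw [div_le_div_iff₀ (by positivity) (by positivity)]
      calc (∑' x, f x ^ 2) * (S.card : ℝ) ^ 2 ≤
          (C * ∑ s ∈ S, ∑' x, (f (x * s) - f x) ^ 2) * (S.card : ℝ) ^ 2 :=
            mul_le_mul_of_nonneg_right h3 (by positivity)
        _ = _ := by ring
    have h5 : 0 ≤ ∑' x, f x ^ 2 := tsum_nonneg fun x => sq_nonneg _
    calc ∑' x, avg S f x ^ 2 ≤ ∑' x, f x ^ 2 - (∑' x, f x ^ 2) / (C * (S.card : ℝ) ^ 2) := by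
          rw [h2] at h1; linarith
      _ = (1 - 1 / (C * (S.card : ℝ) ^ 2)) * ∑' x, f x ^ 2 := by ring
      _ ≤ _ := mul_le_mul_of_nonneg_right (le_max_right _ _) h5

theorem iter_l2 (hS : HypS S) {f : G → ℝ} (hf : SqS f) (x : G) :
    Tendsto (fun n => (avg S)^[n] f x) atTop (𝓝 0) := by
  obtain ⟨q, hq0, hq1, hq⟩ := avg_contr hS
  have h1 : ∀ n, SqS ((avg S)^[n] f) ∧ ∑' x, (avg S)^[n] f x ^ 2 ≤ q ^ n * ∑' x, f x ^ 2 := by
    intro n
    induction n with
    | zero => exact ⟨hf, by simp⟩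
    | succ n ih =>
      rw [Function.iterate_succ_apply']
      refine ⟨(hq _ ih.1).1, (hq _ ih.1).2.trans ?_⟩
      calc q * ∑' x, (avg S)^[n] f x ^ 2 ≤ q * (q ^ n * ∑' x, f x ^ 2) :=
            mul_le_mul_of_nonneg_left ih.2 hq0
        _ = _ := by ring
  have h2 : Tendsto (fun n => ((avg S)^[n] f x) ^ 2) atTop (𝓝 0) := by
    have h3 : Tendsto (fun n : ℕ => q ^ n * ∑' x, f x ^ 2) atTop (𝓝 0) := by
      have := (tendsto_pow_atTop_nhds_zero_of_lt_one hq0 hq1).mul_const (∑' x, f x ^ 2)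
      rwa [zero_mul] at this
    refine squeeze_zero (fun n => sq_nonneg _) (fun n => ?_) h3
    exact ((h1 n).1.le_tsum x fun y _ => sq_nonneg _).trans (h1 n).2
  have h4 := h2.sqrt
  simp only [Real.sqrt_sq_eq_abs, Real.sqrt_zero] at h4
  exact (tendsto_zero_iff_abs_tendsto_zero _).2 h4

/-! ### the harmonic part -/

/-- the harmonic part of a function of finite energy -/
noncomputable def HpD (hS : HypS S) (f : Dir S) : Dir S :=
  (exists_decomp (C := hS.gap.choose) hS.gap.choose_spec.2 f).choose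

theorem Hp_spec (hS : HypS S) (f : Dir S) : ∃ φ : Dir S, f = HpD hS f + φ ∧ SqS φ.1 ∧
    Orth (HpD hS f) :=
  (exists_decomp (C := hS.gap.choose) hS.gap.choose_spec.2 f).choose_spec

theorem Hp_harm (hS : HypS S) (f : Dir S) : avg S (HpD hS f).1 = (HpD hS f).1 := by
  obtain ⟨φ, -, -, ho⟩ := Hp_spec hS f
  exact avg_eq_of_harm hS fun y => ho.harm hS.symS y

theorem Hp_sub (hS : HypS S) (f : Dir S) : SqS (f.1 - (HpD hS f).1) := by
  obtain ⟨φ, h, hφ, -⟩ := Hp_spec hS f
  have : f.1 - (HpD hS f).1 = φ.1 := by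
    have h2 : f.1 = (HpD hS f).1 + φ.1 := by
      have := congrArg Subtype.val h
      exact this
    rw [h2]; ring
  rw [this]; exact hφ

omit [Group G] in
theorem sqS_tendsto {f : G → ℝ} (hf : SqS f) : Tendsto f cofinite (𝓝 0) := by
  have h4 := (hf.tendsto_cofinite_zero).sqrt
  simp only [Real.sqrt_sq_eq_abs, Real.sqrt_zero] at h4
  exact (tendsto_zero_iff_abs_tendsto_zero _).2 h4

/-- `f - Hf` vanishes at infinity -/
theorem Hp_infty (hS : HypS S) (f : Dir S) :
    Tendsto (fun x => f.1 x - (HpD hS f).1 x) cofinite (𝓝 0) := sqS_tendsto (Hp_sub hS f)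

/-- `Pⁿ f → H f` pointwise -/
theorem iter_tendsto (hS : HypS S) (f : Dir S) (x : G) :
    Tendsto (fun n => (avg S)^[n] f.1 x) atTop (𝓝 ((HpD hS f).1 x)) := by
  have h1 := iter_l2 hS (Hp_sub hS f) x
  have h2 : ∀ n, (avg S)^[n] f.1 x = (avg S)^[n] (f.1 - (HpD hS f).1) x + (HpD hS f).1 x := by
    intro n
    rw [iter_sub, iter_harm (Hp_harm hS f)]
    simp
  have h3 := h1.add_const ((HpD hS f).1 x)
  rw [zero_add] at h3
  exact h3.congr fun n => (h2 n).symm

theorem Hp_mono (hS : HypS S) {f g : Dir S} (h : ∀ x, f.1 x ≤ g.1 x) (x : G) :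
    (HpD hS f).1 x ≤ (HpD hS g).1 x :=
  le_of_tendsto_of_tendsto' (iter_tendsto hS f x) (iter_tendsto hS g x) fun n => iter_mono h n x

theorem Hp_add (hS : HypS S) (f g : Dir S) (x : G) :
    (HpD hS (f + g)).1 x = (HpD hS f).1 x + (HpD hS g).1 x := by
  refine tendsto_nhds_unique (iter_tendsto hS (f + g) x) ?_
  refine ((iter_tendsto hS f x).add (iter_tendsto hS g x)).congr fun n => ?_
  have : (f + g).1 = f.1 + g.1 := rfl
  rw [this, iter_add]; rfl

theorem Hp_sub' (hS : HypS S) (f g : Dir S) (x : G) :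
    (HpD hS (f - g)).1 x = (HpD hS f).1 x - (HpD hS g).1 x := by
  refine tendsto_nhds_unique (iter_tendsto hS (f - g) x) ?_
  refine ((iter_tendsto hS f x).sub (iter_tendsto hS g x)).congr fun n => ?_
  have : (f - g).1 = f.1 - g.1 := rfl
  rw [this, iter_sub]; rfl

theorem Hp_nonneg (hS : HypS S) {f : Dir S} (h : ∀ x, 0 ≤ f.1 x) (x : G) :
    0 ≤ (HpD hS f).1 x := by
  refine ge_of_tendsto' (iter_tendsto hS f x) fun n => ?_
  have h1 := iter_mono (S := S) (f := fun _ => 0) (g := f.1) h n x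
  rwa [iter_const hS] at h1

theorem Hp_le (hS : HypS S) {f : Dir S} {c : ℝ} (h : ∀ x, f.1 x ≤ c) (x : G) :
    (HpD hS f).1 x ≤ c := by
  refine le_of_tendsto' (iter_tendsto hS f x) fun n => ?_
  have h1 := iter_mono (S := S) (f := f.1) (g := fun _ => c) h n x
  rwa [iter_const hS] at h1

theorem Hp_trD (hS : HypS S) (g : G) (f : Dir S) (x : G) :
    (HpD hS (trD g f)).1 x = (HpD hS f).1 (g⁻¹ * x) := by
  refine tendsto_nhds_unique (iter_tendsto hS (trD g f) x) ?_
  refine (iter_tendsto hS f (g⁻¹ * x)).congr fun n => ?_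
  have : (trD g f).1 = fun y => f.1 (g⁻¹ * y) := rfl
  rw [this, iter_trans]

/-- gradients vanish at infinity -/
theorem dir_step_tendsto (f : Dir S) {s : G} (hs : s ∈ S) :
    Tendsto (fun x => f.1 (x * s) - f.1 x) cofinite (𝓝 0) := by
  have h := f.2
  rw [mem_Dir, memℓp_gen_iff (by norm_num)] at h
  have h2 := h.tendsto_cofinite_zero
  have h3 : Function.Injective (fun x : G => ((⟨s, hs⟩ : S), x)) := fun a b hab =>
    (Prod.ext_iff.1 hab).2
  have h4 := h2.comp h3.tendsto_cofinite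
  have h5 : Tendsto (fun x => (f.1 (x * s) - f.1 x) ^ 2) cofinite (𝓝 0) := by
    refine h4.congr fun x => ?_
    simp only [Function.comp]
    rw [ENNReal.toReal_ofNat, Real.rpow_ofNat, Real.norm_eq_abs, sq_abs]
  have h6 := h5.sqrt
  simp only [Real.sqrt_sq_eq_abs, Real.sqrt_zero] at h6
  exact (tendsto_zero_iff_abs_tendsto_zero _).2 h6

end Vale.Agent.P239.F
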