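import Vale.Agent.P239.F.C0a

/-!
Module C0, part b: points, cut-offs, the vanishing of harmonic measure of points.
-/

namespace Vale.Agent.P239.F

open Filter Topology Set
open Vale.Agent.P239
open scoped RealInnerProductSpace

variable {G : Type*} [Group G] {S : Finset G}

/-! ### closure properties of `Dir` -/

theorem mem_Dir_of_le2 {f g : G → ℝ} (hf : f ∈ Dir S) (hg : g ∈ Dir S) {k : G → ℝ}
    (h : ∀ x, ∀ s ∈ S, |k (x * s) - k x| ≤ |f (x * s) - f x| + |g (x * s) - g x|) :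
    k ∈ Dir S := by
  rw [mem_Dir_iff] at hf hg ⊢
  intro s hs
  refine Summable.of_nonneg_of_le (fun x => sq_nonneg _) (fun x => ?_)
    (((hf s hs).mul_left 2).add ((hg s hs).mul_left 2))
  have h1 := h x s hs
  have h2 : |k (x * s) - k x| ^ 2 ≤ (|f (x * s) - f x| + |g (x * s) - g x|) ^ 2 :=
    pow_le_pow_left₀ (abs_nonneg _) h1 2
  rw [sq_abs] at h2
  have h3 := sq_abs (f (x * s) - f x)
  have h4 := sq_abs (g (x * s) - g x)
  nlinarith [sq_nonneg (|f (x * s) - f x| - |g (x * s) - g x|)]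

theorem const_mem_Dir (c : ℝ) : (fun _ : G => c) ∈ Dir S := by
  rw [mem_Dir_iff]
  intro s _
  simp only [sub_self, ne_eq, OfNat.ofNat_ne_zero, not_false_eq_true, zero_pow]
  exact summable_zero

theorem max_mem_Dir {f g : G → ℝ} (hf : f ∈ Dir S) (hg : g ∈ Dir S) :
    (fun x => max (f x) (g x)) ∈ Dir S :=
  mem_Dir_of_le2 hf hg fun _ _ _ => (abs_max_sub_max_le_max _ _ _ _).trans
    (max_le_add_of_nonneg (abs_nonneg _) (abs_nonneg _))

theorem min_mem_Dir {f g : G → ℝ} (hf : f ∈ Dir S) (hg : g ∈ Dir S) :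
    (fun x => min (f x) (g x)) ∈ Dir S :=
  mem_Dir_of_le2 hf hg fun _ _ _ => (abs_min_sub_min_le_max _ _ _ _).trans
    (max_le_add_of_nonneg (abs_nonneg _) (abs_nonneg _))

theorem abs_mem_Dir {f : G → ℝ} (hf : f ∈ Dir S) : (fun x => |f x|) ∈ Dir S :=
  mem_Dir_of_le2 hf (const_mem_Dir 0) fun x s _ => by
    simpa using abs_abs_sub_abs_le_abs_sub (f (x * s)) (f x)

theorem sub_const_mem_Dir {f : G → ℝ} (hf : f ∈ Dir S) (c : ℝ) : (fun x => f x - c) ∈ Dir S :=
  mem_Dir_of_le2 hf (const_mem_Dir 0) fun x s _ => by simp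

theorem const_mul_mem_Dir {f : G → ℝ} (hf : f ∈ Dir S) (c : ℝ) : (fun x => c * f x) ∈ Dir S :=
  (Dir S).smul_mem c hf

theorem dsum_mem_Dir {ι : Type*} (s : Finset ι) {f : ι → G → ℝ} (hf : ∀ i ∈ s, f i ∈ Dir S) :
    (fun x => ∑ i ∈ s, f i x) ∈ Dir S := by
  have : (fun x => ∑ i ∈ s, f i x) = ∑ i ∈ s, f i := by
    funext x; rw [Finset.sum_apply]
  rw [this]
  exact (Dir S).sum_mem hf

/-! ### the coordinates `hb` -/

section HB

variable (hS : Subgroup.closure (S : Set G) = ⊤)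

theorem hb_eq0 (x y z : G) : hb hS z x y =
    (gp hS x x - gp hS y y + 2 * (pot hS x).1 1 - 2 * (pot hS y).1 1)
      - 2 * ((pot hS x).1 z - (pot hS y).1 z) := by
  rw [hb, res_eq, res_eq, gp_eq hS x z, gp_eq hS y z]; ring

theorem hb_mem_Dir (x y : G) : (fun z => hb hS z x y) ∈ Dir S := by
  have h1 : (fun z => (pot hS x).1 z - (pot hS y).1 z) ∈ Dir S := (pot hS x - pot hS y).2
  have h2 : (fun z => 2 * ((pot hS x).1 z - (pot hS y).1 z)) ∈ Dir S := const_mul_mem_Dir h1 2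
  refine mem_Dir_of_le2 h2 (const_mem_Dir 0) fun z s _ => ?_
  rw [hb_eq0, hb_eq0]
  simp only [sub_self, abs_zero, add_zero]
  rw [← abs_neg]
  exact le_of_eq (congrArg abs (by ring))

theorem abs_hb_le0 (x y z : G) : |hb hS z x y| ≤ res hS x y := by
  rw [hb, abs_le]
  have h1 := res_triangle hS x y z
  have h2 := res_triangle hS y x z
  rw [res_comm hS y x] at h2
  constructor <;> linarith

theorem hb_mul0 (g z : G) : hb hS (g * z) = act g (hb hS z) := by
  funext x y
  rw [act, hb, hb, ← res_mul hS g (g⁻¹ * x) z, ← res_mul hS g (g⁻¹ * y) z, mul_inv_cancel_left,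
    mul_inv_cancel_left]

omit [Group G] in
theorem dist_mem_nhds (β : G → G → ℝ) (x y : G) {ε : ℝ} (hε : 0 < ε) :
    {γ : G → G → ℝ | |γ x y - β x y| < ε} ∈ 𝓝 β := by
  have h : Continuous fun γ : G → G → ℝ => γ x y := (continuous_apply y).comp (continuous_apply x)
  have := h.continuousAt.preimage_mem_nhds (Metric.ball_mem_nhds (β x y) hε)
  refine mem_of_superset this fun γ hγ => ?_
  simpa [Real.dist_eq] using hγ

omit [Group G] in
/-- induction principle for neighbourhoods -/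
theorem nhds_induct {β : G → G → ℝ} {p : Set (G → G → ℝ) → Prop}
    (h0 : ∀ x y, ∀ ε > 0, p {γ | |γ x y - β x y| < ε}) (hu : p univ)
    (hm : ∀ O O', O ⊆ O' → p O → p O') (hi : ∀ O O', p O → p O' → p (O ∩ O'))
    {O : Set (G → G → ℝ)} (hO : O ∈ 𝓝 β) : p O := by
  let F : Filter (G → G → ℝ) :=
    { sets := {O | p O}
      univ_sets := hu
      sets_of_superset := fun h1 h2 => hm _ _ h2 h1
      inter_sets := fun h1 h2 => hi _ _ h1 h2 }
  have h : F ≤ 𝓝 β := by
    have h1 : Tendsto (fun γ : G → G → ℝ => γ) F (𝓝 β) := by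
      rw [tendsto_pi_nhds]
      intro x
      rw [tendsto_pi_nhds]
      intro y
      rw [Metric.tendsto_nhds]
      intro ε hε
      have := h0 x y ε hε
      show p _
      simpa [Real.dist_eq] using this
    exact h1
  exact h hO

/-- cut-off functions at the point `β` -/
def Cut0 (β : G → G → ℝ) (f : Dir S) : Prop :=
  (∀ z, 0 ≤ f.1 z ∧ f.1 z ≤ 1) ∧ ∀ᶠ z in comap (hb hS) (𝓝 β), f.1 z = 0

theorem Cut0.max {β : G → G → ℝ} {f g : Dir S} (hf : Cut0 hS β f) (hg : Cut0 hS β g) :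
    Cut0 hS β ⟨fun x => Max.max (f.1 x) (g.1 x), max_mem_Dir f.2 g.2⟩ := by
  refine ⟨fun z => ⟨le_max_of_le_left (hf.1 z).1, max_le (hf.1 z).2 (hg.1 z).2⟩, ?_⟩
  filter_upwards [hf.2, hg.2] with z h1 h2
  simp [h1, h2]

theorem cut0_zero (β : G → G → ℝ) : Cut0 hS β 0 :=
  ⟨fun z => ⟨le_rfl, zero_le_one⟩, Eventually.of_forall fun _ => rfl⟩

theorem exists_cut0 {β : G → G → ℝ} {O : Set (G → G → ℝ)} (hO : O ∈ 𝓝 β) :
    ∃ f : Dir S, Cut0 hS β f ∧ ∀ z, hb hS z ∉ O → f.1 z = 1 := by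
  refine nhds_induct (p := fun O => ∃ f : Dir S, Cut0 hS β f ∧ ∀ z, hb hS z ∉ O → f.1 z = 1)
    ?_ ?_ ?_ ?_ hO
  · intro x y ε hε
    let k : G → ℝ := fun z => min 1 (Max.max 0 ((2 / ε) * (|hb hS z x y - β x y| - ε / 2)))
    have hk : k ∈ Dir S := min_mem_Dir (const_mem_Dir 1) (max_mem_Dir (const_mem_Dir 0)
      (const_mul_mem_Dir (sub_const_mem_Dir (abs_mem_Dir (sub_const_mem_Dir
        (hb_mem_Dir hS x y) _)) _) _))
    refine ⟨⟨k, hk⟩, ⟨fun z => ⟨le_min zero_le_one (le_max_left _ _), min_le_left _ _⟩, ?_⟩, ?_⟩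
    · refine mem_of_superset (preimage_mem_comap (dist_mem_nhds β x y (half_pos hε)))
        fun z hz => ?_
      have hz' : |hb hS z x y - β x y| < ε / 2 := hz
      show min 1 (Max.max 0 ((2 / ε) * (|hb hS z x y - β x y| - ε / 2))) = 0
      have h1 : (2 / ε) * (|hb hS z x y - β x y| - ε / 2) ≤ 0 :=
        mul_nonpos_of_nonneg_of_nonpos (by positivity) (by linarith)
      rw [max_eq_left h1, min_eq_right zero_le_one]
    · intro z hz
      have hz' : ε ≤ |hb hS z x y - β x y| := not_lt.1 hz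
      show min 1 (Max.max 0 ((2 / ε) * (|hb hS z x y - β x y| - ε / 2))) = 1
      have h1 : 1 ≤ (2 / ε) * (|hb hS z x y - β x y| - ε / 2) := by
        rw [div_mul_eq_mul_div, le_div_iff₀ hε]; linarith
      rw [max_eq_right (zero_le_one.trans h1), min_eq_left h1]
  · exact ⟨0, cut0_zero hS β, fun z hz => absurd (mem_univ _) hz⟩
  · rintro O O' h ⟨f, hf, hf'⟩
    exact ⟨f, hf, fun z hz => hf' z fun h2 => hz (h h2)⟩
  · rintro O O' ⟨f, hf, hf'⟩ ⟨g, hg, hg'⟩
    refine ⟨_, hf.max hS hg, fun z hz => ?_⟩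
    show Max.max (f.1 z) (g.1 z) = 1
    by_cases h : hb hS z ∈ O
    · have h2 : hb hS z ∉ O' := fun h2 => hz ⟨h, h2⟩
      rw [hg' z h2]; exact max_eq_right (hf.1 z).2
    · rw [hf' z h]; exact max_eq_left (hg.1 z).2

/-! ### action on points -/

theorem act_act0 (g h : G) (β : G → G → ℝ) : act g (act h β) = act (g * h) β := by
  funext x y
  simp only [act, mul_inv_rev, mul_assoc]

theorem act_one0 (β : G → G → ℝ) : act 1 β = β := by
  funext x y
  simp only [act, inv_one, one_mul]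

theorem continuous_act0 (g : G) : Continuous (act g : (G → G → ℝ) → G → G → ℝ) :=
  continuous_pi fun x => continuous_pi fun y =>
    (continuous_apply (g⁻¹ * y)).comp (continuous_apply (g⁻¹ * x))

theorem Cut0.tr {β : G → G → ℝ} {f : Dir S} (hf : Cut0 hS β f) (g : G) :
    Cut0 hS (act g β) (trD g f) := by
  refine ⟨fun z => hf.1 (g⁻¹ * z), ?_⟩
  obtain ⟨O, hO, h⟩ := mem_comap.1 hf.2
  refine mem_comap.2 ⟨act g⁻¹ ⁻¹' O, ?_, fun z hz => ?_⟩
  · refine (continuous_act0 g⁻¹).continuousAt.preimage_mem_nhds ?_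
    rw [act_act0, inv_mul_cancel, act_one0]; exact hO
  · have h1 : g⁻¹ * z ∈ hb hS ⁻¹' O := by
      show hb hS (g⁻¹ * z) ∈ O
      rw [hb_mul0]; exact hz
    exact h h1

/-! ### harmonic measure of points -/

/-- the supremum of the harmonic parts of the cut-offs at `β` -/
noncomputable def top (hp : HypS S) (β : G → G → ℝ) (x : G) : ℝ :=
  ⨆ f : {f : Dir S // Cut0 hp.gen β f}, (HpD hp f.1).1 x

theorem top_bdd (hp : HypS S) (β : G → G → ℝ) (x : G) :
    BddAbove (range fun f : {f : Dir S // Cut0 hp.gen β f} => (HpD hp f.1).1 x) := by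
  refine ⟨1, ?_⟩
  rintro _ ⟨f, rfl⟩
  exact Hp_le hp (fun z => (f.2.1 z).2) x

theorem le_top (hp : HypS S) {β : G → G → ℝ} {f : Dir S} (hf : Cut0 hp.gen β f) (x : G) :
    (HpD hp f).1 x ≤ top hp β x := le_ciSup (top_bdd hp β x) ⟨f, hf⟩

instance (hS : Subgroup.closure (S : Set G) = ⊤) (β : G → G → ℝ) :
    Nonempty {f : Dir S // Cut0 hS β f} := ⟨⟨0, cut0_zero hS β⟩⟩

theorem top_le_one (hp : HypS S) (β : G → G → ℝ) (x : G) : top hp β x ≤ 1 :=
  ciSup_le fun f => Hp_le hp (fun z => (f.2.1 z).2) x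

theorem exists_near_top (hp : HypS S) (β : G → G → ℝ) (x : G) {ε : ℝ} (hε : 0 < ε) :
    ∃ f : Dir S, Cut0 hp.gen β f ∧ top hp β x - ε < (HpD hp f).1 x := by
  obtain ⟨f, hf⟩ := exists_lt_of_lt_ciSup (show top hp β x - ε < top hp β x by linarith)
  exact ⟨f.1, f.2, hf⟩

/-- simultaneous approximation on a finite set -/
theorem exists_near_top_finset (hp : HypS S) (β : G → G → ℝ) (A : Finset G) {ε : ℝ}
    (hε : 0 < ε) : ∃ f : Dir S, Cut0 hp.gen β f ∧ ∀ x ∈ A, top hp β x - ε < (HpD hp f).1 x := by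
  classical
  induction A using Finset.induction_on with
  | empty => exact ⟨0, cut0_zero hp.gen β, fun x hx => by simp at hx⟩
  | insert a A ha ih =>
    obtain ⟨f, hf, hf'⟩ := ih
    obtain ⟨g, hg, hg'⟩ := exists_near_top hp β a hε
    refine ⟨_, hf.max hp.gen hg, fun x hx => ?_⟩
    rcases Finset.mem_insert.1 hx with rfl | hx
    · exact hg'.trans_le (Hp_mono hp (fun z => le_max_right _ _) x)
    · exact (hf' x hx).trans_le (Hp_mono hp (fun z => le_max_left _ _) x)

theorem top_harm (hp : HypS S) (β : G → G → ℝ) : avg S (top hp β) = top hp β := by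
  classical
  funext x
  apply le_antisymm
  · refine le_of_forall_pos_le_add fun ε hε => ?_
    obtain ⟨f, hf, hf'⟩ := exists_near_top_finset hp β (S.image fun s => x * s) hε
    have h1 : avg S (top hp β) x ≤ avg S (fun y => (HpD hp f).1 y + ε) x := by
      refine div_le_div_of_nonneg_right (Finset.sum_le_sum fun s hs => ?_) (Nat.cast_nonneg _)
      have := hf' (x * s) (Finset.mem_image_of_mem _ hs)
      linarith
    have h2 : avg S (fun y => (HpD hp f).1 y + ε) x = (HpD hp f).1 x + ε := by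
      have e : (fun y => (HpD hp f).1 y + ε) = (HpD hp f).1 + fun _ => ε := rfl
      rw [e, avg_add, Hp_harm, avg_const hp]; rfl
    rw [h2] at h1
    exact h1.trans (add_le_add (le_top hp hf x) le_rfl)
  · refine ciSup_le fun f => ?_
    have h1 : (HpD hp f.1).1 x = avg S (HpD hp f.1).1 x := by rw [Hp_harm]
    rw [h1]
    exact avg_mono (fun y => le_top hp f.2 y) x

theorem top_act (hp : HypS S) (g : G) (β : G → G → ℝ) (x : G) :
    top hp (act g β) x = top hp β (g⁻¹ * x) := by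
  have key : ∀ (g : G) (β : G → G → ℝ) (x : G), top hp β (g⁻¹ * x) ≤ top hp (act g β) x := by
    intro g β x
    refine ciSup_le fun f => ?_
    rw [← Hp_trD]
    exact le_top hp (f.2.tr hp.gen g) x
  refine le_antisymm ?_ (key g β x)
  have h := key g⁻¹ (act g β) (g⁻¹ * x)
  rw [inv_inv, mul_inv_cancel_left, act_act0, inv_mul_cancel, act_one0] at h
  exact h

theorem Hp_const (hp : HypS S) (c : ℝ) (x : G) :
    (HpD hp (⟨fun _ => c, const_mem_Dir c⟩ : Dir S)).1 x = c := by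
  refine tendsto_nhds_unique (iter_tendsto hp _ x) ?_
  simp only [iter_const hp]
  exact tendsto_const_nhds

theorem Hp_sum (hp : HypS S) {ι : Type*} (s : Finset ι) (f : ι → Dir S) (x : G) :
    (HpD hp (∑ i ∈ s, f i)).1 x = ∑ i ∈ s, (HpD hp (f i)).1 x := by
  classical
  induction s using Finset.induction_on with
  | empty =>
    simp only [Finset.sum_empty]
    have := Hp_const hp (0 : ℝ) x
    exact this
  | insert a s ha ih => rw [Finset.sum_insert ha, Hp_add, ih, Finset.sum_insert ha]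

/-- harmonic measures of finitely many points sum to at most one -/
theorem sum_top (hp : HypS S) (B : Finset (G → G → ℝ)) (x : G) :
    (B.card : ℝ) - 1 ≤ ∑ β ∈ B, top hp β x := by
  classical
  obtain ⟨U, hU, hd⟩ := (B.finite_toSet).t2_separation
  choose f hf hf' using fun β : G → G → ℝ =>
    exists_cut0 hp.gen (β := β) (O := U β) ((hU β).2.mem_nhds (hU β).1)
  have h1 : ∀ z, (B.card : ℝ) - 1 ≤ ∑ β ∈ B, (f β).1 z := by
    intro z
    by_cases hz : ∃ β ∈ B, hb hp.gen z ∈ U β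
    · obtain ⟨β, hβ, hz⟩ := hz
      rw [← Finset.add_sum_erase B _ hβ]
      have h2 : ∑ γ ∈ B.erase β, (f γ).1 z = ∑ γ ∈ B.erase β, (1 : ℝ) := by
        refine Finset.sum_congr rfl fun γ hγ => hf' γ z fun hzγ => ?_
        have hne := Finset.ne_of_mem_erase hγ
        exact Set.disjoint_left.1 (hd (Finset.mem_of_mem_erase hγ) hβ hne) hzγ hz
      rw [h2, Finset.sum_const, nsmul_eq_mul, mul_one, Finset.card_erase_of_mem hβ]
      have h3 := ((hf β).1 z).1
      have h4 : 1 ≤ B.card := Finset.card_pos.2 ⟨β, hβ⟩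
      rw [Nat.cast_sub h4, Nat.cast_one]
      linarith
    · have h2 : ∑ γ ∈ B, (f γ).1 z = ∑ γ ∈ B, (1 : ℝ) :=
        Finset.sum_congr rfl fun γ hγ => hf' γ z fun h => hz ⟨γ, hγ, h⟩
      rw [h2, Finset.sum_const, nsmul_eq_mul, mul_one]
      linarith
  have h2 : (B.card : ℝ) - 1 ≤ ∑ β ∈ B, (HpD hp (f β)).1 x := by
    rw [← Hp_sum, ← Hp_const hp ((B.card : ℝ) - 1) x]
    refine Hp_mono hp (fun z => ?_) x
    have e : (∑ i ∈ B, f i).1 z = ∑ i ∈ B, (f i).1 z := by
      rw [AddSubmonoidClass.coe_finsetSum, Finset.sum_apply]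
    show (B.card : ℝ) - 1 ≤ (∑ i ∈ B, f i).1 z
    rw [e]; exact h1 z
  exact h2.trans (Finset.sum_le_sum fun β _ => le_top hp (hf β) x)

/-- strong maximum principle -/
theorem const_of_max (hp : HypS S) {h : G → ℝ} (hh : avg S h = h) {x : G}
    (hx : ∀ y, h y ≤ h x) (y : G) : h y = h x := by
  have hstep : ∀ p, h p = h x → ∀ s ∈ S, h (p * s) = h x := by
    intro p hp' s hs
    have h0 : ∀ t ∈ S, h (p * t) - h p ≤ 0 := fun t _ => by
      rw [hp']; linarith [hx (p * t)]
    have h1 := (Finset.sum_eq_zero_iff_of_nonpos h0).1 (harm_of_avg_eq hp hh p) s hs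
    rw [hp'] at h1
    linarith
  have hall : ∀ g : G, h (x * g) = h x := by
    intro g
    have hg : g ∈ Subgroup.closure (S : Set G) := by rw [hp.gen]; trivial
    induction hg using Subgroup.closure_induction_right with
    | one => rw [mul_one]
    | mul_right g _ s hs ih =>
      rw [← mul_assoc]; exact hstep _ ih s hs
    | mul_inv_cancel g _ s hs ih =>
      rw [← mul_assoc]; exact hstep _ ih s⁻¹ (hp.symS s hs)
  have := hall (x⁻¹ * y)
  rwa [mul_inv_cancel_left] at this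

/-- **(NA)** points with infinite orbit have harmonic measure zero -/
theorem top_eq_one (hp : HypS S) {β : G → G → ℝ} (hβ : (range fun g => act g β).Infinite)
    (x : G) : top hp β x = 1 := by
  classical
  by_contra hne
  have hc : 0 < 1 - top hp β x := by
    have := lt_of_le_of_ne (top_le_one hp β x) hne
    linarith
  set c := 1 - top hp β x with hcdef
  -- points of the orbit with defect at least `c`
  have hfin : ∀ B : Finset (G → G → ℝ), (∀ γ ∈ B, c ≤ 1 - top hp γ 1) →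
      (B.card : ℝ) ≤ 1 / c := by
    intro B hB
    have h1 := sum_top hp B 1
    have h2 : ∑ γ ∈ B, top hp γ 1 ≤ ∑ γ ∈ B, (1 - c) :=
      Finset.sum_le_sum fun γ hγ => by linarith [hB γ hγ]
    rw [Finset.sum_const, nsmul_eq_mul] at h2
    rw [le_div_iff₀ hc]
    nlinarith
  have hset : {γ ∈ range fun g => act g β | c ≤ 1 - top hp γ 1}.Finite := by
    by_contra hinf
    obtain ⟨n, hn⟩ := exists_nat_gt (1 / c)
    obtain ⟨B, hB, hcard⟩ := Set.Infinite.exists_subset_card_eq hinf n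
    have := hfin B fun γ hγ => (hB hγ).2
    rw [hcard] at this
    linarith
  -- a maximal one
  obtain ⟨γ, hγ, hmax⟩ := hset.exists_maximalFor (fun γ => 1 - top hp γ 1) _
    ⟨act x⁻¹ β, ⟨x⁻¹, rfl⟩, by rw [top_act, inv_inv, mul_one]⟩
  obtain ⟨⟨k, rfl⟩, hk⟩ := hγ
  have hmax' : ∀ g, 1 - top hp (act g β) 1 ≤ 1 - top hp (act k β) 1 := by
    intro g
    by_contra hlt
    push Not at hlt
    have h1 : act g β ∈ {γ ∈ range fun g => act g β | c ≤ 1 - top hp γ 1} :=
      ⟨⟨g, rfl⟩, hk.trans hlt.le⟩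
    exact absurd (hmax h1 hlt.le) (not_le.2 hlt)
  have hh : avg S (fun y => 1 - top hp β y) = fun y => 1 - top hp β y := by
    have e : (fun y => 1 - top hp β y) = (fun _ => (1 : ℝ)) - top hp β := rfl
    rw [e, avg_sub, avg_const hp, top_harm]
  have hconst : ∀ y, 1 - top hp β y = 1 - top hp β k⁻¹ := by
    refine const_of_max hp hh fun y => ?_
    have h1 := hmax' y⁻¹
    rw [top_act, top_act, inv_inv, mul_one, mul_one] at h1
    exact h1
  refine hβ (hset.subset ?_)
  rintro _ ⟨g, rfl⟩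
  refine ⟨⟨g, rfl⟩, ?_⟩
  have h2 : top hp (act g β) 1 = top hp β x := by
    rw [top_act, mul_one]
    have h3 := hconst g⁻¹
    have h4 := hconst x
    linarith
  rw [h2]

end HB

end Vale.Agent.P239.F
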