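import Vale.Agent.P239.F.C0b

/-!
Module C0, part c: the harmonic function of a set whose boundary accumulates at finitely many
points of harmonic measure zero.
-/

namespace Vale.Agent.P239.F

open Filter Topology Set
open Vale.Agent.P239
open scoped RealInnerProductSpace

variable {G : Type*} [Group G] {S : Finset G}

/-! ### general properties of `phi` -/

/-- the limit defining `phi` exists -/
def HasPhi (S : Finset G) (A : Set G) : Prop :=
  ∀ x, ∃ L : ℝ, Tendsto (fun n => ((avg S)^[n] (A.indicator 1)) x) atTop (𝓝 L)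

theorem HasPhi.tendsto {A : Set G} (h : HasPhi S A) (x : G) :
    Tendsto (fun n => ((avg S)^[n] (A.indicator 1)) x) atTop (𝓝 (phi S A x)) :=
  tendsto_nhds_limUnder (h x)

theorem HasPhi.phi_eq {A : Set G} {x : G} {L : ℝ}
    (h : Tendsto (fun n => ((avg S)^[n] (A.indicator 1)) x) atTop (𝓝 L)) : phi S A x = L :=
  h.limUnder_eq

omit [Group G] in
theorem ind_nonneg (A : Set G) (x : G) : 0 ≤ A.indicator (1 : G → ℝ) x := by
  by_cases h : x ∈ A
  · rw [indicator_of_mem h]; exact zero_le_one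
  · rw [indicator_of_notMem h]

omit [Group G] in
theorem ind_le_one (A : Set G) (x : G) : A.indicator (1 : G → ℝ) x ≤ 1 := by
  by_cases h : x ∈ A
  · rw [indicator_of_mem h]; exact le_rfl
  · rw [indicator_of_notMem h]; exact zero_le_one

theorem HasPhi.nonneg (hp : HypS S) {A : Set G} (h : HasPhi S A) (x : G) : 0 ≤ phi S A x := by
  refine ge_of_tendsto' (h.tendsto x) fun n => ?_
  have h1 := iter_mono (S := S) (ind_nonneg A) n x
  rwa [iter_const hp] at h1

theorem HasPhi.le_one (hp : HypS S) {A : Set G} (h : HasPhi S A) (x : G) : phi S A x ≤ 1 := by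
  refine le_of_tendsto' (h.tendsto x) fun n => ?_
  have h1 := iter_mono (S := S) (ind_le_one A) n x
  rwa [iter_const hp] at h1

theorem HasPhi.harm {A : Set G} (h : HasPhi S A) : avg S (phi S A) = phi S A := by
  funext x
  have h1 : Tendsto (fun n => ((avg S)^[n + 1] (A.indicator 1)) x) atTop (𝓝 (phi S A x)) :=
    (h.tendsto x).comp (tendsto_add_atTop_nat 1)
  have h2 : Tendsto (fun n => ((avg S)^[n + 1] (A.indicator 1)) x) atTop
      (𝓝 (avg S (phi S A) x)) := by
    have h3 : Tendsto (fun n => (∑ s ∈ S, ((avg S)^[n] (A.indicator 1)) (x * s)) / (S.card : ℝ))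
        atTop (𝓝 ((∑ s ∈ S, phi S A (x * s)) / (S.card : ℝ))) :=
      (tendsto_finsetSum S fun s _ => h.tendsto (x * s)).div_const _
    refine h3.congr fun n => ?_
    rw [Function.iterate_succ_apply']; rfl
  exact tendsto_nhds_unique h2 h1

theorem HasPhi.compl (hp : HypS S) {A : Set G} (h : HasPhi S A) :
    HasPhi S Aᶜ ∧ ∀ x, phi S A x + phi S Aᶜ x = 1 := by
  have h1 : ∀ x, Tendsto (fun n => ((avg S)^[n] (Aᶜ.indicator 1)) x) atTop
      (𝓝 (1 - phi S A x)) := by
    intro x
    have e : Aᶜ.indicator (1 : G → ℝ) = (fun _ => (1 : ℝ)) - A.indicator 1 := by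
      funext y
      by_cases hy : y ∈ A
      · simp [hy]
      · simp [hy]
    have h2 : Tendsto (fun n => (1 : ℝ) - ((avg S)^[n] (A.indicator 1)) x) atTop
        (𝓝 (1 - phi S A x)) := (h.tendsto x).const_sub 1
    refine h2.congr fun n => ?_
    rw [e, iter_sub, iter_const hp]; rfl
  refine ⟨fun x => ⟨_, h1 x⟩, fun x => ?_⟩
  rw [HasPhi.phi_eq (h1 x)]; ring

theorem HasPhi.mono {A B : Set G} (hA : HasPhi S A) (hB : HasPhi S B) (h : A ⊆ B) (x : G) :
    phi S A x ≤ phi S B x :=
  le_of_tendsto_of_tendsto' (hA.tendsto x) (hB.tendsto x) fun n =>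
    iter_mono (fun y => indicator_le_indicator_of_subset h (fun _ => zero_le_one) y) n x

theorem HasPhi.add {A B : Set G} (hA : HasPhi S A) (hB : HasPhi S B) (h : Disjoint A B) :
    HasPhi S (A ∪ B) ∧ ∀ x, phi S (A ∪ B) x = phi S A x + phi S B x := by
  have h1 : ∀ x, Tendsto (fun n => ((avg S)^[n] ((A ∪ B).indicator 1)) x) atTop
      (𝓝 (phi S A x + phi S B x)) := by
    intro x
    have e : (A ∪ B).indicator (1 : G → ℝ) = A.indicator 1 + B.indicator 1 :=
      indicator_union_of_disjoint h _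
    refine ((hA.tendsto x).add (hB.tendsto x)).congr fun n => ?_
    rw [e, iter_add]; rfl
  exact ⟨fun x => ⟨_, h1 x⟩, fun x => HasPhi.phi_eq (h1 x)⟩

/-- equivariance -/
theorem HasPhi.smul {A : Set G} (h : HasPhi S A) (g : G) :
    HasPhi S {x | g⁻¹ * x ∈ A} ∧ ∀ x, phi S {x | g⁻¹ * x ∈ A} (g * x) = phi S A x := by
  have e : ({x | g⁻¹ * x ∈ A} : Set G).indicator (1 : G → ℝ) =
      fun x => A.indicator (1 : G → ℝ) (g⁻¹ * x) := by
    funext y
    by_cases hy : g⁻¹ * y ∈ A
    · have hy' : y ∈ {x | g⁻¹ * x ∈ A} := hy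
      rw [indicator_of_mem hy, indicator_of_mem hy']; rfl
    · have hy' : y ∉ {x | g⁻¹ * x ∈ A} := hy
      rw [indicator_of_notMem hy, indicator_of_notMem hy']
  have h1 : ∀ x, Tendsto (fun n => ((avg S)^[n] (({x | g⁻¹ * x ∈ A} : Set G).indicator 1)) x)
      atTop (𝓝 (phi S A (g⁻¹ * x))) := by
    intro x
    refine (h.tendsto (g⁻¹ * x)).congr fun n => ?_
    rw [e, iter_trans (S := S) (A.indicator 1) g⁻¹ n]
  refine ⟨fun x => ⟨_, h1 x⟩, fun x => ?_⟩
  have := HasPhi.phi_eq (h1 (g * x))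
  rwa [inv_mul_cancel_left] at this

/-! ### finitely many points -/

section Pts

variable (hS : Subgroup.closure (S : Set G) = ⊤)

/-- `A` accumulates only at the points of the finite set `B` -/
def ConvB (A : Set G) (B : Finset (G → G → ℝ)) : Prop :=
  Tendsto (hb hS) (cofinite ⊓ 𝓟 A) (⨆ β ∈ B, 𝓝 β)

/-- cut-offs at a finite set of points -/
def CutB (B : Finset (G → G → ℝ)) (f : Dir S) : Prop :=
  (∀ z, 0 ≤ f.1 z ∧ f.1 z ≤ 1) ∧ ∀ β ∈ B, ∀ᶠ z in comap (hb hS) (𝓝 β), f.1 z = 0

theorem convB_singleton {A : Set G} {β : G → G → ℝ} : ConvB hS A {β} ↔ Conv hS A β := by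
  simp [ConvB, Conv]

theorem ConvB.mono {A A' : Set G} {B B' : Finset (G → G → ℝ)} (h : ConvB hS A B) (hA : A' ⊆ A)
    (hB : B ⊆ B') : ConvB hS A' B' :=
  (Tendsto.mono_left h (inf_le_inf_left _ (principal_mono.2 hA))).mono_right
    (biSup_mono fun _ hβ => hB hβ)

theorem ConvB.union {A A' : Set G} {B : Finset (G → G → ℝ)} (h : ConvB hS A B)
    (h' : ConvB hS A' B) : ConvB hS (A ∪ A') B := by
  have e : cofinite ⊓ 𝓟 (A ∪ A') = (cofinite ⊓ 𝓟 A) ⊔ (cofinite ⊓ 𝓟 A') := by
    rw [← sup_principal, inf_sup_left]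
  unfold ConvB
  rw [e]
  exact Tendsto.sup h h'

theorem convB_of_finite {A : Set G} (hA : A.Finite) (B : Finset (G → G → ℝ)) : ConvB hS A B := by
  have e : cofinite ⊓ 𝓟 A = ⊥ := by
    rw [← Filter.empty_mem_iff_bot, mem_inf_principal]
    refine mem_cofinite.2 (hA.subset fun x hx => ?_)
    by_contra h
    exact hx fun h2 => absurd h2 h
  unfold ConvB
  rw [e]
  exact tendsto_bot

/-- the defining property of accumulation: finitely many points of `A` off a neighbourhood -/
theorem ConvB.finite {A : Set G} {B : Finset (G → G → ℝ)} (h : ConvB hS A B)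
    {O : Set (G → G → ℝ)} (hO : ∀ β ∈ B, O ∈ 𝓝 β) : {x ∈ A | hb hS x ∉ O}.Finite := by
  have h1 : O ∈ (⨆ β ∈ B, 𝓝 β) := by
    simp only [mem_iSup]
    exact hO
  have h2 := h h1
  rw [mem_map, mem_inf_principal, mem_cofinite] at h2
  refine h2.subset fun x hx => ?_
  simp only [mem_compl_iff, mem_ofPred_eq]
  intro h3
  exact hx.2 (h3 hx.1)

theorem convB_iff {A : Set G} {B : Finset (G → G → ℝ)} : ConvB hS A B ↔
    ∀ O : Set (G → G → ℝ), (∀ β ∈ B, O ∈ 𝓝 β) → {x ∈ A | hb hS x ∉ O}.Finite := by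
  refine ⟨fun h O hO => h.finite hS hO, fun h O hO => ?_⟩
  simp only [mem_iSup] at hO
  rw [mem_map, mem_inf_principal, mem_cofinite]
  refine (h O hO).subset fun x hx => ?_
  simp only [mem_compl_iff, mem_ofPred_eq] at hx
  push Not at hx
  exact hx

/-- a cut-off kills all but finitely many points of a set accumulating at `B` -/
theorem ConvB.finite_ne {A : Set G} {B : Finset (G → G → ℝ)} (h : ConvB hS A B) {f : Dir S}
    (hf : CutB hS B f) : {x ∈ A | f.1 x ≠ 0}.Finite := by
  have h1 : ∀ᶠ z in cofinite ⊓ 𝓟 A, f.1 z = 0 := by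
    have h2 : cofinite ⊓ 𝓟 A ≤ ⨆ β ∈ B, comap (hb hS) (𝓝 β) := by
      have := tendsto_iff_comap.1 h
      simpa only [comap_iSup] using this
    refine h2 ?_
    simp only [mem_iSup]
    exact hf.2
  rw [eventually_inf_principal, eventually_cofinite] at h1
  refine h1.subset fun x hx => ?_
  simp only [mem_ofPred_eq]
  push Not
  exact hx

theorem cutB_singleton {β : G → G → ℝ} {f : Dir S} : CutB hS {β} f ↔ Cut0 hS β f := by
  simp [CutB, Cut0]

/-- the harmonic measure of `B` vanishes -/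
def NB (hp : HypS S) (B : Finset (G → G → ℝ)) : Prop :=
  ∀ x, ∀ ε > 0, ∃ f : Dir S, CutB hp.gen B f ∧ 1 - ε < (HpD hp f).1 x

theorem nb_of (hp : HypS S) {B : Finset (G → G → ℝ)} (hB : ∀ β ∈ B, ∀ x, top hp β x = 1) :
    NB hp B := by
  classical
  intro x ε hε
  have key : ∀ B' ⊆ B, ∃ f : Dir S, CutB hp.gen B' f ∧
      1 - ε * B'.card / (B.card + 1) ≤ (HpD hp f).1 x := by
    intro B'
    induction B' using Finset.induction_on with
    | empty =>
      intro _
      refine ⟨⟨fun _ => 1, const_mem_Dir 1⟩, ⟨fun z => ⟨zero_le_one, le_rfl⟩, fun β hβ => by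
        simp at hβ⟩, ?_⟩
      rw [Hp_const]; simp
    | insert a B' ha ih =>
      intro hsub
      obtain ⟨f, hf, hf'⟩ := ih ((Finset.subset_insert _ _).trans hsub)
      obtain ⟨g, hg, hg'⟩ := exists_near_top hp a x
        (show 0 < ε / (B.card + 1) by positivity)
      rw [hB a (hsub (Finset.mem_insert_self _ _)) x] at hg'
      refine ⟨⟨fun y => min (f.1 y) (g.1 y), min_mem_Dir f.2 g.2⟩,
        ⟨fun z => ⟨le_min (hf.1 z).1 (hg.1 z).1, (min_le_left _ _).trans (hf.1 z).2⟩,
          fun β hβ => ?_⟩, ?_⟩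
      · rcases Finset.mem_insert.1 hβ with rfl | hβ
        · filter_upwards [hg.2] with z hz
          show min (f.1 z) (g.1 z) = 0
          rw [hz]; exact min_eq_right (hf.1 z).1
        · filter_upwards [hf.2 β hβ] with z hz
          show min (f.1 z) (g.1 z) = 0
          rw [hz]; exact min_eq_left (hg.1 z).1
      · rw [Finset.card_insert_of_notMem ha]
        have h1 : ∀ y, (f + g - ⟨fun _ => (1 : ℝ), const_mem_Dir 1⟩ : Dir S).1 y ≤
            min (f.1 y) (g.1 y) := by
          intro y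
          show f.1 y + g.1 y - 1 ≤ _
          refine le_min ?_ ?_
          · linarith [(hg.1 y).2]
          · linarith [(hf.1 y).2]
        have h2 := Hp_mono hp (g := ⟨fun y => min (f.1 y) (g.1 y), min_mem_Dir f.2 g.2⟩) h1 x
        rw [Hp_sub', Hp_add, Hp_const] at h2
        push_cast
        have h3 : ε * (B'.card + 1) / (B.card + 1) =
            ε * B'.card / (B.card + 1) + ε / ((B.card : ℝ) + 1) := by ring
        rw [h3]
        linarith
  obtain ⟨f, hf, hf'⟩ := key B le_rfl
  refine ⟨f, hf, lt_of_lt_of_le ?_ hf'⟩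
  have : ε * B.card / (B.card + 1) < ε := by
    rw [div_lt_iff₀ (by positivity)]; nlinarith [(Nat.cast_nonneg B.card : (0 : ℝ) ≤ B.card)]
  linarith

theorem adj_mul_r {x s : G} (hs : s ∈ S) : Adj S x (x * s) := ⟨s, hs, Or.inl rfl⟩

theorem mem_bd_left {A : Set G} {x s : G} (hs : s ∈ S) (h : ¬ (x ∈ A ↔ x * s ∈ A)) :
    x ∈ bd S A := ⟨x * s, adj_mul_r hs, h⟩

theorem mem_bd_right {A : Set G} {x s : G} (hs : s ∈ S) (h : ¬ (x ∈ A ↔ x * s ∈ A)) :
    x * s ∈ bd S A := ⟨x, (adj_mul_r hs).symm, fun h2 => h h2.symm⟩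

/-- cut-off indicator functions have finite energy -/
theorem ind_mem_Dir {A : Set G} {B : Finset (G → G → ℝ)} (hA : ConvB hS (bd S A) B) {f : Dir S}
    (hf : CutB hS B f) : A.indicator f.1 ∈ Dir S := by
  classical
  rw [mem_Dir_iff]
  intro s hs
  have hE := hA.finite_ne hS hf
  set E := {x ∈ bd S A | f.1 x ≠ 0} with hEdef
  have hE2 : (E ∪ {x | x * s ∈ E}).Finite := by
    refine hE.union (hE.preimage (fun a _ b _ hab => mul_right_cancel hab))
  have hsum1 : Summable fun x => (f.1 (x * s) - f.1 x) ^ 2 := mem_Dir_iff.1 f.2 s hs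
  have hsum2 : Summable (fun x => (E ∪ {x | x * s ∈ E}).indicator (1 : G → ℝ) x) :=
    summable_of_hasFiniteSupport (hE2.subset fun x hx => by
      by_contra h
      exact hx (indicator_of_notMem h _))
  refine Summable.of_nonneg_of_le (fun x => sq_nonneg _) (fun x => ?_) (hsum1.add hsum2)
  have hi := ind_nonneg (E ∪ {x | x * s ∈ E}) x
  by_cases h : x ∈ A ↔ x * s ∈ A
  · by_cases hx : x ∈ A
    · rw [indicator_of_mem hx, indicator_of_mem (h.1 hx)]
      linarith
    · rw [indicator_of_notMem hx, indicator_of_notMem fun h2 => hx (h.2 h2)]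
      have := sq_nonneg (f.1 (x * s) - f.1 x)
      simp only [sub_self, ne_eq, OfNat.ofNat_ne_zero, not_false_eq_true, zero_pow]
      linarith
  · have hb1 := mem_bd_left hs h
    have hb2 := mem_bd_right hs h
    have hsq := sq_nonneg (f.1 (x * s) - f.1 x)
    by_cases hx : x ∈ A
    · have hxs : x * s ∉ A := fun h2 => h ⟨fun _ => h2, fun _ => hx⟩
      rw [indicator_of_mem hx, indicator_of_notMem hxs]
      by_cases hfx : f.1 x = 0
      · rw [hfx]
        simp only [sub_zero, ne_eq, OfNat.ofNat_ne_zero, not_false_eq_true, zero_pow]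
        have := sq_nonneg (f.1 (x * s))
        linarith
      · have hmem : x ∈ E ∪ {x | x * s ∈ E} := Or.inl ⟨hb1, hfx⟩
        rw [indicator_of_mem hmem]
        have h1 := hf.1 x
        show (0 - f.1 x) ^ 2 ≤ _ + 1
        nlinarith
    · have hxs : x * s ∈ A := by
        by_contra h2
        exact h ⟨fun h3 => absurd h3 hx, fun h3 => absurd h3 h2⟩
      rw [indicator_of_notMem hx, indicator_of_mem hxs]
      by_cases hfx : f.1 (x * s) = 0
      · rw [hfx]
        simp only [sub_zero, ne_eq, OfNat.ofNat_ne_zero, not_false_eq_true, zero_pow]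
        have := sq_nonneg (0 - f.1 x)
        linarith
      · have hmem : x ∈ E ∪ {x | x * s ∈ E} := Or.inr ⟨hb2, hfx⟩
        rw [indicator_of_mem hmem]
        have h1 := hf.1 (x * s)
        show (f.1 (x * s) - 0) ^ 2 ≤ _ + 1
        nlinarith

/-- comparison of `Pⁿ 1_A` with `Pⁿ (f 1_A)` -/
theorem iter_ind_bounds (hp : HypS S) {A : Set G} {B : Finset (G → G → ℝ)} {f : Dir S}
    (hf : CutB hS B f) (n : ℕ) (x : G) :
    (avg S)^[n] (A.indicator f.1) x ≤ (avg S)^[n] (A.indicator 1) x ∧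
      (avg S)^[n] (A.indicator 1) x ≤
        (avg S)^[n] (A.indicator f.1) x + (1 - (avg S)^[n] f.1 x) := by
  constructor
  · refine iter_mono (fun y => ?_) n x
    by_cases hy : y ∈ A
    · rw [indicator_of_mem hy, indicator_of_mem hy]; exact (hf.1 y).2
    · rw [indicator_of_notMem hy, indicator_of_notMem hy]
  · have h1 : (avg S)^[n] (A.indicator f.1) x + (1 - (avg S)^[n] f.1 x) =
        (avg S)^[n] (A.indicator f.1 + ((fun _ => (1 : ℝ)) - f.1)) x := by
      rw [iter_add, iter_sub, iter_const hp]; rfl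
    rw [h1]
    refine iter_mono (fun y => ?_) n x
    simp only [Pi.add_apply, Pi.sub_apply]
    by_cases hy : y ∈ A
    · rw [indicator_of_mem hy, indicator_of_mem hy]; simp
    · rw [indicator_of_notMem hy, indicator_of_notMem hy]
      linarith [(hf.1 y).2]

/-- existence of the limit -/
theorem hasPhi_of (hp : HypS S) {A : Set G} {B : Finset (G → G → ℝ)} (hB : NB hp B)
    (hA : ConvB hp.gen (bd S A) B) : HasPhi S A := by
  intro x
  refine cauchySeq_tendsto_of_complete (Metric.cauchySeq_iff'.2 fun ε hε => ?_)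
  obtain ⟨f, hf, hfx⟩ := hB x (ε / 4) (by positivity)
  set k : Dir S := ⟨A.indicator f.1, ind_mem_Dir hp.gen hA hf⟩ with hk
  have t1 := iter_tendsto hp k x
  have t2 := iter_tendsto hp f x
  have e1 := (Metric.tendsto_atTop.1 t1) (ε / 16) (by positivity)
  have e2 := (Metric.tendsto_atTop.1 t2) (ε / 16) (by positivity)
  obtain ⟨N1, hN1⟩ := e1
  obtain ⟨N2, hN2⟩ := e2
  have key : ∀ n ≥ max N1 N2, |((avg S)^[n] (A.indicator 1)) x - (HpD hp k).1 x| < 3 * ε / 8 := by
    intro n hn
    have a1 := abs_lt.1 (Real.dist_eq _ _ ▸ hN1 n ((le_max_left _ _).trans hn))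
    have a2 := abs_lt.1 (Real.dist_eq _ _ ▸ hN2 n ((le_max_right _ _).trans hn))
    obtain ⟨b1, b2⟩ := iter_ind_bounds hp.gen hp (A := A) hf n x
    have a1' : (avg S)^[n] (A.indicator f.1) x = (avg S)^[n] k.1 x := rfl
    rw [a1'] at b1 b2
    rw [abs_lt]
    constructor <;> linarith [a1.1, a1.2, a2.1, a2.2]
  refine ⟨max N1 N2, fun n hn => ?_⟩
  have k1 := abs_lt.1 (key n hn)
  have k2 := abs_lt.1 (key _ le_rfl)
  rw [Real.dist_eq, abs_lt]
  constructor <;> linarith [k1.1, k1.2, k2.1, k2.2]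

/-- bounds for `phi` through a cut-off -/
theorem phi_bounds (hp : HypS S) {A : Set G} {B : Finset (G → G → ℝ)} (hA' : HasPhi S A)
    (hA : ConvB hp.gen (bd S A) B) {f : Dir S} (hf : CutB hp.gen B f) (x : G) :
    (HpD hp ⟨A.indicator f.1, ind_mem_Dir hp.gen hA hf⟩).1 x ≤ phi S A x ∧
      phi S A x ≤ (HpD hp ⟨A.indicator f.1, ind_mem_Dir hp.gen hA hf⟩).1 x
        + (1 - (HpD hp f).1 x) := by
  have t1 := iter_tendsto hp (⟨A.indicator f.1, ind_mem_Dir hp.gen hA hf⟩ : Dir S) x
  have t2 := iter_tendsto hp f x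
  constructor
  · exact le_of_tendsto_of_tendsto' t1 (hA'.tendsto x) fun n =>
      (iter_ind_bounds hp.gen hp hf n x).1
  · exact le_of_tendsto_of_tendsto' (hA'.tendsto x) (t1.add (t2.const_sub 1)) fun n =>
      (iter_ind_bounds hp.gen hp hf n x).2

/-- sets accumulating only at `B` have no harmonic measure -/
theorem iter_zero_of_conv (hp : HypS S) {D : Set G} {B : Finset (G → G → ℝ)} (hB : NB hp B)
    (hD : ConvB hp.gen D B) (x : G) :
    Tendsto (fun n => ((avg S)^[n] (D.indicator 1)) x) atTop (𝓝 0) := by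
  rw [Metric.tendsto_atTop]
  intro ε hε
  obtain ⟨f, hf, hfx⟩ := hB x (ε / 4) (by positivity)
  have hfin := hD.finite_ne hp.gen hf
  have hsq : SqS (D.indicator f.1) := by
    refine summable_of_hasFiniteSupport (hfin.subset fun y hy => ?_)
    by_cases hy' : y ∈ D
    · refine ⟨hy', fun h0 => hy ?_⟩
      show (D.indicator f.1 y) ^ 2 = 0
      rw [indicator_of_mem hy', h0]; simp
    · exfalso
      apply hy
      show (D.indicator f.1 y) ^ 2 = 0
      rw [indicator_of_notMem hy']; simp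
  obtain ⟨N1, hN1⟩ := (Metric.tendsto_atTop.1 (iter_l2 hp hsq x)) (ε / 4) (by positivity)
  obtain ⟨N2, hN2⟩ := (Metric.tendsto_atTop.1 (iter_tendsto hp f x)) (ε / 4) (by positivity)
  refine ⟨max N1 N2, fun n hn => ?_⟩
  have a1 := abs_lt.1 (Real.dist_eq _ _ ▸ hN1 n ((le_max_left _ _).trans hn))
  have a2 := abs_lt.1 (Real.dist_eq _ _ ▸ hN2 n ((le_max_right _ _).trans hn))
  obtain ⟨b1, b2⟩ := iter_ind_bounds hp.gen hp (A := D) hf n x
  have b3 := iter_mono (S := S) (ind_nonneg D) n x
  rw [iter_const hp] at b3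
  rw [Real.dist_eq, sub_zero, abs_of_nonneg b3]
  linarith [a1.1, a1.2, a2.1, a2.2]

/-- `phi` does not see sets accumulating only at `B` -/
theorem phi_congr_of (hp : HypS S) {A A' : Set G} {B : Finset (G → G → ℝ)} (hB : NB hp B)
    (hA : HasPhi S A) (hD : ConvB hp.gen (symmDiff A A') B) :
    HasPhi S A' ∧ ∀ x, phi S A' x = phi S A x := by
  have key : ∀ x, Tendsto (fun n => ((avg S)^[n] (A'.indicator 1)) x) atTop
      (𝓝 (phi S A x)) := by
    intro x
    have t := iter_zero_of_conv hp hB hD x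
    have h1 : ∀ n, |((avg S)^[n] (A'.indicator 1)) x - ((avg S)^[n] (A.indicator 1)) x| ≤
        ((avg S)^[n] ((symmDiff A A').indicator 1)) x := by
      intro n
      rw [abs_le]
      constructor
      · have h2 := iter_mono (S := S) (f := A.indicator 1)
          (g := A'.indicator 1 + (symmDiff A A').indicator 1) (fun y => ?_) n x
        · rw [iter_add] at h2
          simp only [Pi.add_apply] at h2
          linarith
        · simp only [Pi.add_apply]
          by_cases h1 : y ∈ A <;> by_cases h2 : y ∈ A' <;>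
            simp [h1, h2, Set.mem_symmDiff, indicator_apply]
      · have h2 := iter_mono (S := S) (f := A'.indicator 1)
          (g := A.indicator 1 + (symmDiff A A').indicator 1) (fun y => ?_) n x
        · rw [iter_add] at h2
          simp only [Pi.add_apply] at h2
          linarith
        · simp only [Pi.add_apply]
          by_cases h1 : y ∈ A <;> by_cases h2 : y ∈ A' <;>
            simp [h1, h2, Set.mem_symmDiff, indicator_apply]
    have h2 : Tendsto (fun n => ((avg S)^[n] (A'.indicator 1)) x -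
        ((avg S)^[n] (A.indicator 1)) x) atTop (𝓝 0) :=
      squeeze_zero_norm (fun n => h1 n) t
    have h3 := h2.add (hA.tendsto x)
    rw [zero_add] at h3
    exact h3.congr fun n => by ring
  exact ⟨fun x => ⟨_, key x⟩, fun x => HasPhi.phi_eq (key x)⟩

/-- **(LH)** off every neighbourhood of `B`, `phi - 1_A` vanishes at infinity -/
theorem phi_off_of (hp : HypS S) {A : Set G} {B : Finset (G → G → ℝ)}
    (hA' : HasPhi S A) (hA : ConvB hp.gen (bd S A) B) {O : Set (G → G → ℝ)}
    (hO : ∀ β ∈ B, O ∈ 𝓝 β) {ε : ℝ} (hε : 0 < ε) :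
    {x | hb hp.gen x ∉ O ∧ ε ≤ |phi S A x - A.indicator 1 x|}.Finite := by
  classical
  -- a cut-off equal to one off `O`
  obtain ⟨f, hf, hf1⟩ : ∃ f : Dir S, CutB hp.gen B f ∧ ∀ z, hb hp.gen z ∉ O → f.1 z = 1 := by
    choose! g hg hg' using fun β (hβ : β ∈ B) => exists_cut0 hp.gen (hO β hβ)
    have key : ∀ B' ⊆ B, ∃ f : Dir S, CutB hp.gen B' f ∧ ∀ z, hb hp.gen z ∉ O → f.1 z = 1 := by
      intro B'
      induction B' using Finset.induction_on with
      | empty =>
        intro _
        exact ⟨⟨fun _ => 1, const_mem_Dir 1⟩, ⟨fun z => ⟨zero_le_one, le_rfl⟩, fun β hβ => by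
          simp at hβ⟩, fun _ _ => rfl⟩
      | insert a B' ha ih =>
        intro hsub
        obtain ⟨f, hf, hf'⟩ := ih ((Finset.subset_insert _ _).trans hsub)
        have ha' := hsub (Finset.mem_insert_self a B')
        refine ⟨⟨fun y => min (f.1 y) ((g a).1 y), min_mem_Dir f.2 (g a).2⟩,
          ⟨fun z => ⟨le_min (hf.1 z).1 ((hg a ha').1 z).1, (min_le_left _ _).trans (hf.1 z).2⟩,
            fun β hβ => ?_⟩, fun z hz => ?_⟩
        · rcases Finset.mem_insert.1 hβ with rfl | hβ
          · filter_upwards [(hg β ha').2] with z hz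
            show min (f.1 z) ((g β).1 z) = 0
            rw [hz]; exact min_eq_right (hf.1 z).1
          · filter_upwards [hf.2 β hβ] with z hz
            show min (f.1 z) ((g a).1 z) = 0
            rw [hz]; exact min_eq_left ((hg a ha').1 z).1
        · show min (f.1 z) ((g a).1 z) = 1
          rw [hf' z hz, hg' a ha' z hz, min_self]
    exact key B le_rfl
  set k : Dir S := ⟨A.indicator f.1, ind_mem_Dir hp.gen hA hf⟩ with hk
  have t1 := (Metric.tendsto_nhds.1 (Hp_infty hp k)) (ε / 2) (by positivity)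
  have t2 := (Metric.tendsto_nhds.1 (Hp_infty hp f)) (ε / 2) (by positivity)
  rw [eventually_cofinite] at t1 t2
  refine (t1.union t2).subset fun x hx => ?_
  by_contra hc
  simp only [mem_union, mem_ofPred_eq, not_or, not_not] at hc
  obtain ⟨c1, c2⟩ := hc
  rw [Real.dist_eq, sub_zero] at c1 c2
  obtain ⟨b1, b2⟩ := phi_bounds hp hA' hA hf x
  have hfx := hf1 x hx.1
  have hkx : k.1 x = A.indicator 1 x := by
    show A.indicator f.1 x = _
    by_cases hxA : x ∈ A
    · rw [indicator_of_mem hxA, indicator_of_mem hxA, hfx]; rfl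
    · rw [indicator_of_notMem hxA, indicator_of_notMem hxA]
  have h3 := hx.2
  rw [hkx] at c1
  rw [hfx] at c2
  have c1' := abs_lt.1 c1
  have c2' := abs_lt.1 c2
  have h4 : |phi S A x - A.indicator 1 x| < ε := by
    rw [abs_lt]
    constructor <;> linarith [c1'.1, c1'.2, c2'.1, c2'.2]
  linarith

end Pts

end Vale.Agent.P239.F
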