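import Vale.Agent.P239.F.C0c

/-!
Module C0, part d: translations of sets accumulating at points, boundaries at other scales,
the canonical set `HH`.
-/

namespace Vale.Agent.P239.F

open Filter Topology Set
open Vale.Agent.P239
open scoped RealInnerProductSpace

variable {G : Type*} [Group G] {S : Finset G}

/-- all right translates of a function of finite energy are asymptotic -/
theorem dir_mul_tendsto0 (hS : Subgroup.closure (S : Set G) = ⊤) (f : Dir S) (g : G) :
    Tendsto (fun x => f.1 (x * g) - f.1 x) cofinite (𝓝 0) := by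
  have hg : g ∈ Subgroup.closure (S : Set G) := by rw [hS]; trivial
  induction hg using Subgroup.closure_induction_right with
  | one => simp only [mul_one, sub_self]; exact tendsto_const_nhds
  | mul_right g _ s hs ih =>
    have h1 := (dir_step_tendsto f hs).comp (mul_left_injective g).tendsto_cofinite
    have h2 := h1.add ih
    rw [add_zero] at h2
    refine h2.congr fun x => ?_
    simp only [Function.comp, mul_assoc]; ring
  | mul_inv_cancel g _ s hs ih =>
    have h1 := (dir_step_tendsto f hs).comp (mul_left_injective (g * s⁻¹)).tendsto_cofinite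
    have h2 := ih.sub h1
    rw [sub_zero] at h2
    refine h2.congr fun x => ?_
    simp only [Function.comp, mul_assoc, inv_mul_cancel, mul_one]; ring

section

variable (hS : Subgroup.closure (S : Set G) = ⊤)

theorem hb_mul_right_tendsto0 (g x y : G) :
    Tendsto (fun z => hb hS (z * g) x y - hb hS z x y) cofinite (𝓝 0) :=
  dir_mul_tendsto0 hS ⟨_, hb_mem_Dir hS x y⟩ g

/-- points off a neighbourhood whose translate is deep inside are finite in number -/
theorem near_shift {β : G → G → ℝ} {O : Set (G → G → ℝ)} (hO : O ∈ 𝓝 β) (g : G) :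
    ∃ O' ∈ 𝓝 β, {x | hb hS x ∉ O ∧ hb hS (x * g) ∈ O'}.Finite := by
  refine nhds_induct (p := fun O => ∃ O' ∈ 𝓝 β,
    {x | hb hS x ∉ O ∧ hb hS (x * g) ∈ O'}.Finite) ?_ ?_ ?_ ?_ hO
  · intro x y ε hε
    refine ⟨_, dist_mem_nhds β x y (half_pos hε), ?_⟩
    have h1 := (Metric.tendsto_nhds.1 (hb_mul_right_tendsto0 hS g x y)) (ε / 2) (half_pos hε)
    rw [eventually_cofinite] at h1
    refine h1.subset fun z hz => ?_
    have h2 : ¬ |hb hS z x y - β x y| < ε := hz.1
    have h3 : |hb hS (z * g) x y - β x y| < ε / 2 := hz.2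
    show ¬ dist (hb hS (z * g) x y - hb hS z x y) 0 < ε / 2
    rw [Real.dist_eq, sub_zero, not_lt]
    rw [not_lt] at h2
    have h4 : |hb hS z x y - β x y| ≤ |hb hS (z * g) x y - β x y| +
        |hb hS (z * g) x y - hb hS z x y| := by
      have := abs_sub (hb hS (z * g) x y - β x y) (hb hS (z * g) x y - hb hS z x y)
      refine le_trans (le_of_eq ?_) this
      congr 1; ring
    linarith
  · exact ⟨univ, univ_mem, by simp⟩
  · rintro O1 O2 h12 ⟨O', hO', hf⟩
    exact ⟨O', hO', hf.subset fun x hx => ⟨fun h => hx.1 (h12 h), hx.2⟩⟩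
  · rintro O1 O2 ⟨O1', hO1, hf1⟩ ⟨O2', hO2, hf2⟩
    refine ⟨O1' ∩ O2', inter_mem hO1 hO2, (hf1.union hf2).subset fun x hx => ?_⟩
    by_cases h : hb hS x ∈ O1
    · exact Or.inr ⟨fun h2 => hx.1 ⟨h, h2⟩, hx.2.2⟩
    · exact Or.inl ⟨h, hx.2.1⟩

/-- the same for finitely many points and a finite set of translates -/
theorem near_shiftB {B : Finset (G → G → ℝ)} {O : Set (G → G → ℝ)} (hO : ∀ β ∈ B, O ∈ 𝓝 β)
    (F : Finset G) : ∃ O' : Set (G → G → ℝ), (∀ β ∈ B, O' ∈ 𝓝 β) ∧
      {x | hb hS x ∉ O ∧ ∃ g ∈ F, hb hS (x * g) ∈ O'}.Finite := by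
  classical
  choose! O' hO' hf using fun β (hβ : β ∈ B) (g : G) => near_shift hS (hO β hβ) g
  refine ⟨⋃ β ∈ B, ⋂ g ∈ F, O' β g, fun β hβ => ?_, ?_⟩
  · refine mem_of_superset ((Filter.biInter_finset_mem F).2 fun g _ => hO' β hβ g) ?_
    exact subset_biUnion_of_mem (u := fun β => ⋂ g ∈ F, O' β g) hβ
  · have hfin : (⋃ β ∈ B, ⋃ g ∈ F, {x | hb hS x ∉ O ∧ hb hS (x * g) ∈ O' β g}).Finite :=
      B.finite_toSet.biUnion fun β hβ => F.finite_toSet.biUnion fun g _ => hf β hβ g
    refine hfin.subset fun x hx => ?_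
    obtain ⟨h1, g, hg, h2⟩ := hx
    simp only [mem_iUnion, mem_iInter] at h2
    obtain ⟨β, hβ, h2⟩ := h2
    simp only [mem_iUnion]
    exact ⟨β, hβ, g, hg, h1, h2 g hg⟩

/-- right translates accumulate at the same points -/
theorem ConvB.mul_right {D : Set G} {B : Finset (G → G → ℝ)} (h : ConvB hS D B) (g : G) :
    ConvB hS {x | x * g ∈ D} B := by
  rw [convB_iff]
  intro O hO
  obtain ⟨O', hO', hf⟩ := near_shiftB hS hO {g}
  have h2 := (h.finite hS hO').preimage (f := fun x => x * g)
    (fun a _ b _ hab => mul_right_cancel hab)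
  refine (hf.union h2).subset fun x hx => ?_
  by_cases hx' : hb hS (x * g) ∈ O'
  · exact Or.inl ⟨hx.2, g, Finset.mem_singleton_self g, hx'⟩
  · exact Or.inr ⟨hx.1, hx'⟩

/-- the set of points separated from their translate -/
theorem ConvB.sep (hsym : ∀ s ∈ S, s⁻¹ ∈ S) {A : Set G} {B : Finset (G → G → ℝ)}
    (h : ConvB hS (bd S A) B) (g : G) : ConvB hS {x | ¬ (x ∈ A ↔ x * g ∈ A)} B := by
  have hg : g ∈ Subgroup.closure (S : Set G) := by rw [hS]; trivial
  have hstep : ∀ s ∈ S, ConvB hS {x | ¬ (x ∈ A ↔ x * s ∈ A)} B := fun s hs =>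
    h.mono hS (fun x hx => mem_bd_left hs hx) (Finset.Subset.refl _)
  have hadd : ∀ g s : G, ConvB hS {x | ¬ (x ∈ A ↔ x * g ∈ A)} B →
      ConvB hS {x | ¬ (x ∈ A ↔ x * s ∈ A)} B →
      ConvB hS {x | ¬ (x ∈ A ↔ x * (g * s) ∈ A)} B := by
    intro g s h1 h2
    refine (h1.union hS (h2.mul_right hS g)).mono hS (fun x hx => ?_) (Finset.Subset.refl _)
    by_contra hc
    simp only [mem_union, mem_ofPred_eq, not_or, not_not] at hc
    apply hx
    rw [hc.1, hc.2, mul_assoc]
  induction hg using Subgroup.closure_induction_right with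
  | one =>
    refine (convB_of_finite hS finite_empty B).mono hS (fun x hx => ?_) (Finset.Subset.refl _)
    exact absurd (by rw [mul_one]) hx
  | mul_right g _ s hs ih => exact hadd g s ih (hstep s hs)
  | mul_inv_cancel g _ s hs ih => exact hadd g s⁻¹ ih (hstep s⁻¹ (hsym s hs))

/-- boundaries at all scales accumulate at the same points -/
theorem ConvB.bdT (hsym : ∀ s ∈ S, s⁻¹ ∈ S) {A : Set G} {B : Finset (G → G → ℝ)}
    (h : ConvB hS (bd S A) B) (T : Finset G) : ConvB hS (bd T A) B := by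
  classical
  have key : ∀ F : Finset G, ConvB hS {x | ∃ g ∈ F, ¬ (x ∈ A ↔ x * g ∈ A)} B := by
    intro F
    induction F using Finset.induction_on with
    | empty =>
      refine (convB_of_finite hS finite_empty B).mono hS (fun x hx => ?_) (Finset.Subset.refl _)
      obtain ⟨g, hg, -⟩ := hx
      simp at hg
    | insert a F _ ih =>
      refine ((h.sep hS hsym a).union hS ih).mono hS (fun x hx => ?_) (Finset.Subset.refl _)
      obtain ⟨g, hg, hx⟩ := hx
      rcases Finset.mem_insert.1 hg with rfl | hg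
      · exact Or.inl hx
      · exact Or.inr ⟨g, hg, hx⟩
  refine (key (T ∪ T.image (·⁻¹))).mono hS (fun x hx => ?_) (Finset.Subset.refl _)
  obtain ⟨y, ⟨t, ht, hy | hy⟩, hxy⟩ := hx
  · refine ⟨t, Finset.mem_union_left _ ht, ?_⟩
    rwa [← hy]
  · refine ⟨t⁻¹, Finset.mem_union_right _ (Finset.mem_image_of_mem _ ht), ?_⟩
    have : x * t⁻¹ = y := by rw [hy, mul_inv_cancel_right]
    rwa [this]

end

/-! ### the canonical set -/

theorem mem_HH {A : Set G} {x : G} : x ∈ HH S A ↔ 1 / 2 < phi S A x := Iff.rfl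

/-- `A` and `HH A` differ by a set accumulating at `B` only -/
theorem symmDiff_HH (hp : HypS S) {A : Set G} {B : Finset (G → G → ℝ)}
    (hA' : HasPhi S A) (hA : ConvB hp.gen (bd S A) B) :
    ConvB hp.gen (symmDiff A (HH S A)) B := by
  rw [convB_iff]
  intro O hO
  refine (phi_off_of hp hA' hA hO (ε := 1 / 2) (by norm_num)).subset fun x hx => ?_
  refine ⟨hx.2, ?_⟩
  rcases hx.1 with ⟨h1, h2⟩ | ⟨h1, h2⟩
  · rw [indicator_of_mem h1]
    have h3 : phi S A x ≤ 1 / 2 := not_lt.1 h2
    rw [abs_sub_comm]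
    refine le_trans ?_ (le_abs_self _)
    show 1 / 2 ≤ (1 : ℝ) - phi S A x
    linarith
  · rw [indicator_of_notMem h2, sub_zero]
    exact (le_of_lt h1).trans (le_abs_self _)

theorem symmDiff_comm_convB {A A' : Set G} {B : Finset (G → G → ℝ)}
    (hS : Subgroup.closure (S : Set G) = ⊤) (h : ConvB hS (symmDiff A A') B) :
    ConvB hS (symmDiff A' A) B := by rwa [symmDiff_comm]

/-- the boundary of the canonical set accumulates at `B` only -/
theorem HH_bd (hp : HypS S) {A : Set G} {B : Finset (G → G → ℝ)}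
    (hA' : HasPhi S A) (hA : ConvB hp.gen (bd S A) B) (T : Finset G) :
    ConvB hp.gen (bd T (HH S A)) B := by
  have h0 : ConvB hp.gen (bd S (HH S A)) B := by
    have h1 := symmDiff_HH hp hA' hA
    classical
    have h2 : ConvB hp.gen (bd S A ∪ symmDiff A (HH S A) ∪
        {x | ∃ g ∈ S ∪ S.image (·⁻¹), x * g ∈ symmDiff A (HH S A)}) B := by
      refine (hA.union hp.gen h1).union hp.gen ?_
      have key : ∀ F : Finset G,
          ConvB hp.gen {x | ∃ g ∈ F, x * g ∈ symmDiff A (HH S A)} B := by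
        intro F
        induction F using Finset.induction_on with
        | empty =>
          refine (convB_of_finite hp.gen finite_empty B).mono hp.gen (fun x hx => ?_)
            (Finset.Subset.refl _)
          obtain ⟨g, hg, -⟩ := hx
          simp at hg
        | insert a F _ ih =>
          refine ((h1.mul_right hp.gen a).union hp.gen ih).mono hp.gen (fun x hx => ?_)
            (Finset.Subset.refl _)
          obtain ⟨g, hg, hx⟩ := hx
          rcases Finset.mem_insert.1 hg with rfl | hg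
          · exact Or.inl hx
          · exact Or.inr ⟨g, hg, hx⟩
      exact key _
    refine h2.mono hp.gen (fun x hx => ?_) (Finset.Subset.refl _)
    by_contra hc
    simp only [mem_union, not_or, mem_ofPred_eq] at hc
    push Not at hc
    obtain ⟨⟨c1, c2⟩, c3⟩ := hc
    obtain ⟨y, hxy, hne⟩ := hx
    have e1 : x ∈ A ↔ x ∈ HH S A := by
      rw [Set.mem_symmDiff] at c2
      tauto
    obtain ⟨s, hs, h | h⟩ := hxy
    · have c4 := c3 s (Finset.mem_union_left _ hs)
      rw [← h, Set.mem_symmDiff] at c4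
      have e2 : y ∈ A ↔ y ∈ HH S A := by tauto
      exact c1 ⟨y, ⟨s, hs, Or.inl h⟩, fun h3 => hne (e1.symm.trans (h3.trans e2))⟩
    · have hy : x * s⁻¹ = y := by rw [h, mul_inv_cancel_right]
      have c4 := c3 s⁻¹ (Finset.mem_union_right _ (Finset.mem_image_of_mem _ hs))
      rw [hy, Set.mem_symmDiff] at c4
      have e2 : y ∈ A ↔ y ∈ HH S A := by tauto
      exact c1 ⟨y, ⟨s, hs, Or.inr h⟩, fun h3 => hne (e1.symm.trans (h3.trans e2))⟩
  exact h0.bdT hp.gen hp.symS T

/-- `phi` of the canonical set -/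
theorem phi_HH (hp : HypS S) {A : Set G} {B : Finset (G → G → ℝ)} (hB : NB hp B)
    (hA : ConvB hp.gen (bd S A) B) : HasPhi S (HH S A) ∧ ∀ x, phi S (HH S A) x = phi S A x := by
  have hA' := hasPhi_of hp hB hA
  exact phi_congr_of hp hB hA' (symmDiff_HH hp hA' hA)

theorem HH_HH (hp : HypS S) {A : Set G} {B : Finset (G → G → ℝ)} (hB : NB hp B)
    (hA : ConvB hp.gen (bd S A) B) : HH S (HH S A) = HH S A := by
  ext x
  rw [mem_HH, mem_HH, (phi_HH hp hB hA).2 x]

theorem ConvB.of_symmDiff (hS : Subgroup.closure (S : Set G) = ⊤) {A A' : Set G}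
    {B : Finset (G → G → ℝ)} (h : ConvB hS (symmDiff A A') B) (hA : ConvB hS A B) :
    ConvB hS A' B := by
  refine (h.union hS hA).mono hS (fun x hx => ?_) (Finset.Subset.refl _)
  by_cases hxA : x ∈ A
  · exact Or.inr hxA
  · exact Or.inl (Or.inr ⟨hx, hxA⟩)

theorem symmDiff_compl_compl (A A' : Set G) : symmDiff Aᶜ A'ᶜ = symmDiff A A' := by
  ext x
  simp only [Set.mem_symmDiff, mem_compl_iff]
  tauto

/-- nontriviality passes to the canonical set -/
theorem HH_nontriv_of (hp : HypS S) {A : Set G} {β : G → G → ℝ}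
    (hA' : HasPhi S A) (hA : Conv hp.gen (bd S A) β) (hn : Nontriv hp.gen A β) :
    Nontriv hp.gen (HH S A) β := by
  have h1 := symmDiff_HH hp hA' ((convB_singleton hp.gen).2 hA)
  refine ⟨fun h => hn.1 ?_, fun h => hn.2 ?_⟩
  · exact (convB_singleton hp.gen).1 ((symmDiff_comm_convB hp.gen h1).of_symmDiff hp.gen
      ((convB_singleton hp.gen).2 h))
  · have h2 : ConvB hp.gen (symmDiff (HH S A)ᶜ Aᶜ) {β} := by
      rw [symmDiff_compl_compl]; exact symmDiff_comm_convB hp.gen h1
    exact (convB_singleton hp.gen).1 (h2.of_symmDiff hp.gen ((convB_singleton hp.gen).2 h))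

end Vale.Agent.P239.F
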