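import Vale.Agent.P239.F.C0d

/-!
Module C0, part e: walls of superlevel sets of harmonic functions have infinite components.
-/

namespace Vale.Agent.P239.F

open Filter Topology Set
open Vale.Agent.P239

variable {G : Type*} [Group G] {S T : Finset G}

/-- the wall of `H` at scale `T`: pairs leaving `H` -/
def wallT (T : Finset G) (H : Set G) : Set (G × G) := {e | e.1⁻¹ * e.2 ∈ T ∧ e.1 ∈ H ∧ e.2 ∉ H}

/-- adjacency of pairs along triangles -/
def triT (T : Finset G) (e e' : G × G) : Prop :=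
  (e.1 = e'.1 ∧ e.2⁻¹ * e'.2 ∈ T) ∨ (e.2 = e'.2 ∧ e.1⁻¹ * e'.1 ∈ T)

/-- the component of `e` in the wall -/
def wallComp (T : Finset G) (H : Set G) (e : G × G) : Set (G × G) :=
  {e' | Relation.ReflTransGen (fun a b => triT T a b ∧ b ∈ wallT T H) e e'}

theorem wallComp_subset {H : Set G} {e : G × G} (he : e ∈ wallT T H) :
    wallComp T H e ⊆ wallT T H := by
  intro e' h
  rcases Relation.ReflTransGen.cases_tail h with h | ⟨_, _, h⟩
  · rw [h]; exact he
  · exact h.2

/-- the strict maximum principle for finite sets -/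
theorem false_of_finite_max (hp : HypS S) {h : G → ℝ} (hh : avg S h = h) {E : Set G}
    (hE : E.Finite) (hne : E.Nonempty)
    (hb : ∀ x ∈ E, ∀ s ∈ S, x * s ∉ E → h (x * s) < h x) : False := by
  obtain ⟨m, hmE, hm⟩ := hE.exists_maximalFor h E hne
  have hm' : ∀ y ∈ E, h y ≤ h m := fun y hy => by
    rcases le_total (h y) (h m) with h1 | h1
    · exact h1
    · exact hm hy h1
  have key : ∀ x ∈ E, h x = h m → ∀ s ∈ S, x * s ∈ E ∧ h (x * s) = h m := by
    intro x hx hxm s hs
    have h1 : ∑ s ∈ S, (h x - h (x * s)) = 0 := by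
      have h2 := harm_of_avg_eq hp hh x
      rw [← neg_eq_zero, ← Finset.sum_neg_distrib]
      rw [← h2]
      exact Finset.sum_congr rfl fun _ _ => by ring
    have hnn : ∀ s ∈ S, 0 ≤ h x - h (x * s) := by
      intro s hs
      by_cases hxs : x * s ∈ E
      · have := hm' _ hxs; linarith
      · have := hb x hx s hs hxs; linarith
    have h3 := (Finset.sum_eq_zero_iff_of_nonneg hnn).1 h1 s hs
    have hin : x * s ∈ E := by
      by_contra hxs
      have := hb x hx s hs hxs; linarith
    exact ⟨hin, by linarith⟩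
  have hall : ∀ g : G, g ∈ E ∧ h g = h m := by
    intro g
    have hg : m⁻¹ * g ∈ Subgroup.closure (S : Set G) := by rw [hp.gen]; trivial
    have key2 : ∀ k ∈ Subgroup.closure (S : Set G), m * k ∈ E ∧ h (m * k) = h m := by
      intro k hk
      induction hk using Subgroup.closure_induction_right with
      | one => rw [mul_one]; exact ⟨hmE, rfl⟩
      | mul_right k _ s hs ih =>
        rw [← mul_assoc]; exact key _ ih.1 ih.2 s hs
      | mul_inv_cancel k _ s hs ih =>
        rw [← mul_assoc]; exact key _ ih.1 ih.2 s⁻¹ (hp.symS s hs)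
    have := key2 _ hg
    rwa [mul_inv_cancel_left] at this
  have := hp.inf
  exact Set.infinite_univ (hE.subset fun g _ => (hall g).1)

/-- **walls have infinite components** -/
theorem wall_infinite_gen (hp : HypS S) (hoe : OneEnded S) (hex : H1Ex T)
    (hsymT : ∀ s ∈ T, s⁻¹ ∈ T) (hST : S ⊆ T) {h : G → ℝ} (hh : avg S h = h) {H : Set G}
    (hH : ∀ x ∈ H, ∀ y ∉ H, h y < h x) {e : G × G} (he : e ∈ wallT T H) :
    (wallComp T H e).Infinite := by
  classical
  intro hfin
  have hsub := wallComp_subset (T := T) he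
  have hcl : ∀ a ∈ wallComp T H e, ∀ b ∈ wallT T H, triT T a b → b ∈ wallComp T H e :=
    fun a ha b hb hab => Relation.ReflTransGen.tail ha ⟨hab, hb⟩
  set C := wallComp T H e with hC
  have hinv : ∀ {x y : G}, x⁻¹ * y ∈ T → y⁻¹ * x ∈ T := fun {x y} hxy => by
    have := hsymT _ hxy
    rwa [mul_inv_rev, inv_inv] at this
  -- membership in `C` is constant along triangles
  have hiff1 : ∀ x y z, x⁻¹ * y ∈ T → x⁻¹ * z ∈ T → y⁻¹ * z ∈ T → x ∈ H → y ∉ H → z ∉ H →
      ((x, y) ∈ C ↔ (x, z) ∈ C) := by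
    intro x y z hxy hxz hyz hx hy hz
    exact ⟨fun h1 => hcl _ h1 _ ⟨hxz, hx, hz⟩ (Or.inl ⟨rfl, hyz⟩),
      fun h1 => hcl _ h1 _ ⟨hxy, hx, hy⟩ (Or.inl ⟨rfl, hinv hyz⟩)⟩
  have hiff2 : ∀ x y z, x⁻¹ * z ∈ T → y⁻¹ * z ∈ T → x⁻¹ * y ∈ T → x ∈ H → y ∈ H → z ∉ H →
      ((x, z) ∈ C ↔ (y, z) ∈ C) := by
    intro x y z hxz hyz hxy hx hy hz
    exact ⟨fun h1 => hcl _ h1 _ ⟨hyz, hy, hz⟩ (Or.inr ⟨rfl, hxy⟩),
      fun h1 => hcl _ h1 _ ⟨hxz, hx, hz⟩ (Or.inr ⟨rfl, hinv hxy⟩)⟩
  have hno1 : ∀ x y, x ∉ H → (x, y) ∉ C := fun x y hx h1 => hx (hsub h1).2.1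
  have hno2 : ∀ x y, y ∈ H → (x, y) ∉ C := fun x y hy h1 => (hsub h1).2.2 hy
  let c : G → G → ZMod 2 := fun x y => if (x, y) ∈ C ∨ (y, x) ∈ C then 1 else 0
  obtain ⟨f, hf⟩ := hex c (by
    intro x y z hxy hyz hxz
    simp only [c]
    by_cases hx : x ∈ H <;> by_cases hy : y ∈ H <;> by_cases hz : z ∈ H
    · have e1 := hno2 x y hy
      have e2 := hno2 y x hx
      have e3 := hno2 y z hz
      have e4 := hno2 z y hy
      have e5 := hno2 x z hz
      have e6 := hno2 z x hx
      simp only [e1, e2, e3, e4, e5, e6, or_self, if_false, add_zero]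
    · have e1 := hno2 x y hy
      have e2 := hno2 y x hx
      have e4 := hno1 z y hz
      have e6 := hno1 z x hz
      have := hiff2 x y z hxz hyz hxy hx hy hz
      simp only [e1, e2, e4, e6, or_false, if_false, zero_add, this]
    · have e1 := hno2 x z hz
      have e2 := hno2 z x hx
      have e4 := hno1 y x hy
      have e6 := hno1 y z hy
      have := hiff2 x z y hxy (hinv hyz) hxz hx hz hy
      simp only [e1, e2, e4, e6, or_false, false_or, if_false, this]
      exact CharTwo.add_self_eq_zero _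
    · have e1 := hno1 y x hy
      have e2 := hno1 z x hz
      have e4 := hno1 y z hy
      have e6 := hno1 z y hz
      have := hiff1 x y z hxy hxz hyz hx hy hz
      simp only [e1, e2, e4, e6, or_false, if_false, add_zero, this]
    · have e1 := hno2 y z hz
      have e2 := hno2 z y hy
      have e4 := hno1 x y hx
      have e6 := hno1 x z hx
      have := hiff2 y z x (hinv hxy) (hinv hxz) hyz hy hz hx
      simp only [e1, e2, e4, e6, or_false, false_or, if_false, add_zero, this]
    · have e1 := hno1 x y hx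
      have e2 := hno1 x z hx
      have e4 := hno1 z x hz
      have e6 := hno1 z y hz
      have := hiff1 y x z (hinv hxy) hyz hxz hy hx hz
      simp only [e1, e2, e4, e6, or_false, false_or, if_false, this]
      exact CharTwo.add_self_eq_zero _
    · have e1 := hno1 x y hx
      have e2 := hno1 x z hx
      have e4 := hno1 y x hy
      have e6 := hno1 y z hy
      have := hiff1 z x y (hinv hxz) (hinv hyz) hxy hz hx hy
      simp only [e1, e2, e4, e6, or_false, false_or, if_false, zero_add, this]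
    · have e1 := hno1 x y hx
      have e2 := hno1 y x hy
      have e3 := hno1 y z hy
      have e4 := hno1 z y hz
      have e5 := hno1 x z hx
      have e6 := hno1 z x hz
      simp only [e1, e2, e3, e4, e5, e6, or_self, if_false, add_zero])
  have hCf : ∀ x y, (x, y) ∈ C → f x ≠ f y := by
    intro x y hxy heq
    have h1 := hf x y (hsub hxy).1
    simp only [c] at h1
    rw [if_pos (Or.inl hxy), heq, CharTwo.add_self_eq_zero] at h1
    exact one_ne_zero h1
  have hCf' : ∀ x y, x⁻¹ * y ∈ T → f x ≠ f y → (x, y) ∈ C ∨ (y, x) ∈ C := by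
    intro x y hxy hne
    by_contra hc
    have h1 := hf x y hxy
    simp only [c] at h1
    rw [if_neg hc] at h1
    exact hne (CharTwo.add_eq_zero.1 h1.symm)
  -- the boundary of the level set is finite
  have hbd : {x | ∃ y, Adj S x y ∧ ¬ (x ∈ {x | f x = f e.1} ↔ y ∈ {x | f x = f e.1})}.Finite := by
    refine ((hfin.image Prod.fst).union (hfin.image Prod.snd)).subset ?_
    rintro x ⟨y, hxy, hne⟩
    have hT : x⁻¹ * y ∈ T := by
      obtain ⟨s, hs, h1 | h1⟩ := hxy
      · rw [h1, inv_mul_cancel_left]; exact hST hs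
      · rw [h1, mul_inv_rev, mul_assoc, inv_mul_cancel, mul_one]
        exact hsymT _ (hST hs)
    have hne' : f x ≠ f y := by
      intro heq
      apply hne
      simp only [mem_ofPred_eq, heq]
    rcases hCf' x y hT hne' with h1 | h1
    · exact Or.inl ⟨(x, y), h1, rfl⟩
    · exact Or.inr ⟨(y, x), h1, rfl⟩
  have heC : (e.1, e.2) ∈ C := Relation.ReflTransGen.refl
  have hTs : ∀ (x s : G), s ∈ S → x⁻¹ * (x * s) ∈ T := fun x s hs => by
    rw [inv_mul_cancel_left]; exact hST hs
  -- a finite union of level sets is empty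
  have key : ∀ E : Set G, E.Finite → (∀ x ∈ E, ∀ y, y ∉ E → f x ≠ f y) → E.Nonempty → False := by
    rintro E hE hEf ⟨x0, hx0⟩
    by_cases hxH : x0 ∈ H
    · refine false_of_finite_max hp hh (hE.subset (inter_subset_left (t := H)))
        ⟨x0, hx0, hxH⟩ ?_
      rintro x ⟨hxE, hxH⟩ s hs hxs
      have hxsH : x * s ∉ H := by
        intro h1
        have h2 : x * s ∉ E := fun h2 => hxs ⟨h2, h1⟩
        rcases hCf' x (x * s) (hTs x s hs) (hEf x hxE _ h2) with h3 | h3
        · exact (hsub h3).2.2 h1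
        · exact (hsub h3).2.2 hxH
      exact hH x hxH _ hxsH
    · refine false_of_finite_max (h := fun x => - h x) hp ?_
        (hE.subset (inter_subset_left (t := Hᶜ))) ⟨x0, hx0, hxH⟩ ?_
      · have h1 : (fun x => - h x) = (-1 : ℝ) • h := by ext x; simp
        rw [h1, avg_smul, hh]
      · rintro x ⟨hxE, hxH⟩ s hs hxs
        have hxsH : x * s ∈ H := by
          by_contra h1
          have h2 : x * s ∉ E := fun h2 => hxs ⟨h2, h1⟩
          rcases hCf' x (x * s) (hTs x s hs) (hEf x hxE _ h2) with h3 | h3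
          · exact hxH (hsub h3).2.1
          · exact h1 (hsub h3).2.1
        exact neg_lt_neg (hH _ hxsH _ hxH)
  rcases hoe _ hbd with hA | hA
  · refine key _ hA (fun x hx y hy => ?_) ⟨e.1, rfl⟩
    have hx' : f x = f e.1 := hx
    exact fun h1 => hy (h1.symm.trans hx')
  · refine key _ hA (fun x hx y hy => ?_) ⟨e.2, fun h1 => hCf _ _ heC h1.symm⟩
    have hx' : ¬ f x = f e.1 := hx
    have hy' : f y = f e.1 := not_not.1 hy
    exact fun h1 => hx' (h1.trans hy')

theorem wall_infinite (hyp : Hyp S T) {h : G → ℝ} (hh : avg S h = h) {H : Set G}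
    (hH : ∀ x ∈ H, ∀ y ∉ H, h y < h x) {e : G × G} (he : e ∈ wallT T H) :
    (wallComp T H e).Infinite :=
  wall_infinite_gen hyp.toHypS hyp.oneEnd hyp.exT hyp.symT hyp.sub hh hH he

/-- the same at scale `S` -/
theorem wall_infinite_S (hyp : Hyp S T) {h : G → ℝ} (hh : avg S h = h) {H : Set G}
    (hH : ∀ x ∈ H, ∀ y ∉ H, h y < h x) {e : G × G} (he : e ∈ wallT S H) :
    (wallComp S H e).Infinite :=
  wall_infinite_gen hyp.toHypS hyp.oneEnd hyp.exS hyp.symS (Finset.Subset.refl S) hh hH he

end Vale.Agent.P239.F
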