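import Vale.Agent.P239.F.C0e

/-!
Module C0, part f: the harmonic function and the canonical set of a cut, final form.
`Orb` = all orbits of points are infinite.
-/

namespace Vale.Agent.P239.F

open Filter Topology Set
open Vale.Agent.P239
open scoped Pointwise

variable {G : Type*} [Group G] {S : Finset G}

/-- all orbits of points are infinite -/
def Orb (hS : Subgroup.closure (S : Set G) = ⊤) : Prop :=
  ∀ β ∈ Lim hS univ, (range fun g : G => act g β).Infinite

/-! ### equivariance, for all sets -/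

theorem phi_smul (g : G) (A : Set G) (x : G) : phi S (g • A) (g * x) = phi S A x := by
  have e : (g • A).indicator (1 : G → ℝ) = fun x => A.indicator (1 : G → ℝ) (g⁻¹ * x) := by
    funext y
    by_cases hy : g⁻¹ * y ∈ A
    · have hy' : y ∈ g • A := by rwa [mem_smul_set_iff_inv_smul_mem, smul_eq_mul]
      rw [indicator_of_mem hy, indicator_of_mem hy']; rfl
    · have hy' : y ∉ g • A := by rwa [mem_smul_set_iff_inv_smul_mem, smul_eq_mul]
      rw [indicator_of_notMem hy, indicator_of_notMem hy']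
  unfold phi
  congr 1
  funext n
  rw [e, iter_trans (S := S) (A.indicator 1) g⁻¹ n]
  simp only [inv_mul_cancel_left]

theorem HH_smul (g : G) (A : Set G) : HH S (g • A) = g • HH S A := by
  ext x
  rw [mem_smul_set_iff_inv_smul_mem, smul_eq_mul, mem_HH, mem_HH, ← phi_smul g A (g⁻¹ * x),
    mul_inv_cancel_left]

section

variable (hp : HypS S) (ho : Orb hp.gen)

include ho in
theorem nb_orb {β : G → G → ℝ} (hβ : β ∈ Lim hp.gen univ) : NB hp {β} := by
  refine nb_of hp fun γ hγ x => ?_
  rw [Finset.mem_singleton] at hγ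
  subst hγ
  exact top_eq_one hp (ho γ hβ) x

theorem cut_convB {A : Set G} {β : G → G → ℝ} (hA : IsCut hp.gen A β) :
    ConvB hp.gen (bd S A) {β} := (convB_singleton hp.gen).2 hA.2

variable {A B : Set G} {β β' : G → G → ℝ}

include ho

theorem cut_hasPhi (hA : IsCut hp.gen A β) : HasPhi S A :=
  hasPhi_of hp (nb_orb hp ho hA.1) (cut_convB hp hA)

theorem phi_tendsto (hA : IsCut hp.gen A β) (x : G) :
    Tendsto (fun n => ((avg S)^[n] (A.indicator 1)) x) atTop (𝓝 (phi S A x)) :=
  (cut_hasPhi hp ho hA).tendsto x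

theorem phi_harm (hA : IsCut hp.gen A β) : avg S (phi S A) = phi S A :=
  (cut_hasPhi hp ho hA).harm

theorem phi_nonneg (hA : IsCut hp.gen A β) (x : G) : 0 ≤ phi S A x :=
  (cut_hasPhi hp ho hA).nonneg hp x

theorem phi_le_one (hA : IsCut hp.gen A β) (x : G) : phi S A x ≤ 1 :=
  (cut_hasPhi hp ho hA).le_one hp x

theorem phi_compl (hA : IsCut hp.gen A β) (x : G) : phi S Aᶜ x = 1 - phi S A x := by
  have := ((cut_hasPhi hp ho hA).compl hp).2 x
  linarith

/-- comparison up to a set accumulating at one point -/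
theorem phi_le_of (hA : HasPhi S A) (hB : HasPhi S B) (hβ : β ∈ Lim hp.gen univ)
    (h : Conv hp.gen (A \ B) β) (x : G) : phi S A x ≤ phi S B x := by
  have h1 : ConvB hp.gen (symmDiff A (A ∩ B)) {β} := by
    refine (convB_singleton hp.gen).2 ?_
    refine (show Conv hp.gen (symmDiff A (A ∩ B)) β from ?_)
    have : symmDiff A (A ∩ B) = A \ B := by
      ext y
      rw [Set.mem_symmDiff, mem_inter_iff, Set.mem_sdiff]
      tauto
    rwa [this]
  obtain ⟨h2, h3⟩ := phi_congr_of hp (nb_orb hp ho hβ) hA h1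
  rw [← h3 x]
  exact h2.mono hB inter_subset_right x

theorem phi_mono (hA : IsCut hp.gen A β) (hB : IsCut hp.gen B β') (h : A ⊆ B) (x : G) :
    phi S A x ≤ phi S B x :=
  (cut_hasPhi hp ho hA).mono (cut_hasPhi hp ho hB) h x

theorem phi_mono' (hA : IsCut hp.gen A β) (hB : IsCut hp.gen B β')
    (h : Conv hp.gen (A \ B) β) (x : G) : phi S A x ≤ phi S B x :=
  phi_le_of hp ho (cut_hasPhi hp ho hA) (cut_hasPhi hp ho hB) hA.1 h x

theorem phi_congr (hA : IsCut hp.gen A β) (hβ' : β' ∈ Lim hp.gen univ)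
    (h : Conv hp.gen (symmDiff A B) β') : HasPhi S B ∧ ∀ x, phi S B x = phi S A x :=
  phi_congr_of hp (nb_orb hp ho hβ') (cut_hasPhi hp ho hA) ((convB_singleton hp.gen).2 h)

theorem phi_off (hA : IsCut hp.gen A β) {O : Set (G → G → ℝ)} (hO : O ∈ 𝓝 β) {ε : ℝ}
    (hε : 0 < ε) :
    {x | hb hp.gen x ∉ O ∧ ε ≤ |phi S A x - A.indicator 1 x|}.Finite :=
  phi_off_of hp (cut_hasPhi hp ho hA) (cut_convB hp hA)
    (fun γ hγ => by rw [Finset.mem_singleton] at hγ; rw [hγ]; exact hO) hε

/-- the canonical set differs from the cut only near the centre -/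
theorem HH_near (hA : IsCut hp.gen A β) : Conv hp.gen (symmDiff (HH S A) A) β :=
  (convB_singleton hp.gen).1 (symmDiff_comm_convB hp.gen
    (symmDiff_HH hp (cut_hasPhi hp ho hA) (cut_convB hp hA)))

theorem HH_bdT (hA : IsCut hp.gen A β) (T : Finset G) : Conv hp.gen (bd T (HH S A)) β :=
  (convB_singleton hp.gen).1 (HH_bd hp (cut_hasPhi hp ho hA) (cut_convB hp hA) T)

theorem HH_cut (hA : IsCut hp.gen A β) : IsCut hp.gen (HH S A) β :=
  ⟨hA.1, HH_bdT hp ho hA S⟩

theorem phi_HH_cut (hA : IsCut hp.gen A β) (x : G) : phi S (HH S A) x = phi S A x :=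
  (phi_HH hp (nb_orb hp ho hA.1) (cut_convB hp hA)).2 x

theorem HH_HH_cut (hA : IsCut hp.gen A β) : HH S (HH S A) = HH S A :=
  HH_HH hp (nb_orb hp ho hA.1) (cut_convB hp hA)

theorem HH_nontriv (hA : IsCut hp.gen A β) (hn : Nontriv hp.gen A β) :
    Nontriv hp.gen (HH S A) β :=
  HH_nontriv_of hp (cut_hasPhi hp ho hA) hA.2 hn

theorem HH_mono (hA : IsCut hp.gen A β) (hB : IsCut hp.gen B β)
    (h : Conv hp.gen (A \ B) β) : HH S A ⊆ HH S B := fun x hx => by
  rw [mem_HH] at hx ⊢
  exact hx.trans_le (phi_mono' hp ho hA hB h x)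

theorem phi_add_le_one (hA : IsCut hp.gen A β) (hB : IsCut hp.gen B β') {γ : G → G → ℝ}
    (hγ : γ ∈ Lim hp.gen univ) (h : Conv hp.gen (A ∩ B) γ) (x : G) :
    phi S A x + phi S B x ≤ 1 := by
  have h1 := phi_le_of hp ho (A := A) (B := Bᶜ) (cut_hasPhi hp ho hA)
    ((cut_hasPhi hp ho hB).compl hp).1 hγ (by rwa [sdiff_compl]) x
  rw [phi_compl hp ho hB] at h1
  linarith

theorem HH_disj (hA : IsCut hp.gen A β) (hB : IsCut hp.gen B β)
    (h : Conv hp.gen (A ∩ B) β) : Disjoint (HH S A) (HH S B) := by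
  rw [Set.disjoint_left]
  intro x hx hx'
  rw [mem_HH] at hx hx'
  have := phi_add_le_one hp ho hA hB hA.1 h x
  linarith

/-- unions of components of the canonical set do not converge to the centre -/
theorem HH_comp (hA : IsCut hp.gen A β) {C : Set G} (hC : C ⊆ HH S A) (hne : C.Nonempty)
    (hcl : ∀ x ∈ C, ∀ y ∈ HH S A, Adj S x y → y ∈ C) : ¬ Conv hp.gen C β := by
  intro hconv
  set v : G → ℝ := C.indicator (fun x => phi S A x - 1 / 2) with hv
  have hsub : ∀ x, v x ≤ avg S v x := by
    intro x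
    by_cases hx : x ∈ C
    · have h1 : v x = phi S A x - 1 / 2 := indicator_of_mem hx _
      have h2 : avg S (phi S A - fun _ => (1 / 2 : ℝ)) x = phi S A x - 1 / 2 := by
        rw [avg_sub, phi_harm hp ho hA, avg_const hp]; rfl
      rw [h1, ← h2]
      show (∑ s ∈ S, (phi S A - (fun _ => (1 / 2 : ℝ)) : G → ℝ) (x * s)) / S.card ≤
        (∑ s ∈ S, v (x * s)) / S.card
      refine div_le_div_of_nonneg_right (Finset.sum_le_sum fun s hs => ?_) (Nat.cast_nonneg _)
      show phi S A (x * s) - 1 / 2 ≤ v (x * s)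
      by_cases hxs : x * s ∈ C
      · rw [hv, indicator_of_mem hxs]
      · rw [hv, indicator_of_notMem hxs]
        have h3 : x * s ∉ HH S A := fun h => hxs (hcl x hx _ h ⟨s, hs, Or.inl rfl⟩)
        rw [mem_HH, not_lt] at h3
        linarith
    · rw [hv, indicator_of_notMem hx]
      refine div_nonneg (Finset.sum_nonneg fun s _ => ?_) (Nat.cast_nonneg _)
      refine indicator_nonneg (fun y hy => ?_) _
      have := mem_HH.1 (hC hy)
      linarith
  have hiter : ∀ n x, v x ≤ ((avg S)^[n] v) x := by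
    intro n
    induction n with
    | zero => intro x; exact le_rfl
    | succ n ih =>
      intro x
      rw [Function.iterate_succ_apply']
      exact (hsub x).trans (avg_mono ih x)
  have hle : ∀ x, v x ≤ C.indicator (1 : G → ℝ) x := by
    intro x
    by_cases hx : x ∈ C
    · rw [hv, indicator_of_mem hx, indicator_of_mem hx]
      have := phi_le_one hp ho hA x
      show phi S A x - 1 / 2 ≤ 1
      linarith
    · rw [hv, indicator_of_notMem hx, indicator_of_notMem hx]
  obtain ⟨x, hx⟩ := hne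
  have hz := iter_zero_of_conv hp (nb_orb hp ho hA.1) ((convB_singleton hp.gen).2 hconv) x
  have h1 : v x ≤ 0 := ge_of_tendsto' hz fun n => (hiter n x).trans (iter_mono hle n x)
  rw [hv, indicator_of_mem hx] at h1
  have := mem_HH.1 (hC hx)
  linarith

end

end Vale.Agent.P239.F
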