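import Vale.Agent.P239.F.C0h

/-!
Module C0, part m: the minimum principle for harmonic functions with an exceptional finite set of
boundary points.
-/

namespace Vale.Agent.P239.F.H

open Filter Topology Set
open Vale.Agent.P239 Vale.Agent.P239.F
open scoped RealInnerProductSpace

variable {G : Type*} [Group G] {S : Finset G}

/-- the minimum principle (points of `B` carry no harmonic measure) -/
theorem min_principle (hp : HypS S) {B : Finset (G → G → ℝ)} (hB : NB hp B) {u : G → ℝ} {C : ℝ}
    (hu : avg S u = u) (hC : ∀ x, -C ≤ u x)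
    (hfin : ∀ O : Set (G → G → ℝ), (∀ β ∈ B, O ∈ 𝓝 β) → ∀ ε > 0,
      {x | hb hp.gen x ∉ O ∧ u x ≤ -ε}.Finite) (x : G) : 0 ≤ u x := by
  classical
  wlog hC0 : 0 ≤ C generalizing C
  · exact this (C := max C 0) (fun x => (neg_le_neg (le_max_left _ _)).trans (hC x))
      (le_max_right _ _)
  rw [← neg_nonpos]
  refine le_of_forall_pos_le_add fun ε hε => ?_
  obtain ⟨f, hf, hfx⟩ := hB x (ε / (2 * (C + 1))) (by positivity)
  set O : Set (G → G → ℝ) := {γ | ∀ z, hb hp.gen z = γ → f.1 z = 0} with hO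
  have hOn : ∀ β ∈ B, O ∈ 𝓝 β := by
    intro β hβ
    obtain ⟨O', hO', hsub⟩ := mem_comap.1 (hf.2 β hβ)
    refine mem_of_superset hO' fun γ hγ z hz => ?_
    exact hsub (show hb hp.gen z ∈ O' by rw [hz]; exact hγ)
  have hfn := hfin O hOn (ε / 2) (by positivity)
  set E := {x | hb hp.gen x ∉ O ∧ u x ≤ -(ε / 2)} with hE
  have hpt : ∀ y, (-u) y ≤ ((fun _ : G => ε / 2) + (C • E.indicator (1 : G → ℝ) +
      C • ((fun _ : G => (1 : ℝ)) - f.1)) : G → ℝ) y := by
    intro y
    have hf1 := (hf.1 y).1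
    have hf2 := (hf.1 y).2
    have hEn := ind_nonneg E y
    have h3 := hC y
    simp only [Pi.add_apply, Pi.smul_apply, smul_eq_mul, Pi.sub_apply, Pi.neg_apply]
    have h4 : 0 ≤ C * E.indicator (1 : G → ℝ) y := mul_nonneg hC0 hEn
    have h5 : 0 ≤ C * (1 - f.1 y) := mul_nonneg hC0 (by linarith)
    by_cases hyE : y ∈ E
    · rw [indicator_of_mem hyE]
      simp only [Pi.one_apply]
      linarith
    · by_cases hyO : hb hp.gen y ∈ O
      · have h6 : f.1 y = 0 := hyO y rfl
        rw [h6] at h5 ⊢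
        linarith
      · have h6 : -(ε / 2) < u y := by
          by_contra hcon
          exact hyE ⟨hyO, not_lt.1 hcon⟩
        linarith
  have hEconv : ConvB hp.gen E B := convB_of_finite hp.gen hfn B
  have t2 := iter_zero_of_conv hp hB hEconv x
  have t3 := iter_tendsto hp f x
  have t : Tendsto (fun n => ε / 2 +
      (C * (avg S)^[n] (E.indicator 1) x + C * (1 - (avg S)^[n] f.1 x))) atTop
      (𝓝 (ε / 2 + (C * 0 + C * (1 - (HpD hp f).1 x)))) :=
    tendsto_const_nhds.add ((t2.const_mul C).add ((t3.const_sub 1).const_mul C))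
  have hu' : avg S (-u) = -u := by
    have := avg_smul (S := S) (-1) u
    simpa [hu] using this
  have hle : ∀ n, -u x ≤ ε / 2 +
      (C * (avg S)^[n] (E.indicator 1) x + C * (1 - (avg S)^[n] f.1 x)) := by
    intro n
    have := iter_mono (S := S) hpt n x
    rw [iter_harm hu', iter_add, iter_add, iter_smul, iter_smul, iter_sub, iter_const hp,
      iter_const hp] at this
    simpa only [Pi.add_apply, Pi.smul_apply, smul_eq_mul, Pi.sub_apply, Pi.neg_apply] using this
  have := ge_of_tendsto' t hle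
  have h7 : C * (1 - (HpD hp f).1 x) ≤ ε / 2 := by
    have h8 : 1 - (HpD hp f).1 x ≤ ε / (2 * (C + 1)) := by linarith
    have h9 : C * (1 - (HpD hp f).1 x) ≤ C * (ε / (2 * (C + 1))) :=
      mul_le_mul_of_nonneg_left h8 hC0
    have h10 : C * (ε / (2 * (C + 1))) ≤ ε / 2 := by
      have : C * (ε / (2 * (C + 1))) = ε / 2 * (C / (C + 1)) := by field_simp
      rw [this]
      have : C / (C + 1) ≤ 1 := by rw [div_le_one (by positivity)]; linarith
      nlinarith
    linarith
  linarith

end Vale.Agent.P239.F.H
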