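import Vale.Agent.P239.F.C0a
import Vale.Agent.P239.F.C1

/-! Nesting of cuts with different centres. -/

namespace Vale.Agent.P239.F.N

open Filter Topology Set
open Vale.Agent.P239 Vale.Agent.P239.F

variable {G : Type*} [Group G] {S T : Finset G} (hS : Subgroup.closure (S : Set G) = ⊤)

/-! ### translations on the right -/

theorem hb_eq (z a b : G) : hb hS z a b = gp hS a a - gp hS b b -
    2 * ((pot hS a - pot hS b).1 z - (pot hS a - pot hS b).1 1) := by
  have e : (pot hS a - pot hS b).1 z - (pot hS a - pot hS b).1 1 = gp hS a z - gp hS b z := by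
    rw [gp_eq, gp_eq]
    change (pot hS a).1 z - (pot hS b).1 z - ((pot hS a).1 1 - (pot hS b).1 1) = _
    ring
  rw [e]
  unfold hb
  rw [res_eq, res_eq]
  ring

include hS in
theorem dir_mul_tendsto (f : Dir S) (k : G) :
    Tendsto (fun x => f.1 (x * k) - f.1 x) cofinite (𝓝 0) := by
  have hk : k ∈ Subgroup.closure (S : Set G) := by rw [hS]; trivial
  induction hk using Subgroup.closure_induction_right with
  | one => simp [tendsto_const_nhds]
  | mul_right x _ s hs ih =>
    have h1 := (dir_step_tendsto f hs).comp (mul_left_injective x).tendsto_cofinite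
    have h2 := h1.add ih
    rw [add_zero] at h2
    refine h2.congr fun z => ?_
    simp only [Function.comp]
    rw [← mul_assoc]
    ring
  | mul_inv_cancel x _ s hs ih =>
    have h1 := (dir_step_tendsto f hs).comp (mul_left_injective (x * s⁻¹)).tendsto_cofinite
    have h2 := ih.sub h1
    rw [sub_zero] at h2
    refine h2.congr fun z => ?_
    simp only [Function.comp]
    rw [mul_assoc, inv_mul_cancel_right]
    ring

theorem hb_mul_tendsto (k a b : G) :
    Tendsto (fun x => hb hS (x * k) a b - hb hS x a b) cofinite (𝓝 0) := by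
  have h := (dir_mul_tendsto hS (pot hS a - pot hS b) k).const_mul (-2)
  rw [mul_zero] at h
  refine h.congr fun x => ?_
  rw [hb_eq, hb_eq]
  ring

theorem tendsto_mul_nf (k : G) (β : G → G → ℝ) :
    Tendsto (fun x => x * k) (nf hS β) (nf hS β) := by
  have h1 : Tendsto (fun x : G => x * k) (nf hS β) cofinite :=
    ((mul_left_injective k).tendsto_cofinite).mono_left inf_le_left
  refine tendsto_inf.2 ⟨h1, tendsto_comap_iff.2 ?_⟩
  rw [tendsto_pi_nhds]
  intro a
  rw [tendsto_pi_nhds]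
  intro b
  have h2 : Tendsto (fun x => hb hS x a b) (nf hS β) (𝓝 (β a b)) := by
    have h3 : Tendsto (hb hS) (nf hS β) (𝓝 β) := tendsto_comap.mono_left inf_le_right
    exact (tendsto_pi_nhds.1 (tendsto_pi_nhds.1 h3 a)) b
  have h3 := ((hb_mul_tendsto hS k a b).mono_left (inf_le_left : nf hS β ≤ cofinite)).add h2
  rw [zero_add] at h3
  refine h3.congr fun x => ?_
  simp only [Function.comp]
  ring

variable {hS} in
theorem mem_nf_mul {A : Set G} {β : G → G → ℝ} (hA : A ∈ nf hS β) (k : G) :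
    {x | x * k ∈ A} ∈ nf hS β := tendsto_mul_nf hS k β hA

variable {hS} in
theorem adj_mem_nf {A : Set G} {β : G → G → ℝ} (hA : A ∈ nf hS β) :
    {x | ∀ y, Adj S x y → y ∈ A} ∈ nf hS β := by
  have h : (⋂ s ∈ S, ({x | x * s ∈ A} ∩ {x | x * s⁻¹ ∈ A})) ∈ nf hS β :=
    (Filter.biInter_finset_mem S).2 fun s _ => inter_mem (mem_nf_mul hA s) (mem_nf_mul hA s⁻¹)
  refine mem_of_superset h ?_
  intro x hx y hxy
  rw [mem_iInter₂] at hx
  obtain ⟨s, hs, h | h⟩ := hxy
  · rw [h]; exact (hx s hs).1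
  · have h2 := (hx s hs).2
    have : x * s⁻¹ = y := by rw [h]; group
    rw [Set.mem_ofPred_eq, this] at h2
    exact h2

/-! ### boundaries -/

theorem bd_compl (A : Set G) : bd S Aᶜ = bd S A := by
  ext x
  refine exists_congr fun y => and_congr_right fun _ => not_congr ?_
  exact not_iff_not

theorem isCut_compl {A : Set G} {β : G → G → ℝ} (h : IsCut hS A β) : IsCut hS Aᶜ β :=
  ⟨h.1, by rw [bd_compl]; exact h.2⟩

theorem nontriv_compl {A : Set G} {β : G → G → ℝ} (h : Nontriv hS A β) : Nontriv hS Aᶜ β :=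
  ⟨h.2, by rw [compl_compl]; exact h.1⟩

theorem _root_.Vale.Agent.P239.F.Nontriv.infinite {A : Set G} {β : G → G → ℝ} (h : Nontriv hS A β) : A.Infinite :=
  fun hA => h.1 (Conv.of_finite hS hA β)

theorem finite_of_bd (hyp : Hyp S T) {A : Set G} (h : (bd S A).Finite) : A.Finite ∨ Aᶜ.Finite :=
  hyp.oneEnd A h

/-- `x` is in the boundary of `A` for infinitely many `x` near `q`, else `A` is constant. -/
theorem bd_finite_of_nf (hlim : ∀ B : Set G, B.Infinite → (Lim hS B).Nonempty)
    {A : Set G} (h : ∀ q ∈ Lim hS univ, A ∈ nf hS q ∨ Aᶜ ∈ nf hS q) : (bd S A).Finite := by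
  by_contra hinf
  obtain ⟨q, hq⟩ := hlim _ hinf
  have hqu : q ∈ Lim hS univ := by
    rw [mem_lim] at hq ⊢
    intro O hO
    exact (hq O hO).mono fun x hx => ⟨trivial, hx.2⟩
  have key : ∀ B : Set G, B ∈ nf hS q → (bd S B)ᶜ ∈ nf hS q := by
    intro B hB
    refine mem_of_superset (inter_mem hB (adj_mem_nf hB)) ?_
    rintro x ⟨hx, hx2⟩ ⟨y, hxy, hne⟩
    exact hne ⟨fun _ => hx2 y hxy, fun _ => hx⟩
  have h2 : (bd S A)ᶜ ∈ nf hS q := by
    rcases h q hqu with h | h
    · exact key A h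
    · have := key Aᶜ h
      rwa [bd_compl] at this
  exact (conv_iff_lim hS).2 h2 hq


/-- Everything that is used about limit points. -/
def LimEx (hS : Subgroup.closure (S : Set G) = ⊤) : Prop :=
  ∀ B : Set G, B.Infinite → (Lim hS B).Nonempty

/-- `A` is constant near the point `β` as soon as its boundary does not accumulate at `β`. -/
def Dich (hS : Subgroup.closure (S : Set G) = ⊤) : Prop :=
  ∀ (A : Set G) (β : G → G → ℝ), β ∈ Lim hS univ → (bd S A)ᶜ ∈ nf hS β →
    A ∈ nf hS β ∨ Aᶜ ∈ nf hS β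

variable {hS}

theorem _root_.Vale.Agent.P239.F.IsCut.side (hd : Dich hS) {A : Set G} {β β' : G → G → ℝ} (hA : IsCut hS A β)
    (hβ' : β' ∈ Lim hS univ) (hne : β ≠ β') : A ∈ nf hS β' ∨ Aᶜ ∈ nf hS β' :=
  hd A β' hβ' (hA.2.compl_mem hS hne)

theorem lim_univ {A : Set G} {q : G → G → ℝ} (h : q ∈ Lim hS A) : q ∈ Lim hS univ := by
  rw [mem_lim] at h ⊢
  intro O hO
  exact (h O hO).mono fun x hx => ⟨trivial, hx.2⟩

theorem nf_neBot {q : G → G → ℝ} (h : q ∈ Lim hS univ) : (nf hS q).NeBot := by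
  refine ⟨fun h0 => ?_⟩
  have h1 : (∅ : Set G) ∈ nf hS q := by rw [h0]; exact mem_bot
  rw [mem_nf] at h1
  obtain ⟨O, hO, hfin⟩ := h1
  rw [mem_lim] at h
  exact h O hO (hfin.subset fun x hx => ⟨hx.2, id⟩)

/-- The basic corner lemma. -/
theorem corner_finite (hyp : Hyp S T) (hl : LimEx hS) (hd : Dich hS) {A A' : Set G}
    {β β' : G → G → ℝ} (hA : IsCut hS A β) (hA' : IsCut hS A' β') (hn : Nontriv hS A β)
    (h1 : Aᶜ ∈ nf hS β') (h2 : A'ᶜ ∈ nf hS β) : (A ∩ A').Finite := by
  have hc : ∀ q ∈ Lim hS univ, (A ∩ A') ∈ nf hS q ∨ (A ∩ A')ᶜ ∈ nf hS q := by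
    intro q hq
    by_cases hb : β = q
    · right
      subst hb
      exact mem_of_superset h2 fun x hx hx2 => hx hx2.2
    by_cases hb' : β' = q
    · right
      subst hb'
      exact mem_of_superset h1 fun x hx hx2 => hx hx2.1
    rcases hA.side hd hq hb with h3 | h3
    · rcases hA'.side hd hq hb' with h4 | h4
      · exact Or.inl (inter_mem h3 h4)
      · exact Or.inr (mem_of_superset h4 fun x hx hx2 => hx hx2.2)
    · exact Or.inr (mem_of_superset h3 fun x hx hx2 => hx hx2.1)
  rcases finite_of_bd hyp (bd_finite_of_nf hS hl hc) with h | h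
  · exact h
  · exfalso
    refine hn.2 (Conv.of_finite hS (h.subset ?_) β)
    exact compl_subset_compl.2 inter_subset_left

/-- There is a third region. -/
theorem exists_third (hyp : Hyp S T) (hl : LimEx hS) (hd : Dich hS) {A A' : Set G}
    {β β' : G → G → ℝ} (hA : IsCut hS A β) (hA' : IsCut hS A' β') (hn : Nontriv hS A β)
    (hn' : Nontriv hS A' β') (hne : β ≠ β')
    (h1 : Aᶜ ∈ nf hS β') (h2 : A'ᶜ ∈ nf hS β) (hfin : (A ∩ A').Finite) :
    ∃ p ∈ Lim hS univ, β ≠ p ∧ β' ≠ p ∧ Aᶜ ∩ A'ᶜ ∈ nf hS p := by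
  by_contra hcon
  push Not at hcon
  obtain ⟨O, O', hO, hO', hβO, hβO', hdis⟩ := t2_separation hne
  have hx1 : hb hS ⁻¹' O ∈ nf hS β :=
    mem_inf_of_right (preimage_mem_comap (hO.mem_nhds hβO))
  have hx2 : (hb hS ⁻¹' O)ᶜ ∈ nf hS β' := by
    refine mem_of_superset (mem_inf_of_right (preimage_mem_comap (hO'.mem_nhds hβO'))) ?_
    intro x hx hx2
    exact Set.disjoint_left.1 hdis hx2 hx
  set B : Set G := A ∪ ((Aᶜ ∩ A'ᶜ) ∩ hb hS ⁻¹' O) with hB
  have hc : ∀ q ∈ Lim hS univ, B ∈ nf hS q ∨ Bᶜ ∈ nf hS q := by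
    intro q hq
    by_cases hbq : β = q
    · left
      subst hbq
      filter_upwards [h2, hx1] with x hx hx'
      by_cases hxA : x ∈ A
      · exact Or.inl hxA
      · exact Or.inr ⟨⟨hxA, hx⟩, hx'⟩
    by_cases hbq' : β' = q
    · right
      subst hbq'
      filter_upwards [h1, hx2] with x hx hx'
      rintro (h | h)
      · exact hx h
      · exact hx' h.2
    rcases hA.side hd hq hbq with h3 | h3
    · exact Or.inl (mem_of_superset h3 fun x hx => Or.inl hx)
    · rcases hA'.side hd hq hbq' with h4 | h4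
      · right
        filter_upwards [h3, h4] with x hx hx'
        rintro (h | h)
        · exact hx h
        · exact h.1.2 hx'
      · exact absurd (inter_mem h3 h4) (hcon q hq hbq hbq')
  rcases finite_of_bd hyp (bd_finite_of_nf hS hl hc) with h | h
  · exact hn.infinite hS (h.subset subset_union_left)
  · refine hn'.infinite hS ((h.union hfin).subset ?_)
    intro x hx
    by_cases hxA : x ∈ A
    · exact Or.inr ⟨hxA, hx⟩
    · refine Or.inl ?_
      rintro (h' | h')
      · exact hxA h'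
      · exact h'.1.2 hx

end Vale.Agent.P239.F.N
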