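import Vale.Agent.P239.F.C4Def

/-!
Module C, second half: elementary consequences of `CIn`.
-/

namespace Vale.Agent.P239.F

open Filter Topology Set
open Vale.Agent.P239
open scoped Pointwise

variable {G : Type*} [Group G] {S : Finset G} (hS : Subgroup.closure (S : Set G) = ⊤)

namespace E

theorem lim_mono {A B : Set G} (h : A ⊆ B) {β : G → G → ℝ} (hβ : β ∈ Lim hS A) : β ∈ Lim hS B :=
  MapClusterPt.mono hβ (inf_le_inf_left _ (principal_mono.2 h))

theorem lim_univ {A : Set G} {β : G → G → ℝ} (hβ : β ∈ Lim hS A) : β ∈ Lim hS univ :=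
  lim_mono hS (subset_univ _) hβ

/-- ultrafilter description of limit points -/
theorem mem_lim_iff {A : Set G} {β : G → G → ℝ} :
    β ∈ Lim hS A ↔ ∃ U : Ultrafilter G, (U : Filter G) ≤ cofinite ∧ A ∈ U ∧
      Tendsto (hb hS) U (𝓝 β) := by
  constructor
  · intro h
    have h1 : MapClusterPt β (cofinite ⊓ 𝓟 A) (hb hS) := h
    obtain ⟨U, hU, hU2⟩ := mapClusterPt_iff_ultrafilter.1 h1
    exact ⟨U, hU.trans inf_le_left, le_principal_iff.1 (hU.trans inf_le_right), hU2⟩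
  · rintro ⟨U, h1, h2, h3⟩
    exact mapClusterPt_iff_ultrafilter.2 ⟨U, le_inf h1 (le_principal_iff.2 h2), h3⟩

theorem mem_lim_of {A : Set G} {β : G → G → ℝ} {ι : Type*} (U : Ultrafilter ι) (k : ι → G)
    (h1 : Tendsto k U cofinite) (h2 : ∀ᶠ n in (U : Filter ι), k n ∈ A)
    (h3 : Tendsto (fun n => hb hS (k n)) U (𝓝 β)) : β ∈ Lim hS A :=
  (mem_lim_iff hS).2 ⟨U.map k, h1, h2, h3⟩

theorem lim_union {A B : Set G} {β : G → G → ℝ} (hβ : β ∈ Lim hS (A ∪ B)) :
    β ∈ Lim hS A ∨ β ∈ Lim hS B := by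
  obtain ⟨U, h1, h2, h3⟩ := (mem_lim_iff hS).1 hβ
  rcases Ultrafilter.union_mem_iff.1 h2 with h | h
  · exact Or.inl ((mem_lim_iff hS).2 ⟨U, h1, h, h3⟩)
  · exact Or.inr ((mem_lim_iff hS).2 ⟨U, h1, h, h3⟩)

theorem lim_finite {A : Set G} (hA : A.Finite) {β : G → G → ℝ} : β ∉ Lim hS A := by
  intro hβ
  obtain ⟨U, h1, h2, h3⟩ := (mem_lim_iff hS).1 hβ
  exact (Ultrafilter.compl_mem_iff_notMem.1 (h1 hA.compl_mem_cofinite)) h2

theorem infinite_of_lim {A : Set G} {β : G → G → ℝ} (h : β ∈ Lim hS A) : A.Infinite :=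
  fun hA => lim_finite hS hA h

end E

open E

variable {hS} {T : Finset G}

namespace CIn

variable (I : CIn hS T)

include I

theorem conv_of_lim {A : Set G} {β : G → G → ℝ} (h : ∀ β' ∈ Lim hS A, β' = β) : Conv hS A β :=
  (I.conv_iff A β).2 h

theorem eq_of_conv {A : Set G} {β β' : G → G → ℝ} (h : Conv hS A β) (h' : β' ∈ Lim hS A) :
    β' = β := (I.conv_iff A β).1 h _ h'

theorem conv_mono {A B : Set G} {β : G → G → ℝ} (h : A ⊆ B) (hB : Conv hS B β) : Conv hS A β :=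
  I.conv_of_lim fun _ h' => I.eq_of_conv hB (lim_mono hS h h')

theorem conv_union {A B : Set G} {β : G → G → ℝ} (hA : Conv hS A β) (hB : Conv hS B β) :
    Conv hS (A ∪ B) β :=
  I.conv_of_lim fun _ h' => (lim_union hS h').elim (I.eq_of_conv hA) (I.eq_of_conv hB)

/-- a non-convergent set has a limit point different from the centre -/
theorem exists_ne {A : Set G} {β : G → G → ℝ} (h : ¬ Conv hS A β) :
    ∃ p ∈ Lim hS A, p ≠ β := by
  by_contra hc
  push Not at hc
  exact h (I.conv_of_lim hc)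

theorem lim_shift {A B : Set G} (F : Finset G) (h : ∀ x ∈ A, ∃ s ∈ F, x * s ∈ B)
    {β : G → G → ℝ} (hβ : β ∈ Lim hS A) : β ∈ Lim hS B := by
  classical
  obtain ⟨U, h1, h2, h3⟩ := (mem_lim_iff hS).1 hβ
  have h4 : ∀ᶠ x in (U : Filter G), ∃ s ∈ F, x * s ∈ B := by
    filter_upwards [h2] with x hx using h x hx
  have h5 : ∃ s ∈ F, ∀ᶠ x in (U : Filter G), x * s ∈ B := by
    have h6 := (Ultrafilter.eventually_exists_mem_iff (f := U) (F.finite_toSet)
      (P := fun (s : G) (x : G) => x * s ∈ B)).1 (by simpa using h4)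
    simpa using h6
  obtain ⟨s, _, hs⟩ := h5
  exact mem_lim_of hS U (fun x => x * s) ((mul_left_injective s).tendsto_cofinite.comp
    (show Tendsto id (U : Filter G) cofinite from h1)) hs
    (I.shift U (fun x => x) β s h1 h3)

theorem conv_shift {A B : Set G} (F : Finset G) (h : ∀ x ∈ A, ∃ s ∈ F, x * s ∈ B)
    {β : G → G → ℝ} (hB : Conv hS B β) : Conv hS A β :=
  I.conv_of_lim fun _ h' => I.eq_of_conv hB (I.lim_shift F h h')

end CIn

end Vale.Agent.P239.F
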