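import Vale.Agent.P239.F.ConvG

/-!
(CM): an element fixing one end of a loxodromic element fixes the other end.
-/

namespace Vale.Agent.P239.F.Q

open Filter Topology Set
open Vale.Agent.P239 Vale.Agent.P239.F

variable {G : Type*} [Group G] {S : Finset G} (hS : Subgroup.closure (S : Set G) = ⊤)

theorem pow_cof (htf : ∀ g : G, g ≠ 1 → ∀ n : ℕ, n ≠ 0 → g ^ n ≠ 1) {g : G} (hg : g ≠ 1) :
    Tendsto (fun n : ℕ => g ^ n) atTop cofinite := by
  have hinj : Function.Injective (fun n : ℕ => g ^ n) := by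
    intro m n hmn
    by_contra hne
    rcases lt_or_gt_of_ne hne with h | h
    · have := htf g hg (n - m) (by omega)
      apply this
      have h2 : g ^ m * g ^ (n - m) = g ^ m := by
        rw [← pow_add, Nat.add_sub_cancel' h.le]; exact hmn.symm
      exact mul_eq_left.1 h2
    · have := htf g hg (m - n) (by omega)
      apply this
      have h2 : g ^ n * g ^ (m - n) = g ^ n := by
        rw [← pow_add, Nat.add_sub_cancel' h.le]; exact hmn
      exact mul_eq_left.1 h2
  rw [← Nat.cofinite_eq_atTop]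
  exact hinj.tendsto_cofinite

/-- (CM) -/
theorem cm [Countable G] {F : Finset G} (hF : CrossProp S F)
    (htf : ∀ g : G, g ≠ 1 → ∀ n : ℕ, n ≠ 0 → g ^ n ≠ 1) (g s : G) {a b : G → G → ℝ}
    (ha : a ∈ closure (range (hb hS))) (hb' : b ∈ closure (range (hb hS))) (hab : a ≠ b)
    (hta : Tendsto (fun n : ℕ => hb hS (g ^ n)) atTop (𝓝 a))
    (htb : Tendsto (fun n : ℕ => hb hS (g⁻¹ ^ n)) atTop (𝓝 b)) (hsb : act s b = b) :
    act s a = a := by
  by_contra hne
  have hg : g ≠ 1 := by
    rintro rfl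
    apply hab
    simp only [one_pow, inv_one] at hta htb
    exact tendsto_nhds_unique hta htb
  have hVle : (hyperfilter ℕ : Filter ℕ) ≤ atTop := by
    rw [← Nat.cofinite_eq_atTop]; exact hyperfilter_le_cofinite
  have fix : ∀ (g : G) (a : G → G → ℝ), Tendsto (fun n : ℕ => hb hS (g ^ n)) atTop (𝓝 a) →
      act g a = a := by
    intro g a hta
    have h1 := ((continuous_act g).tendsto a).comp hta
    have h2 := hta.comp (tendsto_add_atTop_nat 1)
    refine tendsto_nhds_unique h1 (h2.congr fun n => ?_)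
    change hb hS (g ^ (n + 1)) = act g (hb hS (g ^ n))
    rw [act_hb, pow_succ']
  have fixn : ∀ (g : G) (a : G → G → ℝ), act g a = a → ∀ n : ℕ, act (g ^ n) a = a := by
    intro g a hga n
    induction n with
    | zero => rw [pow_zero, act_one]
    | succ n ih => rw [pow_succ, ← act_act, hga, ih]
  have invfix : ∀ (g : G) (a : G → G → ℝ), act g a = a → act g⁻¹ a = a := by
    intro g a h
    conv_lhs => rw [← h]
    rw [act_act, inv_mul_cancel, act_one]
  have hga := fix g a hta
  have hgb' := fix g⁻¹ b htb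
  have hgb : act g b = b := by
    have := invfix g⁻¹ b hgb'
    rwa [inv_inv] at this
  set h : G := s * g * s⁻¹ with hh
  have hh1 : Tendsto (fun n : ℕ => hb hS (h⁻¹ ^ n)) atTop (𝓝 b) := by
    have h1 := tendsto_hb_mul hS (pow_cof htf (inv_ne_one.2 hg)) htb s⁻¹
    have h2 := ((continuous_act s).tendsto b).comp h1
    rw [hsb] at h2
    refine h2.congr fun n => ?_
    change act s (hb hS (g⁻¹ ^ n * s⁻¹)) = _
    rw [act_hb, hh, show (s * g * s⁻¹)⁻¹ = s * g⁻¹ * s⁻¹ by group, conj_pow, mul_assoc]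
  have hh2 : Tendsto (fun n : ℕ => hb hS (h ^ n)) atTop (𝓝 (act s a)) := by
    have h1 := tendsto_hb_mul hS (pow_cof htf hg) hta s⁻¹
    have h2 := ((continuous_act s).tendsto a).comp h1
    refine h2.congr fun n => ?_
    change act s (hb hS (g ^ n * s⁻¹)) = _
    rw [act_hb, hh, conj_pow, mul_assoc]
  have hfsa : act h⁻¹ (act s a) = act s a := invfix h _ (fix h _ hh2)
  have hfb : act h⁻¹ b = b := fix h⁻¹ b hh1
  have hsab : act s a ≠ b := by
    intro h'
    apply hab
    have : act s⁻¹ (act s a) = act s⁻¹ (act s b) := by rw [h', hsb]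
    rwa [act_act, act_act, inv_mul_cancel, act_one, act_one] at this
  have hsac : act s a ∈ closure (range (hb hS)) := act_mem_closure hS s ha
  obtain ⟨O₁, haO, hO₁, O, hbO, hO, hd⟩ := exists_open_nhds_disjoint_closure hab
  have haO' : a ∉ closure O := Set.disjoint_left.1 hd (subset_closure haO)
  -- the exit time
  have hexit : ∀ᶠ j : ℕ in atTop, ∃ m : ℕ, hb hS (g ^ m * h⁻¹ ^ j) ∈ O ∧
      hb hS (g ^ (m + 1) * h⁻¹ ^ j) ∉ O := by
    filter_upwards [hh1.eventually_mem (hO.mem_nhds hbO)] with j hj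
    classical
    have h1 : ∃ n : ℕ, hb hS (g ^ n * h⁻¹ ^ j) ∉ O := by
      have h2 := tendsto_hb_mul hS (pow_cof htf hg) hta (h⁻¹ ^ j)
      have h3 := h2.eventually_mem (isClosed_closure.isOpen_compl.mem_nhds haO')
      exact h3.exists.imp fun n hn h' => hn (subset_closure h')
    have h4 := Nat.find_spec h1
    have h5 : Nat.find h1 ≠ 0 := by
      intro h0
      rw [h0, pow_zero, one_mul] at h4
      exact h4 hj
    obtain ⟨m, hm⟩ := Nat.exists_eq_succ_of_ne_zero h5
    refine ⟨m, not_not.1 (Nat.find_min h1 (m := m) (by omega)), ?_⟩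
    rw [hm] at h4
    exact h4
  obtain ⟨m, hm⟩ := hexit.choice
  have hin : ∀ n : ℕ, ∀ᶠ j : ℕ in atTop, hb hS (g ^ n * h⁻¹ ^ j) ∈ O := by
    intro n
    have h1 := ((continuous_act (g ^ n)).tendsto b).comp hh1
    rw [fixn g b hgb n] at h1
    have h2 : Tendsto (fun j : ℕ => hb hS (g ^ n * h⁻¹ ^ j)) atTop (𝓝 b) :=
      h1.congr fun j => act_hb hS _ _
    exact h2.eventually_mem (hO.mem_nhds hbO)
  have hmt : Tendsto m atTop atTop := by
    refine tendsto_atTop.2 fun N => ?_
    have h1 : ∀ᶠ j : ℕ in atTop, ∀ n ∈ Finset.range (N + 1), hb hS (g ^ n * h⁻¹ ^ j) ∈ O :=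
      (Finset.eventually_all _).2 fun n _ => hin n
    filter_upwards [h1, hm] with j hj hj'
    by_contra hlt
    exact hj'.2 (hj (m j + 1) (Finset.mem_range.2 (by omega)))
  -- cofinite or constant
  rcases ((hyperfilter ℕ).map fun j => g ^ (m j + 1) * h⁻¹ ^ j).le_cofinite_or_eq_pure with
    hk | ⟨v, hv⟩
  · have hk' : Tendsto (fun j : ℕ => g ^ (m j + 1) * h⁻¹ ^ j) (hyperfilter ℕ) cofinite := hk
    obtain ⟨x, hx⟩ := exists_lim_ultra hS (hyperfilter ℕ)
      (fun j => hb hS (g ^ (m j + 1) * h⁻¹ ^ j)) (fun j => abs_hb_le hS _)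
    obtain ⟨y, hy⟩ := exists_lim_ultra hS (hyperfilter ℕ)
      (fun j => hb hS (g ^ (m j + 1) * h⁻¹ ^ j)⁻¹) (fun j => abs_hb_le hS _)
    have hxO : x ∉ O := by
      have : x ∈ Oᶜ := by
        refine hO.isClosed_compl.mem_of_tendsto hx ?_
        filter_upwards [hm.filter_mono hVle] with j hj using hj.2
      exact this
    have hxa : x ≠ a := by
      rintro rfl
      have h1 := ((continuous_act g⁻¹).tendsto x).comp hx
      have h2 : act g⁻¹ x ∈ closure O := by
        refine mem_closure_of_tendsto h1 ?_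
        filter_upwards [hm.filter_mono hVle] with j hj
        change act g⁻¹ (hb hS (g ^ (m j + 1) * h⁻¹ ^ j)) ∈ O
        rw [act_hb, pow_succ', mul_assoc, inv_mul_cancel_left]
        exact hj.1
      rw [invfix g x hga] at h2
      exact haO' h2
    have hxb : x ≠ b := by
      rintro rfl
      exact hxO hbO
    have hkb : ∀ j, act (g ^ (m j + 1) * h⁻¹ ^ j) b = b := fun j => by
      rw [← act_act, fixn _ _ hfb, fixn _ _ hgb]
    have hby : b = y := by
      by_contra hby
      have h1 := conv_prop hS hF hk' hx hy (β := fun _ => b) (fun _ => hb') tendsto_const_nhds hby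
      simp only [hkb] at h1
      exact hxb (tendsto_nhds_unique h1 tendsto_const_nhds)
    have h1 := conv_prop hS hF hk' hx hy (β := fun _ => act s a) (fun _ => hsac)
      tendsto_const_nhds (by rw [← hby]; exact hsab)
    have hks : ∀ j, act (g ^ (m j + 1) * h⁻¹ ^ j) (act s a) = act (g ^ (m j + 1)) (act s a) :=
      fun j => by rw [← act_act (g ^ (m j + 1)), fixn _ _ hfsa]
    simp only [hks] at h1
    have hm1 : Tendsto (fun j => m j + 1) (hyperfilter ℕ) atTop :=
      ((tendsto_add_atTop_nat 1).comp hmt).mono_left hVle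
    have htb' : Tendsto (fun n : ℕ => hb hS (g ^ n)⁻¹) atTop (𝓝 b) := by
      simpa only [inv_pow] using htb
    have h2 := conv_prop hS hF ((pow_cof htf hg).comp hm1) (hta.comp hm1) (htb'.comp hm1)
      (β := fun _ => act s a) (fun _ => hsac) tendsto_const_nhds hsab
    exact hxa (tendsto_nhds_unique h1 h2)
  · have hev : ∀ᶠ j in (hyperfilter ℕ : Filter ℕ), g ^ (m j + 1) * h⁻¹ ^ j = v := by
      have : ({v} : Set G) ∈ (hyperfilter ℕ).map fun j => g ^ (m j + 1) * h⁻¹ ^ j := by
        rw [hv]; exact Ultrafilter.mem_pure.2 rfl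
      exact this
    obtain ⟨j0, hj0⟩ := hev.exists
    have hgt : ∀ᶠ j in (hyperfilter ℕ : Filter ℕ), j0 < j ∧ m j0 < m j :=
      ((eventually_gt_atTop j0).and (hmt.eventually_gt_atTop (m j0))).filter_mono hVle
    obtain ⟨j, hj, hj1, hj2⟩ := (hev.and hgt).exists
    obtain ⟨D, rfl⟩ := Nat.exists_eq_add_of_lt hj1
    obtain ⟨E, hE⟩ := Nat.exists_eq_add_of_lt hj2
    have e1 : g ^ (E + 1) = h ^ (D + 1) := by
      have h1 : g ^ (m j0 + 1) * (g ^ (E + 1) * h⁻¹ ^ (D + 1)) * h⁻¹ ^ j0 =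
          g ^ (m j0 + 1) * 1 * h⁻¹ ^ j0 := by
        rw [mul_one, hj0, ← hj, hE, show m j0 + E + 1 + 1 = (m j0 + 1) + (E + 1) by ring,
          pow_add g, show j0 + D + 1 = (D + 1) + j0 by ring, pow_add h⁻¹ (D + 1)]
        group
      have h2 := mul_left_cancel (mul_right_cancel h1)
      rw [inv_pow] at h2
      exact mul_inv_eq_one.1 h2
    have hl : ∀ N : ℕ, Tendsto (fun l : ℕ => (N + 1) * l) atTop atTop := fun N =>
      tendsto_atTop_mono (fun l => by simp only [id_eq]; nlinarith) tendsto_id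
    have h1 := hta.comp (hl E)
    have h2 := hh2.comp (hl D)
    apply hne
    refine tendsto_nhds_unique h2 (h1.congr fun l => ?_)
    change hb hS (g ^ ((E + 1) * l)) = hb hS (h ^ ((D + 1) * l))
    rw [pow_mul, pow_mul, e1]

theorem lim_sub_closure {A : Set G} {β : G → G → ℝ} (h : β ∈ Lim hS A) :
    β ∈ closure (range (hb hS)) := by
  have h1 : MapClusterPt β (cofinite ⊓ 𝓟 A) (hb hS) := h
  rw [mem_closure_iff_nhds]
  intro O hO
  obtain ⟨z, hz⟩ := (h1.frequently hO).exists
  exact ⟨hb hS z, hz, z, rfl⟩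

/-- (CM), in the form of the field `cm` of `CIn` -/
theorem cm_field [Countable G] {F : Finset G} (hF : CrossProp S F)
    (htf : ∀ g : G, g ≠ 1 → ∀ n : ℕ, n ≠ 0 → g ^ n ≠ 1) (g s : G) (a b : G → G → ℝ)
    (ha : a ∈ Lim hS univ) (hb' : b ∈ Lim hS univ) (hab : a ≠ b)
    (hta : Tendsto (fun n : ℕ => hb hS (g ^ n)) atTop (𝓝 a))
    (htb : Tendsto (fun n : ℕ => hb hS (g⁻¹ ^ n)) atTop (𝓝 b)) (hsb : act s b = b) :
    act s a = a :=
  cm hS hF htf g s (lim_sub_closure hS ha) (lim_sub_closure hS hb') hab hta htb hsb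

end Vale.Agent.P239.F.Q
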