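import Vale.Agent.P239.F.C4Eq

/-!
Module C, second half: cofiniteness of the crossed edges, fixed points.
-/

namespace Vale.Agent.P239.F

open Filter Topology Set
open Vale.Agent.P239
open scoped Pointwise

variable {G : Type*} [Group G] {S : Finset G} {hS : Subgroup.closure (S : Set G) = ⊤}
  {T : Finset G}

open E

namespace CIn

variable (I : CIn hS T)

include I

/-- The stabilizer of `c` acts cofinitely on the vertices of the edges crossed by `c`. -/
theorem vc_cof (c : G → G → ℝ) :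
    ∃ F : Finset G, ∀ x ∈ Vc hS S c, ∃ s ∈ Stb c, ∃ f ∈ F, x = s * f := by
  classical
  have h1 : ∀ t : G, t ∈ S → ∃ F : Finset G, ∀ x, (x, x * t) ∈ Ec hS S c →
      ∃ s ∈ Stb c, ∃ f ∈ F, x = s * f := by
    intro t ht
    have hfin : {c' | ((1 : G), t) ∈ Ec hS S c'}.Finite := I.fin 1 t (by simpa using ht)
    have hex : ∀ c' : G → G → ℝ, ∃ x0 : G, (∃ x, act x⁻¹ c = c') → act x0⁻¹ c = c' := by
      intro c'
      by_cases h : ∃ x, act x⁻¹ c = c'
      · obtain ⟨x, hx⟩ := h
        exact ⟨x, fun _ => hx⟩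
      · exact ⟨1, fun h' => absurd h' h⟩
    choose ξ hξ using hex
    refine ⟨hfin.toFinset.image ξ, fun x hx => ?_⟩
    have h2 := I.ec_smul x⁻¹ S hx
    rw [inv_mul_cancel, inv_mul_cancel_left] at h2
    have h3 := hξ (act x⁻¹ c) ⟨x, rfl⟩
    refine ⟨x * (ξ (act x⁻¹ c))⁻¹, ?_, ξ (act x⁻¹ c), ?_, by group⟩
    · change act _ c = c
      rw [← act_act, h3, act_act_inv]
    · exact Finset.mem_image_of_mem _ (hfin.mem_toFinset.2 h2)
  choose! F hF using h1
  let F0 : Finset G := S.biUnion F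
  refine ⟨F0 ∪ F0 * S, fun x hx => ?_⟩
  obtain ⟨y, h | h⟩ := hx
  · have hs : x⁻¹ * y ∈ S := h.1
    obtain ⟨s, h1, f, h2, h3⟩ := hF _ hs x (by rw [mul_inv_cancel_left]; exact h)
    exact ⟨s, h1, f, Finset.mem_union_left _ (Finset.mem_biUnion.2 ⟨_, hs, h2⟩), h3⟩
  · have hs : y⁻¹ * x ∈ S := h.1
    obtain ⟨s, h1, f, h2, h3⟩ := hF _ hs y (by rw [mul_inv_cancel_left]; exact h)
    refine ⟨s, h1, f * (y⁻¹ * x), Finset.mem_union_right _ (Finset.mul_mem_mul
      (Finset.mem_biUnion.2 ⟨_, hs, h2⟩) hs), ?_⟩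
    rw [← mul_assoc, ← h3, mul_inv_cancel_left]

theorem pow_cofinite {g : G} (hg : g ≠ 1) : Tendsto (fun n : ℕ => g ^ n) atTop cofinite := by
  have hinj : Function.Injective (fun n : ℕ => g ^ n) := by
    intro m n hmn
    by_contra hne
    rcases lt_or_gt_of_ne hne with h | h
    · have := I.hyp.tf g hg (n - m) (by omega)
      apply this
      have h2 : g ^ m * g ^ (n - m) = g ^ m := by
        rw [← pow_add, Nat.add_sub_cancel' h.le]; exact hmn.symm
      exact mul_eq_left.1 h2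
    · have := I.hyp.tf g hg (m - n) (by omega)
      apply this
      have h2 : g ^ n * g ^ (m - n) = g ^ n := by
        rw [← pow_add, Nat.add_sub_cancel' h.le]; exact hmn
      exact mul_eq_left.1 h2
  rw [← Nat.cofinite_eq_atTop]
  exact hinj.tendsto_cofinite

end CIn

end Vale.Agent.P239.F
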