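import Vale.Agent.P239.F.C4Bas

/-!
Module C, second half: equivariance.
-/

namespace Vale.Agent.P239.F

open Filter Topology Set
open Vale.Agent.P239
open scoped Pointwise

variable {G : Type*} [Group G] {S : Finset G} (hS : Subgroup.closure (S : Set G) = ⊤)

namespace E

theorem act_one (β : G → G → ℝ) : act 1 β = β := by
  funext x y; simp [act]

theorem act_act (g h : G) (β : G → G → ℝ) : act g (act h β) = act (g * h) β := by
  funext x y; simp [act, mul_assoc]

theorem act_inv_act (g : G) (β : G → G → ℝ) : act g⁻¹ (act g β) = β := by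
  rw [act_act, inv_mul_cancel, act_one]

theorem act_act_inv (g : G) (β : G → G → ℝ) : act g (act g⁻¹ β) = β := by
  rw [act_act, mul_inv_cancel, act_one]

theorem act_injective (g : G) : Function.Injective (act g) := fun β β' h => by
  rw [← act_inv_act g β, h, act_inv_act]

theorem continuous_act (g : G) : Continuous (act g) :=
  continuous_pi fun x => continuous_pi fun y =>
    (continuous_apply (g⁻¹ * y)).comp (continuous_apply (g⁻¹ * x))

theorem stb_one (c : G → G → ℝ) : (1 : G) ∈ Stb c := act_one c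

theorem stb_mul {c : G → G → ℝ} {g h : G} (hg : g ∈ Stb c) (hh : h ∈ Stb c) : g * h ∈ Stb c := by
  change act (g * h) c = c
  rw [← act_act, show act h c = c from hh, show act g c = c from hg]

theorem stb_inv {c : G → G → ℝ} {g : G} (hg : g ∈ Stb c) : g⁻¹ ∈ Stb c := by
  change act g⁻¹ c = c
  conv_lhs => rw [← show act g c = c from hg]
  exact act_inv_act g c

theorem bd_smul (g : G) (A : Set G) : bd S (g • A) = g • bd S A := by
  ext x
  rw [mem_smul_set_iff_inv_smul_mem]
  simp only [bd, mem_ofPred_eq, mem_smul_set_iff_inv_smul_mem, smul_eq_mul]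
  constructor
  · rintro ⟨y, hxy, h⟩
    refine ⟨g⁻¹ * y, ?_, h⟩
    obtain ⟨s, hs, h1 | h1⟩ := hxy
    · exact ⟨s, hs, Or.inl (by rw [h1, mul_assoc])⟩
    · exact ⟨s, hs, Or.inr (by rw [h1, mul_assoc])⟩
  · rintro ⟨y, hxy, h⟩
    refine ⟨g * y, ?_, by simpa using h⟩
    obtain ⟨s, hs, h1 | h1⟩ := hxy
    · exact ⟨s, hs, Or.inl (by rw [h1]; group)⟩
    · exact ⟨s, hs, Or.inr (by rw [mul_assoc, ← h1]; group)⟩

theorem bd_compl (A : Set G) : bd S Aᶜ = bd S A := by
  ext x
  simp only [bd, mem_ofPred_eq, mem_compl_iff]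
  constructor <;> rintro ⟨y, h1, h2⟩ <;> exact ⟨y, h1, by tauto⟩

variable {hS} {T : Finset G}

theorem isCut_compl {A : Set G} {β : G → G → ℝ} (h : IsCut hS A β) : IsCut hS Aᶜ β :=
  ⟨h.1, by rw [bd_compl]; exact h.2⟩

theorem nontriv_compl {A : Set G} {β : G → G → ℝ} (h : Nontriv hS A β) : Nontriv hS Aᶜ β :=
  ⟨h.2, by rw [compl_compl]; exact h.1⟩

end E

open E

variable {hS} {T : Finset G}

namespace CIn

variable (I : CIn hS T)

include I

theorem lim_smul (g : G) {A : Set G} {β : G → G → ℝ} (h : β ∈ Lim hS A) :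
    act g β ∈ Lim hS (g • A) := by
  obtain ⟨U, h1, h2, h3⟩ := (mem_lim_iff hS).1 h
  refine mem_lim_of hS U (fun x => g * x)
    ((mul_right_injective g).tendsto_cofinite.comp (show Tendsto id (U : Filter G) cofinite from h1))
    ?_ ?_
  · filter_upwards [h2] with x hx using smul_mem_smul_set hx
  · have := ((continuous_act g).tendsto β).comp h3
    refine this.congr fun x => ?_
    exact I.act_hb g x

theorem lim_smul_iff (g : G) {A : Set G} {β : G → G → ℝ} :
    act g β ∈ Lim hS (g • A) ↔ β ∈ Lim hS A := by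
  refine ⟨fun h => ?_, I.lim_smul g⟩
  have := I.lim_smul g⁻¹ h
  rwa [act_inv_act, inv_smul_smul] at this

theorem mem_pt_smul (g : G) {β : G → G → ℝ} (h : β ∈ Lim hS univ) : act g β ∈ Lim hS univ :=
  lim_univ hS (I.lim_smul g h)

theorem conv_smul (g : G) {A : Set G} {β : G → G → ℝ} (h : Conv hS A β) :
    Conv hS (g • A) (act g β) := by
  refine I.conv_of_lim fun β' h' => ?_
  have h1 := I.lim_smul g⁻¹ h'
  rw [inv_smul_smul] at h1
  rw [← I.eq_of_conv h h1, act_act_inv]

theorem conv_smul_iff (g : G) {A : Set G} {β : G → G → ℝ} :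
    Conv hS (g • A) (act g β) ↔ Conv hS A β := by
  refine ⟨fun h => ?_, I.conv_smul g⟩
  have := I.conv_smul g⁻¹ h
  rwa [act_inv_act, inv_smul_smul] at this

theorem isCut_smul (g : G) {A : Set G} {β : G → G → ℝ} (h : IsCut hS A β) :
    IsCut hS (g • A) (act g β) :=
  ⟨I.mem_pt_smul g h.1, by rw [bd_smul]; exact I.conv_smul g h.2⟩

theorem nontriv_smul (g : G) {A : Set G} {β : G → G → ℝ} (h : Nontriv hS A β) :
    Nontriv hS (g • A) (act g β) := by
  refine ⟨fun h' => h.1 ((I.conv_smul_iff g).1 h'), fun h' => h.2 ((I.conv_smul_iff g).1 ?_)⟩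
  rwa [smul_set_compl]

theorem cent_smul (g : G) {c : G → G → ℝ} (h : c ∈ Cent hS) : act g c ∈ Cent hS := by
  obtain ⟨A, h1, h2⟩ := h
  exact ⟨g • A, I.isCut_smul g h1, I.nontriv_smul g h2⟩

theorem cent_pt {c : G → G → ℝ} (h : c ∈ Cent hS) : c ∈ Lim hS univ := by
  obtain ⟨A, h1, _⟩ := h
  exact h1.1

theorem ec_smul (g : G) (M : Finset G) {c : G → G → ℝ} {x y : G} (h : (x, y) ∈ Ec hS M c) :
    (g * x, g * y) ∈ Ec hS M (act g c) := by
  obtain ⟨h0, A, h1, h2, h3, h4⟩ := h
  refine ⟨?_, g • A, I.isCut_smul g h1, I.nontriv_smul g h2, ?_, ?_⟩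
  · change (g * x)⁻¹ * (g * y) ∈ M
    rw [mul_inv_rev, mul_assoc, inv_mul_cancel_left]; exact h0
  · rw [I.HH_smul]; exact smul_mem_smul_set h3
  · rw [I.HH_smul]
    intro h5
    rw [mem_smul_set_iff_inv_smul_mem] at h5
    simp only [smul_eq_mul, inv_mul_cancel_left] at h5
    exact h4 h5

theorem ec_smul_iff (g : G) (M : Finset G) {c : G → G → ℝ} {x y : G} :
    (g * x, g * y) ∈ Ec hS M (act g c) ↔ (x, y) ∈ Ec hS M c := by
  refine ⟨fun h => ?_, I.ec_smul g M⟩
  have := I.ec_smul g⁻¹ M h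
  rwa [act_inv_act, inv_mul_cancel_left, inv_mul_cancel_left] at this

theorem kp_smul (g : G) (c p : G → G → ℝ) : Kp hS (act g c) (act g p) = g • Kp hS c p := by
  ext x
  rw [mem_smul_set_iff_inv_smul_mem]
  constructor
  · intro h A h1 h2
    have := h (g • A) (I.isCut_smul g h1) (I.nontriv_smul g h2)
    rw [I.HH_smul, I.lim_smul_iff, mem_smul_set_iff_inv_smul_mem] at this
    exact this
  · intro h A h1 h2
    have h3 := I.isCut_smul g⁻¹ h1
    have h4 := I.nontriv_smul g⁻¹ h2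
    rw [act_inv_act] at h3 h4
    have := h (g⁻¹ • A) h3 h4
    rw [I.HH_smul, ← I.lim_smul_iff g, smul_inv_smul] at this
    rw [← this]
    simp [mem_smul_set_iff_inv_smul_mem]

theorem hp_smul (g : G) (c p : G → G → ℝ) : Hp hS (act g c) (act g p) = g • Hp hS c p := by
  rw [Hp, I.kp_smul, I.HH_smul, Hp]

end CIn

end Vale.Agent.P239.F
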