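import Vale.Agent.P239.F.C4Cof

/-!
Module C, second half: uniform convergence property, loxodromic elements, uniform constancy near a
point.
-/

namespace Vale.Agent.P239.F.P

open Filter Topology Set
open Vale.Agent.P239 Vale.Agent.P239.F Vale.Agent.P239.F.E
open scoped Pointwise

variable {G : Type*} [Group G] {S : Finset G}

theorem countable_of_gen (hS : Subgroup.closure (S : Set G) = ⊤) (hsym : ∀ s ∈ S, s⁻¹ ∈ S) :
    Countable G := by
  refine Function.Surjective.countable (f := fun l : List S => (l.map fun s : S => (s : G)).prod)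
    fun x => ?_
  have hx : x ∈ Subgroup.closure (S : Set G) := by rw [hS]; trivial
  induction hx using Subgroup.closure_induction_right with
  | one => exact ⟨[], rfl⟩
  | mul_right x _ s hs ih =>
    obtain ⟨l, hl⟩ := ih
    refine ⟨l ++ [⟨s, hs⟩], ?_⟩
    change (List.map (fun s : S => (s : G)) (l ++ [⟨s, hs⟩])).prod = x * s
    rw [List.map_append, List.prod_append]
    exact congrArg₂ _ hl (by rw [List.map_singleton, List.prod_singleton])
  | mul_inv_cancel x _ s hs ih =>
    obtain ⟨l, hl⟩ := ih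
    refine ⟨l ++ [⟨s⁻¹, hsym s hs⟩], ?_⟩
    change (List.map (fun s : S => (s : G)) (l ++ [⟨s⁻¹, hsym s hs⟩])).prod = x * s⁻¹
    rw [List.map_append, List.prod_append]
    exact congrArg₂ _ hl (by rw [List.map_singleton, List.prod_singleton])

variable {hS : Subgroup.closure (S : Set G) = ⊤} {T : Finset G} (I : CIn hS T)

include I

/-- uniform convergence property -/
theorem cvg_unif (U : Ultrafilter G) (k : G → G) {x y : G → G → ℝ}
    (hk : Tendsto k U cofinite) (hx : Tendsto (fun n => hb hS (k n)) U (𝓝 x))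
    (hy : Tendsto (fun n => hb hS (k n)⁻¹) U (𝓝 y)) {O O' : Set (G → G → ℝ)} (hO : O ∈ 𝓝 x)
    (hO' : O' ∈ 𝓝 y) :
    ∀ᶠ n in (U : Filter G), ∀ w : G, hb hS w ∉ O' → hb hS (k n * w) ∈ O := by
  by_contra hc
  have h1 : ∀ᶠ n in (U : Filter G), ∃ w : G, hb hS w ∉ O' ∧ hb hS (k n * w) ∉ O := by
    have := Ultrafilter.eventually_not.2 hc
    filter_upwards [this] with n hn
    push Not at hn
    exact hn
  obtain ⟨w, hw⟩ := h1.choice
  obtain ⟨q, hq⟩ := I.exists_lim U w
  have hqy : q ≠ y := by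
    rintro rfl
    obtain ⟨n, hn, hn'⟩ := ((hq.eventually_mem hO').and hw).exists
    exact hn'.1 hn
  have := I.cvg U k w x y q hk hx hy hq hqy
  obtain ⟨n, hn, hn'⟩ := ((this.eventually_mem hO).and hw).exists
  exact hn'.2 hn

/-- powers of an element converge -/
theorem pow_lim {g : G} (hg : g ≠ 1) {O O' : Set (G → G → ℝ)}
    (hd : Disjoint (closure O) (closure O')) {w1 w2 : G}
    (h1 : ∀ m : ℕ, hb hS (g ^ m * w1) ∈ O) (h2 : ∀ m : ℕ, hb hS (g⁻¹ ^ m * w2) ∈ O') :
    ∃ a ∈ Lim hS univ, a ∈ closure O ∧ act g a = a ∧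
      Tendsto (fun m : ℕ => hb hS (g ^ m)) atTop (𝓝 a) := by
  have hpow := I.pow_cofinite hg
  have hpow' := I.pow_cofinite (inv_ne_one.2 hg)
  -- limits along ultrafilters
  have key : ∀ V : Ultrafilter ℕ, (V : Filter ℕ) ≤ atTop → ∃ a ∈ Lim hS univ, a ∈ closure O ∧
      act g a = a ∧ Tendsto (fun m : ℕ => hb hS (g ^ m)) V (𝓝 a) ∧
      ∀ a' ∈ Lim hS univ, a' ∈ closure O → act g a' = a' → a' = a := by
    intro V hV
    obtain ⟨a, ha⟩ := I.exists_lim (V.map fun m => g ^ m) (fun x => x)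
    obtain ⟨b, hb'⟩ := I.exists_lim (V.map fun m => g ^ m) (fun x => x⁻¹)
    have hcof : Tendsto (fun x : G => x) (V.map fun m => g ^ m) cofinite :=
      hpow.mono_left hV
    have hcof' : Tendsto (fun x : G => x⁻¹) (V.map fun m => g ^ m) cofinite :=
      (inv_injective.tendsto_cofinite).comp hcof
    have haO : a ∈ closure O := by
      have := I.shift _ _ a w1 hcof ha
      refine mem_closure_of_tendsto this ?_
      exact Filter.Eventually.of_forall (f := (V : Filter ℕ)) fun m => h1 m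
    have hbO : b ∈ closure O' := by
      have := I.shift _ _ b w2 hcof' hb'
      refine mem_closure_of_tendsto this ?_
      refine Filter.Eventually.of_forall (f := (V : Filter ℕ)) fun m => ?_
      have := h2 m
      rwa [inv_pow] at this
    have hap : a ∈ Lim hS univ := mem_lim_of hS _ _ hcof (Eventually.of_forall fun _ => trivial) ha
    have hfix : act g a = a := by
      have e1 := ((continuous_act g).tendsto a).comp ha
      have e2 := I.shift _ _ a g hcof ha
      refine tendsto_nhds_unique (f := fun m : ℕ => hb hS (g ^ m * g)) (l := (V : Filter ℕ)) ?_ e2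
      refine Tendsto.congr (fun m => ?_) (show Tendsto (fun m : ℕ => act g (hb hS (g ^ m)))
        (V : Filter ℕ) (𝓝 (act g a)) from e1)
      rw [I.act_hb, ← pow_succ', pow_succ]
    refine ⟨a, hap, haO, hfix, ha, fun a' ha' haO' hfix' => ?_⟩
    have hne : a' ≠ b := fun h => Set.disjoint_left.1 hd haO' (h ▸ hbO)
    have hc := I.cvgP (V.map fun m => g ^ m) (fun x => x) (fun _ => a') a b a' hcof
      (fun _ => ha') ha hb' tendsto_const_nhds hne
    have hc' : Tendsto (fun m : ℕ => act (g ^ m) a') (V : Filter ℕ) (𝓝 a) := hc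
    have hfixn : ∀ m : ℕ, act (g ^ m) a' = a' := by
      intro m
      induction m with
      | zero => rw [pow_zero, act_one]
      | succ m ih => rw [pow_succ, ← act_act, hfix', ih]
    simp only [hfixn] at hc'
    exact tendsto_nhds_unique tendsto_const_nhds hc'
  obtain ⟨a, ha, haO, hfix, -, hu⟩ := key (hyperfilter ℕ)
    (by rw [← Nat.cofinite_eq_atTop]; exact hyperfilter_le_cofinite)
  refine ⟨a, ha, haO, hfix, ?_⟩
  rw [tendsto_iff_ultrafilter]
  intro V hV
  obtain ⟨a', ha', haO', hfix', ht, hu'⟩ := key V hV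
  rwa [hu' a ha haO hfix]

/-- elements with different attracting and repelling points are loxodromic -/
theorem lox_of (U : Ultrafilter G) (t : G → G) (ht : Tendsto t U cofinite)
    {x y : G → G → ℝ} (hx : Tendsto (fun n => hb hS (t n)) U (𝓝 x))
    (hy : Tendsto (fun n => hb hS (t n)⁻¹) U (𝓝 y)) (hxy : x ≠ y) :
    ∀ᶠ n in (U : Filter G), ∃ a ∈ Lim hS univ, ∃ b ∈ Lim hS univ, a ≠ b ∧ act (t n) a = a ∧
      act (t n) b = b ∧ Tendsto (fun m : ℕ => hb hS (t n ^ m)) atTop (𝓝 a) ∧
      Tendsto (fun m : ℕ => hb hS ((t n)⁻¹ ^ m)) atTop (𝓝 b) := by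
  have hcount := countable_of_gen I.hyp.gen I.hyp.symS
  obtain ⟨O, hxO, hO, O', hyO', hO', hd⟩ := exists_open_nhds_disjoint_closure hxy
  have hdis : Disjoint O O' := hd.mono subset_closure subset_closure
  have e1 := cvg_unif I U t ht hx hy (hO.mem_nhds hxO) (hO'.mem_nhds hyO')
  have hy' : Tendsto (fun n => hb hS ((t n)⁻¹)⁻¹) U (𝓝 x) := by simpa only [inv_inv] using hx
  have ht' : Tendsto (fun n => (t n)⁻¹) U cofinite := (inv_injective.tendsto_cofinite).comp ht
  have e2 := cvg_unif I U (fun n => (t n)⁻¹) ht' hy hy' (hO'.mem_nhds hyO') (hO.mem_nhds hxO)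
  have e3 : ∀ᶠ n in (U : Filter G), t n ≠ 1 :=
    ht.eventually ((Set.finite_singleton (1 : G)).compl_mem_cofinite)
  obtain ⟨n1, hn1⟩ := (hx.eventually_mem (hO.mem_nhds hxO)).exists
  obtain ⟨n2, hn2⟩ := (hy.eventually_mem (hO'.mem_nhds hyO')).exists
  filter_upwards [e1, e2, e3] with n h1 h2 h3
  have p1 : ∀ m : ℕ, hb hS (t n ^ m * t n1) ∈ O := by
    intro m
    induction m with
    | zero => rwa [pow_zero, one_mul]
    | succ m ih =>
      rw [pow_succ', mul_assoc]
      exact h1 _ (Set.disjoint_left.1 hdis ih)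
  have p2 : ∀ m : ℕ, hb hS ((t n)⁻¹ ^ m * (t n2)⁻¹) ∈ O' := by
    intro m
    induction m with
    | zero => rwa [pow_zero, one_mul]
    | succ m ih =>
      rw [pow_succ', mul_assoc]
      exact h2 _ (Set.disjoint_right.1 hdis ih)
  obtain ⟨a, ha, haO, hfa, hta⟩ := pow_lim I h3 hd p1 p2
  obtain ⟨b, hb', hbO, hfb, htb⟩ := pow_lim I (inv_ne_one.2 h3) hd.symm p2
    (by rw [inv_inv]; exact p1)
  refine ⟨a, ha, b, hb', fun h => Set.disjoint_left.1 hd haO (h ▸ hbO), hfa, ?_, hta, htb⟩
  have := congrArg (act (t n)) hfb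
  rwa [act_act_inv, eq_comm] at this

/-- A loxodromic element in a set closed under inverses with two limit points -/
theorem exists_lox_of {H : Set G} {x y : G → G → ℝ} (U : Ultrafilter G)
    (hU : (U : Filter G) ≤ cofinite)
    (hH : H ∈ U) (hx : Tendsto (fun n => hb hS n) U (𝓝 x))
    (hy : Tendsto (fun n => hb hS n⁻¹) U (𝓝 y)) (hxy : x ≠ y) :
    ∃ g ∈ H, ∃ a ∈ Lim hS univ, ∃ b ∈ Lim hS univ, a ≠ b ∧ act g a = a ∧ act g b = b ∧
      Tendsto (fun m : ℕ => hb hS (g ^ m)) atTop (𝓝 a) ∧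
      Tendsto (fun m : ℕ => hb hS (g⁻¹ ^ m)) atTop (𝓝 b) := by
  obtain ⟨g, hg, hg'⟩ := ((lox_of I U (fun n => n) hU hx hy hxy).and hH).exists
  exact ⟨g, hg', hg⟩

/-- Uniform constancy: if an equivalence relation changes along edges which do not accumulate at
`p` only, then all vertices near `p` are in one class. -/
theorem one_class {r : G → G → Prop} (hr : Equivalence r) {p : G → G → ℝ} (hp : p ∈ Lim hS univ)
    (hD : p ∉ Lim hS {x | ∃ y, Adj S x y ∧ ¬ r x y}) : ∃ x0, p ∉ Lim hS {x | ¬ r x0 x} := by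
  classical
  have hcount := countable_of_gen I.hyp.gen I.hyp.symS
  by_contra hcon
  push Not at hcon
  -- saturated sets are constant near `p`
  have hsat : ∀ B : Set G, (∀ x y, r x y → x ∈ B → y ∈ B) → p ∉ Lim hS B ∨ p ∉ Lim hS Bᶜ := by
    intro B hB
    refine I.const_near p hp B fun h => hD (lim_mono hS ?_ h)
    rintro x ⟨y, hxy, hne⟩
    exact ⟨y, hxy, fun hr' => hne ⟨hB x y hr', hB y x (hr.symm hr')⟩⟩
  have hcls : ∀ x0, p ∉ Lim hS {x | r x0 x} := by
    intro x0
    rcases hsat {x | r x0 x} (fun x y hxy hx => hr.trans hx hxy) with h | h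
    · exact h
    · exact absurd (hcon x0) h
  obtain ⟨O, hO⟩ := (𝓝 p).exists_antitone_basis
  have hfin : ∀ s : Finset G, ∀ n : ℕ, ∃ y, hb hS y ∈ O n ∧ ∀ x ∈ s, ¬ r x y := by
    intro s n
    have h1 : p ∉ Lim hS {y | ∃ x ∈ s, r x y} := by
      induction s using Finset.induction_on with
      | empty => simpa using lim_finite hS (A := (∅ : Set G)) Set.finite_empty
      | insert a s _ ih =>
        intro h
        have : {y | ∃ x ∈ insert a s, r x y} = {y | r a y} ∪ {y | ∃ x ∈ s, r x y} := by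
          ext y; simp
        rw [this] at h
        rcases lim_union hS h with h | h
        · exact hcls a h
        · exact ih h
    have h2 : p ∈ Lim hS {y | ∃ x ∈ s, r x y}ᶜ := by
      have h3 : p ∈ Lim hS ({y | ∃ x ∈ s, r x y} ∪ {y | ∃ x ∈ s, r x y}ᶜ) := by
        rwa [Set.union_compl_self]
      exact (lim_union hS h3).resolve_left h1
    obtain ⟨V, hV1, hV2, hV3⟩ := (mem_lim_iff hS).1 h2
    obtain ⟨y, hy1, hy2⟩ := ((hV3.eventually_mem (hO.1.mem_of_mem (i := n) trivial)).and hV2).exists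
    refine ⟨y, hy1, fun x hx hxy => hy2 ⟨x, hx, hxy⟩⟩
  obtain ⟨f, hf1, hf2⟩ := exists_seq_of_forall_finset_exists
    (fun z : G × ℕ => hb hS z.1 ∈ O z.2) (fun z w => ¬ r z.1 w.1 ∧ z.2 < w.2) (by
      classical
      intro s hs
      obtain ⟨y, hy, hy'⟩ := hfin (s.image Prod.fst) ((s.sup Prod.snd) + 1)
      refine ⟨(y, s.sup Prod.snd + 1), hy, fun x hx => ⟨hy' _ (Finset.mem_image_of_mem _ hx), ?_⟩⟩
      exact Nat.lt_succ_of_le (Finset.le_sup (f := Prod.snd) hx))
  have hmono : ∀ n, n ≤ (f n).2 := by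
    intro n
    induction n with
    | zero => exact Nat.zero_le _
    | succ n ih => exact lt_of_le_of_lt ih (hf2 n (n + 1) (Nat.lt_succ_self n)).2
  have hlim : Tendsto (fun n => hb hS (f n).1) atTop (𝓝 p) := by
    rw [hO.1.tendsto_right_iff]
    intro i _
    filter_upwards [eventually_ge_atTop i] with n hn
    exact hO.2 (hn.trans (hmono n)) (hf1 n)
  have hinj : Function.Injective fun n => (f n).1 := by
    intro m n hmn
    by_contra hne
    have hmn' : (f m).1 = (f n).1 := hmn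
    rcases lt_or_gt_of_ne hne with h | h
    · exact (hf2 m n h).1 (hmn' ▸ hr.refl _)
    · exact (hf2 n m h).1 (hmn' ▸ hr.refl _)
  have hcof : Tendsto (fun n => (f n).1) atTop cofinite := by
    rw [← Nat.cofinite_eq_atTop]; exact hinj.tendsto_cofinite
  set V := hyperfilter ℕ with hV
  have hVle : (V : Filter ℕ) ≤ atTop := by
    rw [← Nat.cofinite_eq_atTop]; exact hyperfilter_le_cofinite
  have h2 : Tendsto (fun n : ℕ => 2 * n) atTop atTop :=
    tendsto_atTop_mono (fun n => by simp only [id_eq]; omega) tendsto_id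
  have h3 : Tendsto (fun n : ℕ => 2 * n + 1) atTop atTop :=
    tendsto_atTop_mono (fun n => by simp only [id_eq]; omega) tendsto_id
  have hp1 : p ∈ Lim hS {y | ∃ n, r (f (2 * n)).1 y} :=
    mem_lim_of hS V (fun n => (f (2 * n)).1) ((hcof.comp h2).mono_left hVle)
      (Eventually.of_forall fun n => ⟨n, hr.refl _⟩) ((hlim.comp h2).mono_left hVle)
  have hp2 : p ∈ Lim hS {y | ∃ n, r (f (2 * n)).1 y}ᶜ := by
    refine mem_lim_of hS V (fun n => (f (2 * n + 1)).1) ((hcof.comp h3).mono_left hVle)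
      (Eventually.of_forall fun n => ?_) ((hlim.comp h3).mono_left hVle)
    rintro ⟨m, hm⟩
    rcases lt_or_gt_of_ne (show 2 * m ≠ 2 * n + 1 by omega) with h | h
    · exact (hf2 _ _ h).1 hm
    · exact (hf2 _ _ h).1 (hr.symm hm)
  rcases hsat {y | ∃ n, r (f (2 * n)).1 y} (fun x y hxy ⟨n, hn⟩ => ⟨n, hr.trans hn hxy⟩) with h | h
  · exact h hp1
  · exact h hp2

end Vale.Agent.P239.F.P
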