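import Vale.Agent.P239.F.C4Trap

/-!
Module C, second half: (NC) the centre of a cut is carried along: `k → x` implies `k c → x`.
-/

namespace Vale.Agent.P239.F

open Filter Topology Set
open Vale.Agent.P239
open scoped Pointwise

set_option linter.unusedSectionVars false

variable {G : Type*} [Group G] {S : Finset G} {hS : Subgroup.closure (S : Set G) = ⊤}
  {T : Finset G}

namespace E

theorem tendsto_of_conv {A : Set G} {β : G → G → ℝ} (h : Conv hS A β) {ι : Type*} {l : Filter ι}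
    {s : ι → G} (h1 : Tendsto s l cofinite) (h2 : ∀ᶠ n in l, s n ∈ A) :
    Tendsto (fun n => hb hS (s n)) l (𝓝 β) :=
  Tendsto.comp h (tendsto_inf.2 ⟨h1, tendsto_principal.2 h2⟩)

theorem finite_of_conv {A : Set G} {β : G → G → ℝ} (h : Conv hS A β) {O : Set (G → G → ℝ)}
    (hO : O ∈ 𝓝 β) : {x | x ∈ A ∧ hb hS x ∉ O}.Finite := by
  have h1 := h hO
  rw [mem_map, mem_inf_principal, mem_cofinite] at h1
  refine h1.subset fun x hx hx2 => ?_
  exact hx.2 (hx2 hx.1)

theorem level {A : Set G} {u v : G} (h : Con S A u v) (F : G → ℝ) {t : ℝ} (h1 : F u < t)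
    (h2 : t < F v) : ∃ y y', y ∈ A ∧ y' ∈ A ∧ Adj S y y' ∧ F y ≤ t ∧ t ≤ F y' := by
  induction h with
  | refl => exact absurd (h1.trans h2) (lt_irrefl _)
  | @tail b c _ hbc ih =>
    by_cases h3 : t < F b
    · exact ih h3
    · exact ⟨b, c, hbc.1, hbc.2.1, hbc.2.2, not_lt.1 h3, h2.le⟩

theorem eventually_const {ι α : Type*} (U : Ultrafilter ι) (k : ι → α) {F : Set α} (hF : F.Finite)
    (h : ∀ᶠ n in (U : Filter ι), k n ∈ F) : ∃ g ∈ F, ∀ᶠ n in (U : Filter ι), k n = g := by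
  rcases const_or_cofinite U k with h1 | ⟨g, hg⟩
  · obtain ⟨n, hn1, hn2⟩ := (h.and (h1 hF.compl_mem_cofinite)).exists
    exact absurd hn1 hn2
  · obtain ⟨n, hn1, hn2⟩ := (h.and hg).exists
    exact ⟨g, hn2 ▸ hn1, hg⟩

end E

open E

namespace CIn

variable (I : CIn hS T)

include I

/-- if the sequence stays in a coset of the stabilizer there is nothing to prove -/
theorem nc_const {c : G → G → ℝ} (hpar : Conv hS (Stb c) c) {ι : Type*}
    (U : Ultrafilter ι) (k : ι → G) {x z : G → G → ℝ} (hk : Tendsto k U cofinite)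
    (hx : Tendsto (fun n => hb hS (k n)) U (𝓝 x)) (hz : Tendsto (fun n => act (k n) c) U (𝓝 z))
    (g : G) (hg : ∀ᶠ n in (U : Filter ι), g⁻¹ * k n ∈ Stb c) : z = x := by
  have h1 : Tendsto (fun n => g⁻¹ * k n) U cofinite :=
    (mul_right_injective g⁻¹).tendsto_cofinite.comp hk
  have h2 := ((continuous_act g).tendsto c).comp (tendsto_of_conv hpar h1 hg)
  have h3 : x = act g c := by
    refine tendsto_nhds_unique hx (h2.congr fun n => ?_)
    simp only [Function.comp]
    rw [I.act_hb, mul_inv_cancel_left]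
  have h4 : z = act g c := by
    refine tendsto_nhds_unique hz (tendsto_const_nhds.congr' ?_)
    filter_upwards [hg] with n hn
    have h5 : act (g⁻¹ * k n) c = c := hn
    rw [← act_act] at h5
    conv_lhs => rw [← h5]
    exact act_act_inv g _
  rw [h3, h4]

theorem nc_aux {c : G → G → ℝ} (hc : c ∈ Lim hS univ) (hpar : Conv hS (Stb c) c)
    (hV : Conv hS (Vc hS S c) c) (hZ : ∃ w, {z | Con S (Vc hS S c) w z}.Infinite)
    (U : Ultrafilter G) (k : G → G) {x : G → G → ℝ} (hk : Tendsto k U cofinite)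
    (hx : Tendsto (fun n => hb hS (k n)) U (𝓝 x)) :
    Tendsto (fun n => act (k n) c) U (𝓝 x) := by
  classical
  have := I.countable
  obtain ⟨z, hz1, hz⟩ := I.exists_limP U (fun n => act (k n) c) fun n => I.mem_pt_smul _ hc
  by_cases hzx : z = x
  · rw [← hzx]; exact hz
  exfalso
  -- a coordinate separating `x` and `z`
  obtain ⟨a, b, hab⟩ := exists_lt_pt (anti_of_tendsto hx) (anti_pt hz1) (Ne.symm hzx)
  obtain ⟨t, ht1, ht2⟩ := exists_between hab
  obtain ⟨w0, hw0⟩ := hZ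
  obtain ⟨F0, hF0⟩ := I.vc_cof c
  -- crossing of the level `t`
  have hcross : ∀ᶠ n in (U : Filter G), ∃ q : G × G × G, q.1 ∈ Stb c ∧ q.2.1 ∈ F0 ∧ q.2.2 ∈ S ∧
      hb hS (k n * (q.1 * q.2.1)) a b ≤ t ∧ t ≤ hb hS (k n * (q.1 * q.2.1) * q.2.2) a b := by
    filter_upwards [(coord (I.shift' U k x w0 hk hx) a b).eventually (gt_mem_nhds ht1),
      (coord hz a b).eventually (lt_mem_nhds ht2)] with n hn1 hn2
    have h1 : {v | v ∈ Vc hS S c ∧ hb hS v ∉ (fun β => act (k n) β a b) ⁻¹' Ioi t}.Finite := by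
      refine finite_of_conv hV ?_
      have hcont : Continuous fun β : G → G → ℝ => act (k n) β a b :=
        (continuous_apply b).comp ((continuous_apply a).comp (continuous_act (k n)))
      exact hcont.continuousAt.preimage_mem_nhds (Ioi_mem_nhds hn2)
    obtain ⟨v, hv1, hv2⟩ := (hw0.sdiff (h1.union (Set.finite_singleton w0))).nonempty
    have hv1' : Con S (Vc hS S c) w0 v := hv1
    have hvV : v ∈ Vc hS S c := by
      rcases Relation.ReflTransGen.cases_tail hv1' with h | ⟨u, _, hu⟩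
      · exact absurd (Or.inr h) hv2
      · exact hu.2.1
    have hv3 : t < hb hS (k n * v) a b := by
      by_contra h
      refine hv2 (Or.inl ⟨hvV, fun h' => h ?_⟩)
      have h2 : t < act (k n) (hb hS v) a b := h'
      rwa [I.act_hb] at h2
    obtain ⟨y, y', hy, _, ⟨s, hs, hyy⟩, hy1, hy2⟩ :=
      level hv1' (fun v => hb hS (k n * v) a b) hn1 hv3
    obtain ⟨σ, hσ, f, hf, rfl⟩ := hF0 y hy
    rcases hyy with h | h
    · refine ⟨(σ, f, s), hσ, hf, hs, hy1, ?_⟩
      rw [mul_assoc, ← h]; exact hy2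
    · refine ⟨(σ, f, s⁻¹), hσ, hf, I.hyp.symS s hs, hy1, ?_⟩
      have : σ * f * s⁻¹ = y' := by rw [h, mul_inv_cancel_right]
      rw [mul_assoc, this]; exact hy2
  have hch : ∀ n, ∃ q : G × G × G, (∃ q : G × G × G, q.1 ∈ Stb c ∧ q.2.1 ∈ F0 ∧ q.2.2 ∈ S ∧
      hb hS (k n * (q.1 * q.2.1)) a b ≤ t ∧ t ≤ hb hS (k n * (q.1 * q.2.1) * q.2.2) a b) →
      q.1 ∈ Stb c ∧ q.2.1 ∈ F0 ∧ q.2.2 ∈ S ∧
      hb hS (k n * (q.1 * q.2.1)) a b ≤ t ∧ t ≤ hb hS (k n * (q.1 * q.2.1) * q.2.2) a b := by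
    intro n
    by_cases h : ∃ q : G × G × G, q.1 ∈ Stb c ∧ q.2.1 ∈ F0 ∧ q.2.2 ∈ S ∧
      hb hS (k n * (q.1 * q.2.1)) a b ≤ t ∧ t ≤ hb hS (k n * (q.1 * q.2.1) * q.2.2) a b
    · obtain ⟨q, hq⟩ := h
      exact ⟨q, fun _ => hq⟩
    · exact ⟨1, fun h' => absurd h' h⟩
  choose q hq using hch
  have hq' := hcross.mono fun n hn => hq n hn
  obtain ⟨⟨f, σ⟩, -, hfσ⟩ := eventually_const U (fun n => ((q n).2.1, (q n).2.2))
    ((F0 ×ˢ S).finite_toSet) (hq'.mono fun n hn => by
      rw [Finset.mem_coe, Finset.mem_product]; exact ⟨hn.2.1, hn.2.2.1⟩)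
  let s : G → G := fun n => (q n).1
  have hs : ∀ᶠ n in (U : Filter G), s n ∈ Stb c := hq'.mono fun n hn => hn.1
  have hlev : ∀ᶠ n in (U : Filter G), hb hS (k n * s n * f) a b ≤ t ∧
      t ≤ hb hS (k n * s n * (f * σ)) a b := by
    filter_upwards [hq', hfσ] with n h1 h2
    have e1 : (q n).2.1 = f := congrArg Prod.fst h2
    have e2 : (q n).2.2 = σ := congrArg Prod.snd h2
    obtain ⟨_, _, _, h3, h4⟩ := h1
    rw [e1] at h3 h4
    rw [e2] at h4
    refine ⟨?_, ?_⟩
    · rw [mul_assoc]; exact h3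
    · rw [← mul_assoc, mul_assoc (k n) (s n) f]; exact h4
  -- `u n = k n * s n` goes to infinity
  rcases const_or_cofinite U (fun n => k n * s n) with hu | ⟨h0, hh0⟩
  swap
  · refine hzx (I.nc_const hpar U k hk hx hz h0 ?_)
    filter_upwards [hs, hh0] with n h1 h2
    have : h0⁻¹ * k n = (s n)⁻¹ := by
      rw [← h2]; group
    rw [this]
    exact stb_inv h1
  obtain ⟨w, hw⟩ := I.exists_lim' U (fun n => k n * s n)
  have hwab : w a b = t := by
    have e1 := coord (I.shift' U _ w f hu hw) a b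
    have e2 := coord (I.shift' U _ w (f * σ) hu hw) a b
    exact le_antisymm (le_of_tendsto e1 (hlev.mono fun n h => h.1))
      (ge_of_tendsto e2 (hlev.mono fun n h => h.2))
  have hwx : w ≠ x := by
    rintro rfl
    linarith
  have hwz : w ≠ z := by
    rintro rfl
    linarith
  -- `s n` goes to infinity
  rcases const_or_cofinite U s with hs' | ⟨s0, hs0⟩
  swap
  · refine hwx (tendsto_nhds_unique hw ((I.shift' U k x s0 hk hx).congr' ?_))
    filter_upwards [hs0] with n hn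
    rw [hn]
  -- the conjugates
  let τ : G → G := fun n => k n * s n * (k n)⁻¹
  have hτfix : ∀ᶠ n in (U : Filter G), act (τ n) (act (k n) c) = act (k n) c := by
    filter_upwards [hs] with n hn
    have h1 : act (s n) c = c := hn
    rw [act_act, show τ n * k n = k n * s n by simp [τ], ← act_act, h1]
  rcases const_or_cofinite U τ with hτ | ⟨t0, ht0⟩
  swap
  · have ht0' : t0 ≠ 1 := by
      rintro rfl
      obtain ⟨n, h1, h2⟩ := (ht0.and (ne_const hs' 1)).exists
      apply h2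
      have h3 : k n * s n * (k n)⁻¹ = 1 := h1
      rw [mul_inv_eq_one] at h3
      exact mul_eq_left.1 h3
    have hfix : ∀ᶠ n in (U : Filter G), act t0 (act (k n) c) = act (k n) c := by
      filter_upwards [hτfix, ht0] with n h1 h2
      rwa [h2] at h1
    have hpt : ∀ n, act (k n) c ∈ Lim hS univ := fun n => I.mem_pt_smul _ hc
    have hconst : ∃ n0, ∀ᶠ n in (U : Filter G), act (k n) c = act (k n0) c := by
      obtain ⟨n1, hn1⟩ := hfix.exists
      by_cases h : ∀ᶠ n in (U : Filter G), act (k n) c = act (k n1) c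
      · exact ⟨n1, h⟩
      · rw [Ultrafilter.eventually_not.symm] at h
        obtain ⟨n2, hn2, hn2'⟩ := (hfix.and h).exists
        refine ⟨n2, ?_⟩
        filter_upwards [hfix, h] with n h1 h2
        rcases I.fix_two ht0' (hpt n1) (hpt n2) (hpt n) hn1 hn2 h1 with h3 | h3 | h3
        · exact absurd h3.symm hn2'
        · exact h3.symm
        · exact absurd h3.symm h2
    obtain ⟨n0, hn0⟩ := hconst
    refine hzx (I.nc_const hpar U k hk hx hz (k n0) ?_)
    filter_upwards [hn0] with n hn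
    change act ((k n0)⁻¹ * k n) c = c
    rw [← act_act, hn, act_inv_act]
  obtain ⟨α, hα⟩ := I.exists_lim' U τ
  obtain ⟨α', hα'⟩ := I.exists_lim' U (fun n => (τ n)⁻¹)
  have hzα : z ≠ α' → z = α := by
    intro h
    have h1 := I.cvgP' U τ (fun n => act (k n) c) α α' z hτ (fun n => I.mem_pt_smul _ hc) hα hα' hz h
    exact tendsto_nhds_unique hz (h1.congr' hτfix)
  have hne : α ≠ α' := by
    intro h
    by_cases hxα : x = α'
    · exact hzx ((hzα fun h' => hzx (h'.trans hxα.symm)).trans (h.trans hxα.symm))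
    · have h1 := I.cvg' U τ k α α' x hτ hα hα' hx hxα
      have hwα : w = α := by
        refine tendsto_nhds_unique hw (h1.congr fun n => ?_)
        simp [τ]
      have h2 := hzα fun h' => hwz (hwα.trans (h.trans h'.symm))
      exact hwz (hwα.trans h2.symm)
  obtain ⟨n, ⟨p, hp1, p', hp1', hpp, _, _, hl1, hl2⟩, hn2, hn3⟩ :=
    ((I.trap U τ hτ hα hα' hne).and (hs.and (ne_const hs' 1))).exists
  have hV0 : ((hyperfilter ℕ : Ultrafilter ℕ) : Filter ℕ) ≤ atTop := by
    rw [← Nat.cofinite_eq_atTop]; exact hyperfilter_le_cofinite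
  have hpow : ∀ g : G, g ≠ 1 → g ∈ Stb c →
      Tendsto (fun m : ℕ => hb hS (k n * g ^ m * (k n)⁻¹)) (hyperfilter ℕ : Ultrafilter ℕ)
        (𝓝 (act (k n) c)) := by
    intro g hg hgc
    have hc1 : Tendsto (fun m : ℕ => g ^ m) (hyperfilter ℕ : Ultrafilter ℕ) cofinite :=
      (I.pow_cofinite hg).mono_left hV0
    have hmem : ∀ m : ℕ, g ^ m ∈ Stb c := by
      intro m
      induction m with
      | zero => rw [pow_zero]; exact stb_one c
      | succ m ih => rw [pow_succ]; exact stb_mul ih hgc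
    have h1 := tendsto_of_conv hpar hc1 (Eventually.of_forall hmem)
    have h2 := I.shift' _ _ c (k n)⁻¹ hc1 h1
    refine (((continuous_act (k n)).tendsto c).comp h2).congr fun m => ?_
    simp only [Function.comp]
    rw [I.act_hb, mul_assoc]
  have hτpow : ∀ m : ℕ, (τ n) ^ m = k n * (s n) ^ m * (k n)⁻¹ := fun m => conj_pow
  have hτpow' : ∀ m : ℕ, (τ n)⁻¹ ^ m = k n * (s n)⁻¹ ^ m * (k n)⁻¹ := by
    intro m
    have : (τ n)⁻¹ = k n * (s n)⁻¹ * (k n)⁻¹ := by simp only [τ]; group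
    rw [this]
    exact conj_pow
  have e1 : p = act (k n) c := by
    refine tendsto_nhds_unique (hl1.mono_left hV0) ((hpow (s n) hn3 hn2).congr fun m => ?_)
    rw [hτpow]
  have e2 : p' = act (k n) c := by
    refine tendsto_nhds_unique (hl2.mono_left hV0)
      ((hpow (s n)⁻¹ (fun h => hn3 (inv_eq_one.1 h)) (stb_inv hn2)).congr fun m => ?_)
    rw [hτpow']
  exact hpp (e1.trans e2.symm)

/-- (NC) -/
theorem nc_of {c : G → G → ℝ} (hc : c ∈ Lim hS univ) (hpar : Conv hS (Stb c) c)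
    (hV : Conv hS (Vc hS S c) c) (hZ : ∃ w, {z | Con S (Vc hS S c) w z}.Infinite)
    {ι : Type*} (U : Ultrafilter ι) (k : ι → G) {x : G → G → ℝ} (hk : Tendsto k U cofinite)
    (hx : Tendsto (fun n => hb hS (k n)) U (𝓝 x)) :
    Tendsto (fun n => act (k n) c) U (𝓝 x) :=
  tendsto_map'_iff.1 (I.nc_aux hc hpar hV hZ (U.map k) id
    (show Tendsto id (map k U) cofinite from hk) (tendsto_map'_iff.2 hx))

end CIn

end Vale.Agent.P239.F
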