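import Vale.Agent.P239.F.C4Par

/-!
Module C, second half: (NC) `k c` and `k` have the same limit for a centre `c`.
-/

namespace Vale.Agent.P239.F.P

open Filter Topology Set
open Vale.Agent.P239 Vale.Agent.P239.F Vale.Agent.P239.F.E
open scoped Pointwise

variable {G : Type*} [Group G] {S : Finset G} {hS : Subgroup.closure (S : Set G) = ⊤}
variable {T : Finset G}

theorem stb_pow {c : G → G → ℝ} {g : G} (hg : g ∈ Stb c) (m : ℕ) : g ^ m ∈ Stb c := by
  induction m with
  | zero => rw [pow_zero]; exact stb_one c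
  | succ m ih => rw [pow_succ]; exact stb_mul ih hg

omit [Group G] in
/-- an ultrafilter limit of group elements goes to infinity or is constant -/
theorem cof_or_const {ι : Type*} (U : Ultrafilter ι) (w : ι → G) :
    Tendsto w U cofinite ∨ ∃ v, ∀ᶠ n in (U : Filter ι), w n = v := by
  rcases (U.map w).le_cofinite_or_eq_pure with h | ⟨v, hv⟩
  · exact Or.inl h
  · refine Or.inr ⟨v, ?_⟩
    have : ({v} : Set G) ∈ U.map w := by rw [hv]; exact Ultrafilter.mem_pure.2 rfl
    exact this

variable (I : CIn hS T)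

include I

/-- powers of conjugates of elements of the stabilizer of a centre -/
theorem lim_conj_pow {c : G → G → ℝ} (hc : c ∈ Cent hS) {q : G} (hq : q ∈ Stb c) (hq1 : q ≠ 1)
    (k : G) : Tendsto (fun m : ℕ => hb hS ((k * q * k⁻¹) ^ m)) atTop (𝓝 (act k c)) := by
  have h1 : Conv hS {x | x * k ∈ Stb c} c :=
    I.conv_shift {k} (fun x hx => ⟨k, Finset.mem_singleton_self _, hx⟩) (stb_conv I hc)
  have h2 : Tendsto (fun m : ℕ => q ^ m * k⁻¹) atTop (cofinite ⊓ 𝓟 {x | x * k ∈ Stb c}) := by
    refine tendsto_inf.2 ⟨(mul_left_injective k⁻¹).tendsto_cofinite.comp (I.pow_cofinite hq1),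
      tendsto_principal.2 (Eventually.of_forall fun m => ?_)⟩
    change q ^ m * k⁻¹ * k ∈ Stb c
    rw [inv_mul_cancel_right]
    exact stb_pow hq m
  have h3 := ((continuous_act k).tendsto c).comp ((show Tendsto _ _ _ from h1).comp h2)
  refine h3.congr fun m => ?_
  change act k (hb hS (q ^ m * k⁻¹)) = _
  rw [I.act_hb, conj_pow, mul_assoc]

/-- if `k c` is constant then `k` converges to this constant -/
theorem lim_of_const {c z : G → G → ℝ} (hc : c ∈ Cent hS) (U : Ultrafilter G) (k : G → G)
    (hk : Tendsto k U cofinite) (hz : ∀ᶠ n in (U : Filter G), act (k n) c = z) :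
    Tendsto (fun n => hb hS (k n)) U (𝓝 z) := by
  obtain ⟨n0, hn0⟩ := hz.exists
  have h2 : Tendsto (fun n => (k n0)⁻¹ * k n) U (cofinite ⊓ 𝓟 (Stb c)) := by
    refine tendsto_inf.2 ⟨(mul_right_injective (k n0)⁻¹).tendsto_cofinite.comp hk,
      tendsto_principal.2 ?_⟩
    filter_upwards [hz] with n hn
    change act ((k n0)⁻¹ * k n) c = c
    rw [← act_act, hn, ← hn0, act_inv_act]
  have h3 := ((continuous_act (k n0)).tendsto c).comp
    ((show Tendsto _ _ _ from stb_conv I hc).comp h2)
  rw [hn0] at h3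
  refine h3.congr fun n => ?_
  change act (k n0) (hb hS ((k n0)⁻¹ * k n)) = _
  rw [I.act_hb, mul_inv_cancel_left]

/-- (NC) -/
theorem nc {c : G → G → ℝ} (hc : c ∈ Cent hS) (U : Ultrafilter G) (k : G → G)
    {x : G → G → ℝ} (hk : Tendsto k U cofinite) (hx : Tendsto (fun n => hb hS (k n)) U (𝓝 x)) :
    Tendsto (fun n => act (k n) c) U (𝓝 x) := by
  have hcp := I.cent_pt hc
  obtain ⟨z, hz, htz⟩ := I.exists_limP U (fun n => act (k n) c) (fun n => I.mem_pt_smul _ hcp)
  suffices h : z = x by rw [← h]; exact htz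
  by_contra hzx
  -- a nontrivial element of the stabilizer
  obtain ⟨s, hs, hs1⟩ : ∃ s ∈ Stb c, s ≠ 1 := by
    by_contra hcon
    push Not at hcon
    exact stb_infinite I hc ((Set.finite_singleton (1 : G)).subset fun s hs => hcon s hs)
  have hsn : Tendsto (fun m : ℕ => hb hS (s ^ m)) atTop (𝓝 c) := by
    have := lim_conj_pow I hc hs hs1 1
    simpa only [one_mul, inv_one, mul_one, act_one] using this
  -- a continuous function separating `x` and `z`
  obtain ⟨u, huc, huxz⟩ : ∃ u : (G → G → ℝ) → ℝ, Continuous u ∧ u x < u z := by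
    have : ∃ a b, x a b ≠ z a b := by
      by_contra hcon
      push Not at hcon
      exact hzx (funext fun a => funext fun b => (hcon a b).symm)
    obtain ⟨a, b, hab⟩ := this
    have hcont : Continuous fun β : G → G → ℝ => β a b :=
      (continuous_apply b).comp (continuous_apply a)
    rcases lt_or_gt_of_ne hab with h | h
    · exact ⟨_, hcont, h⟩
    · exact ⟨fun β => - β a b, hcont.neg, by simpa using h⟩
  obtain ⟨t, ht1, ht2⟩ := exists_between huxz
  -- the first crossing
  have hcr : ∀ᶠ n in (U : Filter G), ∃ m : ℕ, u (hb hS (k n * s ^ m)) < t ∧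
      t ≤ u (hb hS (k n * s ^ m * s)) := by
    have e1 : ∀ᶠ n in (U : Filter G), u (hb hS (k n)) < t :=
      ((huc.tendsto x).comp hx).eventually (gt_mem_nhds ht1)
    have e2 : ∀ᶠ n in (U : Filter G), t < u (act (k n) c) :=
      ((huc.tendsto z).comp htz).eventually (lt_mem_nhds ht2)
    filter_upwards [e1, e2] with n h1 h2
    classical
    have h3 : Tendsto (fun m : ℕ => u (hb hS (k n * s ^ m))) atTop (𝓝 (u (act (k n) c))) := by
      have := (huc.tendsto _).comp (((continuous_act (k n)).tendsto c).comp hsn)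
      refine this.congr fun m => ?_
      change u (act (k n) (hb hS (s ^ m))) = _
      rw [I.act_hb]
    have h4 : ∃ m : ℕ, t ≤ u (hb hS (k n * s ^ m)) :=
      ((h3.eventually (lt_mem_nhds h2)).exists).imp fun m hm => hm.le
    have h5 := Nat.find_spec h4
    have h6 : Nat.find h4 ≠ 0 := by
      intro h0
      rw [h0, pow_zero, mul_one] at h5
      linarith
    obtain ⟨m, hm⟩ := Nat.exists_eq_succ_of_ne_zero h6
    refine ⟨m, ?_, ?_⟩
    · have := Nat.find_min h4 (m := m) (by omega)
      exact not_le.1 this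
    · rw [hm, Nat.succ_eq_add_one, pow_succ, ← mul_assoc] at h5
      exact h5
  obtain ⟨m, hm⟩ := hcr.choice
  have hsm : ∀ n, s ^ m n ∈ Stb c := fun n => stb_pow hs _
  have hwc : ∀ n, act (k n * s ^ m n) c = act (k n) c := fun n => by
    rw [← act_act, show act (s ^ m n) c = c from hsm n]
  have hconst : ∀ z', (∀ᶠ n in (U : Filter G), act (k n) c = z') → False := by
    intro z' hz'
    have h1 := lim_of_const I hc U k hk hz'
    have h2 : z = z' := tendsto_nhds_unique htz
      (tendsto_const_nhds.congr' (by filter_upwards [hz'] with n hn using hn.symm))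
    exact hzx (h2.trans (tendsto_nhds_unique h1 hx))
  rcases cof_or_const U (fun n => k n * s ^ m n) with hw | ⟨v, hv⟩
  swap
  · exact hconst (act v c) (by
      filter_upwards [hv] with n hn
      rw [← hwc n, hn])
  obtain ⟨ω, hω⟩ := I.exists_lim U (fun n => k n * s ^ m n)
  have hωs := I.shift U _ ω s hw hω
  have hu1 : u ω ≤ t := le_of_tendsto ((huc.tendsto ω).comp hω)
    (by filter_upwards [hm] with n hn using hn.1.le)
  have hu2 : t ≤ u ω := ge_of_tendsto ((huc.tendsto ω).comp hωs)
    (by filter_upwards [hm] with n hn using hn.2)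
  have hωx : ω ≠ x := by rintro rfl; linarith
  have hωz : ω ≠ z := by rintro rfl; linarith
  have htk : ∀ n, k n * s ^ m n * (k n)⁻¹ * k n = k n * s ^ m n := fun n =>
    inv_mul_cancel_right _ _
  have htc : ∀ n, act (k n * s ^ m n * (k n)⁻¹) (act (k n) c) = act (k n) c := fun n => by
    rw [act_act, htk, hwc]
  rcases cof_or_const U (fun n => k n * s ^ m n * (k n)⁻¹) with ht | ⟨τ, hτ⟩
  swap
  · -- the conjugates are constant
    have hτ1 : τ ≠ 1 := by
      rintro rfl
      apply hωx
      refine tendsto_nhds_unique hω (hx.congr' ?_)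
      filter_upwards [hτ] with n hn
      rw [← htk n, hn, one_mul]
    obtain ⟨n0, hn0⟩ := hτ.exists
    refine hconst (act (k n0) c) ?_
    have key : ∀ n, k n * s ^ m n * (k n)⁻¹ = τ →
        Tendsto (fun j : ℕ => hb hS (τ ^ j)) atTop (𝓝 (act (k n) c)) := by
      intro n hn
      have h1 : s ^ m n ≠ 1 := by
        intro h
        rw [h, mul_one, mul_inv_cancel] at hn
        exact hτ1 hn.symm
      have := lim_conj_pow I hc (hsm n) h1 (k n)
      rwa [hn] at this
    filter_upwards [hτ] with n hn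
    exact tendsto_nhds_unique (key n hn) (key n0 hn0)
  · obtain ⟨α, hα⟩ := I.exists_lim U (fun n => k n * s ^ m n * (k n)⁻¹)
    obtain ⟨α', hα'⟩ := I.exists_lim U (fun n => (k n * s ^ m n * (k n)⁻¹)⁻¹)
    have c1 : x ≠ α' → α = ω := by
      intro h
      have h1 := I.cvg U _ k α α' x ht hα hα' hx h
      simp only [htk] at h1
      exact tendsto_nhds_unique h1 hω
    have c2 : z ≠ α' → α = z := by
      intro h
      have h1 := I.cvgP U _ (fun n => act (k n) c) α α' z ht (fun n => I.mem_pt_smul _ hcp) hα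
        hα' htz h
      simp only [htc] at h1
      exact tendsto_nhds_unique h1 htz
    have hαα : α ≠ α' := by
      by_cases h : x = α'
      · have h2 : α = z := c2 (fun h' => hzx (h'.trans h.symm))
        rw [h2, ← h]
        exact hzx
      · have h1 := c1 h
        intro h3
        have h4 : z ≠ α' := fun h' => hωz (h1.symm.trans (h3.trans h'.symm))
        exact hωz (h1.symm.trans (c2 h4))
    have hne1 : ∀ᶠ n in (U : Filter G), k n * s ^ m n * (k n)⁻¹ ≠ 1 :=
      ht.eventually ((Set.finite_singleton (1 : G)).compl_mem_cofinite)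
    obtain ⟨n, ⟨a, ha, b, hb', hab, -, -, hta, htb⟩, hn1⟩ :=
      ((lox_of I U _ ht hα hα' hαα).and hne1).exists
    have h1 : s ^ m n ≠ 1 := by
      intro h
      rw [h, mul_one, mul_inv_cancel] at hn1
      exact hn1 rfl
    have h2 := tendsto_nhds_unique hta (lim_conj_pow I hc (hsm n) h1 (k n))
    have h3 := lim_conj_pow I hc (stb_inv (hsm n)) (inv_ne_one.2 h1) (k n)
    have h4 : k n * (s ^ m n)⁻¹ * (k n)⁻¹ = (k n * s ^ m n * (k n)⁻¹)⁻¹ := by group
    rw [h4] at h3
    exact hab (h2.trans (tendsto_nhds_unique htb h3).symm)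

/-- (NC) in terms of points of a moving family of centres `g n • c` -/
theorem nc_lim {c : G → G → ℝ} (hc : c ∈ Cent hS) (U : Ultrafilter G) (k : G → G)
    {z : G → G → ℝ} (hk : Tendsto k U cofinite) (hz : Tendsto (fun n => act (k n) c) U (𝓝 z)) :
    Tendsto (fun n => hb hS (k n)) U (𝓝 z) := by
  obtain ⟨x, hx⟩ := I.exists_lim U k
  have := nc I hc U k hk hx
  rw [tendsto_nhds_unique hz this]
  exact hx

end Vale.Agent.P239.F.P
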