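import Vale.Agent.P239.F.C4Lox

/-!
Module C, second half: (PAR) the edges crossed by a centre converge to it.
-/

namespace Vale.Agent.P239.F.P

open Filter Topology Set
open Vale.Agent.P239 Vale.Agent.P239.F Vale.Agent.P239.F.E
open scoped Pointwise

variable {G : Type*} [Group G] {S : Finset G} {hS : Subgroup.closure (S : Set G) = ⊤}

variable (hS) in
/-- not separated by a nontrivial cut with centre `c` -/
def Rc (c : G → G → ℝ) (x y : G) : Prop :=
  ∀ A : Set G, IsCut hS A c → Nontriv hS A c → (x ∈ HH S A ↔ y ∈ HH S A)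

theorem rc_equiv (c : G → G → ℝ) : Equivalence (Rc hS c) where
  refl _ := fun _ _ _ => Iff.rfl
  symm h := fun A h1 h2 => (h A h1 h2).symm
  trans h h' := fun A h1 h2 => (h A h1 h2).trans (h' A h1 h2)

variable {T : Finset G} (I : CIn hS T)

include I

theorem conv_of_finite {A : Set G} (hA : A.Finite) (c : G → G → ℝ) : Conv hS A c :=
  I.conv_of_lim fun _ h => absurd h (lim_finite hS hA)

theorem adj_mem {x y : G} (h : Adj S x y) : x⁻¹ * y ∈ S ∧ y⁻¹ * x ∈ S := by
  obtain ⟨s, hs, rfl | rfl⟩ := h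
  · refine ⟨by rwa [inv_mul_cancel_left], ?_⟩
    have := I.hyp.symS s hs
    rwa [mul_inv_rev, mul_assoc, inv_mul_cancel, mul_one]
  · refine ⟨?_, by rwa [inv_mul_cancel_left]⟩
    have := I.hyp.symS s hs
    rwa [mul_inv_rev, mul_assoc, inv_mul_cancel, mul_one]

theorem rc_smul {c : G → G → ℝ} {g : G} (hg : g ∈ Stb c) {x y : G} (h : Rc hS c x y) :
    Rc hS c (g * x) (g * y) := by
  intro A h1 h2
  have h3 := I.isCut_smul g⁻¹ h1
  have h4 := I.nontriv_smul g⁻¹ h2
  rw [show act g⁻¹ c = c from stb_inv hg] at h3 h4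
  have := h _ h3 h4
  rw [I.HH_smul, mem_smul_set_iff_inv_smul_mem, mem_smul_set_iff_inv_smul_mem, inv_inv] at this
  exact this

theorem vc_of_adj {c : G → G → ℝ} {x y : G} (h : Adj S x y) (hr : ¬ Rc hS c x y) :
    x ∈ Vc hS S c := by
  unfold Rc at hr
  push Not at hr
  obtain ⟨A, h1, h2, h3⟩ := hr
  obtain ⟨m1, m2⟩ := adj_mem I h
  rcases h3 with ⟨hx, hy⟩ | ⟨hx, hy⟩
  · exact ⟨y, Or.inl ⟨m1, A, h1, h2, hx, hy⟩⟩
  · exact ⟨y, Or.inr ⟨m2, A, h1, h2, hy, hx⟩⟩

theorem bd_sub_vc {A : Set G} {c : G → G → ℝ} (h1 : IsCut hS A c) (h2 : Nontriv hS A c) :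
    bd S (HH S A) ⊆ Vc hS S c := by
  rintro x ⟨y, hxy, hne⟩
  exact vc_of_adj I hxy fun h => hne (h A h1 h2)

theorem not_conv_HH {A : Set G} {c : G → G → ℝ} (h1 : IsCut hS A c) (h2 : Nontriv hS A c) :
    ¬ Conv hS (HH S A) c ∧ ¬ Conv hS (HH S A)ᶜ c := by
  have hn := I.HH_near A c h1
  refine ⟨fun h => h2.1 (I.conv_mono ?_ (I.conv_union h hn)),
    fun h => h2.2 (I.conv_mono ?_ (I.conv_union h hn))⟩
  · intro x hx
    by_cases hx' : x ∈ HH S A
    · exact Or.inl hx'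
    · exact Or.inr (Or.inr ⟨hx, hx'⟩)
  · intro x hx
    by_cases hx' : x ∈ HH S A
    · exact Or.inr (Or.inl ⟨hx', hx⟩)
    · exact Or.inl hx'

theorem bd_HH_infinite {A : Set G} {c : G → G → ℝ} (h1 : IsCut hS A c) (h2 : Nontriv hS A c) :
    (bd S (HH S A)).Infinite := by
  intro hfin
  obtain ⟨n1, n2⟩ := not_conv_HH I h1 h2
  rcases I.hyp.oneEnd (HH S A) hfin with h | h
  · exact n1 (conv_of_finite I h c)
  · exact n2 (conv_of_finite I h c)

theorem vc_infinite {c : G → G → ℝ} (hc : c ∈ Cent hS) : (Vc hS S c).Infinite := by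
  obtain ⟨A, h1, h2⟩ := hc
  exact (bd_HH_infinite I h1 h2).mono (bd_sub_vc I h1 h2)

theorem stb_infinite {c : G → G → ℝ} (hc : c ∈ Cent hS) : (Stb c).Infinite := by
  obtain ⟨F, hF⟩ := I.vc_cof c
  intro hfin
  refine vc_infinite I hc ((hfin.mul F.finite_toSet).subset fun x hx => ?_)
  obtain ⟨s, hs, f, hf, rfl⟩ := hF x hx
  exact Set.mul_mem_mul hs hf

theorem lim_vc_sub {c β : G → G → ℝ} (h : β ∈ Lim hS (Vc hS S c)) : β ∈ Lim hS (Stb c) := by
  classical
  obtain ⟨F, hF⟩ := I.vc_cof c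
  refine I.lim_shift (F.image fun f => f⁻¹) (fun x hx => ?_) h
  obtain ⟨s, hs, f, hf, rfl⟩ := hF x hx
  exact ⟨f⁻¹, Finset.mem_image_of_mem _ hf, by rwa [mul_inv_cancel_right]⟩

/-- fixed points of a loxodromic element -/
theorem fix_lox {g : G} {a b c : G → G → ℝ} (hab : a ≠ b)
    (hta : Tendsto (fun m : ℕ => hb hS (g ^ m)) atTop (𝓝 a))
    (htb : Tendsto (fun m : ℕ => hb hS (g⁻¹ ^ m)) atTop (𝓝 b))
    (hc : c ∈ Lim hS univ) (hgc : act g c = c) (hcb : c ≠ b) : c = a := by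
  have hg : g ≠ 1 := by
    rintro rfl
    apply hab
    simp only [one_pow, inv_one] at hta htb
    exact tendsto_nhds_unique hta htb
  have hpow := I.pow_cofinite hg
  have hVle : (hyperfilter ℕ : Filter ℕ) ≤ atTop := by
    rw [← Nat.cofinite_eq_atTop]; exact hyperfilter_le_cofinite
  have ha' : Tendsto (fun x : G => hb hS x) ((hyperfilter ℕ).map fun m => g ^ m) (𝓝 a) :=
    hta.mono_left hVle
  have hb'' : Tendsto (fun x : G => hb hS x⁻¹) ((hyperfilter ℕ).map fun m => g ^ m) (𝓝 b) := by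
    have : Tendsto (fun m : ℕ => hb hS (g ^ m)⁻¹) (hyperfilter ℕ : Filter ℕ) (𝓝 b) := by
      simp only [inv_pow] at htb
      exact htb.mono_left hVle
    exact this
  have hcv := I.cvgP ((hyperfilter ℕ).map fun m => g ^ m) (fun x => x) (fun _ => c) a b c
    (hpow.mono_left hVle) (fun _ => hc) ha' hb'' tendsto_const_nhds hcb
  have hcv' : Tendsto (fun m : ℕ => act (g ^ m) c) (hyperfilter ℕ : Filter ℕ) (𝓝 a) := hcv
  have hfix : ∀ m : ℕ, act (g ^ m) c = c := by
    intro m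
    induction m with
    | zero => rw [pow_zero, act_one]
    | succ m ih => rw [pow_succ, ← act_act, hgc, ih]
  simp only [hfix] at hcv'
  exact tendsto_nhds_unique tendsto_const_nhds hcv'

/-- a second limit point of the stabilizer gives a second fixed point -/
theorem exists_fix {c x : G → G → ℝ} (hcp : c ∈ Lim hS univ) (hx : x ∈ Lim hS (Stb c))
    (hne : x ≠ c) : ∃ a ∈ Lim hS univ, a ≠ c ∧ ∀ s ∈ Stb c, act s a = a := by
  obtain ⟨U, hU, hUs, hUx⟩ := (mem_lim_iff hS).1 hx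
  obtain ⟨y, hy⟩ := I.exists_lim U (fun n => n⁻¹)
  have hyc : y = c := by
    by_contra h
    have h1 := I.cvgP U (fun n => n) (fun _ => c) x y c hU (fun _ => hcp) hUx hy
      tendsto_const_nhds (Ne.symm h)
    have h2 : Tendsto (fun n : G => act n c) U (𝓝 c) :=
      tendsto_const_nhds.congr' (by filter_upwards [hUs] with n hn using hn.symm)
    exact hne (tendsto_nhds_unique h1 h2)
  obtain ⟨g, hg, a, ha, b, hb', hab, -, -, hta, htb⟩ :=
    exists_lox_of I U hU hUs hUx hy (by rw [hyc]; exact hne)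
  by_cases hcb : c = b
  · subst hcb
    exact ⟨a, ha, hab, fun s hs => I.cm g s a c ha hcp hab hta htb hs⟩
  · have hca := fix_lox I hab hta htb hcp hg hcb
    subst hca
    exact ⟨b, hb', hab.symm, fun s hs => I.cm g⁻¹ s b c hb' hcp hab.symm htb
      (by rw [inv_inv]; exact hta) hs⟩

/-- the stabilizer of a centre converges to it -/
theorem eq_of_lim_stb {c : G → G → ℝ} (hc : c ∈ Cent hS) {x : G → G → ℝ}
    (hx : x ∈ Lim hS (Stb c)) : x = c := by
  classical
  by_contra hne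
  have hcp := I.cent_pt hc
  obtain ⟨a, hap, hac, hfix⟩ := exists_fix I hcp hx hne
  -- limit points of the stabilizer
  have hlim : ∀ β ∈ Lim hS (Stb c), β = a ∨ β = c := by
    intro β hβ
    obtain ⟨U, hU, hUs, hUx⟩ := (mem_lim_iff hS).1 hβ
    obtain ⟨y, hy⟩ := I.exists_lim U (fun n => n⁻¹)
    have key : ∀ q ∈ Lim hS univ, (∀ s ∈ Stb c, act s q = q) → q ≠ y → β = q := by
      intro q hq hqf hqy
      have h1 := I.cvgP U (fun n => n) (fun _ => q) β y q hU (fun _ => hq) hUx hy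
        tendsto_const_nhds hqy
      have h2 : Tendsto (fun n : G => act n q) U (𝓝 q) :=
        tendsto_const_nhds.congr' (by filter_upwards [hUs] with n hn using (hqf n hn).symm)
      exact tendsto_nhds_unique h1 h2
    by_cases h : a = y
    · exact Or.inr (key c hcp (fun s hs => hs) fun h' => hac (h.trans h'.symm))
    · exact Or.inl (key a hap hfix h)
  -- the side of the cut without `a`
  obtain ⟨B, hB1, hB2, haB⟩ : ∃ B : Set G, IsCut hS B c ∧ Nontriv hS B c ∧ a ∉ Lim hS B := by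
    obtain ⟨A, h1, h2⟩ := hc
    rcases I.const_near a hap A (fun h => hac (I.eq_of_conv h1.2 h)) with h | h
    · exact ⟨A, h1, h2, h⟩
    · exact ⟨Aᶜ, isCut_compl h1, nontriv_compl h2, h⟩
  have haH : a ∉ Lim hS (HH S B) := by
    intro h
    have : HH S B ⊆ B ∪ symmDiff (HH S B) B := by
      intro x hx
      by_cases hx' : x ∈ B
      · exact Or.inl hx'
      · exact Or.inr (Or.inl ⟨hx, hx'⟩)
    rcases lim_union hS (lim_mono hS this h) with h' | h'
    · exact haB h'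
    · exact hac (I.eq_of_conv (I.HH_near B c hB1) h')
  obtain ⟨n1, n2⟩ := not_conv_HH I hB1 hB2
  obtain ⟨p, hp, hpc⟩ := I.exists_ne n1
  have hpa : p ≠ a := fun h => haH (h ▸ hp)
  have hpp : p ∈ Lim hS univ := lim_univ hS hp
  have hpV : p ∉ Lim hS (Vc hS S c) := fun h => (hlim p (lim_vc_sub I h)).elim hpa hpc
  obtain ⟨x0, hx0⟩ := one_class I (rc_equiv (hS := hS) c) hpp (fun h => hpV (lim_mono hS
    (by rintro x ⟨y, hxy, hr⟩; exact vc_of_adj I hxy hr) h))
  set K : Set G := {x | Rc hS c x0 x} with hK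
  have hKc : {x | ¬ Rc hS c x0 x} = Kᶜ := rfl
  rw [hKc] at hx0
  have hKsub : K ⊆ HH S B := by
    obtain ⟨z, hz1, hz2⟩ : ∃ z ∈ HH S B, z ∈ K := by
      by_contra hcon
      push Not at hcon
      exact hx0 (lim_mono hS (fun z hz => hcon z hz) hp)
    intro x hx
    have h1 : Rc hS c z x := (rc_equiv c).trans ((rc_equiv c).symm hz2) hx
    exact (h1 B hB1 hB2).1 hz1
  have hKlim : p ∈ Lim hS K := by
    have : p ∈ Lim hS (K ∪ Kᶜ) := by rwa [Set.union_compl_self]
    exact (lim_union hS this).resolve_right hx0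
  have hKinf : K.Infinite := infinite_of_lim hS hKlim
  have hKcinf : Kᶜ.Infinite := by
    refine Set.Infinite.mono (compl_subset_compl.2 hKsub) fun h => n2 (conv_of_finite I h c)
  have hbd : (bd S K).Infinite := by
    intro h
    rcases I.hyp.oneEnd K h with h | h
    · exact hKinf h
    · exact hKcinf h
  -- inner boundary
  set IB : Set G := {x | x ∈ K ∧ x ∈ Vc hS S c} with hIB
  have hIBinf : IB.Infinite := by
    intro hfin
    refine hbd ((hfin.union (hfin.mul S.finite_toSet)).subset ?_)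
    rintro x ⟨y, hxy, hne⟩
    have hr : ¬ Rc hS c x y := fun h => hne
      ⟨fun hx => (rc_equiv c).trans hx h, fun hy => (rc_equiv c).trans hy ((rc_equiv c).symm h)⟩
    by_cases hx : x ∈ K
    · exact Or.inl ⟨hx, vc_of_adj I hxy hr⟩
    · have hy : y ∈ K := by
        by_contra hy
        exact hne ⟨fun h => absurd h hx, fun h => absurd h hy⟩
      refine Or.inr ?_
      have hyx : Adj S y x := by
        obtain ⟨s, hs, h | h⟩ := hxy
        · exact ⟨s, hs, Or.inr h⟩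
        · exact ⟨s, hs, Or.inl h⟩
      obtain ⟨m1, m2⟩ := adj_mem I hxy
      refine ⟨y, ⟨hy, vc_of_adj I hyx fun h => hr ((rc_equiv c).symm h)⟩, y⁻¹ * x, m2, ?_⟩
      change y * (y⁻¹ * x) = x
      rw [mul_inv_cancel_left]
  -- infinitely many stabilizer elements
  obtain ⟨F, hF⟩ := I.vc_cof c
  obtain ⟨f, -, hfinf⟩ : ∃ f ∈ F, {s | s ∈ Stb c ∧ s * f ∈ K}.Infinite := by
    by_contra hcon
    push Not at hcon
    refine hIBinf (((F.finite_toSet.biUnion fun f hf =>
      ((hcon f hf).image (fun s => s * f)))).subset ?_)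
    intro x hx
    obtain ⟨s, hs, f, hf, hxe⟩ := hF x hx.2
    simp only [Set.mem_iUnion]
    exact ⟨f, hf, s, ⟨hs, by rw [← hxe]; exact hx.1⟩, hxe.symm⟩
  obtain ⟨u, hu⟩ := I.lim_nonempty _ hfinf
  obtain ⟨U, hU, hUs, hUu⟩ := (mem_lim_iff hS).1 hu
  obtain ⟨s1, hs1, hs1K⟩ := hfinf.nonempty
  have hcof : Tendsto (fun n : G => n) U cofinite := hU
  have hσcof : Tendsto (fun n : G => n * s1⁻¹) U cofinite :=
    ((mul_left_injective s1⁻¹).tendsto_cofinite).comp hcof
  have hσicof : Tendsto (fun n : G => (n * s1⁻¹)⁻¹) U cofinite :=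
    (inv_injective.tendsto_cofinite).comp hσcof
  have hσu := I.shift U (fun n => n) u s1⁻¹ hcof hUu
  obtain ⟨v, hv⟩ := I.exists_lim U (fun n => (n * s1⁻¹)⁻¹)
  have huK : u ∈ Lim hS K :=
    mem_lim_of hS U (fun n => n * f) ((mul_left_injective f).tendsto_cofinite.comp hcof)
      (by filter_upwards [hUs] with n hn using hn.2) (I.shift U (fun n => n) u f hcof hUu)
  have hvK : v ∈ Lim hS K := by
    refine mem_lim_of hS U (fun n => (n * s1⁻¹)⁻¹ * (s1 * f))
      ((mul_left_injective (s1 * f)).tendsto_cofinite.comp hσicof) ?_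
      (I.shift U _ v (s1 * f) hσicof hv)
    filter_upwards [hUs] with n hn
    have h1 : Rc hS c (n * f) (s1 * f) := (rc_equiv c).trans ((rc_equiv c).symm hn.2) hs1K
    have h2 : (n * s1⁻¹)⁻¹ ∈ Stb c := stb_inv (stb_mul hn.1 (stb_inv hs1))
    have h3 := rc_smul I h2 h1
    have h4 : (n * s1⁻¹)⁻¹ * (n * f) = s1 * f := by group
    rw [h4] at h3
    exact (rc_equiv c).trans hs1K h3
  have haK : a ∉ Lim hS K := fun h => haH (lim_mono hS hKsub h)
  have hav : a ≠ v := fun h => haK (h ▸ hvK)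
  have h1 := I.cvgP U (fun n => n * s1⁻¹) (fun _ => a) u v a hσcof (fun _ => hap) hσu hv
    tendsto_const_nhds hav
  have h2 : Tendsto (fun n : G => act (n * s1⁻¹) a) U (𝓝 a) :=
    tendsto_const_nhds.congr' (by
      filter_upwards [hUs] with n hn using (hfix _ (stb_mul hn.1 (stb_inv hs1))).symm)
  exact haK (tendsto_nhds_unique h1 h2 ▸ huK)

/-- (PAR) for the stabilizer -/
theorem stb_conv {c : G → G → ℝ} (hc : c ∈ Cent hS) : Conv hS (Stb c) c :=
  I.conv_of_lim fun _ h => eq_of_lim_stb I hc h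

/-- (PAR) for the crossed edges -/
theorem par {c : G → G → ℝ} (hc : c ∈ Cent hS) : Conv hS (Vc hS S c) c :=
  I.conv_of_lim fun _ h => eq_of_lim_stb I hc (lim_vc_sub I h)

omit I in
/-- crossing a set along a word -/
theorem exists_cross (hsym : ∀ s ∈ S, s⁻¹ ∈ S) (hS : Subgroup.closure (S : Set G) = ⊤) (m : G) :
    ∃ P : Finset G, ∀ (x : G) (H : Set G), x ∈ H → x * m ∉ H →
      ∃ p ∈ P, ∃ s ∈ S, x * p ∈ H ∧ x * p * s ∉ H := by
  classical
  have hx : m ∈ Subgroup.closure (S : Set G) := by rw [hS]; trivial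
  have key : ∀ (m t : G), t ∈ S → (∃ P : Finset G, ∀ (x : G) (H : Set G), x ∈ H → x * m ∉ H →
      ∃ p ∈ P, ∃ s ∈ S, x * p ∈ H ∧ x * p * s ∉ H) →
      ∃ P : Finset G, ∀ (x : G) (H : Set G), x ∈ H → x * (m * t) ∉ H →
      ∃ p ∈ P, ∃ s ∈ S, x * p ∈ H ∧ x * p * s ∉ H := by
    rintro m t ht ⟨P, hP⟩
    refine ⟨insert m P, fun x H h1 h2 => ?_⟩
    by_cases h : x * m ∈ H
    · exact ⟨m, Finset.mem_insert_self _ _, t, ht, h, by rwa [mul_assoc]⟩
    · obtain ⟨p, hp, s, hs, h3⟩ := hP x H h1 h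
      exact ⟨p, Finset.mem_insert_of_mem hp, s, hs, h3⟩
  induction hx using Subgroup.closure_induction_right with
  | one => exact ⟨∅, fun x H h1 h2 => absurd (by rwa [mul_one]) h2⟩
  | mul_right x _ s hs ih => exact key x s hs ih
  | mul_inv_cancel x _ s hs ih => exact key x s⁻¹ (hsym s hs) ih

/-- edges crossed at scale `M` are close to edges crossed at scale `S` -/
theorem vc_near (M : Finset G) (c : G → G → ℝ) :
    ∃ F : Finset G, ∀ x ∈ Vc hS M c, ∃ s ∈ F, x * s ∈ Vc hS S c := by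
  classical
  choose P hP using exists_cross (S := S) I.hyp.symS hS
  refine ⟨M.biUnion (fun m => P m ∪ (P m).image fun p => m⁻¹ * p), fun x hx => ?_⟩
  obtain ⟨y, h | h⟩ := hx
  · obtain ⟨hm, A, h1, h2, h3, h4⟩ := h
    obtain ⟨p, hp, s, hs, h5, h6⟩ := hP (x⁻¹ * y) x (HH S A) h3
      (by rw [mul_inv_cancel_left]; exact h4)
    refine ⟨p, Finset.mem_biUnion.2 ⟨x⁻¹ * y, hm, Finset.mem_union_left _ hp⟩, x * p * s,
      Or.inl ⟨?_, A, h1, h2, h5, h6⟩⟩
    change (x * p)⁻¹ * (x * p * s) ∈ S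
    rwa [inv_mul_cancel_left]
  · obtain ⟨hm, A, h1, h2, h3, h4⟩ := h
    obtain ⟨p, hp, s, hs, h5, h6⟩ := hP (y⁻¹ * x) y (HH S A) h3
      (by rw [mul_inv_cancel_left]; exact h4)
    have e : x * ((y⁻¹ * x)⁻¹ * p) = y * p := by group
    refine ⟨(y⁻¹ * x)⁻¹ * p, Finset.mem_biUnion.2 ⟨y⁻¹ * x, hm, Finset.mem_union_right _
      (Finset.mem_image_of_mem _ hp)⟩, y * p * s, Or.inl ⟨?_, A, h1, h2, ?_, h6⟩⟩
    · change (x * ((y⁻¹ * x)⁻¹ * p))⁻¹ * (y * p * s) ∈ S
      rw [e]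
      rwa [inv_mul_cancel_left]
    · change x * ((y⁻¹ * x)⁻¹ * p) ∈ HH S A
      rw [e]
      exact h5

/-- (PAR) at all scales -/
theorem parM (M : Finset G) {c : G → G → ℝ} (hc : c ∈ Cent hS) : Conv hS (Vc hS M c) c := by
  obtain ⟨F, hF⟩ := vc_near I M c
  exact I.conv_shift F hF (par I hc)

end Vale.Agent.P239.F.P
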