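import Vale.Agent.P239.AHFinal
import Vale.Agent.P239.F.C4Cof

/-!
Module C, second half: reindexing, fixed points, and the trap lemma.
-/

namespace Vale.Agent.P239.F

open Filter Topology Set
open Vale.Agent.P239
open scoped Pointwise

set_option linter.unusedSectionVars false

variable {G : Type*} [Group G] {S : Finset G} {hS : Subgroup.closure (S : Set G) = ⊤}
  {T : Finset G}

namespace E

theorem coord {ι : Type*} {l : Filter ι} {f : ι → G → G → ℝ} {β : G → G → ℝ}
    (h : Tendsto f l (𝓝 β)) (a b : G) : Tendsto (fun n => f n a b) l (𝓝 (β a b)) :=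
  tendsto_pi_nhds.1 (tendsto_pi_nhds.1 h a) b

theorem anti_of_tendsto {ι : Type*} {l : Filter ι} [l.NeBot] {k : ι → G} {β : G → G → ℝ}
    (h : Tendsto (fun n => hb hS (k n)) l (𝓝 β)) (a b : G) : β a b = - β b a := by
  refine tendsto_nhds_unique (coord h a b) ((coord h b a).neg.congr fun n => ?_)
  simp [hb]

theorem anti_pt {A : Set G} {β : G → G → ℝ} (h : β ∈ Lim hS A) (a b : G) : β a b = - β b a := by
  obtain ⟨U, _, _, h3⟩ := (mem_lim_iff hS).1 h
  exact anti_of_tendsto (k := id) h3 a b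

theorem exists_lt_pt {β γ : G → G → ℝ} (hβ : ∀ a b, β a b = - β b a)
    (hγ : ∀ a b, γ a b = - γ b a) (h : β ≠ γ) : ∃ a b, β a b < γ a b := by
  by_contra hc
  push Not at hc
  refine h (funext fun a => funext fun b => le_antisymm ?_ (hc a b))
  have := hc b a
  rw [hβ a b, hγ a b]
  linarith

/-- an ultrafilter limit at infinity or a constant -/
theorem const_or_cofinite {ι α : Type*} (U : Ultrafilter ι) (k : ι → α) :
    Tendsto k U cofinite ∨ ∃ g, ∀ᶠ n in (U : Filter ι), k n = g := by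
  rcases Ultrafilter.le_cofinite_or_eq_pure (U.map k) with h | ⟨a, ha⟩
  · exact Or.inl h
  · right
    refine ⟨a, ?_⟩
    have h1 : ({a} : Set α) ∈ U.map k := by rw [ha]; exact Ultrafilter.mem_pure.2 rfl
    exact h1

theorem ne_const {ι α : Type*} {U : Ultrafilter ι} {k : ι → α} (h : Tendsto k U cofinite) (g : α) :
    ∀ᶠ n in (U : Filter ι), k n ≠ g :=
  h (Set.finite_singleton g).compl_mem_cofinite

theorem inv_cofinite {ι : Type*} {l : Filter ι} {k : ι → G} (h : Tendsto k l cofinite) :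
    Tendsto (fun n => (k n)⁻¹) l cofinite :=
  (inv_injective.tendsto_cofinite).comp h

theorem exists_reidx (ι : Type*) [Countable ι] [Nonempty ι] (G : Type*) [Infinite G] :
    ∃ (e : ι → G) (r : G → ι), ∀ i, r (e i) = i := by
  obtain ⟨f, hf⟩ := exists_injective_nat ι
  refine ⟨Infinite.natEmbedding G ∘ f, Function.invFun (Infinite.natEmbedding G ∘ f), fun i => ?_⟩
  exact Function.leftInverse_invFun ((Infinite.natEmbedding G).injective.comp hf) i

end E

open E

namespace CIn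

variable (I : CIn hS T)

include I

theorem countable : Countable G := countable_of_closure hS I.hyp.symS

theorem exists_lim' {ι : Type*} (U : Ultrafilter ι) (k : ι → G) :
    ∃ β, Tendsto (fun n => hb hS (k n)) U (𝓝 β) := by
  obtain ⟨β, hβ⟩ := I.exists_lim (U.map k) id
  exact ⟨β, tendsto_map'_iff.1 hβ⟩

theorem shift' {ι : Type*} (U : Ultrafilter ι) (k : ι → G) (β : G → G → ℝ) (s : G)
    (hk : Tendsto k U cofinite) (h : Tendsto (fun n => hb hS (k n)) U (𝓝 β)) :
    Tendsto (fun n => hb hS (k n * s)) U (𝓝 β) :=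
  tendsto_map'_iff.1 (I.shift (U.map k) id β s (show Tendsto id (map k U) cofinite from hk)
    (tendsto_map'_iff.2 h))

theorem cvgP' {ι : Type*} [Countable ι] (U : Ultrafilter ι) (k : ι → G) (p : ι → G → G → ℝ)
    (x y q : G → G → ℝ) (hk : Tendsto k U cofinite) (hp : ∀ n, p n ∈ Lim hS univ)
    (h1 : Tendsto (fun n => hb hS (k n)) U (𝓝 x)) (h2 : Tendsto (fun n => hb hS (k n)⁻¹) U (𝓝 y))
    (h3 : Tendsto p U (𝓝 q)) (hq : q ≠ y) : Tendsto (fun n => act (k n) (p n)) U (𝓝 x) := by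
  have := I.hyp.inf
  have : Nonempty ι := nonempty_of_neBot (U : Filter ι)
  obtain ⟨e, r, hr⟩ := exists_reidx ι G
  have h := I.cvgP (U.map e) (k ∘ r) (p ∘ r) x y q
    (tendsto_map'_iff.2 (hk.congr fun i => by simp [hr]))
    (fun n => hp _)
    (tendsto_map'_iff.2 (h1.congr fun i => by simp [hr]))
    (tendsto_map'_iff.2 (h2.congr fun i => by simp [hr]))
    (tendsto_map'_iff.2 (h3.congr fun i => by simp [hr])) hq
  exact (tendsto_map'_iff.1 h).congr fun i => by simp [hr]

theorem cvg' {ι : Type*} (U : Ultrafilter ι) (k w : ι → G)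
    (x y q : G → G → ℝ) (hk : Tendsto k U cofinite)
    (h1 : Tendsto (fun n => hb hS (k n)) U (𝓝 x)) (h2 : Tendsto (fun n => hb hS (k n)⁻¹) U (𝓝 y))
    (h3 : Tendsto (fun n => hb hS (w n)) U (𝓝 q)) (hq : q ≠ y) :
    Tendsto (fun n => hb hS (k n * w n)) U (𝓝 x) := by
  have := I.hyp.inf
  have := I.countable
  obtain ⟨e, r, hr⟩ := exists_reidx (G × G) G
  have h := I.cvg ((U.map fun n => (k n, w n)).map e) (fun g => (r g).1) (fun g => (r g).2) x y q
    (tendsto_map'_iff.2 (tendsto_map'_iff.2 (hk.congr fun i => by simp [hr])))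
    (tendsto_map'_iff.2 (tendsto_map'_iff.2 (h1.congr fun i => by simp [hr])))
    (tendsto_map'_iff.2 (tendsto_map'_iff.2 (h2.congr fun i => by simp [hr])))
    (tendsto_map'_iff.2 (tendsto_map'_iff.2 (h3.congr fun i => by simp [hr]))) hq
  exact (tendsto_map'_iff.1 (tendsto_map'_iff.1 h)).congr fun i => by simp [hr]

/-- limits of points along ultrafilters on countable types -/
theorem exists_limP' {ι : Type*} [Countable ι] (U : Ultrafilter ι) (q : ι → G → G → ℝ)
    (hq : ∀ n, q n ∈ Lim hS univ) : ∃ β ∈ Lim hS univ, Tendsto q U (𝓝 β) := by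
  have := I.hyp.inf
  have : Nonempty ι := nonempty_of_neBot (U : Filter ι)
  obtain ⟨e, r, hr⟩ := exists_reidx ι G
  obtain ⟨β, h1, h2⟩ := I.exists_limP (U.map e) (q ∘ r) fun n => hq _
  exact ⟨β, h1, (tendsto_map'_iff.1 h2).congr fun i => by simp [hr]⟩

theorem mem_pt_of {ι : Type*} (U : Ultrafilter ι) (k : ι → G) {β : G → G → ℝ}
    (h1 : Tendsto k U cofinite) (h3 : Tendsto (fun n => hb hS (k n)) U (𝓝 β)) :
    β ∈ Lim hS univ := mem_lim_of hS U k h1 (Eventually.of_forall fun _ => trivial) h3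

/-- a nontrivial element fixes at most two points -/
theorem fix_two {h : G} (hh : h ≠ 1) {a b c : G → G → ℝ} (ha : a ∈ Lim hS univ)
    (hb' : b ∈ Lim hS univ) (hc : c ∈ Lim hS univ) (h1 : act h a = a) (h2 : act h b = b)
    (h3 : act h c = c) : a = b ∨ b = c ∨ a = c := by
  let U : Ultrafilter ℕ := hyperfilter ℕ
  have hU : (U : Filter ℕ) ≤ atTop := by
    rw [← Nat.cofinite_eq_atTop]; exact hyperfilter_le_cofinite
  let k : ℕ → G := fun n => h ^ n
  have hk : Tendsto k U cofinite := (I.pow_cofinite hh).mono_left hU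
  obtain ⟨x, hx⟩ := I.exists_lim' U k
  obtain ⟨y, hy⟩ := I.exists_lim' U (fun n => (k n)⁻¹)
  have hfix : ∀ {p : G → G → ℝ}, act h p = p → ∀ n : ℕ, act (h ^ n) p = p := by
    intro p hp n
    induction n with
    | zero => rw [pow_zero, act_one]
    | succ n ih => rw [pow_succ, ← act_act, hp, ih]
  have key : ∀ {p : G → G → ℝ}, p ∈ Lim hS univ → act h p = p → p ≠ y → p = x := by
    intro p hp hfp hpy
    have := I.cvgP' U k (fun _ => p) x y p hk (fun _ => hp) hx hy tendsto_const_nhds hpy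
    refine tendsto_nhds_unique ?_ this
    exact tendsto_const_nhds.congr fun n => (hfix hfp n).symm
  by_cases hay : a = y
  · by_cases hby : b = y
    · exact Or.inl (hay.trans hby.symm)
    · by_cases hcy : c = y
      · exact Or.inr (Or.inr (hay.trans hcy.symm))
      · exact Or.inr (Or.inl ((key hb' h2 hby).trans (key hc h3 hcy).symm))
  · by_cases hby : b = y
    · by_cases hcy : c = y
      · exact Or.inr (Or.inl (hby.trans hcy.symm))
      · exact Or.inr (Or.inr ((key ha h1 hay).trans (key hc h3 hcy).symm))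
    · exact Or.inl ((key ha h1 hay).trans (key hb' h2 hby).symm)

/-- trap: far away vertices are moved to the limit, uniformly -/
theorem unif {ι : Type*} (U : Ultrafilter ι) (k : ι → G) {x y : G → G → ℝ}
    (hk : Tendsto k U cofinite) (hx : Tendsto (fun n => hb hS (k n)) U (𝓝 x))
    (hy : Tendsto (fun n => hb hS (k n)⁻¹) U (𝓝 y)) (a b : G) {t s : ℝ} (ht : y a b < t)
    (hs : s < x a b) : ∀ᶠ n in (U : Filter ι), ∀ z : G, t ≤ hb hS z a b →
      s < hb hS (k n * z) a b := by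
  by_contra hcon
  rw [Ultrafilter.eventually_not.symm] at hcon
  have h1 : ∀ n, ∃ z : G, (¬ ∀ z : G, t ≤ hb hS z a b → s < hb hS (k n * z) a b) →
      t ≤ hb hS z a b ∧ ¬ s < hb hS (k n * z) a b := by
    intro n
    by_cases h : ∀ z : G, t ≤ hb hS z a b → s < hb hS (k n * z) a b
    · exact ⟨1, fun h' => absurd h h'⟩
    · push Not at h
      obtain ⟨z, hz1, hz2⟩ := h
      exact ⟨z, fun _ => ⟨hz1, not_lt.2 hz2⟩⟩
  choose w hw using h1
  obtain ⟨q, hq⟩ := I.exists_lim' U w
  have hqt : t ≤ q a b := by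
    refine ge_of_tendsto (coord hq a b) ?_
    filter_upwards [hcon] with n hn using (hw n hn).1
  have hqy : q ≠ y := by
    rintro rfl
    exact absurd hqt (not_le.2 ht)
  have h2 := coord (I.cvg' U k w x y q hk hx hy hq hqy) a b
  have h3 : x a b ≤ s := by
    refine le_of_tendsto h2 ?_
    filter_upwards [hcon] with n hn using not_lt.1 (hw n hn).2
  exact absurd h3 (not_le.2 hs)

theorem unif' {ι : Type*} (U : Ultrafilter ι) (k : ι → G) {x y : G → G → ℝ}
    (hk : Tendsto k U cofinite) (hx : Tendsto (fun n => hb hS (k n)) U (𝓝 x))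
    (hy : Tendsto (fun n => hb hS (k n)⁻¹) U (𝓝 y)) (a b : G) {t s : ℝ} (ht : t < x a b)
    (hs : y a b < s) : ∀ᶠ n in (U : Filter ι), ∀ z : G, hb hS z a b ≤ t →
      hb hS ((k n)⁻¹ * z) a b < s := by
  have hy' := anti_of_tendsto hy
  have hx' := anti_of_tendsto hx
  have h := I.unif U (fun n => (k n)⁻¹) (x := y) (y := x) (inv_cofinite hk) hy
    (hx.congr fun n => by rw [inv_inv]) b a (t := -t) (s := -s)
    (by rw [hx' b a]; linarith) (by rw [hy' b a]; linarith)
  filter_upwards [h] with n hn z hz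
  have := hn z (by simp only [hb] at hz ⊢; linarith)
  simp only [hb] at this ⊢
  linarith

/-- trap lemma -/
theorem trap {ι : Type*} (U : Ultrafilter ι) (k : ι → G) {x y : G → G → ℝ}
    (hk : Tendsto k U cofinite)
    (hx : Tendsto (fun n => hb hS (k n)) U (𝓝 x)) (hy : Tendsto (fun n => hb hS (k n)⁻¹) U (𝓝 y))
    (hxy : x ≠ y) : ∀ᶠ n in (U : Filter ι), ∃ a ∈ Lim hS univ, ∃ b ∈ Lim hS univ, a ≠ b ∧
      act (k n) a = a ∧ act (k n) b = b ∧
      Tendsto (fun m : ℕ => hb hS ((k n) ^ m)) atTop (𝓝 a) ∧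
      Tendsto (fun m : ℕ => hb hS ((k n)⁻¹ ^ m)) atTop (𝓝 b) := by
  obtain ⟨a', b', hlt⟩ := exists_lt_pt (anti_of_tendsto hy) (anti_of_tendsto hx) (Ne.symm hxy)
  obtain ⟨τ, hτ1, hτ2⟩ := exists_between hlt
  obtain ⟨σ, hσ1, hσ2⟩ := exists_between hτ2
  -- `y < τ < σ < x`
  filter_upwards [I.unif U k hk hx hy a' b' (t := τ) (s := σ) hτ1 hσ2,
    I.unif' U k hk hx hy a' b' (t := σ) (s := τ) hσ2 hτ1, ne_const hk 1,
    (coord hx a' b').eventually (lt_mem_nhds hσ2),
    (coord hy a' b').eventually (gt_mem_nhds hτ1)] with n h1 h2 h3 h4 h5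
  have hp : ∀ m : ℕ, σ < hb hS ((k n) ^ (m + 1)) a' b' := by
    intro m
    induction m with
    | zero => simpa using h4
    | succ m ih =>
      have := h1 _ (le_trans hσ1.le ih.le)
      rwa [← pow_succ'] at this
  have hq : ∀ m : ℕ, hb hS ((k n)⁻¹ ^ (m + 1)) a' b' < τ := by
    intro m
    induction m with
    | zero => simpa using h5
    | succ m ih =>
      have := h2 _ (le_trans ih.le hσ1.le)
      rwa [← pow_succ'] at this
  have hne1 : (k n)⁻¹ ≠ 1 := fun h => h3 (inv_eq_one.1 h)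
  have hc1 := I.pow_cofinite h3
  have hc2 := I.pow_cofinite hne1
  -- limits of powers are fixed points
  have hfix : ∀ (g : G), g ≠ 1 → ∀ (V : Ultrafilter ℕ) (α : G → G → ℝ), (V : Filter ℕ) ≤ atTop →
      Tendsto (fun m : ℕ => hb hS (g ^ m)) V (𝓝 α) → α ∈ Lim hS univ ∧ act g α = α := by
    intro g hg V α hV hα
    have hc : Tendsto (fun m : ℕ => g ^ m) V cofinite := (I.pow_cofinite hg).mono_left hV
    refine ⟨I.mem_pt_of V _ hc hα, ?_⟩
    have e1 := ((continuous_act g).tendsto α).comp hα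
    have e2 := I.shift' V _ α g hc hα
    refine tendsto_nhds_unique e1 (e2.congr fun m => ?_)
    simp only [Function.comp]
    rw [I.act_hb, ← pow_succ, ← pow_succ']
  have hfix' : ∀ {g : G} {p : G → G → ℝ}, act g⁻¹ p = p → act g p = p := by
    intro g p hp
    conv_lhs => rw [← hp]
    exact act_act_inv g p
  have hbig : ∀ (V : Ultrafilter ℕ) (α : G → G → ℝ), (V : Filter ℕ) ≤ atTop →
      Tendsto (fun m : ℕ => hb hS ((k n) ^ m)) V (𝓝 α) → σ ≤ α a' b' := by
    intro V α hV hα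
    refine ge_of_tendsto (coord hα a' b') ?_
    filter_upwards [hV (eventually_ge_atTop 1)] with m hm
    obtain ⟨m', rfl⟩ := Nat.exists_eq_add_of_le' (show 1 ≤ m from hm)
    exact (hp m').le
  have hsmall : ∀ (V : Ultrafilter ℕ) (α : G → G → ℝ), (V : Filter ℕ) ≤ atTop →
      Tendsto (fun m : ℕ => hb hS ((k n)⁻¹ ^ m)) V (𝓝 α) → α a' b' ≤ τ := by
    intro V α hV hα
    refine le_of_tendsto (coord hα a' b') ?_
    filter_upwards [hV (eventually_ge_atTop 1)] with m hm
    obtain ⟨m', rfl⟩ := Nat.exists_eq_add_of_le' (show 1 ≤ m from hm)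
    exact (hq m').le
  have hU0 : ((hyperfilter ℕ : Ultrafilter ℕ) : Filter ℕ) ≤ atTop := by
    rw [← Nat.cofinite_eq_atTop]; exact hyperfilter_le_cofinite
  obtain ⟨α, hα⟩ := I.exists_lim' (hyperfilter ℕ) (fun m : ℕ => (k n) ^ m)
  obtain ⟨β, hβ⟩ := I.exists_lim' (hyperfilter ℕ) (fun m : ℕ => (k n)⁻¹ ^ m)
  obtain ⟨hα1, hα2⟩ := hfix _ h3 _ α hU0 hα
  obtain ⟨hβ1, hβ2⟩ := hfix _ hne1 _ β hU0 hβ
  have hβ3 := hfix' hβ2
  have hb1 := hbig _ α hU0 hα
  have hs1 := hsmall _ β hU0 hβ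
  have hαβ : α ≠ β := by
    rintro rfl
    linarith
  refine ⟨α, hα1, β, hβ1, hαβ, hα2, hβ3, ?_, ?_⟩
  · rw [tendsto_iff_ultrafilter]
    intro V hV
    obtain ⟨α', hα'⟩ := I.exists_lim' V (fun m : ℕ => (k n) ^ m)
    obtain ⟨hα1', hα2'⟩ := hfix _ h3 _ α' hV hα'
    have hb2 := hbig _ α' hV hα'
    have : α' ≠ β := by
      rintro rfl
      linarith
    rcases I.fix_two h3 hα1 hβ1 hα1' hα2 hβ3 hα2' with h | h | h
    · exact absurd h hαβ
    · exact absurd h.symm this
    · rw [h]; exact hα'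
  · rw [tendsto_iff_ultrafilter]
    intro V hV
    obtain ⟨β', hβ'⟩ := I.exists_lim' V (fun m : ℕ => (k n)⁻¹ ^ m)
    obtain ⟨hβ1', hβ2'⟩ := hfix _ hne1 _ β' hV hβ'
    have hs2 := hsmall _ β' hV hβ'
    have : α ≠ β' := by
      rintro rfl
      linarith
    rcases I.fix_two h3 hα1 hβ1 hβ1' hα2 hβ3 (hfix' hβ2') with h | h | h
    · exact absurd h hαβ
    · rw [h]; exact hβ'
    · exact absurd h this

end CIn

end Vale.Agent.P239.F
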