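import Vale.Agent.P239.F.C0f
import Vale.Agent.P239.F.C4Def

/-!
The crossed edges at a centre contain an infinite connected piece.
-/

namespace Vale.Agent.P239.F

open Filter Topology Set
open Vale.Agent.P239
open scoped Pointwise

variable {G : Type*} [Group G] {S T : Finset G} {hS : Subgroup.closure (S : Set G) = ⊤}

/-- a proper nonempty set has a crossed edge -/
theorem exists_wall_edge (hp : HypS S) {H : Set G} (h1 : H.Nonempty) (h2 : Hᶜ.Nonempty) :
    ∃ e, e ∈ wallT S H := by
  by_contra hc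
  push Not at hc
  obtain ⟨x, hx⟩ := h1
  obtain ⟨y, hy⟩ := h2
  have key : ∀ k ∈ Subgroup.closure (S : Set G), x * k ∈ H := by
    intro k hk
    have hstep : ∀ z s : G, s ∈ S → z ∈ H → z * s ∈ H := by
      intro z s hs hz
      by_contra hzs
      exact hc (z, z * s) ⟨by rw [inv_mul_cancel_left]; exact hs, hz, hzs⟩
    induction hk using Subgroup.closure_induction_right with
    | one => rw [mul_one]; exact hx
    | mul_right k _ s hs ih => rw [← mul_assoc]; exact hstep _ _ hs ih
    | mul_inv_cancel k _ s hs ih => rw [← mul_assoc]; exact hstep _ _ (hp.symS s hs) ih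
  have := key (x⁻¹ * y) (by rw [hp.gen]; trivial)
  rw [mul_inv_cancel_left] at this
  exact hy this

/-- the vertices of the crossed edges have an infinite connected piece -/
theorem CIn.inf_comp (I : CIn hS T) {c : G → G → ℝ} (hc : c ∈ Cent hS) :
    ∃ w, {z | Con S (Vc hS S c) w z}.Infinite := by
  classical
  obtain ⟨A, hA, hn⟩ := hc
  have hp := I.hyp.toHypS
  have ho : Orb hp.gen := I.orb
  have hH : ∀ x ∈ HH S A, ∀ y ∉ HH S A, phi S A y < phi S A x := by
    intro x hx y hy
    rw [mem_HH] at hx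
    rw [mem_HH, not_lt] at hy
    linarith
  have hnt := HH_nontriv hp ho hA hn
  have hconv : ∀ B : Set G, B = ∅ → Conv hS B c := by
    rintro B rfl
    refine (convB_singleton hS).1 (convB_of_finite hS finite_empty {c})
  have h1 : (HH S A).Nonempty := by
    rw [nonempty_iff_ne_empty]
    exact fun h => hnt.1 (hconv _ h)
  have h2 : (HH S A)ᶜ.Nonempty := by
    rw [nonempty_iff_ne_empty]
    exact fun h => hnt.2 (hconv _ h)
  obtain ⟨e, he⟩ := exists_wall_edge hp h1 h2
  have hinf := wall_infinite_S I.hyp (phi_harm hp ho hA) hH he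
  have hsub := wallComp_subset (T := S) he
  have hEc : ∀ a ∈ wallT S (HH S A), a ∈ Ec hS S c := fun a ha =>
    ⟨ha.1, A, hA, hn, ha.2.1, ha.2.2⟩
  have hVc : ∀ a ∈ wallT S (HH S A), a.1 ∈ Vc hS S c := fun a ha => ⟨a.2, Or.inl (hEc a ha)⟩
  have hcon : ∀ a, Relation.ReflTransGen
      (fun a b => triT S a b ∧ b ∈ wallT S (HH S A)) e a →
      a ∈ wallT S (HH S A) ∧ Con S (Vc hS S c) e.1 a.1 := by
    intro a ha
    induction ha with
    | refl => exact ⟨he, Relation.ReflTransGen.refl⟩
    | tail _ hbc ih =>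
      refine ⟨hbc.2, ?_⟩
      rcases hbc.1 with ⟨h3, -⟩ | ⟨-, h3⟩
      · rw [← h3]; exact ih.2
      · exact ih.2.tail ⟨hVc _ ih.1, hVc _ hbc.2, _, h3, Or.inl (by rw [mul_inv_cancel_left])⟩
  refine ⟨e.1, fun hfin => hinf ?_⟩
  have hfin2 : (⋃ x ∈ {z | Con S (Vc hS S c) e.1 z}, ⋃ s ∈ S, {((x, x * s) : G × G)}).Finite :=
    hfin.biUnion fun x _ => S.finite_toSet.biUnion fun s _ => finite_singleton _
  refine hfin2.subset fun a ha => ?_
  have h3 := hcon a ha
  simp only [mem_iUnion]
  refine ⟨a.1, h3.2, a.1⁻¹ * a.2, h3.1.1, ?_⟩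
  rw [mul_inv_cancel_left]
  rfl

end Vale.Agent.P239.F
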