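import Vale.Agent.P239.F.C6

/-!
C5: atoms at a centre.
-/

namespace Vale.Agent.P239.F

open Filter Topology Set
open Vale.Agent.P239
open scoped Pointwise
open E

theorem cofinite_cg {α : Type*} [Countable α] : (cofinite : Filter α).IsCountablyGenerated := by
  have h : (cofinite : Filter α) = ⨅ x : α, 𝓟 {x}ᶜ := by
    apply le_antisymm
    · exact le_iInf fun x => le_principal_iff.2 (finite_singleton x).compl_mem_cofinite
    · intro s hs
      rw [mem_cofinite] at hs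
      have h2 : (⋂ x ∈ sᶜ, ({x}ᶜ : Set α)) ∈ ⨅ x : α, 𝓟 ({x}ᶜ : Set α) :=
        (biInter_mem hs).2 fun x _ => mem_iInf_of_mem x (mem_principal_self _)
      refine mem_of_superset h2 fun y hy => ?_
      by_contra hys
      exact (mem_iInter₂.1 hy y hys) rfl
  rw [h]
  exact iInf.isCountablyGenerated _

/-- a countably generated filter deciding all sets contains a singleton -/
theorem exists_singleton_mem {α : Type*} (m : Filter α) [m.NeBot] (hm : m.IsCountablyGenerated)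
    (hdec : ∀ W : Set α, W ∈ m ∨ Wᶜ ∈ m) : ∃ a, ({a} : Set α) ∈ m := by
  by_contra hcon
  push Not at hcon
  have h1 : ∀ a : α, ({a} : Set α)ᶜ ∈ m := fun a => (hdec {a}).resolve_left (hcon a)
  have h2 : ∀ s : Set α, s.Finite → sᶜ ∈ m := by
    intro s hs
    have : (⋂ x ∈ s, ({x}ᶜ : Set α)) ∈ m := (biInter_mem hs).2 fun x _ => h1 x
    refine mem_of_superset this fun y hy hys => ?_
    exact (mem_iInter₂.1 hy y hys) rfl
  obtain ⟨x, hx⟩ := exists_seq_tendsto m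
  have h3 : (range x).Infinite := by
    intro hfin
    have h4 := hx (h2 _ hfin)
    obtain ⟨n, hn⟩ := (mem_map.1 h4 |> Filter.nonempty_of_mem)
    exact hn ⟨n, rfl⟩
  let f := h3.natEmbedding
  have hfinj : Function.Injective fun n : ℕ => (f n : α) := fun a b h =>
    f.injective (Subtype.ext h)
  let W : Set α := range fun n : ℕ => (f (2 * n) : α)
  have key : ∀ V : Set α, V ∈ m → (range x \ V).Finite := by
    intro V hV
    have h5 : {n | ¬ x n ∈ V}.Finite := by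
      have := hx hV
      rw [mem_map, ← Nat.cofinite_eq_atTop, mem_cofinite] at this
      exact this
    refine (h5.image x).subset ?_
    rintro _ ⟨⟨n, rfl⟩, hn⟩
    exact ⟨n, hn, rfl⟩
  rcases hdec W with h | h
  · refine (Set.infinite_range_of_injective (f := fun n : ℕ => (f (2 * n + 1) : α)) ?_)
      ((key W h).subset ?_)
    · intro a b hab
      have := hfinj hab
      omega
    · rintro _ ⟨n, rfl⟩
      refine ⟨(f (2 * n + 1)).2, ?_⟩
      rintro ⟨k, hk⟩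
      have := hfinj hk
      omega
  · refine (Set.infinite_range_of_injective (f := fun n : ℕ => (f (2 * n) : α)) ?_)
      ((key Wᶜ h).subset ?_)
    · intro a b hab
      have := hfinj hab
      omega
    · rintro _ ⟨n, rfl⟩
      exact ⟨(f (2 * n)).2, fun h' => h' ⟨n, rfl⟩⟩

variable {G : Type*} [Group G] {S : Finset G}

theorem countable_gen (hS : Subgroup.closure (S : Set G) = ⊤) (hsym : ∀ s ∈ S, s⁻¹ ∈ S) :
    Countable G := by
  refine Function.Surjective.countable (f := fun l : List S => (l.map fun s : S => (s : G)).prod)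
    fun x => ?_
  have hx : x ∈ Subgroup.closure (S : Set G) := by rw [hS]; trivial
  induction hx using Subgroup.closure_induction_right with
  | one => exact ⟨[], rfl⟩
  | mul_right x _ s hs ih =>
    obtain ⟨l, hl⟩ := ih
    refine ⟨l ++ [⟨s, hs⟩], ?_⟩
    change (List.map (fun s : S => (s : G)) (l ++ [⟨s, hs⟩])).prod = x * s
    rw [List.map_append, List.prod_append]
    exact congrArg₂ _ hl (by rw [List.map_singleton, List.prod_singleton])
  | mul_inv_cancel x _ s hs ih =>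
    obtain ⟨l, hl⟩ := ih
    refine ⟨l ++ [⟨s⁻¹, hsym s hs⟩], ?_⟩
    change (List.map (fun s : S => (s : G)) (l ++ [⟨s⁻¹, hsym s hs⟩])).prod = x * s⁻¹
    rw [List.map_append, List.prod_append]
    exact congrArg₂ _ hl (by rw [List.map_singleton, List.prod_singleton])

/-- crossing a larger generating set means being near the `S`-boundary -/
theorem exists_window (hS : Subgroup.closure (S : Set G) = ⊤) (m : G) :
    ∃ W : Finset G, ∀ (x : G) (U : Set G), ¬ (x ∈ U ↔ x * m ∈ U) → ∃ w ∈ W, x * w ∈ bd S U := by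
  classical
  induction adj_path hS 1 m with
  | refl => exact ⟨∅, fun x U h => (h (by rw [mul_one])).elim⟩
  | @tail b z _ hbz ih =>
    obtain ⟨W, hW⟩ := ih
    refine ⟨insert b W, fun x U h => ?_⟩
    by_cases h1 : (x ∈ U ↔ x * b ∈ U)
    · refine ⟨b, Finset.mem_insert_self _ _, x * z, adj_mul hbz x, ?_⟩
      rwa [← h1]
    · obtain ⟨w, hw, h2⟩ := hW x U h1
      exact ⟨w, Finset.mem_insert_of_mem hw, h2⟩

theorem exists_window_bd (hS : Subgroup.closure (S : Set G) = ⊤) (M : Finset G) :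
    ∃ W : Finset G, ∀ (U : Set G), ∀ x ∈ bd M U, ∃ w ∈ W, x * w ∈ bd S U := by
  classical
  choose W hW using exists_window (S := S) hS
  refine ⟨M.biUnion W ∪ (M.biUnion fun m => W m⁻¹), ?_⟩
  rintro U x ⟨y, ⟨s, hs, h | h⟩, hne⟩
  · subst h
    obtain ⟨w, hw, h2⟩ := hW s x U hne
    exact ⟨w, Finset.mem_union_left _ (Finset.mem_biUnion.2 ⟨s, hs, hw⟩), h2⟩
  · have hy : y = x * s⁻¹ := by rw [h, mul_inv_cancel_right]
    rw [hy] at hne
    obtain ⟨w, hw, h2⟩ := hW s⁻¹ x U hne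
    exact ⟨w, Finset.mem_union_right _ (Finset.mem_biUnion.2 ⟨s, hs, hw⟩), h2⟩

variable {hS : Subgroup.closure (S : Set G) = ⊤} {T : Finset G}

/-- the filter of vertices near the point `p` -/
noncomputable def nfC (hS : Subgroup.closure (S : Set G) = ⊤) (p : G → G → ℝ) : Filter G :=
  cofinite ⊓ comap (hb hS) (𝓝 p)

theorem mem_nfC {p : G → G → ℝ} {A : Set G} : A ∈ nfC hS p ↔ p ∉ Lim hS Aᶜ := by
  rw [Filter.mem_iff_ultrafilter, mem_lim_iff]
  constructor
  · rintro h ⟨U, h1, h2, h3⟩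
    exact Ultrafilter.compl_mem_iff_notMem.1 h2 (h U (le_inf h1 (tendsto_iff_comap.1 h3)))
  · intro h U hU
    by_contra hA
    exact h ⟨U, hU.trans inf_le_left, Ultrafilter.compl_mem_iff_notMem.2 hA,
      tendsto_iff_comap.2 (hU.trans inf_le_right)⟩

/-- the nontrivial cuts at `c` whose canonical set contains `x` -/
def sigC (hS : Subgroup.closure (S : Set G) = ⊤) (c : G → G → ℝ) (x : G) : Set (Set G) :=
  {A | IsCut hS A c ∧ Nontriv hS A c ∧ x ∈ HH S A}

/-- the nontrivial cuts at `c` whose canonical set contains `G` near `p` -/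
def sigpC (hS : Subgroup.closure (S : Set G) = ⊤) (c p : G → G → ℝ) : Set (Set G) :=
  {A | IsCut hS A c ∧ Nontriv hS A c ∧ p ∈ Lim hS (HH S A)}

theorem kp_eq (c p : G → G → ℝ) : Kp hS c p = {x | sigC hS c x = sigpC hS c p} := by
  ext x
  constructor
  · intro h
    ext A
    exact ⟨fun hA => ⟨hA.1, hA.2.1, (h A hA.1 hA.2.1).1 hA.2.2⟩,
      fun hA => ⟨hA.1, hA.2.1, (h A hA.1 hA.2.1).2 hA.2.2⟩⟩
  · intro h A h1 h2
    have h3 : A ∈ sigC hS c x ↔ A ∈ sigpC hS c p := by rw [show sigC hS c x = sigpC hS c p from h]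
    exact ⟨fun hx => (h3.1 ⟨h1, h2, hx⟩).2.2, fun hx => (h3.2 ⟨h1, h2, hx⟩).2.2⟩

theorem kp_eq_or_disj (c p q : G → G → ℝ) :
    Kp hS c p = Kp hS c q ∨ Disjoint (Kp hS c p) (Kp hS c q) := by
  rw [kp_eq, kp_eq]
  by_cases h : sigpC hS c p = sigpC hS c q
  · left; rw [h]
  · right
    refine Set.disjoint_left.2 fun x hx hx' => h ?_
    rw [← show sigC hS c x = sigpC hS c p from hx]
    exact hx'

theorem symmDiff_compl' {α : Type*} (A B : Set α) : symmDiff Bᶜ Aᶜ = symmDiff B A := by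
  ext x
  simp only [Set.mem_symmDiff, Set.mem_compl_iff]
  tauto

namespace CIn

variable (I : CIn hS T)

include I

theorem adj_iff {x y : G} : Adj S x y ↔ x⁻¹ * y ∈ S := by
  constructor
  · rintro ⟨s, hs, h | h⟩
    · rw [h, inv_mul_cancel_left]; exact hs
    · rw [h, mul_inv_rev, inv_mul_cancel_right]; exact I.hyp.symS s hs
  · intro h
    exact ⟨_, h, Or.inl (by rw [mul_inv_cancel_left])⟩

/-- the boundary of the canonical set of a nontrivial cut consists of crossed vertices -/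
theorem bd_HH_sub {A : Set G} {c : G → G → ℝ} (h1 : IsCut hS A c) (h2 : Nontriv hS A c) :
    bd S (HH S A) ⊆ Vc hS S c := by
  rintro x ⟨y, hxy, hne⟩
  by_cases hx : x ∈ HH S A
  · have hy : y ∉ HH S A := fun hy => hne (iff_of_true hx hy)
    exact ⟨y, Or.inl ⟨I.adj_iff.1 hxy, A, h1, h2, hx, hy⟩⟩
  · have hy : y ∈ HH S A := by
      by_contra hy
      exact hne (iff_of_false hx hy)
    exact ⟨y, Or.inr ⟨I.adj_iff.1 hxy.symm, A, h1, h2, hy, hx⟩⟩

theorem near_cut {A B : Set G} {c : G → G → ℝ} (h1 : IsCut hS A c)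
    (h2 : Conv hS (symmDiff B A) c) : IsCut hS B c := by
  refine ⟨h1.1, ?_⟩
  have h3 : Conv hS {x | ∃ s ∈ S, x * s ∈ symmDiff B A} c := I.conv_shift S (fun x hx => hx) h2
  refine I.conv_mono ?_ (I.conv_union (I.conv_union h1.2 h2) h3)
  rintro x ⟨y, hxy, hne⟩
  by_cases hx : (x ∈ B ↔ x ∈ A)
  · by_cases hy : (y ∈ B ↔ y ∈ A)
    · left; left
      exact ⟨y, hxy, by rwa [← hx, ← hy]⟩
    · right
      refine ⟨x⁻¹ * y, I.adj_iff.1 hxy, ?_⟩
      rw [mul_inv_cancel_left, Set.mem_symmDiff]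
      tauto
  · left; right
    rw [Set.mem_symmDiff]
    tauto

theorem near_lim {A B : Set G} {c p : G → G → ℝ} (h2 : Conv hS (symmDiff B A) c) (hpc : p ≠ c) :
    p ∈ Lim hS B ↔ p ∈ Lim hS A := by
  constructor
  · intro h
    have h3 : B ⊆ A ∪ symmDiff B A := by
      intro x hx
      by_cases hA : x ∈ A
      · exact Or.inl hA
      · exact Or.inr (Or.inl ⟨hx, hA⟩)
    exact (lim_union hS (lim_mono hS h3 h)).resolve_right fun h4 => hpc (I.eq_of_conv h2 h4)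
  · intro h
    have h3 : A ⊆ B ∪ symmDiff B A := by
      intro x hx
      by_cases hB : x ∈ B
      · exact Or.inl hB
      · exact Or.inr (Or.inr ⟨hx, hB⟩)
    exact (lim_union hS (lim_mono hS h3 h)).resolve_right fun h4 => hpc (I.eq_of_conv h2 h4)

theorem near_lim_compl {A B : Set G} {c p : G → G → ℝ} (h2 : Conv hS (symmDiff B A) c)
    (hpc : p ≠ c) : p ∈ Lim hS Bᶜ ↔ p ∈ Lim hS Aᶜ :=
  I.near_lim (by rw [symmDiff_compl']; exact h2) hpc

theorem near_nontriv {A B : Set G} {c : G → G → ℝ} (h1 : Nontriv hS A c)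
    (h2 : Conv hS (symmDiff B A) c) : Nontriv hS B c := by
  constructor
  · intro h
    obtain ⟨p, hp, hne⟩ := I.exists_ne h1.1
    exact hne (I.eq_of_conv h ((I.near_lim h2 hne).2 hp))
  · intro h
    obtain ⟨p, hp, hne⟩ := I.exists_ne h1.2
    exact hne (I.eq_of_conv h ((I.near_lim_compl h2 hne).2 hp))

theorem HH_cut {A : Set G} {c : G → G → ℝ} (h1 : IsCut hS A c) : IsCut hS (HH S A) c :=
  I.near_cut h1 (I.HH_near A c h1)

theorem HH_nontriv {A : Set G} {c : G → G → ℝ} (h1 : IsCut hS A c) (h2 : Nontriv hS A c) :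
    Nontriv hS (HH S A) c := I.near_nontriv h2 (I.HH_near A c h1)

/-- a set whose boundary converges to `c` is constant near the other points -/
theorem dich {B : Set G} {c p : G → G → ℝ} (h : Conv hS (bd S B) c) (hp : p ∈ Lim hS univ)
    (hpc : p ≠ c) : p ∈ Lim hS B ↔ p ∉ Lim hS Bᶜ := by
  have h1 := I.const_near p hp B fun h' => hpc (I.eq_of_conv h h')
  have h2 : p ∈ Lim hS B ∨ p ∈ Lim hS Bᶜ := lim_union hS (by rw [union_compl_self]; exact hp)
  tauto

theorem bd_sigC_sub (c : G → G → ℝ) (W : Set (Set (Set G))) :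
    bd S {x | sigC hS c x ∈ W} ⊆ Vc hS S c := by
  rintro x ⟨y, hxy, hne⟩
  have hne' : sigC hS c x ≠ sigC hS c y := by
    intro h
    apply hne
    change sigC hS c x ∈ W ↔ sigC hS c y ∈ W
    rw [h]
  obtain ⟨A, hA⟩ : ∃ A, ¬ (A ∈ sigC hS c x ↔ A ∈ sigC hS c y) := by
    by_contra hcon
    push Not at hcon
    exact hne' (Set.ext hcon)
  have h12 : IsCut hS A c ∧ Nontriv hS A c := by
    by_contra hcon
    exact hA ⟨fun h => absurd ⟨h.1, h.2.1⟩ hcon, fun h => absurd ⟨h.1, h.2.1⟩ hcon⟩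
  refine I.bd_HH_sub h12.1 h12.2 ⟨y, hxy, fun h => hA ?_⟩
  exact ⟨fun h' => ⟨h'.1, h'.2.1, h.1 h'.2.2⟩, fun h' => ⟨h'.1, h'.2.1, h.2 h'.2.2⟩⟩

variable (par : ∀ c ∈ Cent hS, Conv hS (Vc hS S c) c)

include par

/-- near a point different from the centre the signature is constant, namely the signature of the
point -/
theorem kp_near {c p : G → G → ℝ} (hc : c ∈ Cent hS) (hp : p ∈ Lim hS univ) (hpc : p ≠ c) :
    p ∉ Lim hS (Kp hS c p)ᶜ := by
  have hcount : Countable G := countable_gen hS I.hyp.symS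
  have hcg : (cofinite : Filter G).IsCountablyGenerated := cofinite_cg
  have hcg2 : (comap (hb hS) (𝓝 p)).IsCountablyGenerated := inferInstance
  have hcg3 : (nfC hS p).IsCountablyGenerated := Filter.Inf.isCountablyGenerated _ _
  have hne : (nfC hS p).NeBot := by
    refine ⟨fun h => ?_⟩
    have h1 : (∅ : Set G) ∈ nfC hS p := by rw [h]; exact mem_bot
    rw [mem_nfC, compl_empty] at h1
    exact h1 hp
  obtain ⟨σ, hσ⟩ := exists_singleton_mem ((nfC hS p).map (sigC hS c)) inferInstance (by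
    intro W
    rw [mem_map, mem_map]
    have h1 : Conv hS (bd S (sigC hS c ⁻¹' W)) c := I.conv_mono (I.bd_sigC_sub c W) (par c hc)
    have h2 := I.dich h1 hp hpc
    rw [mem_nfC, mem_nfC]
    rw [preimage_compl, compl_compl]
    tauto)
  rw [mem_map, mem_nfC] at hσ
  have hK : p ∈ Lim hS (sigC hS c ⁻¹' {σ}) := by
    have h1 : p ∈ Lim hS (sigC hS c ⁻¹' {σ} ∪ (sigC hS c ⁻¹' {σ})ᶜ) := by
      rw [union_compl_self]; exact hp
    exact (lim_union hS h1).resolve_right hσ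
  have hσ2 : σ = sigpC hS c p := by
    obtain ⟨z, hz⟩ := (infinite_of_lim hS hK).nonempty
    have hz : sigC hS c z = σ := hz
    ext A
    constructor
    · intro hA
      have hA' := hA
      rw [← hz] at hA'
      refine ⟨hA'.1, hA'.2.1, lim_mono hS (fun x hx => ?_) hK⟩
      have hx : sigC hS c x = σ := hx
      rw [← hx] at hA
      exact hA.2.2
    · rintro ⟨h1, h2, h3⟩
      by_contra hA
      apply (I.dich (I.HH_cut h1).2 hp hpc).1 h3
      have hsub : sigC hS c ⁻¹' {σ} ⊆ (HH S A)ᶜ := by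
        intro x hx hx'
        have hx : sigC hS c x = σ := hx
        rw [← hx] at hA
        exact hA ⟨h1, h2, hx'⟩
      exact lim_mono hS hsub hK
  rw [kp_eq, ← hσ2]
  exact hσ

theorem kp_lim {c p : G → G → ℝ} (hc : c ∈ Cent hS) (hp : p ∈ Lim hS univ) (hpc : p ≠ c) :
    p ∈ Lim hS (Kp hS c p) := by
  have h1 : p ∈ Lim hS (Kp hS c p ∪ (Kp hS c p)ᶜ) := by rw [union_compl_self]; exact hp
  exact (lim_union hS h1).resolve_right (I.kp_near par hc hp hpc)

theorem kp_cut {c : G → G → ℝ} (p : G → G → ℝ) (hc : c ∈ Cent hS) : IsCut hS (Kp hS c p) c := by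
  refine ⟨I.cent_pt hc, ?_⟩
  rw [kp_eq]
  exact I.conv_mono (I.bd_sigC_sub c {sigpC hS c p}) (par c hc)

omit par in
/-- a nontrivial cut has points on both sides -/
theorem exists_sides {c : G → G → ℝ} (hc : c ∈ Cent hS) : ∃ A, IsCut hS A c ∧ Nontriv hS A c ∧
    ∃ q ∈ Lim hS univ, ∃ q' ∈ Lim hS univ, q ≠ c ∧ q' ≠ c ∧ q ∈ Lim hS (HH S A) ∧
      q' ∈ Lim hS (HH S A)ᶜ := by
  obtain ⟨A, h1, h2⟩ := hc
  obtain ⟨h3, h4⟩ := I.HH_nontriv h1 h2
  obtain ⟨q, hq, hqc⟩ := I.exists_ne h3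
  obtain ⟨q', hq', hqc'⟩ := I.exists_ne h4
  exact ⟨A, h1, h2, q, lim_univ hS hq, q', lim_univ hS hq', hqc, hqc', hq, hq'⟩

theorem kp_nontriv {c p : G → G → ℝ} (hc : c ∈ Cent hS) (hp : p ∈ Lim hS univ) (hpc : p ≠ c) :
    Nontriv hS (Kp hS c p) c := by
  refine ⟨fun h => hpc (I.eq_of_conv h (I.kp_lim par hc hp hpc)), fun h => ?_⟩
  obtain ⟨A, h1, h2, q, hq, q', hq', hqc, hqc', hqA, hqA'⟩ := I.exists_sides hc
  by_cases hpA : p ∈ Lim hS (HH S A)
  · have hsub : (HH S A)ᶜ ⊆ (Kp hS c p)ᶜ := fun x hx hx' => hx ((hx' A h1 h2).2 hpA)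
    exact hqc' (I.eq_of_conv h (lim_mono hS hsub hqA'))
  · have hsub : HH S A ⊆ (Kp hS c p)ᶜ := fun x hx hx' => hpA ((hx' A h1 h2).1 hx)
    exact hqc (I.eq_of_conv h (lim_mono hS hsub hqA))

theorem hp_cut {c : G → G → ℝ} (p : G → G → ℝ) (hc : c ∈ Cent hS) : IsCut hS (Hp hS c p) c :=
  I.HH_cut (I.kp_cut par p hc)

theorem hp_nontriv {c p : G → G → ℝ} (hc : c ∈ Cent hS) (hp : p ∈ Lim hS univ) (hpc : p ≠ c) :
    Nontriv hS (Hp hS c p) c :=
  I.HH_nontriv (I.kp_cut par p hc) (I.kp_nontriv par hc hp hpc)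

theorem hp_symm {c : G → G → ℝ} (p : G → G → ℝ) (hc : c ∈ Cent hS) :
    Conv hS (symmDiff (Hp hS c p) (Kp hS c p)) c := I.HH_near _ c (I.kp_cut par p hc)

theorem hp_near {c p : G → G → ℝ} (hc : c ∈ Cent hS) (hp : p ∈ Lim hS univ) (hpc : p ≠ c) :
    p ∉ Lim hS (Hp hS c p)ᶜ := by
  rw [I.near_lim_compl (I.hp_symm par p hc) hpc]
  exact I.kp_near par hc hp hpc

theorem hp_lim {c p : G → G → ℝ} (hc : c ∈ Cent hS) (hp : p ∈ Lim hS univ) (hpc : p ≠ c) :
    p ∈ Lim hS (Hp hS c p) := by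
  rw [I.near_lim (I.hp_symm par p hc) hpc]
  exact I.kp_lim par hc hp hpc

theorem hp_nonempty {c p : G → G → ℝ} (hc : c ∈ Cent hS) (hp : p ∈ Lim hS univ) (hpc : p ≠ c) :
    (Hp hS c p).Nonempty := (infinite_of_lim hS (I.hp_lim par hc hp hpc)).nonempty

omit par in
theorem conv_empty (c : G → G → ℝ) : Conv hS ∅ c :=
  I.conv_of_lim fun _ h => (lim_finite hS finite_empty h).elim

theorem hp_eq_or_disj {c : G → G → ℝ} (p q : G → G → ℝ) (hc : c ∈ Cent hS) :
    Hp hS c p = Hp hS c q ∨ Disjoint (Hp hS c p) (Hp hS c q) := by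
  rcases kp_eq_or_disj (hS := hS) c p q with h | h
  · left; rw [Hp, h, Hp]
  · right
    refine I.HH_disj _ _ c (I.kp_cut par p hc) (I.kp_cut par q hc) ?_
    rw [h.inter_eq]
    exact I.conv_empty c

/-- the points different from `c` in the limit of an atom are the points of the atom -/
theorem lim_hp_iff {c p q : G → G → ℝ} (hc : c ∈ Cent hS) (hq : q ∈ Lim hS univ) (hqc : q ≠ c) :
    q ∈ Lim hS (Hp hS c p) ↔ Kp hS c q = Kp hS c p := by
  rw [I.near_lim (I.hp_symm par p hc) hqc]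
  constructor
  · intro h
    rcases kp_eq_or_disj (hS := hS) c q p with h1 | h1
    · exact h1
    · exact (I.kp_near par hc hq hqc (lim_mono hS
        (fun x hx hx' => Set.disjoint_left.1 h1 hx' hx) h)).elim
  · intro h
    rw [← h]
    exact I.kp_lim par hc hq hqc

theorem lim_hp_iff' {c p q : G → G → ℝ} (hc : c ∈ Cent hS) (hq : q ∈ Lim hS univ)
    (hqc : q ≠ c) : q ∈ Lim hS (Hp hS c p) ↔ Hp hS c q = Hp hS c p := by
  constructor
  · intro h
    rw [Hp, (I.lim_hp_iff par hc hq hqc).1 h, Hp]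
  · intro h
    rw [← h]
    exact I.hp_lim par hc hq hqc

omit par in
/-- atoms are indecomposable -/
theorem kp_indec {c : G → G → ℝ} (p : G → G → ℝ) {C : Set G} (hC : IsCut hS C c) :
    Conv hS (Kp hS c p ∩ C) c ∨ Conv hS (Kp hS c p \ C) c := by
  by_cases h1 : Conv hS C c
  · exact Or.inl (I.conv_mono inter_subset_right h1)
  by_cases h2 : Conv hS Cᶜ c
  · exact Or.inr (I.conv_mono (fun x hx => hx.2) h2)
  have hC2 : Nontriv hS C c := ⟨h1, h2⟩
  by_cases h3 : p ∈ Lim hS (HH S C)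
  · right
    refine I.conv_mono (fun x hx => ?_) (I.HH_near C c hC)
    exact Or.inl ⟨(hx.1 C hC hC2).2 h3, hx.2⟩
  · left
    refine I.conv_mono (fun x hx => ?_) (I.HH_near C c hC)
    exact Or.inr ⟨hx.2, fun h => h3 ((hx.1 C hC hC2).1 h)⟩

theorem hp_indec {c : G → G → ℝ} (p : G → G → ℝ) (hc : c ∈ Cent hS) {C : Set G}
    (hC : IsCut hS C c) : Conv hS (Hp hS c p ∩ C) c ∨ Conv hS (Hp hS c p \ C) c := by
  have h0 := I.hp_symm par p hc
  rcases I.kp_indec p hC with h | h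
  · left
    refine I.conv_mono (fun x hx => ?_) (I.conv_union h h0)
    by_cases hK : x ∈ Kp hS c p
    · exact Or.inl ⟨hK, hx.2⟩
    · exact Or.inr (Or.inl ⟨hx.1, hK⟩)
  · right
    refine I.conv_mono (fun x hx => ?_) (I.conv_union h h0)
    by_cases hK : x ∈ Kp hS c p
    · exact Or.inl ⟨hK, hx.2⟩
    · exact Or.inr (Or.inl ⟨hx.1, hK⟩)

omit par in
/-- both sides of a nontrivial cut have infinite boundary -/
theorem bd_infinite {A : Set G} {c : G → G → ℝ} (h : Nontriv hS A c) : (bd S A).Infinite := by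
  intro hfin
  rcases I.hyp.oneEnd A hfin with h1 | h1
  · exact h.1 (I.conv_of_lim fun _ h' => (lim_finite hS h1 h').elim)
  · exact h.2 (I.conv_of_lim fun _ h' => (lim_finite hS h1 h').elim)

omit par in
theorem lim_bd {A : Set G} {c : G → G → ℝ} (h1 : IsCut hS A c) (h : Nontriv hS A c) :
    c ∈ Lim hS (bd S A) := I.lim_of_conv (I.bd_infinite h) subset_rfl h1.2

omit par in
theorem lim_of_bd {A : Set G} {c : G → G → ℝ} (h : c ∈ Lim hS (bd S A)) : c ∈ Lim hS A := by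
  refine I.lim_shift S ?_ h
  rintro x ⟨y, hxy, hne⟩
  by_cases hx : x ∈ A
  · exact ⟨1, I.hyp.oneS, by rwa [mul_one]⟩
  · have hy : y ∈ A := by
      by_contra hy
      exact hne (iff_of_false hx hy)
    exact ⟨x⁻¹ * y, I.adj_iff.1 hxy, by rwa [mul_inv_cancel_left]⟩

theorem hp_bdinf {c p : G → G → ℝ} (hc : c ∈ Cent hS) (hp : p ∈ Lim hS univ) (hpc : p ≠ c) :
    (bd S (Hp hS c p)).Infinite := I.bd_infinite (I.hp_nontriv par hc hp hpc)

theorem lim_bd_hp {c p : G → G → ℝ} (hc : c ∈ Cent hS) (hp : p ∈ Lim hS univ) (hpc : p ≠ c) :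
    c ∈ Lim hS (bd S (Hp hS c p)) :=
  I.lim_bd (I.hp_cut par p hc) (I.hp_nontriv par hc hp hpc)

theorem lim_hp_self {c p : G → G → ℝ} (hc : c ∈ Cent hS) (hp : p ∈ Lim hS univ) (hpc : p ≠ c) :
    c ∈ Lim hS (Hp hS c p) := I.lim_of_bd (I.lim_bd_hp par hc hp hpc)

theorem lim_hp_compl_self {c p : G → G → ℝ} (hc : c ∈ Cent hS) (hp : p ∈ Lim hS univ)
    (hpc : p ≠ c) : c ∈ Lim hS (Hp hS c p)ᶜ :=
  I.lim_of_bd (by rw [bd_compl]; exact I.lim_bd_hp par hc hp hpc)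

/-- the boundary at every scale converges to the centre -/
theorem hp_bd {c : G → G → ℝ} (p : G → G → ℝ) (hc : c ∈ Cent hS) (M : Finset G) :
    Conv hS (bd M (Hp hS c p)) c := by
  obtain ⟨W, hW⟩ := exists_window_bd hS M
  exact I.conv_shift W (hW _) (I.hp_cut par p hc).2

/-- the two atoms pointing towards each other cover the group -/
theorem hp_tow {c c' : G → G → ℝ} (hc : c ∈ Cent hS) (hc' : c' ∈ Cent hS) (hne : c ≠ c') :
    Hp hS c c' ∪ Hp hS c' c = univ := by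
  have hp := I.cent_pt hc
  have hp' := I.cent_pt hc'
  have e1 := I.hp_near par hc hp' hne.symm
  have e2 := I.hp_near par hc' hp hne
  rcases I.nest _ _ c c' (I.kp_cut par c' hc) (I.kp_nontriv par hc hp' hne.symm)
    (I.kp_cut par c hc') (I.kp_nontriv par hc' hp hne) hne with h | h | h | h
  · exact (e1 (lim_mono hS (compl_subset_compl.2 h) (I.lim_hp_compl_self par hc' hp hne))).elim
  · exact (e2 (lim_mono hS (compl_subset_compl.2 h)
      (I.lim_hp_compl_self par hc hp' hne.symm))).elim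
  · exact (e1 (lim_mono hS (fun x hx hx' => Set.disjoint_left.1 h hx' hx)
      (I.lim_hp_self par hc' hp hne))).elim
  · exact h

/-- atoms are connected -/
theorem hp_conn {c : G → G → ℝ} (p : G → G → ℝ) (hc : c ∈ Cent hS) {x y : G}
    (hx : x ∈ Hp hS c p) (hy : y ∈ Hp hS c p) : Con S (Hp hS c p) x y := by
  by_contra hxy
  let C : Set G := {z | Con S (Hp hS c p) x z}
  have hCU : C ⊆ Hp hS c p := fun z hz => Con.mem_of_left hz hx
  have hcl : ∀ z ∈ C, ∀ w ∈ Hp hS c p, Adj S z w → w ∈ C := fun z hz w hw hzw =>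
    Relation.ReflTransGen.tail hz ⟨hCU hz, hw, hzw⟩
  have hbd : bd S C ⊆ bd S (Hp hS c p) := by
    rintro z ⟨w, hzw, hne⟩
    refine ⟨w, hzw, fun h => hne ⟨fun hz => hcl z hz w (h.1 (hCU hz)) hzw, fun hw =>
      hcl w hw z (h.2 (hCU hw)) hzw.symm⟩⟩
  have hC : IsCut hS C c := ⟨I.cent_pt hc, I.conv_mono hbd (I.hp_cut par p hc).2⟩
  rcases I.hp_indec par p hc hC with h | h
  · refine I.HH_comp _ C c (I.kp_cut par p hc) hCU ⟨x, Relation.ReflTransGen.refl⟩ hcl ?_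
    rwa [inter_eq_self_of_subset_right hCU] at h
  · refine I.HH_comp _ (Hp hS c p \ C) c (I.kp_cut par p hc) sdiff_subset ⟨y, hy, hxy⟩ ?_ h
    rintro z ⟨hz, hzC⟩ w hw hzw
    exact ⟨hw, fun hwC => hzC (hcl w hwC z hz hzw.symm)⟩

/-- The atoms form a nested family. -/
theorem atomFam : AtomFam S (AtC hS) := by
  refine ⟨?_, ?_, ?_, ?_, ?_, ?_, ?_⟩
  · rintro c _ ⟨p, hp, hpc, rfl⟩ _ ⟨q, hq, hqc, rfl⟩ hne
    exact (I.hp_eq_or_disj par p q c.2).resolve_left hne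
  · rintro c _ ⟨p, hp, hpc, rfl⟩
    exact I.hp_nonempty par c.2 hp hpc
  · intro c
    obtain ⟨A, h1, h2, q, hq, q', hq', hqc, hqc', hqA, hqA'⟩ := I.exists_sides c.2
    refine ⟨_, ⟨q, hq, hqc, rfl⟩, _, ⟨q', hq', hqc', rfl⟩, fun h => ?_⟩
    have h3 : Kp hS c.1 q' ⊆ (HH S A)ᶜ := by
      intro x hx hxA
      exact (I.dich (I.HH_cut h1).2 hq' hqc').1 ((hx A h1 h2).1 hxA) hqA'
    have h4 : Kp hS c.1 q = Kp hS c.1 q' := by
      refine (I.lim_hp_iff par c.2 hq hqc).1 ?_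
      rw [← h]
      exact I.hp_lim par c.2 hq hqc
    obtain ⟨x, hx⟩ := (infinite_of_lim hS (I.kp_lim par c.2 hq hqc)).nonempty
    exact h3 (h4 ▸ hx) ((hx A h1 h2).2 hqA)
  · intro x y hxy
    refine ((I.fin x y (I.adj_iff.1 hxy)).preimage (f := Subtype.val)
      Subtype.val_injective.injOn).subset ?_
    rintro c ⟨_, ⟨p, hp, hpc, rfl⟩, hx, hy⟩
    exact ⟨I.adj_iff.1 hxy, _, I.kp_cut par p c.2, I.kp_nontriv par c.2 hp hpc, hx, hy⟩
  · rintro c _ ⟨p, hp, hpc, rfl⟩ x hx y hy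
    exact I.hp_conn par p c.2 hx hy
  · intro c c' hne
    have hne' : c.1 ≠ c'.1 := fun h => hne (Subtype.ext h)
    exact ⟨_, ⟨c'.1, I.cent_pt c'.2, hne'.symm, rfl⟩, _, ⟨c.1, I.cent_pt c.2, hne', rfl⟩,
      I.hp_tow par c.2 c'.2 hne'⟩
  · rintro c c' hne _ ⟨p, hp, hpc, rfl⟩ ⟨q, hq, hqc, h⟩
    apply hne
    refine Subtype.ext ?_
    refine I.eq_of_conv (I.hp_cut par q c'.2).2 ?_
    rw [← h]
    exact I.lim_bd_hp par c.2 hp hpc

theorem atC_bdinf (c : Cent hS) (U : Set G) (hU : U ∈ AtC hS c) : (bd S U).Infinite := by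
  obtain ⟨p, hp, hpc, rfl⟩ := hU
  exact I.hp_bdinf par c.2 hp hpc

theorem atC_bd (c : Cent hS) (U : Set G) (hU : U ∈ AtC hS c) : Conv hS (bd S U) c.1 := by
  obtain ⟨p, hp, hpc, rfl⟩ := hU
  exact (I.hp_cut par p c.2).2

theorem atC_bdM (M : Finset G) (c : Cent hS) (U : Set G) (hU : U ∈ AtC hS c) :
    Conv hS (bd M U) c.1 := by
  obtain ⟨p, hp, hpc, rfl⟩ := hU
  exact I.hp_bd par p c.2 M

/-- the stabiliser of an atom acts cofinitely on its inner boundary -/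
theorem hp_cof {c p : G → G → ℝ} (hc : c ∈ Cent hS) (hp : p ∈ Lim hS univ) (hpc : p ≠ c) :
    ∃ F : Set G, F.Finite ∧ F ⊆ Hp hS c p ∧ ∀ x ∈ Hp hS c p, x ∈ bd S (Hp hS c p) →
      ∃ g : G, g • Hp hS c p = Hp hS c p ∧ act g c = c ∧ g * x ∈ F := by
  let X : Set G := {x | x ∈ Hp hS c p ∧ x ∈ bd S (Hp hS c p)}
  have hD : (⋃ t ∈ (S : Set G), {d | ((1 : G), t) ∈ Ec hS S d}).Finite :=
    S.finite_toSet.biUnion fun t ht => I.fin 1 t (by simpa using ht)
  let wf : G → Set G := fun x => x⁻¹ • Hp hS c p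
  have hfin : (wf '' X).Finite := by
    have hsub : ∀ d : G → G → ℝ, d ∈ Cent hS →
        {W | (1 : G) ∈ W ∧ ∃ q ∈ Lim hS univ, q ≠ d ∧ W = Hp hS d q}.Finite := by
      intro d hd
      refine Set.Subsingleton.finite ?_
      rintro _ ⟨h1, q, hq, hqd, rfl⟩ _ ⟨h1', q', hq', hqd', rfl⟩
      exact (I.hp_eq_or_disj par q q' hd).resolve_right fun h => Set.disjoint_left.1 h h1 h1'
    have hD' : ((⋃ t ∈ (S : Set G), {d | ((1 : G), t) ∈ Ec hS S d}) ∩ Cent hS).Finite :=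
      hD.subset inter_subset_left
    refine (hD'.biUnion (t := fun d => {W | (1 : G) ∈ W ∧ ∃ q ∈ Lim hS univ, q ≠ d ∧
      W = Hp hS d q}) fun d hd => hsub d hd.2).subset ?_
    rintro _ ⟨x, ⟨hx, y, hxy, hne⟩, rfl⟩
    have hy : y ∉ Hp hS c p := fun hy => hne (iff_of_true hx hy)
    have he : (x, y) ∈ Ec hS S c :=
      ⟨I.adj_iff.1 hxy, _, I.kp_cut par p hc, I.kp_nontriv par hc hp hpc, hx, hy⟩
    have he' := I.ec_smul x⁻¹ S he
    rw [inv_mul_cancel] at he'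
    refine Set.mem_biUnion (x := act x⁻¹ c) ⟨?_, I.cent_smul x⁻¹ hc⟩ ⟨?_, act x⁻¹ p,
      I.mem_pt_smul _ hp, fun h => hpc (act_injective _ h), ?_⟩
    · exact Set.mem_biUnion (x := x⁻¹ * y) (I.adj_iff.1 hxy) he'
    · rw [mem_smul_set_iff_inv_smul_mem, inv_inv, smul_eq_mul, mul_one]
      exact hx
    · exact (I.hp_smul x⁻¹ c p).symm
  obtain ⟨R, hRX, hR⟩ := Set.exists_subset_bijOn X wf
  have hRfin : R.Finite := by
    refine Set.Finite.of_finite_image ?_ hR.injOn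
    rw [hR.image_eq]
    exact hfin
  refine ⟨R, hRfin, fun x hx => (hRX hx).1, fun x hx hxb => ?_⟩
  obtain ⟨f, hf, hfx⟩ := hR.surjOn (Set.mem_image_of_mem wf (show x ∈ X from ⟨hx, hxb⟩))
  have hfx : f⁻¹ • Hp hS c p = x⁻¹ • Hp hS c p := hfx
  have hg : (f * x⁻¹) • Hp hS c p = Hp hS c p := by
    rw [mul_smul, ← hfx, smul_inv_smul]
  refine ⟨f * x⁻¹, hg, ?_, by rw [inv_mul_cancel_right]; exact hf⟩
  have h1 := I.conv_smul (f * x⁻¹) (I.hp_cut par p hc).2
  rw [← bd_smul, hg] at h1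
  exact (I.eq_of_conv h1 (I.lim_bd_hp par hc hp hpc)).symm

/-- atoms are one-ended: a subset with finite inner boundary is finite or cofinite -/
theorem hp_oneEnded {c p : G → G → ℝ} (hc : c ∈ Cent hS) (hp : p ∈ Lim hS univ) (hpc : p ≠ c)
    {C : Set G} (hC : C ⊆ Hp hS c p)
    (hfin : {x | x ∈ C ∧ ∃ y ∈ Hp hS c p \ C, Adj S x y}.Finite) :
    C.Finite ∨ (Hp hS c p \ C).Finite := by
  classical
  set U := Hp hS c p with hU
  set E : Set G := {x | x ∈ C ∧ ∃ y ∈ U \ C, Adj S x y} with hE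
  have hfin2 : {y | ∃ x ∈ E, Adj S x y}.Finite := by
    refine (hfin.biUnion (t := fun x => (fun s => x * s) '' (S : Set G)) fun x _ =>
      S.finite_toSet.image _).subset ?_
    rintro y ⟨x, hx, hxy⟩
    exact Set.mem_biUnion hx ⟨x⁻¹ * y, I.adj_iff.1 hxy, by simp⟩
  have hcut : IsCut hS C c := by
    refine ⟨I.cent_pt hc, ?_⟩
    refine I.conv_mono (B := bd S U ∪ (E ∪ {y | ∃ x ∈ E, Adj S x y})) ?_
      (I.conv_union (I.hp_cut par p hc).2
        (I.conv_of_lim fun _ h => (lim_finite hS (hfin.union hfin2) h).elim))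
    rintro z ⟨w, hzw, hne⟩
    by_cases hz : z ∈ C
    · have hw : w ∉ C := fun hw => hne (iff_of_true hz hw)
      by_cases hwU : w ∈ U
      · exact Or.inr (Or.inl ⟨hz, w, ⟨hwU, hw⟩, hzw⟩)
      · exact Or.inl ⟨w, hzw, fun h => hwU (h.1 (hC hz))⟩
    · have hw : w ∈ C := by
        by_contra hw
        exact hne (iff_of_false hz hw)
      by_cases hzU : z ∈ U
      · exact Or.inr (Or.inr ⟨w, ⟨hw, z, ⟨hzU, hz⟩, hzw.symm⟩, hzw.symm⟩)
      · exact Or.inl ⟨w, hzw, fun h => hzU (h.2 (hC hw))⟩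
  obtain ⟨F, hF, -, hcof⟩ := I.hp_cof par hc hp hpc
  have hcof' : ∀ x ∈ HH S (Kp hS c p), x ∈ bd S (HH S (Kp hS c p)) →
      ∃ g : G, g • HH S (Kp hS c p) = HH S (Kp hS c p) ∧ g * x ∈ F := by
    intro x hx hxb
    obtain ⟨g, h1, _, h2⟩ := hcof x hx hxb
    exact ⟨g, h1, h2⟩
  rcases I.hp_indec par p hc hcut with h | h
  · left
    rw [← hU, inter_eq_self_of_subset_right hC] at h
    exact I.HH_stay _ C c F (I.kp_cut par p hc) hF hcof' hC hfin h
  · right
    refine I.HH_stay _ (U \ C) c F (I.kp_cut par p hc) hF hcof' sdiff_subset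
      (hfin2.subset ?_) h
    rintro x ⟨⟨hxU, hxC⟩, y, ⟨hyU, hy⟩, hxy⟩
    have hyC : y ∈ C := by
      by_contra hyC
      exact hy ⟨hyU, hyC⟩
    exact ⟨y, ⟨hyC, x, ⟨hxU, hxC⟩, hxy.symm⟩, hxy.symm⟩

/-- atoms come from nontrivial cuts -/
theorem atC_cut (c : Cent hS) (U : Set G) (hU : U ∈ AtC hS c) :
    ∃ A, IsCut hS A c.1 ∧ Nontriv hS A c.1 ∧ U = HH S A := by
  obtain ⟨p, hp, hpc, rfl⟩ := hU
  exact ⟨Kp hS c.1 p, I.kp_cut par p c.2, I.kp_nontriv par c.2 hp hpc, rfl⟩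

/-- atoms are one-ended -/
theorem atC_one (c : Cent hS) (U : Set G) (hU : U ∈ AtC hS c) (C : Set G) (hC : C ⊆ U)
    (hfin : {x | x ∈ C ∧ ∃ y ∈ U \ C, Adj S x y}.Finite) : C.Finite ∨ (U \ C).Finite := by
  obtain ⟨p, hp, hpc, rfl⟩ := hU
  exact I.hp_oneEnded par c.2 hp hpc hC hfin

/-- points on different sides of a cut lie in different atoms -/
theorem atC_sep (c : Cent hS) (A : Set G) (h1 : IsCut hS A c.1) (h2 : Nontriv hS A c.1)
    (p : G → G → ℝ) (hp : p ∈ Lim hS A) (hpc : p ≠ c.1) (p' : G → G → ℝ) (hp' : p' ∈ Lim hS Aᶜ)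
    (hpc' : p' ≠ c.1) : ∃ U ∈ AtC hS c, ∃ U' ∈ AtC hS c, U ≠ U' ∧ p ∉ Lim hS Uᶜ ∧
      p' ∉ Lim hS U'ᶜ := by
  have hpu := lim_univ hS hp
  have hpu' := lim_univ hS hp'
  refine ⟨_, ⟨p, hpu, hpc, rfl⟩, _, ⟨p', hpu', hpc', rfl⟩, fun h => ?_,
    I.hp_near par c.2 hpu hpc, I.hp_near par c.2 hpu' hpc'⟩
  have h3 : Kp hS c.1 p = Kp hS c.1 p' :=
    (I.lim_hp_iff par c.2 hpu hpc).1 (by rw [← h]; exact I.hp_lim par c.2 hpu hpc)
  obtain ⟨x, hx⟩ := (infinite_of_lim hS (I.kp_lim par c.2 hpu hpc)).nonempty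
  have hx' : x ∈ Kp hS c.1 p' := h3 ▸ hx
  have hA := I.HH_near A c.1 h1
  have e1 : p ∈ Lim hS (HH S A) := (I.near_lim hA hpc).2 hp
  have e2 : p' ∈ Lim hS (HH S A)ᶜ := (I.near_lim_compl hA hpc').2 hp'
  exact (I.dich (I.HH_cut h1).2 hpu' hpc').1 ((hx' A h1 h2).1 ((hx A h1 h2).2 e1)) e2

end CIn

end Vale.Agent.P239.F
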