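import Vale.Agent.P239.F.C5

/-!
The wall at a centre has an infinite component.
-/

namespace Vale.Agent.P239.F

open Filter Topology Set
open Vale.Agent.P239
open scoped Pointwise
open E

variable {G : Type*} [Group G] {S : Finset G} {hS : Subgroup.closure (S : Set G) = ⊤}
  {T : Finset G}

/-- the component `N` of the complement of a connected set `U`: `N` and its complement are
connected -/
theorem comp_con (hS : Subgroup.closure (S : Set G) = ⊤) {U : Set G}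
    (hU : ∀ x ∈ U, ∀ y ∈ U, Con S U x y) {z : G} {p₀ : G} (hp₀ : p₀ ∈ U) {N : Set G}
    (hNdef : N = {w | Con S Uᶜ z w}) (hz : z ∉ U) :
    (∀ x ∈ N, ∀ y ∈ N, Con S N x y) ∧ (∀ x ∈ Nᶜ, ∀ y ∈ Nᶜ, Con S Nᶜ x y) ∧
      ∀ x ∈ N, ∀ y ∉ N, Adj S x y → y ∈ U ∧ x ∉ U := by
  have hNv : ∀ u ∈ N, u ∉ U := by
    intro u hu
    rw [hNdef] at hu
    exact Con.mem_of_left hu hz
  have hclosed : ∀ u ∈ N, ∀ u', Adj S u u' → u' ∉ U → u' ∈ N := by
    intro u hu u' hadj hu'
    have h1 := hNv u hu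
    rw [hNdef] at hu ⊢
    exact Relation.ReflTransGen.tail hu ⟨h1, hu', hadj⟩
  have hNN : ∀ u ∈ N, Con S N z u := by
    intro u hu
    have hu' : Con S Uᶜ z u := by rw [hNdef] at hu; exact hu
    clear hu
    induction hu' with
    | refl => exact Relation.ReflTransGen.refl
    | @tail b d hb hbd ih =>
      have hbN : b ∈ N := by rw [hNdef]; exact hb
      exact ih.tail ⟨hbN, hclosed b hbN d hbd.2.2 hbd.2.1, hbd.2.2⟩
  have hvN : U ⊆ Nᶜ := fun u hu hu' => hNv u hu' hu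
  have hto : ∀ u, u ∉ N → ∃ p ∈ U, Con S Nᶜ u p := by
    intro u
    refine Relation.ReflTransGen.head_induction_on
      (motive := fun u _ => u ∉ N → ∃ p ∈ U, Con S Nᶜ u p) (adj_path hS u p₀) ?_ ?_
    · intro _
      exact ⟨p₀, hp₀, Relation.ReflTransGen.refl⟩
    · intro a b hab _ ih ha
      by_cases hav : a ∈ U
      · exact ⟨a, hav, Relation.ReflTransGen.refl⟩
      · have hb : b ∉ N := fun hb => ha (hclosed b hb a hab.symm hav)
        obtain ⟨p, hp, hcon⟩ := ih hb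
        exact ⟨p, hp, Relation.ReflTransGen.head ⟨ha, hb, hab⟩ hcon⟩
  have hmono : ∀ {x y : G}, Con S U x y → Con S Nᶜ x y := by
    intro x y hxy
    exact Relation.ReflTransGen.mono (fun a b hab => ⟨hvN hab.1, hvN hab.2.1, hab.2.2⟩) _ _ hxy
  refine ⟨fun x hx y hy => (hNN x hx).symm.trans (hNN y hy), ?_, ?_⟩
  · intro x hx y hy
    obtain ⟨p, hp, hxp⟩ := hto x hx
    obtain ⟨q, hq, hyq⟩ := hto y hy
    exact (hxp.trans (hmono (hU p hp q hq))).trans hyq.symm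
  · intro x hx y hy hxy
    refine ⟨?_, hNv x hx⟩
    by_contra hyU
    exact hy (hclosed x hx y hxy hyU)

namespace CIn

variable (I : CIn hS T)

include I

/-- the inner boundary of an infinite set with infinite complement is infinite -/
theorem inner_infinite {N : Set G} (h1 : N.Infinite) (h2 : Nᶜ.Infinite) :
    {x | x ∈ N ∧ ∃ y, y ∉ N ∧ Adj S x y}.Infinite := by
  intro hfin
  have hfin2 : {y | ∃ x ∈ {x | x ∈ N ∧ ∃ y, y ∉ N ∧ Adj S x y}, Adj S x y}.Finite := by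
    refine (hfin.biUnion (t := fun x => (fun s => x * s) '' (S : Set G)) fun x _ =>
      S.finite_toSet.image _).subset ?_
    rintro y ⟨x, hx, hxy⟩
    exact Set.mem_biUnion hx ⟨x⁻¹ * y, I.adj_iff.1 hxy, by simp⟩
  have hbd : {x | ∃ y, Adj S x y ∧ ¬ (x ∈ N ↔ y ∈ N)}.Finite := by
    refine (hfin.union hfin2).subset ?_
    rintro x ⟨y, hxy, hne⟩
    by_cases hx : x ∈ N
    · exact Or.inl ⟨hx, y, fun hy => hne (iff_of_true hx hy), hxy⟩
    · have hy : y ∈ N := by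
        by_contra hy
        exact hne (iff_of_false hx hy)
      exact Or.inr ⟨y, ⟨hy, x, hx, hxy.symm⟩, hxy.symm⟩
  rcases I.hyp.oneEnd N hbd with h | h
  · exact h1 h
  · exact h2 h

/-- the vertices crossed at a centre have an infinite component -/
theorem wall_inf (par : ∀ c ∈ Cent hS, Conv hS (Vc hS S c) c) {c : G → G → ℝ}
    (hc : c ∈ Cent hS) : ∃ w, {z | Con S (Vc hS S c) w z}.Infinite := by
  obtain ⟨_, ⟨p, hp, hpc, rfl⟩, _, ⟨q, hq, hqc, rfl⟩, hne⟩ := (I.atomFam par).two ⟨c, hc⟩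
  change Hp hS c p ≠ Hp hS c q at hne
  have hdisj : Disjoint (Hp hS c p) (Hp hS c q) := (I.hp_eq_or_disj par p q hc).resolve_left hne
  obtain ⟨z, hz⟩ := I.hp_nonempty par hc hq hqc
  obtain ⟨p₀, hp₀⟩ := I.hp_nonempty par hc hp hpc
  have hzU : z ∉ Hp hS c p := fun h => Set.disjoint_left.1 hdisj h hz
  obtain ⟨hN, hN', hE⟩ := comp_con hS (fun x hx y hy => I.hp_conn par p hc hx hy) hp₀
    (N := {w | Con S (Hp hS c p)ᶜ z w}) rfl hzU
  set N : Set G := {w | Con S (Hp hS c p)ᶜ z w} with hNdef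
  have hqN : Hp hS c q ⊆ N := fun x hx =>
    Relation.ReflTransGen.mono (fun a b hab =>
      ⟨fun h => Set.disjoint_left.1 hdisj h hab.1, fun h => Set.disjoint_left.1 hdisj h hab.2.1,
        hab.2.2⟩) _ _ (I.hp_conn par q hc hz hx)
  have hpN : Hp hS c p ⊆ Nᶜ := fun x hx hx' => (Con.mem_of_left hx' hzU) hx
  have hinf := I.inner_infinite ((infinite_of_lim hS (I.hp_lim par hc hq hqc)).mono hqN)
    ((infinite_of_lim hS (I.hp_lim par hc hp hpc)).mono hpN)
  have hV : ∀ x ∈ N, ∀ y ∉ N, Adj S x y → x ∈ Vc hS S c ∧ y ∈ Vc hS S c := by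
    intro x hx y hy hxy
    obtain ⟨h1, h2⟩ := hE x hx y hy hxy
    have hsub := I.bd_HH_sub (I.kp_cut par p hc) (I.kp_nontriv par hc hp hpc)
    exact ⟨hsub ⟨y, hxy, fun h => h2 (h.2 h1)⟩, hsub ⟨x, hxy.symm, fun h => h2 (h.1 h1)⟩⟩
  obtain ⟨w, hw, y, hy, hwy⟩ := hinf.nonempty
  refine ⟨w, hinf.mono ?_⟩
  rintro w' ⟨hw', y', hy', hwy'⟩
  exact wall_con I.hyp.exS hN hN' hV hw hy hwy hw' hy' hwy'

end CIn

end Vale.Agent.P239.F
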