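import Vale.Agent.P239.F.C4Eq
import Vale.Agent.P239.F.BlkAbs2

/-!
C6: the block of an adjacent pair of centres.
-/

namespace Vale.Agent.P239.F

open Filter Topology Set
open Vale.Agent.P239
open scoped Pointwise
open E

variable {G : Type*} [Group G] {S : Finset G} (hS : Subgroup.closure (S : Set G) = ⊤)

theorem tr_eq_smul (g : G) (A : Set G) : tr g A = g • A := by
  ext x
  rw [mem_smul_set_iff_inv_smul_mem]
  rfl

/-- the canonical sets of the atoms at the centre `c` -/
def AtC (c : Cent hS) : Set (Set G) := {U | ∃ p ∈ Lim hS univ, p ≠ c.1 ∧ U = Hp hS c.1 p}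

variable {hS} {T : Finset G}

theorem con_of_gen {A : Set G} (hA : A = univ) (x y : G) (hS : Subgroup.closure (S : Set G) = ⊤) :
    Con S A x y := by
  subst hA
  induction adj_path hS x y with
  | refl => exact Relation.ReflTransGen.refl
  | tail _ h ih => exact ih.tail ⟨trivial, trivial, h⟩

theorem adj_mono {S T : Finset G} (hST : S ⊆ T) {x y : G} (h : Adj S x y) : Adj T x y := by
  obtain ⟨s, hs, h⟩ := h
  exact ⟨s, hST hs, h⟩

theorem con_mono {S T : Finset G} (hST : S ⊆ T) {A : Set G} {x y : G} (h : Con S A x y) :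
    Con T A x y :=
  Relation.ReflTransGen.mono (fun _ _ hab => ⟨hab.1, hab.2.1, adj_mono hST hab.2.2⟩) _ _ h

theorem bd_mono {S T : Finset G} (hST : S ⊆ T) (A : Set G) : bd S A ⊆ bd T A := by
  rintro x ⟨y, hxy, h⟩
  exact ⟨y, adj_mono hST hxy, h⟩

/-- change of scale -/
theorem AtomFam.mono {Q : Type*} {At : Q → Set (Set G)}
    (hS : Subgroup.closure (S : Set G) = ⊤) (hST : S ⊆ T) (h : AtomFam S At) : AtomFam T At where
  disj := h.disj
  ne := h.ne
  two := h.two
  fin := fun x y _ => h.finCross hS x y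
  conn := fun c U hU x hx y hy => con_mono hST (h.conn c U hU x hx y hy)
  nest := h.nest
  strict := h.strict

theorem closure_mono_top {S T : Finset G} (hS : Subgroup.closure (S : Set G) = ⊤) (hST : S ⊆ T) :
    Subgroup.closure (T : Set G) = ⊤ :=
  eq_top_iff.2 (hS ▸ Subgroup.closure_mono (by exact_mod_cast hST))

namespace CIn

variable (I : CIn hS T)

/-- the action on the centres -/
@[reducible] def mulAct : MulAction G (Cent hS) where
  smul g c := ⟨act g c.1, I.cent_smul g c.2⟩
  one_smul _ := Subtype.ext (act_one _)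
  mul_smul g h c := Subtype.ext (act_act g h c.1).symm

theorem atC_smul (g : G) (c : Cent hS) (U : Set G) (hU : U ∈ AtC hS c) :
    tr g U ∈ AtC hS ⟨act g c.1, I.cent_smul g c.2⟩ := by
  obtain ⟨p, hp, hne, rfl⟩ := hU
  refine ⟨act g p, I.mem_pt_smul g hp, fun h => hne (act_injective g h), ?_⟩
  rw [I.hp_smul, tr_eq_smul]

include I in
/-- an infinite subset converging to `β` has `β` as limit point -/
theorem lim_of_conv {A V : Set G} {β : G → G → ℝ} (hA : A.Infinite) (hAV : A ⊆ V)
    (hc : Conv hS A β) : β ∈ Lim hS V := by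
  obtain ⟨β', hβ'⟩ := I.lim_nonempty A hA
  rw [← I.eq_of_conv hc hβ']
  exact lim_mono hS hAV hβ'

/-- The block of an adjacent pair, at any scale `M` containing `S`. -/
theorem block_of {At : Cent hS → Set (Set G)} (hfam : AtomFam S At)
    (heq : ∀ g c, ∀ U ∈ At c, tr g U ∈ At ⟨act g c.1, I.cent_smul g c.2⟩)
    (hbi : ∀ c : Cent hS, ∀ U ∈ At c, (bd S U).Infinite)
    (hbc : ∀ c : Cent hS, ∀ U ∈ At c, Conv hS (bd S U) c.1)
    {M : Finset G} (hSM : S ⊆ M) (hex : H1Ex M) {a b : Cent hS} (hab : AdjQ At a b)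
    (hbl : ∀ U ⊆ Vv M (ori At a b), ∀ β, Conv hS (bdIn M (Vv M (ori At a b)) U) β →
        Conv hS U β ∨ Conv hS (Vv M (ori At a b) \ U) β) : Nonempty (Block hS) := by
  let _ := I.mulAct
  have hori := hfam.ori hS hab.1
  have hfamM := hfam.mono hS hSM
  obtain ⟨reps, hreps⟩ := block_cof hfamM (fun g c U hU => heq g c U hU) hori
  refine ⟨{ H := stab (ori At a b)
            V := Vv M (ori At a b)
            M := M
            reps := reps
            inv := fun h hh x hx => block_inv hh hx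
            cof := hreps
            conn := fun x hx y hy =>
              block_conn (closure_mono_top hS hSM) hex hfamM hori hx hy
            two := ⟨a.1, ?_, b.1, ?_, fun h => hab.1 (Subtype.ext h)⟩
            bl := hbl }⟩
  · exact I.lim_of_conv (hbi a _ (hfam.tow_mem hab.1))
      ((bd_mono hSM _).trans (bd_sub_left hfamM hab.1)) (hbc a _ (hfam.tow_mem hab.1))
  · exact I.lim_of_conv (hbi b _ (hfam.tow_mem (Ne.symm hab.1)))
      ((bd_mono hSM _).trans (bd_sub_right hfamM hab)) (hbc b _ (hfam.tow_mem (Ne.symm hab.1)))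

include I in
/-- If there are no nontrivial cuts the whole group is a block. -/
theorem block_top (hC : Cent hS = ∅) : Nonempty (Block hS) := by
  refine ⟨{ H := ⊤
            V := univ
            M := S
            reps := {1}
            inv := fun h _ x _ => trivial
            cof := fun x _ => ⟨x, trivial, 1, Finset.mem_singleton_self 1, (mul_one x).symm⟩
            conn := fun x _ y _ => con_of_gen rfl x y hS
            two := I.two
            bl := ?_ }⟩
  intro U _ β hβ
  have hbd : bdIn S univ U = bd S U := by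
    ext x
    simp [bdIn, bd]
  rw [hbd] at hβ
  rw [← compl_eq_univ_sdiff]
  by_cases hpt : β ∈ Lim hS univ
  · by_contra hcon
    push Not at hcon
    have : β ∈ Cent hS := ⟨U, ⟨hpt, hβ⟩, hcon⟩
    rw [hC] at this
    exact this
  · have hfin : (bd S U).Finite := by
      by_contra hinf
      obtain ⟨β', hβ'⟩ := I.lim_nonempty _ hinf
      rw [I.eq_of_conv hβ hβ'] at hβ'
      exact hpt (lim_univ hS hβ')
    rcases I.hyp.oneEnd U hfin with h | h
    · exact Or.inl (I.conv_of_lim fun β' h' => (lim_finite hS h h').elim)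
    · exact Or.inr (I.conv_of_lim fun β' h' => (lim_finite hS h h').elim)

/-- Existence of a block, from C5 and C7, at any scale `M`. -/
theorem exists_block_scale {At : Cent hS → Set (Set G)} (hfam : AtomFam S At)
    (heq : ∀ g c, ∀ U ∈ At c, tr g U ∈ At ⟨act g c.1, I.cent_smul g c.2⟩)
    (hbi : ∀ c : Cent hS, ∀ U ∈ At c, (bd S U).Infinite)
    (hbc : ∀ c : Cent hS, ∀ U ∈ At c, Conv hS (bd S U) c.1)
    {M : Finset G} (hSM : S ⊆ M) (hex : H1Ex M)
    (hbl : ∀ v, Ori At v → ∀ U ⊆ Vv M v, ∀ β,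
      Conv hS (bdIn M (Vv M v) U) β → Conv hS U β ∨ Conv hS (Vv M v \ U) β) :
    Nonempty (Block hS) := by
  rcases (Cent hS).eq_empty_or_nonempty with hC | ⟨a, ha⟩
  · exact I.block_top hC
  · obtain ⟨_, ⟨g, rfl⟩, hne⟩ := (I.orb a (I.cent_pt ha)).exists_notMem_finite
      (Set.finite_singleton a)
    have hne' : (⟨a, ha⟩ : Cent hS) ≠ ⟨act g a, I.cent_smul g ha⟩ := fun h =>
      hne (congrArg Subtype.val h).symm
    obtain ⟨b, hab, _⟩ := hfam.exists_adjQ hS hne'
    exact I.block_of hfam heq hbi hbc hSM hex hab (hbl _ (hfam.ori hS hab.1))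

/-- Existence of a block, from C5 and C7, at the scale `T`. -/
theorem exists_blockT {At : Cent hS → Set (Set G)} (hfam : AtomFam S At)
    (heq : ∀ g c, ∀ U ∈ At c, tr g U ∈ At ⟨act g c.1, I.cent_smul g c.2⟩)
    (hbi : ∀ c : Cent hS, ∀ U ∈ At c, (bd S U).Infinite)
    (hbc : ∀ c : Cent hS, ∀ U ∈ At c, Conv hS (bd S U) c.1)
    (hbl : ∀ v : Cent hS → Set G, Ori At v → ∀ U ⊆ Vv T v, ∀ β,
      Conv hS (bdIn T (Vv T v) U) β → Conv hS U β ∨ Conv hS (Vv T v \ U) β) :
    Nonempty (Block hS) :=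
  I.exists_block_scale hfam heq hbi hbc I.hyp.sub I.hyp.exT hbl

include I in
/-- Existence of a block, from C5 and C7, at the scale `S`. -/
theorem exists_block (hfam : AtomFam S (AtC hS))
    (hbi : ∀ c : Cent hS, ∀ U ∈ AtC hS c, (bd S U).Infinite)
    (hbc : ∀ c : Cent hS, ∀ U ∈ AtC hS c, Conv hS (bd S U) c.1)
    (hbl : ∀ v, Ori (AtC hS) v → ∀ U ⊆ Vv S v, ∀ β,
      Conv hS (bdIn S (Vv S v) U) β → Conv hS U β ∨ Conv hS (Vv S v \ U) β) :
    Nonempty (Block hS) :=
  I.exists_block_scale hfam I.atC_smul hbi hbc (Finset.Subset.refl S) I.hyp.exS hbl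

end CIn

end Vale.Agent.P239.F
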