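import Vale.Agent.P239.F.C6

/-!
C7, first part: walls of branches, branches leaving every finite set, mixed branches.
-/

namespace Vale.Agent.P239.F

set_option linter.unusedSectionVars false

open Filter Topology Set
open Vale.Agent.P239
open scoped Pointwise
open E

section Comb

variable {G : Type*} [Group G] {Q : Type*} {M : Finset G} {At : Q → Set (Set G)} {v : Q → Set G}

theorem IsBr.compl_conn (hM : Subgroup.closure (M : Set G) = ⊤) (h : AtomFam M At)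
    (hv : Ori At v) {c : Q} {N : Set G} (hN : IsBr M v c N) :
    ∀ x ∈ Nᶜ, ∀ y ∈ Nᶜ, Con M Nᶜ x y := by
  have hvN : v c ⊆ Nᶜ := fun u hu hu' => hN.notMem hu' hu
  obtain ⟨p₀, hp₀⟩ := h.ne c _ (hv.mem c)
  have hto : ∀ u, u ∉ N → ∃ p ∈ v c, Con M Nᶜ u p := by
    intro u
    refine Relation.ReflTransGen.head_induction_on
      (motive := fun u _ => u ∉ N → ∃ p ∈ v c, Con M Nᶜ u p) (adj_path hM u p₀) ?_ ?_
    · intro _
      exact ⟨p₀, hp₀, Relation.ReflTransGen.refl⟩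
    · intro a b hab _ ih ha
      by_cases hav : a ∈ v c
      · exact ⟨a, hav, Relation.ReflTransGen.refl⟩
      · have hb : b ∉ N := fun hb => ha (hN.mem_adj hb hab.symm hav)
        obtain ⟨p, hp, hcon⟩ := ih hb
        exact ⟨p, hp, Relation.ReflTransGen.head ⟨ha, hb, hab⟩ hcon⟩
  have hmono : ∀ {x y : G}, Con M (v c) x y → Con M Nᶜ x y := fun {x y} hxy =>
    Relation.ReflTransGen.mono (fun a b hab => ⟨hvN hab.1, hvN hab.2.1, hab.2.2⟩) _ _ hxy
  intro x hx y hy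
  obtain ⟨p, hp, hxp⟩ := hto x hx
  obtain ⟨q, hq, hyq⟩ := hto y hy
  exact (hxp.trans (hmono (h.conn c _ (hv.mem c) p hp q hq))).trans hyq.symm

theorem IsBr.wall_conn (hM : Subgroup.closure (M : Set G) = ⊤) (hex : H1Ex M)
    (h : AtomFam M At) (hv : Ori At v) {c : Q} {N : Set G} (hN : IsBr M v c N) {w w' : G}
    (hw : w ∈ N) (hwV : w ∈ Vv M v) (hw' : w' ∈ N) (hwV' : w' ∈ Vv M v) :
    Con M (bd M N) w w' := by
  obtain ⟨y, hy, hwy⟩ := hN.mem_V hw hwV
  obtain ⟨y', hy', hwy'⟩ := hN.mem_V hw' hwV'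
  refine wall_con hex (fun x hx y hy => hN.conn hx hy) (hN.compl_conn hM h hv) ?_ hw
    (fun h' => hN.notMem h' hy) hwy.1 hw' (fun h' => hN.notMem h' hy') hwy'.1
  intro x hx y hy hxy
  exact ⟨⟨y, hxy, fun h' => hy (h'.1 hx)⟩, ⟨x, hxy.symm, fun h' => hy (h'.2 hx)⟩⟩

theorem exists_cross {W U : Set G} {w w' : G} (h : Con M W w w') (hw : w ∈ U) (hw' : w' ∉ U) :
    ∃ p ∈ W, ∃ q ∈ W, Adj M p q ∧ p ∈ U ∧ q ∉ U := by
  induction h with
  | refl => exact absurd hw hw'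
  | @tail b d _ hbd ih =>
    by_cases hb : b ∈ U
    · exact ⟨b, hbd.1, d, hbd.2.1, hbd.2.2, hb, hw'⟩
    · exact ih hb

theorem IsBr.bd_sub (h : AtomFam M At) (hv : Ori At v) {c : Q} {N : Set G}
    (hN : IsBr M v c N) : bd M N ⊆ Vv M v := by
  rintro x ⟨y, hxy, hne⟩
  by_cases hx : x ∈ N
  · have hy : y ∉ N := fun hy => hne (iff_of_true hx hy)
    exact (hN.leave h hv hx hy hxy).2.left
  · have hy : y ∈ N := by
      by_contra hy
      exact hne (iff_of_false hx hy)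
    exact (hN.leave h hv hy hx hxy.symm).2.right

/-- the set `U` cuts the branch `N` -/
def Mixed (M : Finset G) (v : Q → Set G) (U N : Set G) : Prop :=
  (N ∩ Vv M v ∩ U).Nonempty ∧ ((N ∩ Vv M v) \ U).Nonempty

theorem IsBr.mixed_bd (hM : Subgroup.closure (M : Set G) = ⊤) (hex : H1Ex M)
    (h : AtomFam M At) (hv : Ori At v) {c : Q} {N U : Set G} (hN : IsBr M v c N)
    (hmix : Mixed M v U N) :
    ∃ z ∈ N ∩ Vv M v, ∃ p ∈ bdIn M (Vv M v) U, p = z ∨ Adj M z p := by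
  obtain ⟨⟨w, ⟨hw1, hw2⟩, hw3⟩, ⟨w', ⟨hw1', hw2'⟩, hw3'⟩⟩ := hmix
  obtain ⟨p, hp, q, hq, hpq, hpU, hqU⟩ :=
    exists_cross (hN.wall_conn hM hex h hv hw1 hw2 hw1' hw2') hw3 hw3'
  have hpV := hN.bd_sub h hv hp
  have hqV := hN.bd_sub h hv hq
  have hpb : p ∈ bdIn M (Vv M v) U := ⟨hpV, q, hqV, hpq, fun h' => hqU (h'.1 hpU)⟩
  by_cases hpN : p ∈ N
  · exact ⟨p, ⟨hpN, hpV⟩, p, hpb, Or.inl rfl⟩
  · obtain ⟨y, hpy, hne⟩ := hp
    have hy : y ∈ N := by
      by_contra hy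
      exact hne (iff_of_false hpN hy)
    exact ⟨y, ⟨hy, (hN.leave h hv hy hpN hpy.symm).2.left⟩, p, hpb, Or.inr hpy.symm⟩

/-- an edge not in the block lies in one branch -/
theorem exists_br_of_not_ev (h : AtomFam M At) (hv : Ori At v) {x y : G} (hxy : Adj M x y)
    (hE : ¬ Ev M v x y) : ∃ c N, IsBr M v c N ∧ x ∈ N ∧ y ∈ N := by
  obtain ⟨c₁, hc₁⟩ : ∃ c₁, x ∉ v c₁ ∧ y ∉ v c₁ := by
    by_contra hcon
    push Not at hcon
    exact hE ⟨hxy, fun c => or_iff_not_imp_left.2 (hcon c)⟩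
  obtain ⟨c, hc⟩ := exists_ex h hv hc₁.1
  exact ⟨c, _, ⟨x, hc, rfl⟩, Relation.ReflTransGen.refl, Relation.ReflTransGen.single
    ⟨hc.1, (hc.move h hv hc₁.1 hc₁.2).1, hxy⟩⟩

end Comb

section Ultra

variable {G : Type*} [Group G] {S T M : Finset G} {hS : Subgroup.closure (S : Set G) = ⊤}

/-- (NC) -/
def NC (hS : Subgroup.closure (S : Set G) = ⊤) : Prop :=
  ∀ (W : Ultrafilter G) (k : G → G) (c x : G → G → ℝ), c ∈ Cent hS → Tendsto k W cofinite →
    Tendsto (fun n => hb hS (k n)) W (𝓝 x) → Tendsto (fun n => act (k n) c) W (𝓝 x)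

theorem NC.gen (nc : NC hS) {ι : Type*} (W : Ultrafilter ι) (k : ι → G) {c x : G → G → ℝ}
    (hc : c ∈ Cent hS) (hk : Tendsto k W cofinite)
    (hx : Tendsto (fun n => hb hS (k n)) W (𝓝 x)) : Tendsto (fun n => act (k n) c) W (𝓝 x) := by
  have h1 : Tendsto (fun n => act (id n) c) (W.map k : Filter G) (𝓝 x) :=
    nc (W.map k) id c x hc (by rw [Ultrafilter.coe_map]; exact tendsto_map'_iff.2 hk)
      (by rw [Ultrafilter.coe_map]; exact tendsto_map'_iff.2 hx)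
  rw [Ultrafilter.coe_map] at h1
  exact tendsto_map'_iff.1 h1

theorem tendsto_cofinite_of {ι : Type*} (W : Ultrafilter ι) (k : ι → G)
    (h : ∀ g, ¬ ∀ᶠ i in (W : Filter ι), k i = g) : Tendsto k W cofinite := by
  rcases (W.map k).le_cofinite_or_eq_pure with h1 | ⟨a, ha⟩
  · exact h1
  · exfalso
    have h2 : ({a} : Set G) ∈ W.map k := by
      rw [ha]
      exact mem_singleton a
    exact h a h2

theorem not_const {ι : Type*} {W : Ultrafilter ι} {k : ι → G} (h : Tendsto k W cofinite) (g : G) :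
    ¬ ∀ᶠ i in (W : Filter ι), k i = g := by
  intro h1
  have h2 := h (Set.finite_singleton g).compl_mem_cofinite
  have h3 := (h1.and h2).exists
  obtain ⟨i, h4, h5⟩ := h3
  exact h5 h4

namespace CIn

variable (I : CIn hS T)

include I

theorem shiftG {ι : Type*} (W : Ultrafilter ι) (k : ι → G) {β : G → G → ℝ} (s : G)
    (hk : Tendsto k W cofinite) (h : Tendsto (fun n => hb hS (k n)) W (𝓝 β)) :
    Tendsto (fun n => hb hS (k n * s)) W (𝓝 β) := by
  have h1 : Tendsto (fun n => hb hS (id n * s)) (W.map k : Filter G) (𝓝 β) :=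
    I.shift (W.map k) id β s (by rw [Ultrafilter.coe_map]; exact tendsto_map'_iff.2 hk)
      (by rw [Ultrafilter.coe_map]; exact tendsto_map'_iff.2 h)
  rw [Ultrafilter.coe_map] at h1
  exact tendsto_map'_iff.1 h1

theorem exists_limG {ι : Type*} (W : Ultrafilter ι) (k : ι → G) :
    ∃ β, Tendsto (fun n => hb hS (k n)) W (𝓝 β) := by
  obtain ⟨β, hβ⟩ := I.exists_lim (W.map k) id
  rw [Ultrafilter.coe_map] at hβ
  exact ⟨β, tendsto_map'_iff.1 hβ⟩

/-- the bounded part of `k` can be removed -/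
theorem shiftF {ι : Type*} (W : Ultrafilter ι) (k l : ι → G) {β : G → G → ℝ} {F : Set G}
    (hF : F.Finite) (hk : Tendsto k W cofinite)
    (h : Tendsto (fun n => hb hS (k n)) W (𝓝 β))
    (hl : ∀ᶠ i in (W : Filter ι), (k i)⁻¹ * l i ∈ F) :
    Tendsto l W cofinite ∧ Tendsto (fun n => hb hS (l n)) W (𝓝 β) := by
  have h1 : ∀ᶠ i in (W : Filter ι), ∃ s ∈ F, (k i)⁻¹ * l i = s := by
    filter_upwards [hl] with i hi using ⟨_, hi, rfl⟩
  obtain ⟨s, _, hs⟩ := (Ultrafilter.eventually_exists_mem_iff hF).1 h1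
  have hs' : ∀ᶠ i in (W : Filter ι), k i * s = l i := by
    filter_upwards [hs] with i hi
    rw [← hi, mul_inv_cancel_left]
  exact ⟨((mul_left_injective s).tendsto_cofinite.comp hk).congr' hs',
    (I.shiftG W k s hk h).congr' (hs'.mono fun i hi => by rw [hi])⟩

variable {At : Cent hS → Set (Set G)} {v : Cent hS → Set G}

/-- centres of escaping branches have the same limit as points of the block in the branch -/
theorem br_center (nc : NC hS) (hfam : AtomFam M At)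
    (heq : ∀ g c, ∀ U ∈ At c, tr g U ∈ At ⟨act g c.1, I.cent_smul g c.2⟩) (hv : Ori At v)
    {ι : Type*} (W : Ultrafilter ι) {x : ι → G} {N : ι → Set G} {c : ι → Cent hS}
    (hN : ∀ᶠ i in (W : Filter ι), IsBr M v (c i) (N i))
    (hx : ∀ᶠ i in (W : Filter ι), x i ∈ N i ∧ x i ∈ Vv M v)
    (hnc : ∀ N₀, ¬ ∀ᶠ i in (W : Filter ι), N i = N₀) {q : G → G → ℝ}
    (hq : Tendsto (fun i => hb hS (x i)) W (𝓝 q)) : Tendsto (fun i => (c i).1) W (𝓝 q) := by
  let _ := I.mulAct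
  obtain ⟨reps, hreps⟩ := block_cof hfam (fun g c U hU => heq g c U hU) hv
  choose! g hg f hf hxf using hreps
  have h1 : ∀ᶠ i in (W : Filter ι), ∃ f₀ ∈ (reps : Set G), f (x i) = f₀ := by
    filter_upwards [hx] with i hi using ⟨_, hf _ hi.2, rfl⟩
  obtain ⟨f₀, _, hf1⟩ := (Ultrafilter.eventually_exists_mem_iff reps.finite_toSet).1 h1
  obtain ⟨c₀, N₀, hf0, hbr0⟩ : ∃ c₀ N₀, f₀ ∈ N₀ ∧ IsBr M v c₀ N₀ := by
    obtain ⟨i, hi1, hi2, hi3⟩ := (hN.and (hx.and hf1)).exists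
    refine ⟨_, _, ?_, hi1.act ((stab v).inv_mem (hg _ hi2.2))⟩
    rw [mem_tr, inv_inv, ← hi3, ← hxf _ hi2.2]
    exact hi2.1
  have hkey : ∀ᶠ i in (W : Filter ι), c i = g (x i) • c₀ ∧ N i = tr (g (x i)) N₀ := by
    filter_upwards [hN, hx, hf1] with i hi1 hi2 hi3
    refine hi1.unique hfam hv (hbr0.act (hg _ hi2.2)) hi2.1 ?_
    have h3 : (g (x i))⁻¹ * x i = f₀ :=
      inv_mul_eq_of_eq_mul (by rw [← hi3]; exact hxf _ hi2.2)
    rw [mem_tr, h3]
    exact hf0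
  have hk : Tendsto (fun i => g (x i)) W cofinite := by
    refine tendsto_cofinite_of W _ fun g₀ hg₀ => hnc (tr g₀ N₀) ?_
    filter_upwards [hkey, hg₀] with i hi1 hi2
    rw [hi1.2, hi2]
  have hxi : ∀ᶠ i in (W : Filter ι), x i = g (x i) * f₀ := by
    filter_upwards [hx, hf1] with i hi2 hi3
    rw [← hi3]
    exact hxf _ hi2.2
  have hlim : Tendsto (fun i => hb hS (g (x i))) W (𝓝 q) := by
    have h2 : Tendsto (fun i => g (x i) * f₀) W cofinite :=
      (mul_left_injective f₀).tendsto_cofinite.comp hk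
    have h3 : Tendsto (fun i => hb hS (g (x i) * f₀)) W (𝓝 q) :=
      hq.congr' (hxi.mono fun i hi => congrArg (hb hS) hi)
    refine (I.shiftG W _ f₀⁻¹ h2 h3).congr fun i => ?_
    rw [mul_inv_cancel_right]
  refine (nc.gen W _ c₀.2 hk hlim).congr' ?_
  filter_upwards [hkey] with i hi
  rw [hi.1]
  rfl

/-- (NULL) -/
theorem null (nc : NC hS) (hfam : AtomFam M At)
    (heq : ∀ g c, ∀ U ∈ At c, tr g U ∈ At ⟨act g c.1, I.cent_smul g c.2⟩) (hv : Ori At v)
    {ι : Type*} (W : Ultrafilter ι) {x x' : ι → G} {N : ι → Set G} {c : ι → Cent hS}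
    (hN : ∀ᶠ i in (W : Filter ι), IsBr M v (c i) (N i))
    (hx : ∀ᶠ i in (W : Filter ι), x i ∈ N i ∧ x i ∈ Vv M v)
    (hx' : ∀ᶠ i in (W : Filter ι), x' i ∈ N i ∧ x' i ∈ Vv M v)
    (hnc : ∀ N₀, ¬ ∀ᶠ i in (W : Filter ι), N i = N₀) {q : G → G → ℝ}
    (hq : Tendsto (fun i => hb hS (x i)) W (𝓝 q)) :
    Tendsto (fun i => hb hS (x' i)) W (𝓝 q) := by
  obtain ⟨q', hq'⟩ := I.exists_limG W x'
  have h1 := I.br_center nc hfam heq hv W hN hx hnc hq
  have h2 := I.br_center nc hfam heq hv W hN hx' hnc hq'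
  rw [tendsto_nhds_unique h1 h2]
  exact hq'

/-- (MIXED) limits of points in mixed branches -/
theorem mix_lim (nc : NC hS) (hM : Subgroup.closure (M : Set G) = ⊤) (hex : H1Ex M)
    (hfam : AtomFam M At)
    (heq : ∀ g c, ∀ U ∈ At c, tr g U ∈ At ⟨act g c.1, I.cent_smul g c.2⟩) (hv : Ori At v)
    {U : Set G} {β : G → G → ℝ} (hβ : Conv hS (bdIn M (Vv M v) U) β) {A : Set G}
    (hA : ∀ x ∈ A, x ∈ Vv M v ∧ ∃ c N, IsBr M v c N ∧ x ∈ N ∧ Mixed M v U N)
    {q : G → G → ℝ} (hq : q ∈ Lim hS A) :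
    q = β ∨ ∃ c N, IsBr M v c N ∧ q ∈ Lim hS (N ∩ A) := by
  classical
  obtain ⟨W, hW1, hWA, hWq⟩ := (mem_lim_iff hS).1 hq
  obtain ⟨x₁, hx₁⟩ := (infinite_of_lim hS hq).nonempty
  obtain ⟨c₁, _⟩ := (hA x₁ hx₁).2
  have : Nonempty (Cent hS) := ⟨c₁⟩
  choose! c N hN using fun x hx => (hA x hx).2
  by_cases hc : ∃ N₀, ∀ᶠ x in (W : Filter G), N x = N₀
  · right
    obtain ⟨N₀, hN₀⟩ := hc
    obtain ⟨x₀, hx₀, hx₀'⟩ := (hN₀.and (show ∀ᶠ x in (W : Filter G), x ∈ A from hWA)).exists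
    refine ⟨c x₀, N₀, hx₀ ▸ (hN x₀ hx₀').1, (mem_lim_iff hS).2 ⟨W, hW1, ?_, hWq⟩⟩
    filter_upwards [hN₀, hWA] with x hx hxA
    exact ⟨hx ▸ (hN x hxA).2.1, hxA⟩
  · left
    have hnc : ∀ N₀, ¬ ∀ᶠ x in (W : Filter G), N x = N₀ := fun N₀ h => hc ⟨N₀, h⟩
    have hz : ∀ x ∈ A, ∃ z ∈ N x ∩ Vv M v, ∃ p ∈ bdIn M (Vv M v) U, p = z ∨ Adj M z p :=
      fun x hx => (hN x hx).1.mixed_bd hM hex hfam hv (hN x hx).2.2
    choose! z hz p hp hzp using hz
    have hNW : ∀ᶠ x in (W : Filter G), IsBr M v (c x) (N x) := by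
      filter_upwards [hWA] with x hx using (hN x hx).1
    have hzlim : Tendsto (fun x => hb hS (z x)) W (𝓝 q) := by
      refine I.null nc hfam heq hv W (x := fun x => x) (N := N) (c := c) hNW ?_ ?_ hnc hWq
      · filter_upwards [hWA] with x hx using ⟨(hN x hx).2.1, (hA x hx).1⟩
      · filter_upwards [hWA] with x hx using hz x hx
    have hzcof : Tendsto z W cofinite := by
      refine tendsto_cofinite_of W _ fun g hg => ?_
      obtain ⟨x₀, hx₀, hx₀A⟩ := (hg.and (show ∀ᶠ x in (W : Filter G), x ∈ A from hWA)).exists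
      refine hnc (N x₀) ?_
      filter_upwards [hg, hWA] with x hx hxA
      have h1 := (hz x hxA).1
      have h2 := (hz x₀ hx₀A).1
      rw [hx] at h1
      rw [hx₀] at h2
      exact ((hN x hxA).1.unique hfam hv (hN x₀ hx₀A).1 h1 h2).2
    have hF : ({s : G | s = 1 ∨ Adj M 1 s}).Finite := by
      have h1 : ({s : G | Adj M 1 s}).Finite := by
        refine ((M.finite_toSet).union ((M.finite_toSet).image fun s => s⁻¹)).subset ?_
        rintro t ⟨s, hs, ht | ht⟩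
        · left; rw [ht, one_mul]; exact hs
        · right; exact ⟨s, hs, (eq_inv_of_mul_eq_one_left ht.symm).symm⟩
      exact (Set.finite_singleton (1 : G)).union h1
    obtain ⟨hp1, hp2⟩ := I.shiftF W z p hF hzcof hzlim (by
      filter_upwards [hWA] with x hx
      rcases hzp x hx with h | h
      · left; rw [h, inv_mul_cancel]
      · right
        have := adj_mul h (z x)⁻¹
        rwa [inv_mul_cancel] at this)
    refine I.eq_of_conv hβ (mem_lim_of hS W p hp1 ?_ hp2)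
    filter_upwards [hWA] with x hx using hp x hx

end CIn

end Ultra

end Vale.Agent.P239.F
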