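import Vale.Agent.P239.F.C4Cof
import Vale.Agent.P239.F.BlkAbs

/-!
Module C, C7: the block is not separated by any set whose boundary accumulates at one point.
Everything at scale `T`.
-/

namespace Vale.Agent.P239.F.K7

open Filter Topology Set
open Vale.Agent.P239 Vale.Agent.P239.F Vale.Agent.P239.F.E

variable {G : Type*} [Group G] {S : Finset G} {hS : Subgroup.closure (S : Set G) = ⊤}
  {T : Finset G}

/-! ### crossing at scale `T` and at scale `S` -/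

/-- A path of generators from `x` to `x * t` crosses every set separating the ends. -/
theorem cross_path (hgen : Subgroup.closure (S : Set G) = ⊤) (t : G) :
    ∃ F : Finset G, ∀ (x : G) (H : Set G), ¬ (x ∈ H ↔ x * t ∈ H) →
      ∃ w ∈ F, ∃ s ∈ S, ¬ (x * w ∈ H ↔ x * w * s ∈ H) := by
  classical
  have ht : t ∈ Subgroup.closure (S : Set G) := by rw [hgen]; trivial
  induction ht using Subgroup.closure_induction_right with
  | one => exact ⟨∅, fun x H h => (h (by rw [mul_one])).elim⟩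
  | mul_right t _ s hs ih =>
    obtain ⟨F, hF⟩ := ih
    refine ⟨insert t F, fun x H h => ?_⟩
    by_cases h1 : (x ∈ H ↔ x * t ∈ H)
    · refine ⟨t, Finset.mem_insert_self _ _, s, hs, fun h2 => h (h1.trans ?_)⟩
      rw [h2, mul_assoc]
    · obtain ⟨w, hw, s', hs', h2⟩ := hF x H h1
      exact ⟨w, Finset.mem_insert_of_mem hw, s', hs', h2⟩
  | mul_inv_cancel t _ s hs ih =>
    obtain ⟨F, hF⟩ := ih
    refine ⟨insert (t * s⁻¹) F, fun x H h => ?_⟩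
    by_cases h1 : (x ∈ H ↔ x * t ∈ H)
    · refine ⟨t * s⁻¹, Finset.mem_insert_self _ _, s, hs, fun h2 => h (h1.trans ?_)⟩
      rw [h2, mul_assoc x, inv_mul_cancel_right]
    · obtain ⟨w, hw, s', hs', h2⟩ := hF x H h1
      exact ⟨w, Finset.mem_insert_of_mem hw, s', hs', h2⟩

theorem adj_iff {M : Finset G} (hM : ∀ s ∈ M, s⁻¹ ∈ M) {x y : G} : Adj M x y ↔ x⁻¹ * y ∈ M := by
  constructor
  · rintro ⟨s, hs, h | h⟩
    · rw [h, inv_mul_cancel_left]; exact hs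
    · have : x⁻¹ * y = s⁻¹ := by rw [h]; group
      rw [this]; exact hM s hs
  · exact fun h => ⟨_, h, Or.inl (by rw [mul_inv_cancel_left])⟩

theorem mem_vc {M : Finset G} (hM : ∀ s ∈ M, s⁻¹ ∈ M) {c : G → G → ℝ} {A : Set G}
    (h1 : IsCut hS A c) (h2 : Nontriv hS A c) {x y : G} (hxy : Adj M x y)
    (h : ¬ (x ∈ HH S A ↔ y ∈ HH S A)) : x ∈ Vc hS M c := by
  by_cases hx : x ∈ HH S A
  · exact ⟨y, Or.inl ⟨(adj_iff hM).1 hxy, A, h1, h2, hx, fun hy => h (iff_of_true hx hy)⟩⟩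
  · refine ⟨y, Or.inr ⟨(adj_iff hM).1 hxy.symm, A, h1, h2, ?_, hx⟩⟩
    by_contra hy
    exact h (iff_of_false hx hy)

section cin

variable (I : CIn hS T)

include I

theorem vc_T_S : ∃ F : Finset G, ∀ c, ∀ x ∈ Vc hS T c, ∃ w ∈ F, x * w ∈ Vc hS S c := by
  classical
  choose F hF using fun t : G => cross_path I.hyp.gen t
  refine ⟨T.biUnion F, fun c x hx => ?_⟩
  obtain ⟨t, ht, A, h1, h2, h3⟩ : ∃ t ∈ T, ∃ A : Set G, IsCut hS A c ∧ Nontriv hS A c ∧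
      ¬ (x ∈ HH S A ↔ x * t ∈ HH S A) := by
    obtain ⟨y, ⟨h0, A, h1, h2, h3, h4⟩ | ⟨h0, A, h1, h2, h3, h4⟩⟩ := hx
    · exact ⟨x⁻¹ * y, h0, A, h1, h2, by rw [mul_inv_cancel_left]; exact fun h => h4 (h.1 h3)⟩
    · have h5 := I.hyp.symT _ h0
      rw [mul_inv_rev, inv_inv] at h5
      exact ⟨x⁻¹ * y, h5, A, h1, h2, by rw [mul_inv_cancel_left]; exact fun h => h4 (h.2 h3)⟩
  obtain ⟨w, hw, s, hs, h4⟩ := hF t x (HH S A) h3
  exact ⟨w, Finset.mem_biUnion.2 ⟨t, ht, hw⟩,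
    mem_vc I.hyp.symS h1 h2 ⟨s, hs, Or.inl rfl⟩ h4⟩

theorem vc_smul (g : G) {M : Finset G} {c : G → G → ℝ} {x : G} (h : x ∈ Vc hS M c) :
    g * x ∈ Vc hS M (act g c) := by
  obtain ⟨y, h | h⟩ := h
  · exact ⟨g * y, Or.inl (I.ec_smul g M h)⟩
  · exact ⟨g * y, Or.inr (I.ec_smul g M h)⟩

theorem fin_vcS (x : G) : {c | x ∈ Vc hS S c}.Finite := by
  have h1 : (⋃ s ∈ S, {c | (x, x * s) ∈ Ec hS S c}).Finite :=
    S.finite_toSet.biUnion fun s hs => I.fin _ _ (by rw [inv_mul_cancel_left]; exact hs)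
  have h2 : (⋃ s ∈ S, {c | (x * s⁻¹, x) ∈ Ec hS S c}).Finite :=
    S.finite_toSet.biUnion fun s hs => I.fin _ _ (by
      have : (x * s⁻¹)⁻¹ * x = s := by group
      rw [this]; exact hs)
  refine (h1.union h2).subset ?_
  rintro c ⟨y, h | h⟩
  · refine Or.inl (mem_iUnion₂.2 ⟨x⁻¹ * y, h.1, ?_⟩)
    rw [Set.mem_ofPred_eq, mul_inv_cancel_left]; exact h
  · refine Or.inr (mem_iUnion₂.2 ⟨y⁻¹ * x, h.1, ?_⟩)
    have : x * (y⁻¹ * x)⁻¹ = y := by group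
    rw [Set.mem_ofPred_eq, this]; exact h

theorem fin_vcT (x : G) : {c | x ∈ Vc hS T c}.Finite := by
  obtain ⟨F, hF⟩ := vc_T_S I
  refine (F.finite_toSet.biUnion fun w _ => fin_vcS I (x * w)).subset ?_
  intro c hc
  obtain ⟨w, hw, h⟩ := hF c x hc
  exact mem_iUnion₂.2 ⟨w, hw, h⟩

theorem par_T {c : G → G → ℝ} (h : Conv hS (Vc hS S c) c) : Conv hS (Vc hS T c) c := by
  obtain ⟨F, hF⟩ := vc_T_S I
  exact I.conv_shift F (fun x hx => hF c x hx) h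

/-- centres of crossed vertices have the same limit as the vertices -/
theorem cent_tendsto
    (nc : ∀ (W : Ultrafilter G) (k : G → G) (c x : G → G → ℝ), c ∈ Cent hS →
      Tendsto k W cofinite → Tendsto (fun n => hb hS (k n)) W (𝓝 x) →
      Tendsto (fun n => act (k n) c) W (𝓝 x))
    (W : Ultrafilter G) (x : G → G) (cc : G → G → G → ℝ)
    (hc : ∀ᶠ n in (W : Filter G), cc n ∈ Cent hS ∧ x n ∈ Vc hS T (cc n))
    (hx : Tendsto x W cofinite) {q : G → G → ℝ} (hq : Tendsto (fun n => hb hS (x n)) W (𝓝 q)) :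
    Tendsto cc W (𝓝 q) := by
  have h1 : ∀ᶠ n in (W : Filter G), ∃ c₀ ∈ {c | (1 : G) ∈ Vc hS T c},
      act (x n)⁻¹ (cc n) = c₀ := by
    filter_upwards [hc] with n hn
    refine ⟨_, ?_, rfl⟩
    have := vc_smul I (x n)⁻¹ hn.2
    rwa [inv_mul_cancel] at this
  obtain ⟨c₀, _, h2⟩ := (Ultrafilter.eventually_exists_mem_iff (f := W) (fin_vcT I 1)
    (P := fun c₀ n => act (x n)⁻¹ (cc n) = c₀)).1 h1
  obtain ⟨n, hn1, hn2⟩ := (hc.and h2).exists
  have hc₀ : c₀ ∈ Cent hS := by rw [← hn2]; exact I.cent_smul _ hn1.1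
  refine (nc W x c₀ q hc₀ hx hq).congr' ?_
  filter_upwards [h2] with m hm
  rw [← hm, act_act_inv]

end cin

/-! ### orientations at scale `T` -/

section ori

variable {Q : Type*} {At : Q → Set (Set G)} {v : Q → Set G}

theorem atomT (hgen : Subgroup.closure (S : Set G) = ⊤) (hST : S ⊆ T) (h : AtomFam S At) :
    AtomFam T At where
  disj := h.disj
  ne := h.ne
  two := h.two
  fin x y _ := h.finCross hgen x y
  conn c U hU x hx y hy := by
    refine Relation.ReflTransGen.mono ?_ _ _ (h.conn c U hU x hx y hy)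
    rintro a b ⟨h1, h2, s, hs, h3⟩
    exact ⟨h1, h2, s, hST hs, h3⟩
  nest := h.nest
  strict := h.strict

theorem ex_unique (h : AtomFam S At) (hv : Ori At v) {x : G} {c c' : Q} (h1 : Ex v x c)
    (h2 : Ex v x c') : c = c' := by
  by_contra hne
  refine h.strict c c' hne (v c) (hv.mem c) ?_
  rw [subset_antisymm (h1.2 c' h2.1) (h2.2 c h1.1)]
  exact hv.mem c'

/-- the branch rule: the branch of `x` belongs to the extended set -/
def Br (T : Finset G) (v : Q → Set G) (U : Set G) (x : G) (c : Q) : Prop :=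
  {u | Con T (v c)ᶜ x u ∧ u ∈ Vv T v ∧ u ∉ U}.Finite ∧ ∃ u, Con T (v c)ᶜ x u ∧ u ∈ Vv T v ∧ u ∈ U

/-- the extension of `U` to the whole group -/
def Ut (T : Finset G) (v : Q → Set G) (U : Set G) : Set G :=
  {x | ((∀ c, x ∈ v c) ∧ x ∈ U) ∨ ∃ c, Ex v x c ∧ Br T v U x c}

theorem ut_core {U : Set G} {x : G} (hx : ∀ c, x ∈ v c) : x ∈ Ut T v U ↔ x ∈ U := by
  constructor
  · rintro (h | ⟨c, h, _⟩)
    · exact h.2
    · exact (h.1 (hx c)).elim
  · exact fun h => Or.inl ⟨hx, h⟩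

theorem ut_ex (h : AtomFam S At) (hv : Ori At v) {U : Set G} {x : G} {c : Q} (hx : Ex v x c) :
    x ∈ Ut T v U ↔ Br T v U x c := by
  constructor
  · rintro (h1 | ⟨c', h1, h2⟩)
    · exact (hx.1 (h1.1 c)).elim
    · rw [ex_unique h hv hx h1]; exact h2
  · exact fun h1 => Or.inr ⟨c, hx, h1⟩

theorem con_not_mem {M : Finset G} {A : Set G} {x y : G} (hx : x ∈ A) (h : Con M A x y) : y ∈ A :=
  Con.mem_of_left h hx

theorem br_con {U : Set G} {x y : G} {c : Q} (h : Con T (v c)ᶜ x y) :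
    Br T v U x c ↔ Br T v U y c := by
  have key : ∀ u, Con T (v c)ᶜ x u ↔ Con T (v c)ᶜ y u := fun u =>
    ⟨fun h1 => h.symm.trans h1, fun h1 => h.trans h1⟩
  unfold Br
  simp only [key]

theorem ut_adj (h : AtomFam S At) (hv : Ori At v) {U : Set G} {x y : G} (hxy : Adj T x y) {c : Q}
    (hx : x ∉ v c) (hy : y ∉ v c) : x ∈ Ut T v U ↔ y ∈ Ut T v U := by
  obtain ⟨c', hc'⟩ := exists_ex h hv hx
  have hy' : Ex v y c' := hc'.move h hv hx hy
  rw [ut_ex h hv hc', ut_ex h hv hy']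
  exact br_con (Relation.ReflTransGen.single ⟨hc'.1, hy'.1, hxy⟩)

theorem ut_edge (h : AtomFam S At) (hv : Ori At v) {U : Set G} {x y : G} (hxy : Adj T x y)
    (hne : ¬ (x ∈ Ut T v U ↔ y ∈ Ut T v U)) : Ev T v x y := by
  refine ⟨hxy, fun c => ?_⟩
  by_contra hcon
  push Not at hcon
  exact hne (ut_adj h hv hxy hcon.1 hcon.2)

theorem path_cross {M : Finset G} {W U : Set G} {x y : G} (h : Con M W x y)
    (hne : ¬ (x ∈ U ↔ y ∈ U)) : ∃ a ∈ W, ∃ b ∈ W, Adj M a b ∧ ¬ (a ∈ U ↔ b ∈ U) := by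
  induction h with
  | refl => exact (hne Iff.rfl).elim
  | @tail b d _ hbd ih =>
    by_cases h1 : (x ∈ U ↔ b ∈ U)
    · exact ⟨b, hbd.1, d, hbd.2.1, hbd.2.2, fun h2 => hne (h1.trans h2)⟩
    · exact ih h1

/-- The wall of a branch is connected. -/
theorem branch_wall (hgen : Subgroup.closure (T : Set G) = ⊤) (hex : H1Ex T) (h : AtomFam T At)
    (hv : Ori At v) {z : G} {c : Q} (hz : Ex v z c) {w w' : G} (hw : Con T (v c)ᶜ z w)
    (hw' : Con T (v c)ᶜ z w') (hwV : w ∈ Vv T v) (hwV' : w' ∈ Vv T v) :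
    Con T {u | ∃ y, Adj T u y ∧ ¬ (u ∈ {u | Con T (v c)ᶜ z u} ↔ y ∈ {u | Con T (v c)ᶜ z u})}
      w w' := by
  let N : Set G := {u | Con T (v c)ᶜ z u}
  have hNv : ∀ u ∈ N, u ∉ v c := fun u hu => Con.mem_of_left hu hz.1
  have hclosed : ∀ u ∈ N, ∀ u', Adj T u u' → u' ∉ v c → u' ∈ N := fun u hu u' hadj hu' =>
    Relation.ReflTransGen.tail hu ⟨hNv u hu, hu', hadj⟩
  have hNN : ∀ u ∈ N, Con T N z u := by
    intro u hu
    induction hu with
    | refl => exact Relation.ReflTransGen.refl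
    | @tail b d hb hbd ih =>
      exact ih.tail ⟨hb, Relation.ReflTransGen.tail hb hbd, hbd.2.2⟩
  have hN : ∀ x ∈ N, ∀ y ∈ N, Con T N x y := fun x hx y hy => (hNN x hx).symm.trans (hNN y hy)
  have hvN : v c ⊆ Nᶜ := fun u hu hu' => hNv u hu' hu
  obtain ⟨p₀, hp₀⟩ := h.ne c _ (hv.mem c)
  have hto : ∀ u, u ∉ N → ∃ p ∈ v c, Con T Nᶜ u p := by
    intro u
    refine Relation.ReflTransGen.head_induction_on
      (motive := fun u _ => u ∉ N → ∃ p ∈ v c, Con T Nᶜ u p) (adj_path hgen u p₀) ?_ ?_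
    · intro _
      exact ⟨p₀, hp₀, Relation.ReflTransGen.refl⟩
    · intro a b hab _ ih ha
      by_cases hav : a ∈ v c
      · exact ⟨a, hav, Relation.ReflTransGen.refl⟩
      · have hb : b ∉ N := fun hb => ha (hclosed b hb a hab.symm hav)
        obtain ⟨p, hp, hcon⟩ := ih hb
        exact ⟨p, hp, Relation.ReflTransGen.head ⟨ha, hb, hab⟩ hcon⟩
  have hmono : ∀ {x y : G}, Con T (v c) x y → Con T Nᶜ x y := by
    intro x y hxy
    exact Relation.ReflTransGen.mono (fun a b hab => ⟨hvN hab.1, hvN hab.2.1, hab.2.2⟩) _ _ hxy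
  have hN' : ∀ x ∈ Nᶜ, ∀ y ∈ Nᶜ, Con T Nᶜ x y := by
    intro x hx y hy
    obtain ⟨p, hp, hxp⟩ := hto x hx
    obtain ⟨q, hq, hyq⟩ := hto y hy
    exact (hxp.trans (hmono (h.conn c _ (hv.mem c) p hp q hq))).trans hyq.symm
  have hV : ∀ x ∈ N, ∀ y ∉ N, Adj T x y →
      x ∈ {u | ∃ y, Adj T u y ∧ ¬ (u ∈ N ↔ y ∈ N)} ∧
      y ∈ {u | ∃ y, Adj T u y ∧ ¬ (u ∈ N ↔ y ∈ N)} := by
    intro x hx y hy hxy
    exact ⟨⟨y, hxy, fun h' => hy (h'.1 hx)⟩, ⟨x, hxy.symm, fun h' => hy (h'.2 hx)⟩⟩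
  obtain ⟨y, hy⟩ := hwV
  obtain ⟨y', hy'⟩ := hwV'
  have hyv : y ∈ v c := (hy.2 c).resolve_left (hNv w hw)
  have hyv' : y' ∈ v c := (hy'.2 c).resolve_left (hNv w' hw')
  exact wall_con hex hN hN' hV hw (hvN hyv) hy.1 hw' (hvN hyv') hy'.1

/-- Near a point of the block which is on the wrong side there is a boundary point of `U`. -/
theorem min_wall (hgen : Subgroup.closure (T : Set G) = ⊤) (hex : H1Ex T) (h : AtomFam T At)
    (hv : Ori At v) {U : Set G} {z : G} (hz : z ∈ Vv T v) (hne : ¬ (z ∈ U ↔ z ∈ Ut T v U)) :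
    ∃ c a n, Ex v z c ∧ a ∈ bdIn T (Vv T v) U ∧ (∃ y, Adj T a y ∧ ¬ (a ∈ v c ↔ y ∈ v c)) ∧
      (n = a ∨ Adj T a n) ∧ Con T (v c)ᶜ z n := by
  have h1 : ∃ c, z ∉ v c := by
    by_contra hcon
    push Not at hcon
    exact hne (ut_core hcon).symm
  obtain ⟨c₁, hc₁⟩ := h1
  obtain ⟨c, hc⟩ := exists_ex h hv hc₁
  rw [ut_ex h hv hc] at hne
  have h2 : ∃ z', Con T (v c)ᶜ z z' ∧ z' ∈ Vv T v ∧ ¬ (z ∈ U ↔ z' ∈ U) := by
    by_cases hzU : z ∈ U
    · have h3 : ¬ Br T v U z c := fun h3 => hne (iff_of_true hzU h3)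
      have h4 : ¬ {u | Con T (v c)ᶜ z u ∧ u ∈ Vv T v ∧ u ∉ U}.Finite := fun h4 =>
        h3 ⟨h4, z, Relation.ReflTransGen.refl, hz, hzU⟩
      obtain ⟨u, hu1, hu2, hu3⟩ := Set.Infinite.nonempty h4
      exact ⟨u, hu1, hu2, fun h5 => hu3 (h5.1 hzU)⟩
    · have h3 : Br T v U z c := by
        by_contra h3
        exact hne (iff_of_false hzU h3)
      obtain ⟨_, u, hu1, hu2, hu3⟩ := h3
      exact ⟨u, hu1, hu2, fun h5 => hzU (h5.2 hu3)⟩
  obtain ⟨z', hz1, hz2, hz3⟩ := h2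
  obtain ⟨a, ha, b, hb, hab, hne2⟩ := path_cross
    (branch_wall hgen hex h hv hc Relation.ReflTransGen.refl hz1 hz hz2) hz3
  have hNv : ∀ u, Con T (v c)ᶜ z u → u ∉ v c := fun u hu => Con.mem_of_left hu hc.1
  have hEx : ∀ u, Con T (v c)ᶜ z u → Ex v u c := fun u hu => hc.move h hv hc.1 (hNv u hu)
  have hclosed : ∀ u, Con T (v c)ᶜ z u → ∀ u', Adj T u u' → u' ∉ v c → Con T (v c)ᶜ z u' :=
    fun u hu u' hadj hu' => Relation.ReflTransGen.tail hu ⟨hNv u hu, hu', hadj⟩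
  have hW : ∀ u, (∃ y, Adj T u y ∧
      ¬ (u ∈ {u | Con T (v c)ᶜ z u} ↔ y ∈ {u | Con T (v c)ᶜ z u})) →
      u ∈ Vv T v ∧ ∃ y n, Adj T u y ∧ ¬ (u ∈ v c ↔ y ∈ v c) ∧ (n = u ∨ Adj T u n) ∧
        Con T (v c)ᶜ z n := by
    rintro u ⟨y, huy, hn⟩
    by_cases hu : Con T (v c)ᶜ z u
    · have hy : ¬ Con T (v c)ᶜ z y := fun hy => hn (iff_of_true hu hy)
      have hyv : y ∈ v c := by
        by_contra hyv
        exact hy (hclosed u hu y huy hyv)
      have he : Ev T v u y := ⟨huy, fun c' => (hEx u hu).wall hyv c'⟩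
      exact ⟨he.left, y, u, huy, fun h' => hNv u hu (h'.2 hyv), Or.inl rfl, hu⟩
    · have hy : Con T (v c)ᶜ z y := by
        by_contra hy
        exact hn (iff_of_false hu hy)
      have huv : u ∈ v c := by
        by_contra huv
        exact hu (hclosed y hy u huy.symm huv)
      have he : Ev T v y u := ⟨huy.symm, fun c' => (hEx y hy).wall huv c'⟩
      exact ⟨he.right, y, y, huy, fun h' => hNv y hy (h'.1 huv), Or.inr huy, hy⟩
  obtain ⟨haV, y, n, h5, h6, h7, h8⟩ := hW a ha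
  exact ⟨c, a, n, hc, ⟨haV, b, (hW b hb).1, hab, hne2⟩, ⟨y, h5, h6⟩, h7, h8⟩

end ori

/-! ### the block at a centre -/

/-- Everything used for the block. -/
structure BIn (hS : Subgroup.closure (S : Set G) = ⊤) (T : Finset G)
    (At : Cent hS → Set (Set G)) (v : Cent hS → Set G) : Prop where
  I : CIn hS T
  par : ∀ c ∈ Cent hS, Conv hS (Vc hS S c) c
  nc : ∀ (W : Ultrafilter G) (k : G → G) (c x : G → G → ℝ), c ∈ Cent hS →
    Tendsto k W cofinite → Tendsto (fun n => hb hS (k n)) W (𝓝 x) →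
    Tendsto (fun n => act (k n) c) W (𝓝 x)
  hAt : AtomFam S At
  hcut : ∀ c, ∀ U ∈ At c, ∃ A, IsCut hS A c ∧ Nontriv hS A c ∧ U = HH S A
  one : ∀ c, ∀ U ∈ At c, ∀ C ⊆ U, {x | x ∈ C ∧ ∃ y ∈ U \ C, Adj S x y}.Finite →
    C.Finite ∨ (U \ C).Finite
  sep : ∀ (c : Cent hS) (A : Set G), IsCut hS A c → Nontriv hS A c →
    ∀ p ∈ Lim hS A, p ≠ c → ∀ p' ∈ Lim hS Aᶜ, p' ≠ c →
    ∃ U ∈ At c, ∃ U' ∈ At c, U ≠ U' ∧ p ∉ Lim hS Uᶜ ∧ p' ∉ Lim hS U'ᶜ
  hv : Ori At v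

/-- the vertices of the block on the wrong side -/
def Mn (T : Finset G) {Q : Type*} (v : Q → Set G) (U : Set G) : Set G :=
  {z | z ∈ Vv T v ∧ ¬ (z ∈ U ↔ z ∈ Ut T v U)}

section main

variable {At : Cent hS → Set (Set G)} {v : Cent hS → Set G} (B : BIn hS T At v)

include B

theorem BIn.genT : Subgroup.closure (T : Set G) = ⊤ := by
  rw [eq_top_iff, ← B.I.hyp.gen]
  exact Subgroup.closure_mono (Finset.coe_subset.2 B.I.hyp.sub)

theorem BIn.atT : AtomFam T At := atomT B.I.hyp.gen B.I.hyp.sub B.hAt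

theorem BIn.oneT : (1 : G) ∈ T := B.I.hyp.sub B.I.hyp.oneS

theorem BIn.vc_of_cross {M : Finset G} (hM : ∀ s ∈ M, s⁻¹ ∈ M) (c : Cent hS) {x y : G}
    (hxy : Adj M x y) (h : ¬ (x ∈ v c ↔ y ∈ v c)) : x ∈ Vc hS M c := by
  obtain ⟨A, h1, h2, h3⟩ := B.hcut c (v c) (B.hv.mem c)
  rw [h3] at h
  exact mem_vc hM h1 h2 hxy h

theorem BIn.vc_of_Vv {c : Cent hS} {x : G} (hx : x ∈ Vv T v) (hxc : x ∉ v c) :
    x ∈ Vc hS T c := by
  obtain ⟨y, hy⟩ := hx
  exact B.vc_of_cross B.I.hyp.symT c hy.1 fun h => hxc (h.2 ((hy.2 c).resolve_left hxc))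

theorem BIn.parT (c : Cent hS) : Conv hS (Vc hS T c) c := par_T B.I (B.par c c.2)

theorem BIn.adjT {x y : G} (h : Adj S x y) : Adj T x y := by
  obtain ⟨s, hs, h⟩ := h
  exact ⟨s, B.I.hyp.sub hs, h⟩

/-- limit points of neighbourhoods of a set -/
theorem BIn.lim_nbr {A C : Set G} (h : ∀ x ∈ A, ∃ y ∈ C, Adj T x y) {q : G → G → ℝ}
    (hq : q ∈ Lim hS A) : q ∈ Lim hS C := by
  refine B.I.lim_shift T (fun x hx => ?_) hq
  obtain ⟨y, hy, hxy⟩ := h x hx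
  refine ⟨x⁻¹ * y, (adj_iff B.I.hyp.symT).1 hxy, ?_⟩
  rw [mul_inv_cancel_left]; exact hy

/-- Limit points of sets of wrong vertices. -/
theorem BIn.min_lim {U : Set G} {β : G → G → ℝ} (hβ : Conv hS (bdIn T (Vv T v) U) β)
    {A : Set G} (hA : A ⊆ Mn T v U) {q : G → G → ℝ} (hq : q ∈ Lim hS A) (hne : q ≠ β) :
    ∃ c : Cent hS, (c : G → G → ℝ) = q ∧ ∃ n₀, n₀ ∉ v c ∧
      q ∈ Lim hS {z | z ∈ A ∧ Ex v z c ∧ Con T (v c)ᶜ z n₀} := by
  classical
  obtain ⟨W, hW1, hW2, hW3⟩ := (mem_lim_iff hS).1 hq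
  have hex : ∀ z : G, ∃ (c : Cent hS) (a n : G), z ∈ A → Ex v z c ∧ a ∈ bdIn T (Vv T v) U ∧
      a ∈ Vc hS T c ∧ (n = a ∨ Adj T a n) ∧ Con T (v c)ᶜ z n := by
    intro z
    by_cases hz : z ∈ A
    · obtain ⟨c, a, n, h1, h2, ⟨y, h3, h4⟩, h5, h6⟩ := min_wall B.genT B.I.hyp.exT B.atT B.hv
        (hA hz).1 (hA hz).2
      exact ⟨c, a, n, fun _ => ⟨h1, h2, B.vc_of_cross B.I.hyp.symT c h3 h4, h5, h6⟩⟩
    · obtain ⟨z', hz'⟩ := (infinite_of_lim hS hq).nonempty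
      obtain ⟨c, a, n, _⟩ := min_wall B.genT B.I.hyp.exT B.atT B.hv (hA hz').1 (hA hz').2
      exact ⟨c, a, n, fun h => absurd h hz⟩
  choose c a n hcan using hex
  have hid : Tendsto (fun z : G => z) (W : Filter G) cofinite := hW1
  have hzV : ∀ z ∈ A, z ∈ Vc hS T (c z) := fun z hz =>
    B.vc_of_Vv (hA hz).1 (hcan z hz).1.1
  rcases (W.map a).le_cofinite_or_eq_pure with h1 | ⟨a₀, h1⟩
  · exfalso
    obtain ⟨q', hq'⟩ := B.I.exists_lim W a
    have h2 : q' ∈ Lim hS (bdIn T (Vv T v) U) := mem_lim_of hS W a h1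
      (by filter_upwards [hW2] with z hz using (hcan z hz).2.1) hq'
    have h3 : q' = β := B.I.eq_of_conv hβ h2
    have h4 := cent_tendsto B.I B.nc W a (fun z => (c z : G → G → ℝ))
      (by filter_upwards [hW2] with z hz using ⟨(c z).2, (hcan z hz).2.2.1⟩) h1 hq'
    have h5 := cent_tendsto B.I B.nc W (fun z => z) (fun z => (c z : G → G → ℝ))
      (by filter_upwards [hW2] with z hz using ⟨(c z).2, hzV z hz⟩) hid hW3
    exact hne ((tendsto_nhds_unique h5 h4).trans h3)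
  · have h2 : ∀ᶠ z in (W : Filter G), a z = a₀ := by
      have : {a₀} ∈ W.map a := by rw [h1]; exact Ultrafilter.mem_pure.2 rfl
      exact Ultrafilter.mem_map.1 this
    have h3 : ∀ᶠ z in (W : Filter G), ∃ c₀ ∈ {c | a₀ ∈ Vc hS T c}, (c z : G → G → ℝ) = c₀ := by
      filter_upwards [hW2, h2] with z hz hz2
      refine ⟨_, ?_, rfl⟩
      have := (hcan z hz).2.2.1
      rwa [hz2] at this
    obtain ⟨c₀, _, h4⟩ := (Ultrafilter.eventually_exists_mem_iff (f := W) (fin_vcT B.I a₀)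
      (P := fun c₀ z => (c z : G → G → ℝ) = c₀)).1 h3
    obtain ⟨z₀, hz₀⟩ := h4.exists
    have hfin : {n | n = a₀ ∨ Adj T a₀ n}.Finite := by
      refine ((finite_singleton a₀).union ((T.finite_toSet).image fun t => a₀ * t)).subset ?_
      rintro n (h | h)
      · exact Or.inl h
      · refine Or.inr ⟨a₀⁻¹ * n, (adj_iff B.I.hyp.symT).1 h, ?_⟩
        simp
    have h5 : ∀ᶠ z in (W : Filter G), ∃ n₀ ∈ {n | n = a₀ ∨ Adj T a₀ n}, n z = n₀ := by
      filter_upwards [hW2, h2] with z hz hz2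
      refine ⟨_, ?_, rfl⟩
      have := (hcan z hz).2.2.2.1
      rwa [hz2] at this
    obtain ⟨n₀, _, h6⟩ := (Ultrafilter.eventually_exists_mem_iff (f := W) hfin
      (P := fun n₀ z => n z = n₀)).1 h5
    have h7 : ∀ᶠ z in (W : Filter G), c z = c z₀ := by
      filter_upwards [h4] with z hz
      exact Subtype.ext (hz.trans hz₀.symm)
    have h8 : {z | z ∈ A ∧ Ex v z (c z₀) ∧ Con T (v (c z₀))ᶜ z n₀} ∈ W := by
      filter_upwards [hW2, h7, h6] with z hz hz2 hz3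
      have := hcan z hz
      rw [hz2, hz3] at this
      exact ⟨hz, this.1, this.2.2.2.2⟩
    have h9 : q ∈ Lim hS {z | z ∈ A ∧ Ex v z (c z₀) ∧ Con T (v (c z₀))ᶜ z n₀} :=
      (mem_lim_iff hS).2 ⟨W, hW1, h8, hW3⟩
    refine ⟨c z₀, ?_, n₀, ?_, h9⟩
    · have h10 : q ∈ Lim hS (Vc hS T (c z₀)) := by
        refine lim_mono hS ?_ h9
        rintro z ⟨hz, hz2, _⟩
        exact B.vc_of_Vv (hA hz).1 hz2.1
      exact (B.I.eq_of_conv (B.parT (c z₀)) h10).symm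
    · obtain ⟨z, hz, hz2, hz3⟩ := (infinite_of_lim hS h9).nonempty
      exact Con.mem_of_left hz3 hz2.1

/-- The wrong vertices on the side of the block do not accumulate at `c`. -/
theorem BIn.min_side {U : Set G} {β : G → G → ℝ} (hβ : Conv hS (bdIn T (Vv T v) U) β)
    (c : Cent hS) (hne : (c : G → G → ℝ) ≠ β) :
    (c : G → G → ℝ) ∉ Lim hS {z | z ∈ Mn T v U ∧ z ∈ v c} := by
  intro h
  obtain ⟨c', h1, n₀, _, h3⟩ := B.min_lim hβ (A := {z | z ∈ Mn T v U ∧ z ∈ v c})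
    (fun z hz => hz.1) h hne
  have h4 : c' = c := Subtype.ext h1
  subst h4
  obtain ⟨z, hz, hz2, _⟩ := (infinite_of_lim hS h3).nonempty
  exact hz2.1 hz.2

/-- Edges on the side of the block crossing the extended set do not accumulate at `c`. -/
theorem BIn.cross_side {U : Set G} {β : G → G → ℝ}
    (hβ : Conv hS (bdIn T (Vv T v) U) β) (c : Cent hS) (hne : (c : G → G → ℝ) ≠ β) :
    (c : G → G → ℝ) ∉ Lim hS
      {x | x ∈ v c ∧ ∃ y ∈ v c, Adj T x y ∧ ¬ (x ∈ Ut T v U ↔ y ∈ Ut T v U)} := by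
  intro h
  have h1 : {x | x ∈ v c ∧ ∃ y ∈ v c, Adj T x y ∧ ¬ (x ∈ Ut T v U ↔ y ∈ Ut T v U)} ⊆
      bdIn T (Vv T v) U ∪ ({z | z ∈ Mn T v U ∧ z ∈ v c} ∪
        {x | ∃ y ∈ {z | z ∈ Mn T v U ∧ z ∈ v c}, Adj T x y}) := by
    rintro x ⟨hx, y, hy, hxy, hn⟩
    have he := ut_edge B.hAt B.hv hxy hn
    by_cases h2 : (x ∈ U ↔ x ∈ Ut T v U)
    · by_cases h3 : (y ∈ U ↔ y ∈ Ut T v U)
      · exact Or.inl ⟨he.left, y, he.right, hxy, fun h4 => hn (h2.symm.trans (h4.trans h3))⟩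
      · exact Or.inr (Or.inr ⟨y, ⟨⟨he.right, h3⟩, hy⟩, hxy⟩)
    · exact Or.inr (Or.inl ⟨⟨he.left, h2⟩, hx⟩)
  rcases lim_union hS (lim_mono hS h1 h) with h2 | h2
  · exact hne (B.I.eq_of_conv hβ h2)
  · rcases lim_union hS h2 with h3 | h3
    · exact B.min_side hβ c hne h3
    · exact B.min_side hβ c hne (B.lim_nbr (fun x hx => hx) h3)

/-- On the outer side of `c` the set `U` is finite or cofinite in the block. -/
theorem BIn.no_split {U : Set G} {β : G → G → ℝ} (hβ : Conv hS (bdIn T (Vv T v) U) β)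
    (c : Cent hS) (hne : (c : G → G → ℝ) ≠ β) :
    {x | x ∈ Vv T v ∧ x ∉ v c ∧ x ∈ U}.Finite ∨ {x | x ∈ Vv T v ∧ x ∉ v c ∧ x ∉ U}.Finite := by
  classical
  have z2 : ∀ k : ZMod 2, k = 0 ∨ k = 1 := by decide
  let iU : G → ZMod 2 := fun x => if x ∈ Ut T v U then 1 else 0
  let iH : G → ZMod 2 := fun x => if x ∈ v c then 1 else 0
  have hiH1 : ∀ {x}, x ∈ v c → iH x = 1 := fun hx => if_pos hx
  have hiH0 : ∀ {x}, x ∉ v c → iH x = 0 := fun hx => if_neg hx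
  have hiU : ∀ {x y}, (x ∈ Ut T v U ↔ y ∈ Ut T v U) → iU x = iU y := by
    intro x y h
    simp only [iU, h]
  have hiU' : ∀ {x y}, iU x + iU y ≠ 0 → ¬ (x ∈ Ut T v U ↔ y ∈ Ut T v U) := by
    intro x y h h2
    rw [hiU h2] at h
    exact h (CharTwo.add_self_eq_zero _)
  let α : G → G → ZMod 2 := fun x y => (iU x + iU y) * (iH x + iH y)
  have hcr := B.cross_side hβ c hne
  set X : Set G := {x | x ∈ v c ∧ ∃ y ∈ v c, Adj T x y ∧ ¬ (x ∈ Ut T v U ↔ y ∈ Ut T v U)} with hX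
  let K : Set G := Vc hS T c ∩ X
  have hK : K.Finite := by
    by_contra hinf
    obtain ⟨q, hq⟩ := B.I.lim_nonempty K hinf
    have h1 : q = c := B.I.eq_of_conv (B.parT c) (lim_mono hS inter_subset_left hq)
    rw [h1] at hq
    exact hcr (lim_mono hS inter_subset_right hq)
  -- the key computation
  have key1 : ∀ {x y z : G}, x ∈ v c → y ∈ v c → z ∉ v c → Adj T x y → Adj T x z →
      iU x + iU y ≠ 0 → x ∈ K := by
    intro x y z hx hy hz hxy hxz hn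
    exact ⟨B.vc_of_cross B.I.hyp.symT c hxz fun h => hz (h.1 hx), hx, y, hy, hxy, hiU' hn⟩
  have key2 : ∀ {y z : G}, y ∉ v c → z ∉ v c → Adj T y z → iU y = iU z := fun hy hz hyz =>
    hiU (ut_adj B.hAt B.hv hyz hy hz)
  have key : ∀ {x y z : G}, Adj T x y → Adj T y z → Adj T x z → α x y + α y z + α x z ≠ 0 →
      x ∈ K ∨ y ∈ K ∨ z ∈ K := by
    intro x y z hxy hyz hxz hn
    simp only [α] at hn
    by_cases hx : x ∈ v c <;> by_cases hy : y ∈ v c <;> by_cases hz : z ∈ v c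
    · rw [hiH1 hx, hiH1 hy, hiH1 hz] at hn
      exact absurd ((by decide : ∀ a b d : ZMod 2,
        (a + b) * (1 + 1) + (b + d) * (1 + 1) + (a + d) * (1 + 1) = 0) _ _ _) hn
    · rw [hiH1 hx, hiH1 hy, hiH0 hz] at hn
      refine Or.inl (key1 hx hy hz hxy hxz ?_)
      intro h0
      exact hn ((by decide : ∀ a b d : ZMod 2, a + b = 0 →
        (a + b) * (1 + 1) + (b + d) * (1 + 0) + (a + d) * (1 + 0) = 0) _ _ _ h0)
    · rw [hiH1 hx, hiH0 hy, hiH1 hz] at hn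
      refine Or.inl (key1 hx hz hy hxz hxy ?_)
      intro h0
      exact hn ((by decide : ∀ a b d : ZMod 2, a + d = 0 →
        (a + b) * (1 + 0) + (b + d) * (0 + 1) + (a + d) * (1 + 1) = 0) _ _ _ h0)
    · rw [hiH1 hx, hiH0 hy, hiH0 hz] at hn
      exact absurd ((by decide : ∀ a b d : ZMod 2, b = d →
        (a + b) * (1 + 0) + (b + d) * (0 + 0) + (a + d) * (1 + 0) = 0) _ _ _
          (key2 hy hz hyz)) hn
    · rw [hiH0 hx, hiH1 hy, hiH1 hz] at hn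
      refine Or.inr (Or.inl (key1 hy hz hx hyz hxy.symm ?_))
      intro h0
      exact hn ((by decide : ∀ a b d : ZMod 2, b + d = 0 →
        (a + b) * (0 + 1) + (b + d) * (1 + 1) + (a + d) * (0 + 1) = 0) _ _ _ h0)
    · rw [hiH0 hx, hiH1 hy, hiH0 hz] at hn
      exact absurd ((by decide : ∀ a b d : ZMod 2, a = d →
        (a + b) * (0 + 1) + (b + d) * (1 + 0) + (a + d) * (0 + 0) = 0) _ _ _
          (key2 hx hz hxz)) hn
    · rw [hiH0 hx, hiH0 hy, hiH1 hz] at hn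
      exact absurd ((by decide : ∀ a b d : ZMod 2, a = b →
        (a + b) * (0 + 0) + (b + d) * (0 + 1) + (a + d) * (0 + 1) = 0) _ _ _
          (key2 hx hy hxy)) hn
    · rw [hiH0 hx, hiH0 hy, hiH0 hz] at hn
      exact absurd ((by decide : ∀ a b d : ZMod 2,
        (a + b) * (0 + 0) + (b + d) * (0 + 0) + (a + d) * (0 + 0) = 0) _ _ _) hn
  have hT : ∀ {x y : G}, x⁻¹ * y ∈ T ↔ Adj T x y := fun {x y} => (adj_iff B.I.hyp.symT).symm
  have hTrefl : ∀ x : G, Adj T x x := fun x => ⟨1, B.oneT, Or.inl (by rw [mul_one])⟩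
  let b : G → G → G → ZMod 2 := fun x y z =>
    if x⁻¹ * y ∈ T ∧ y⁻¹ * z ∈ T ∧ x⁻¹ * z ∈ T then α x y + α y z + α x z else 0
  have hbfin : {p : G × G × G | b p.1 p.2.1 p.2.2 ≠ 0}.Finite := by
    have hnb : ∀ u : G, {w | Adj T u w}.Finite := by
      intro u
      refine ((T.finite_toSet).image fun t => u * t).subset ?_
      intro w hw
      exact ⟨u⁻¹ * w, hT.2 hw, by simp⟩
    refine (hK.biUnion fun u _ => (hnb u).prod ((hnb u).prod (hnb u))).subset ?_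
    rintro ⟨x, y, z⟩ hp
    change b x y z ≠ 0 at hp
    by_cases hc : x⁻¹ * y ∈ T ∧ y⁻¹ * z ∈ T ∧ x⁻¹ * z ∈ T
    · simp only [b, if_pos hc] at hp
      obtain ⟨h1, h2, h3⟩ := hc
      rw [hT] at h1 h2 h3
      rcases key h1 h2 h3 hp with h | h | h
      · exact mem_iUnion₂.2 ⟨x, h, hTrefl x, h1, h3⟩
      · exact mem_iUnion₂.2 ⟨y, h, h1.symm, hTrefl y, h2⟩
      · exact mem_iUnion₂.2 ⟨z, h, h3.symm, h2.symm, hTrefl z⟩
    · simp only [b, if_neg hc] at hp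
      exact (hp rfl).elim
  obtain ⟨c₂, hc₂, hfill⟩ := B.I.hyp.fill b hbfin (by
    intro x y z w h1 h2 h3 h4 h5 h6
    simp only [b]
    rw [if_pos ⟨h4, h6, h5⟩, if_pos ⟨h2, h6, h3⟩, if_pos ⟨h1, h5, h3⟩, if_pos ⟨h1, h4, h2⟩]
    exact (by decide : ∀ a1 a2 a3 a4 a5 a6 : ZMod 2, a4 + a6 + a5 + (a2 + a6 + a3) +
      (a1 + a5 + a3) + (a1 + a4 + a2) = 0) (α x y) (α x z) (α x w) (α y z) (α y w) (α z w))
  have hST := B.I.hyp.sub
  obtain ⟨f, hf⟩ := B.I.hyp.exS (fun x y => α x y + c₂ x y) (by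
    intro x y z h1 h2 h3
    have h4 := hfill x y z h1 h2 h3
    simp only [b] at h4
    rw [if_pos ⟨hST h1, hST h2, hST h3⟩] at h4
    exact (by decide : ∀ a1 a2 a3 b1 b2 b3 : ZMod 2, a1 + a2 + a3 = b1 + b2 + b3 →
      (a1 + b1) + (a2 + b2) = a3 + b3) _ _ _ _ _ _ h4)
  have hP : (Prod.fst '' {p : G × G | c₂ p.1 p.2 ≠ 0}).Finite := hc₂.image _
  have hSadj : ∀ {x y : G}, Adj S x y → x⁻¹ * y ∈ S := fun h => (adj_iff B.I.hyp.symS).1 h
  -- `f` is constant on the side of the block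
  obtain ⟨κ₁, hκ₁⟩ : ∃ κ₁ : ZMod 2, {x | x ∈ v c ∧ f x ≠ κ₁}.Finite := by
    have h1 : {x | x ∈ {x | x ∈ v c ∧ f x = 1} ∧ ∃ y ∈ v c \ {x | x ∈ v c ∧ f x = 1},
        Adj S x y}.Finite := by
      refine hP.subset ?_
      rintro x ⟨⟨hx, hfx⟩, y, ⟨hy, hfy⟩, hxy⟩
      refine ⟨(x, y), ?_, rfl⟩
      change c₂ x y ≠ 0
      have h2 := hf x y (hSadj hxy)
      simp only [α] at h2
      rw [hiH1 hx, hiH1 hy, hfx] at h2
      have h3 : f y ≠ 1 := fun h => hfy ⟨hy, h⟩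
      exact (by decide : ∀ a b d e : ZMod 2, (a + b) * (1 + 1) + d = 1 + e → e ≠ 1 → d ≠ 0)
        _ _ _ _ h2 h3
    rcases B.one c (v c) (B.hv.mem c) {x | x ∈ v c ∧ f x = 1} (fun x hx => hx.1) h1 with h2 | h2
    · refine ⟨0, h2.subset ?_⟩
      rintro x ⟨hx, hfx⟩
      exact ⟨hx, (z2 (f x)).resolve_left hfx⟩
    · refine ⟨1, h2.subset ?_⟩
      rintro x ⟨hx, hfx⟩
      exact ⟨hx, fun h => hfx h.2⟩
  -- `iU + f` is constant near `c`
  obtain ⟨κ₂, hκ₂⟩ : ∃ κ₂ : ZMod 2, (c : G → G → ℝ) ∉ Lim hS {x | iU x + f x ≠ κ₂} := by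
    have h1 : bd S {x | iU x + f x ≠ 0} ⊆ (Prod.fst '' {p : G × G | c₂ p.1 p.2 ≠ 0}) ∪ X := by
      rintro x ⟨y, hxy, hn⟩
      have h2 := hf x y (hSadj hxy)
      simp only [α] at h2
      have h3 : iU x + f x + (iU y + f y) ≠ 0 := by
        intro h0
        apply hn
        rw [Set.mem_ofPred_eq, Set.mem_ofPred_eq]
        exact not_congr ((by decide : ∀ a b : ZMod 2, a + b = 0 → (a = 0 ↔ b = 0)) _ _ h0)
      have h4 : c₂ x y ≠ 0 → x ∈ Prod.fst '' {p : G × G | c₂ p.1 p.2 ≠ 0} := fun h =>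
        ⟨(x, y), h, rfl⟩
      by_cases hx : x ∈ v c <;> by_cases hy : y ∈ v c
      · rw [hiH1 hx, hiH1 hy] at h2
        by_cases h5 : c₂ x y = 0
        · right
          refine ⟨hx, y, hy, B.adjT hxy, hiU' ?_⟩
          exact (by decide : ∀ a b d e k : ZMod 2, (a + b) * (1 + 1) + k = d + e → k = 0 →
            a + d + (b + e) ≠ 0 → a + b ≠ 0) _ _ _ _ _ h2 h5 h3
        · exact Or.inl (h4 h5)
      · rw [hiH1 hx, hiH0 hy] at h2
        refine Or.inl (h4 ?_)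
        exact (by decide : ∀ a b d e k : ZMod 2, (a + b) * (1 + 0) + k = d + e →
            a + d + (b + e) ≠ 0 → k ≠ 0) _ _ _ _ _ h2 h3
      · rw [hiH0 hx, hiH1 hy] at h2
        refine Or.inl (h4 ?_)
        exact (by decide : ∀ a b d e k : ZMod 2, (a + b) * (0 + 1) + k = d + e →
            a + d + (b + e) ≠ 0 → k ≠ 0) _ _ _ _ _ h2 h3
      · rw [hiH0 hx, hiH0 hy] at h2
        refine Or.inl (h4 ?_)
        exact (by decide : ∀ a b d e k : ZMod 2, (a + b) * (0 + 0) + k = d + e → a = b →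
            a + d + (b + e) ≠ 0 → k ≠ 0) _ _ _ _ _ h2 (key2 hx hy (B.adjT hxy)) h3
    have h2 : (c : G → G → ℝ) ∉ Lim hS (bd S {x | iU x + f x ≠ 0}) := by
      intro h
      rcases lim_union hS (lim_mono hS h1 h) with h3 | h3
      · exact lim_finite hS hP h3
      · exact hcr h3
    rcases B.I.const_near c (B.I.cent_pt c.2) {x | iU x + f x ≠ 0} h2 with h3 | h3
    · exact ⟨0, h3⟩
    · refine ⟨1, fun h => h3 (lim_mono hS ?_ h)⟩
      intro x hx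
      have hx' : iU x + f x ≠ 1 := hx
      exact fun h => hx' ((z2 _).resolve_left h)
  have hside : (c : G → G → ℝ) ∉ Lim hS {x | x ∈ v c ∧ iU x ≠ κ₁ + κ₂} := by
    intro h
    have h1 : {x | x ∈ v c ∧ iU x ≠ κ₁ + κ₂} ⊆ {x | x ∈ v c ∧ f x ≠ κ₁} ∪
        {x | iU x + f x ≠ κ₂} := by
      rintro x ⟨hx, hn⟩
      by_cases h2 : f x = κ₁
      · right
        rw [Set.mem_ofPred_eq, h2]
        exact (by decide : ∀ a k l : ZMod 2, a ≠ k + l → a + k ≠ l) _ _ _ hn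
      · exact Or.inl ⟨hx, h2⟩
    rcases lim_union hS (lim_mono hS h1 h) with h2 | h2
    · exact lim_finite hS hκ₁ h2
    · exact hκ₂ h2
  let iV : G → ZMod 2 := fun x => if x ∈ U then 1 else 0
  have hR : {x | x ∈ Vv T v ∧ x ∉ v c ∧ iV x ≠ κ₁ + κ₂}.Finite := by
    by_contra hinf
    obtain ⟨q, hq⟩ := B.I.lim_nonempty _ hinf
    have h1 : q = c := B.I.eq_of_conv (B.parT c)
      (lim_mono hS (fun x hx => B.vc_of_Vv hx.1 hx.2.1) hq)
    rw [h1] at hq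
    have h2 : {x | x ∈ Vv T v ∧ x ∉ v c ∧ iV x ≠ κ₁ + κ₂} ⊆ bdIn T (Vv T v) U ∪
        ({x | ∃ y ∈ {z | z ∈ Mn T v U ∧ z ∈ v c}, Adj T x y} ∪
          {x | ∃ y ∈ {x | x ∈ v c ∧ iU x ≠ κ₁ + κ₂}, Adj T x y}) := by
      rintro x ⟨⟨y, hxy⟩, hxc, hn⟩
      have hyc : y ∈ v c := (hxy.2 c).resolve_left hxc
      by_cases h3 : (x ∈ U ↔ y ∈ U)
      · right
        by_cases h4 : (y ∈ U ↔ y ∈ Ut T v U)
        · right
          refine ⟨y, ⟨hyc, ?_⟩, hxy.1⟩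
          have h5 : iV x = iU y := by
            simp only [iV, iU, h3, h4]
          rw [← h5]
          exact hn
        · exact Or.inl ⟨y, ⟨⟨hxy.right, h4⟩, hyc⟩, hxy.1⟩
      · exact Or.inl ⟨hxy.left, y, hxy.right, hxy.1, h3⟩
    rcases lim_union hS (lim_mono hS h2 hq) with h3 | h3
    · exact hne (B.I.eq_of_conv hβ h3)
    · rcases lim_union hS h3 with h4 | h4
      · exact B.min_side hβ c hne (B.lim_nbr (fun x hx => hx) h4)
      · exact hside (B.lim_nbr (fun x hx => hx) h4)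
  rcases z2 (κ₁ + κ₂) with h0 | h0
  · left
    refine hR.subset ?_
    rintro x ⟨h1, h2, h3⟩
    refine ⟨h1, h2, ?_⟩
    rw [h0]
    simp only [iV, if_pos h3]
    decide
  · right
    refine hR.subset ?_
    rintro x ⟨h1, h2, h3⟩
    refine ⟨h1, h2, ?_⟩
    rw [h0]
    simp only [iV, if_neg h3]
    decide

/-- The wrong vertices accumulate only at the centre of `U`. -/
theorem BIn.min_conv {U : Set G} {β : G → G → ℝ} (hβ : Conv hS (bdIn T (Vv T v) U) β) :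
    Conv hS (Mn T v U) β := by
  refine B.I.conv_of_lim fun q hq => ?_
  by_contra hne
  obtain ⟨c, hc, n₀, hn₀, h1⟩ := B.min_lim hβ (A := Mn T v U) subset_rfl hq hne
  have hcne : (c : G → G → ℝ) ≠ β := by rw [hc]; exact hne
  have hinf := infinite_of_lim hS h1
  set A : Set G := {z | z ∈ Mn T v U ∧ Ex v z c ∧ Con T (v c)ᶜ z n₀} with hA
  have hcon : ∀ z ∈ A, ∀ z' ∈ A, Con T (v c)ᶜ z z' := fun z hz z' hz' =>
    hz.2.2.trans hz'.2.2.symm
  rcases B.no_split hβ c hcne with h2 | h2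
  · -- `A` is almost outside `U`
    have h3 : (A \ U).Nonempty := by
      by_contra h3
      rw [not_nonempty_iff_eq_empty] at h3
      refine hinf (h2.subset fun z hz => ⟨hz.1.1, hz.2.1.1, ?_⟩)
      by_contra hzU
      have : z ∈ A \ U := ⟨hz, hzU⟩
      rw [h3] at this
      exact this
    obtain ⟨z, hz, hzU⟩ := h3
    have hzt : z ∈ Ut T v U := by
      by_contra hzt
      exact hz.1.2 (iff_of_false hzU hzt)
    rw [ut_ex B.hAt B.hv hz.2.1] at hzt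
    refine hinf ((hzt.1.union h2).subset fun z' hz' => ?_)
    by_cases hz'U : z' ∈ U
    · exact Or.inr ⟨hz'.1.1, hz'.2.1.1, hz'U⟩
    · exact Or.inl ⟨hcon z hz z' hz', hz'.1.1, hz'U⟩
  · have h3 : (A ∩ U).Nonempty := by
      by_contra h3
      rw [not_nonempty_iff_eq_empty] at h3
      refine hinf (h2.subset fun z hz => ⟨hz.1.1, hz.2.1.1, fun hzU => ?_⟩)
      have : z ∈ A ∩ U := ⟨hz, hzU⟩
      rw [h3] at this
      exact this
    obtain ⟨z, hz, hzU⟩ := h3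
    have hzt : z ∉ Ut T v U := fun hzt => hz.1.2 (iff_of_true hzU hzt)
    rw [ut_ex B.hAt B.hv hz.2.1] at hzt
    refine hzt ⟨h2.subset ?_, z, Relation.ReflTransGen.refl, hz.1.1, hzU⟩
    rintro u ⟨hu1, hu2, hu3⟩
    exact ⟨hu2, Con.mem_of_left hu1 hz.2.1.1, hu3⟩

/-- (BL) -/
theorem BIn.bl (U : Set G) (hU : U ⊆ Vv T v) (β : G → G → ℝ)
    (hβ : Conv hS (bdIn T (Vv T v) U) β) : Conv hS U β ∨ Conv hS (Vv T v \ U) β := by
  by_contra hcon
  push Not at hcon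
  obtain ⟨p, hp, hpβ⟩ := B.I.exists_ne hcon.1
  obtain ⟨p', hp', hpβ'⟩ := B.I.exists_ne hcon.2
  have hMn := B.min_conv hβ
  -- limit points of the extended set
  have h1 : p ∈ Lim hS (Ut T v U) := by
    have h2 : U ⊆ Ut T v U ∪ Mn T v U := by
      intro x hx
      by_cases hxt : x ∈ Ut T v U
      · exact Or.inl hxt
      · exact Or.inr ⟨hU hx, fun h => hxt (h.1 hx)⟩
    exact (lim_union hS (lim_mono hS h2 hp)).resolve_right fun h =>
      hpβ (B.I.eq_of_conv hMn h)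
  have h1' : p' ∈ Lim hS (Ut T v U)ᶜ := by
    have h2 : Vv T v \ U ⊆ (Ut T v U)ᶜ ∪ Mn T v U := by
      rintro x ⟨hxV, hx⟩
      by_cases hxt : x ∈ Ut T v U
      · exact Or.inr ⟨hxV, fun h => hx (h.2 hxt)⟩
      · exact Or.inl hxt
    exact (lim_union hS (lim_mono hS h2 hp')).resolve_right fun h =>
      hpβ' (B.I.eq_of_conv hMn h)
  -- the boundary
  have h2 : Conv hS (bd S (Ut T v U)) β := by
    refine B.I.conv_of_lim fun q hq => ?_
    have h3 : bd S (Ut T v U) ⊆ bdIn T (Vv T v) U ∪ (Mn T v U ∪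
        {x | ∃ y ∈ Mn T v U, Adj T x y}) := by
      rintro x ⟨y, hxy, hn⟩
      have hxyT := B.adjT hxy
      have he := ut_edge B.hAt B.hv hxyT hn
      by_cases h4 : (x ∈ U ↔ x ∈ Ut T v U)
      · by_cases h5 : (y ∈ U ↔ y ∈ Ut T v U)
        · exact Or.inl ⟨he.left, y, he.right, hxyT, fun h6 => hn (h4.symm.trans (h6.trans h5))⟩
        · exact Or.inr (Or.inr ⟨y, ⟨he.right, h5⟩, hxyT⟩)
      · exact Or.inr (Or.inl ⟨he.left, h4⟩)
    rcases lim_union hS (lim_mono hS h3 hq) with h4 | h4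
    · exact B.I.eq_of_conv hβ h4
    · rcases lim_union hS h4 with h5 | h5
      · exact B.I.eq_of_conv hMn h5
      · exact B.I.eq_of_conv hMn (B.lim_nbr (fun x hx => hx) h5)
  have h3 : β ∈ Lim hS univ := by
    by_cases hfin : (bd S (Ut T v U)).Finite
    · exfalso
      rcases B.I.hyp.oneEnd _ hfin with h4 | h4
      · exact lim_finite hS h4 h1
      · exact lim_finite hS h4 h1'
    · obtain ⟨q, hq⟩ := B.I.lim_nonempty _ hfin
      rw [← B.I.eq_of_conv h2 hq]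
      exact lim_univ hS hq
  have hcut : IsCut hS (Ut T v U) β := ⟨h3, h2⟩
  have hnt : Nontriv hS (Ut T v U) β :=
    ⟨fun h => hpβ (B.I.eq_of_conv h h1), fun h => hpβ' (B.I.eq_of_conv h h1')⟩
  let b : Cent hS := ⟨β, Ut T v U, hcut, hnt⟩
  obtain ⟨U₁, hU₁, U₂, hU₂, hne, hp1, hp2⟩ := B.sep b (Ut T v U) hcut hnt p h1 hpβ p' h1' hpβ'
  -- a limit point of the block in an atom different from the one of the block
  have key : ∀ W ∈ At b, W ≠ v b → ∀ q ∈ Lim hS (Vv T v), q ∉ Lim hS Wᶜ → q = β := by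
    intro W hW hWv q hq hqW
    have h4 : q ∈ Lim hS (Vv T v ∩ W) := by
      have h5 : Vv T v ⊆ (Vv T v ∩ W) ∪ Wᶜ := by
        intro x hx
        by_cases hxW : x ∈ W
        · exact Or.inl ⟨hx, hxW⟩
        · exact Or.inr hxW
      exact (lim_union hS (lim_mono hS h5 hq)).resolve_right hqW
    have h5 : Vv T v ∩ W ⊆ Vc hS T b := by
      rintro x ⟨hx, hxW⟩
      refine B.vc_of_Vv hx fun hxv => ?_
      exact Set.disjoint_left.1 (B.hAt.disj b W hW (v b) (B.hv.mem b) hWv) hxW hxv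
    exact B.I.eq_of_conv (B.parT b) (lim_mono hS h5 h4)
  by_cases h4 : U₁ = v b
  · refine hpβ' (key U₂ hU₂ (fun h5 => hne (h4.trans h5.symm)) p' ?_ hp2)
    exact lim_mono hS sdiff_subset hp'
  · exact hpβ (key U₁ hU₁ h4 p (lim_mono hS hU hp) hp1)

end main

/-- (BL) with explicit hypotheses. -/
theorem block_bl (I : CIn hS T) (par : ∀ c ∈ Cent hS, Conv hS (Vc hS S c) c)
    (nc : ∀ (W : Ultrafilter G) (k : G → G) (c x : G → G → ℝ), c ∈ Cent hS →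
      Tendsto k W cofinite → Tendsto (fun n => hb hS (k n)) W (𝓝 x) →
      Tendsto (fun n => act (k n) c) W (𝓝 x))
    (At : Cent hS → Set (Set G)) (hAt : AtomFam S At)
    (hcut : ∀ c, ∀ U ∈ At c, ∃ A, IsCut hS A c ∧ Nontriv hS A c ∧ U = HH S A)
    (one : ∀ c, ∀ U ∈ At c, ∀ C ⊆ U, {x | x ∈ C ∧ ∃ y ∈ U \ C, Adj S x y}.Finite →
      C.Finite ∨ (U \ C).Finite)
    (sep : ∀ (c : Cent hS) (A : Set G), IsCut hS A c → Nontriv hS A c →
      ∀ p ∈ Lim hS A, p ≠ c → ∀ p' ∈ Lim hS Aᶜ, p' ≠ c →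
      ∃ U ∈ At c, ∃ U' ∈ At c, U ≠ U' ∧ p ∉ Lim hS Uᶜ ∧ p' ∉ Lim hS U'ᶜ)
    (v : Cent hS → Set G) (hv : Ori At v) :
    ∀ U ⊆ Vv T v, ∀ β, Conv hS (bdIn T (Vv T v) U) β →
      Conv hS U β ∨ Conv hS (Vv T v \ U) β :=
  BIn.bl ⟨I, par, nc, hAt, hcut, one, sep, hv⟩

end Vale.Agent.P239.F.K7
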