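import Vale.Agent.P239.F.C4NCp
import Vale.Agent.P239.F.C4Par
import Vale.Agent.P239.F.C5
import Vale.Agent.P239.F.C6
import Vale.Agent.P239.F.K7

/-!
Module C, conclusion: everything in `CIn` gives a block.
-/

namespace Vale.Agent.P239.F

open Filter Topology Set
open Vale.Agent.P239
open E

variable {G : Type*} [Group G] {S : Finset G} {hS : Subgroup.closure (S : Set G) = ⊤}
  {T : Finset G}

namespace CIn

variable (I : CIn hS T)

include I

/-- (PAR) -/
theorem par_all : ∀ c ∈ Cent hS, Conv hS (Vc hS S c) c := fun _ hc => P.par I hc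

/-- (NC) -/
theorem nc_all : ∀ (W : Ultrafilter G) (k : G → G) (c x : G → G → ℝ), c ∈ Cent hS →
    Tendsto k W cofinite → Tendsto (fun n => hb hS (k n)) W (𝓝 x) →
    Tendsto (fun n => act (k n) c) W (𝓝 x) := fun W k _ _ hc hk hx => P.nc I hc W k hk hx

/-- Existence of a block. -/
theorem nonempty_block : Nonempty (Block hS) :=
  I.exists_blockT (I.atomFam I.par_all) (fun g c _ hU => I.atC_smul g c _ hU)
    (I.atC_bdinf I.par_all) (I.atC_bd I.par_all)
    fun v hv => K7.block_bl I I.par_all I.nc_all (AtC hS) (I.atomFam I.par_all)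
      (I.atC_cut I.par_all) (I.atC_one I.par_all) (I.atC_sep I.par_all) v hv

end CIn

end Vale.Agent.P239.F
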