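import Vale.Agent.P239.F.BFin
import Vale.Agent.P239.F.C0f

/-! Assembly of the structure `CIn`. -/

namespace Vale.Agent.P239.F.BF

open Filter Topology Set
open Vale.Agent.P239 Vale.Agent.P239.F Vale.Agent.P239.F.N
open scoped Pointwise

variable {G : Type*} [Group G] {S T : Finset G}

/-! ### the staying probability -/

theorem kil_smul (g : G) (U : Set G) (f : G → ℝ) (x : G) :
    kil S (g • U) (fun y => f (g⁻¹ * y)) x = kil S U f (g⁻¹ * x) := by
  unfold kil
  by_cases hx : g⁻¹ * x ∈ U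
  · have hx' : x ∈ g • U := by rw [mem_smul_set_iff_inv_smul_mem]; exact hx
    rw [indicator_of_mem hx, indicator_of_mem hx']
    simp only [avg, mul_assoc]
  · have hx' : x ∉ g • U := by rw [mem_smul_set_iff_inv_smul_mem]; exact hx
    rw [indicator_of_notMem hx, indicator_of_notMem hx']

theorem stay_smul (g : G) (U : Set G) (x : G) : stay S (g • U) x = stay S U (g⁻¹ * x) := by
  have key : ∀ n, (kil S (g • U))^[n] ((g • U).indicator 1) =
      fun y => (kil S U)^[n] (U.indicator 1) (g⁻¹ * y) := by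
    intro n
    induction n with
    | zero =>
      funext y
      by_cases hx : g⁻¹ * y ∈ U
      · have hx' : y ∈ g • U := by rw [mem_smul_set_iff_inv_smul_mem]; exact hx
        simp only [Function.iterate_zero, id_eq]
        rw [indicator_of_mem hx, indicator_of_mem hx']; rfl
      · have hx' : y ∉ g • U := by rw [mem_smul_set_iff_inv_smul_mem]; exact hx
        simp only [Function.iterate_zero, id_eq]
        rw [indicator_of_notMem hx, indicator_of_notMem hx']
    | succ n ih =>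
      funext y
      rw [Function.iterate_succ_apply', Function.iterate_succ_apply', ih, kil_smul]
  unfold stay
  congr 1
  funext n
  rw [key]

theorem exists_lower {F : Set G} (hF : F.Finite) (P : G → Prop) (f : G → ℝ)
    (hpos : ∀ x, P x → 0 < f x) : ∃ c : ℝ, 0 < c ∧ c ≤ 1 ∧ ∀ x ∈ F, P x → c ≤ f x := by
  induction F, hF using Set.Finite.induction_on with
  | empty => exact ⟨1, one_pos, le_rfl, fun x hx => hx.elim⟩
  | @insert a s _ _ ih =>
    obtain ⟨c, h1, h2, h3⟩ := ih
    by_cases ha : P a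
    · refine ⟨min c (f a), lt_min h1 (hpos a ha), (min_le_left _ _).trans h2, ?_⟩
      rintro x (rfl | hx) hP
      · exact min_le_right _ _
      · exact (min_le_left _ _).trans (h3 x hx hP)
    · refine ⟨c, h1, h2, ?_⟩
      rintro x (rfl | hx) hP
      · exact absurd hP ha
      · exact h3 x hx hP

section

variable (hp : HypS S) (ho : Orb hp.gen)

include ho

theorem HH_stay (A C : Set G) (β : G → G → ℝ) (F : Set G) (hA : IsCut hp.gen A β) (hF : F.Finite)
    (hco : ∀ x ∈ HH S A, x ∈ bd S (HH S A) → ∃ g : G, g • HH S A = HH S A ∧ g * x ∈ F)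
    (hC : C ⊆ HH S A) (hb' : {x | x ∈ C ∧ ∃ y ∈ HH S A \ C, Adj S x y}.Finite)
    (hconv : Conv hp.gen C β) : C.Finite := by
  have hpos : ∀ x, x ∈ HH S A → 0 < stay S (HH S A) x := by
    intro x hx
    have h1 := stay_ge hp (phi_harm hp ho hA) (fun x => phi_le_one hp ho hA x) x
    have h2 := mem_HH.1 hx
    have h3 : stay S {x | 1 / 2 < phi S A x} x = stay S (HH S A) x := rfl
    rw [h3] at h1
    linarith
  obtain ⟨c, hc0, hc1, hc⟩ := exists_lower hF (fun x => x ∈ HH S A) (stay S (HH S A)) hpos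
  have hst : ∀ x ∈ HH S A, c ≤ stay S (HH S A) x := by
    refine stay_ge_of_boundary hp hc1 ?_
    rintro x hx ⟨s, hs, hxs⟩
    obtain ⟨g, hg, hgx⟩ := hco x hx ⟨x * s, ⟨s, hs, Or.inl rfl⟩, fun h => hxs (h.1 hx)⟩
    have h1 : g * x ∈ HH S A := by
      rw [← hg]
      exact smul_mem_smul_set hx
    have h2 := hc _ hgx h1
    have h3 := stay_smul (S := S) g (HH S A) (g * x)
    rw [hg, inv_mul_cancel_left] at h3
    rwa [h3] at h2
  refine finite_of_stay hp hc0 hst hC hb' ?_
    (fun x => iter_zero_of_conv hp (nb_orb hp ho hA.1) ((convB_singleton hp.gen).2 hconv) x)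
  intro x hx hxF s hs hxs
  by_contra hcon
  exact hxF ⟨hx, x * s, ⟨hxs, hcon⟩, s, hs, Or.inl rfl⟩

end

/-! ### compactness -/

variable (hS : Subgroup.closure (S : Set G) = ⊤)

theorem lim_nonempty (A : Set G) (hA : A.Infinite) : (Lim hS A).Nonempty := by
  have := hA.cofinite_inf_principal_neBot
  obtain ⟨β, hβ⟩ := exists_lim_ultra hS (Ultrafilter.of (cofinite ⊓ 𝓟 A)) (hb hS)
    (fun n => abs_hb_le hS _)
  exact ⟨β, (hβ.mapClusterPt).mono (Ultrafilter.of_le _)⟩

theorem conv_iff' (A : Set G) (β : G → G → ℝ) : Conv hS A β ↔ ∀ β' ∈ Lim hS A, β' = β := by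
  constructor
  · intro h β' hβ'
    by_contra hne
    exact (conv_iff_lim hS).2 (h.compl_mem hS (Ne.symm hne)) hβ'
  · intro h
    unfold Conv
    rw [tendsto_iff_ultrafilter]
    intro U hU
    obtain ⟨β', hβ'⟩ := exists_lim_ultra hS U (hb hS) (fun n => abs_hb_le hS _)
    have h1 : β' ∈ Lim hS A := hβ'.mapClusterPt.mono hU
    rw [← h β' h1]
    exact hβ'

theorem exists_limP (U : Ultrafilter G) (q : G → G → G → ℝ) (hq : ∀ n, q n ∈ Lim hS univ) :
    ∃ β ∈ Lim hS univ, Tendsto q U (𝓝 β) := by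
  obtain ⟨β, hβ⟩ := exists_lim_ultra hS U q
    (fun n => closure_abs_le hS (pt_closure hS (hq n)))
  refine ⟨β, ?_, hβ⟩
  rw [mem_lim]
  intro O hO
  obtain ⟨O', hO', hop, hmem⟩ := mem_nhds_iff.1 hO
  obtain ⟨n, hn⟩ := (hβ.eventually (hop.mem_nhds hmem)).exists
  exact ((mem_lim hS).1 (hq n) O' (hop.mem_nhds hn)).mono fun x hx => ⟨trivial, hO' hx.2⟩

/-- **Assembly of `CIn`.** -/
theorem cIn_of [Countable G] (hyp : Hyp S T) {F : Finset G} (hF : CrossProp S F)
    (orb : Orb hyp.gen)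
    (ne_hb : ∀ β ∈ Lim hyp.gen univ, ∀ z : G, β ≠ hb hyp.gen z)
    (const_near : ∀ β ∈ Lim hyp.gen univ, ∀ A : Set G, β ∉ Lim hyp.gen (bd S A) →
      β ∉ Lim hyp.gen A ∨ β ∉ Lim hyp.gen Aᶜ)
    (fin_act : ∀ (U : Ultrafilter G) (k : G → G) (c x : G → G → ℝ), c ∈ Lim hyp.gen univ →
      IsFin hyp.gen c → Tendsto k U cofinite → Tendsto (fun n => hb hyp.gen (k n)) U (𝓝 x) →
      Tendsto (fun n => act (k n) c) U (𝓝 x))
    (cm : ∀ (g s : G) (a b : G → G → ℝ), a ∈ Lim hyp.gen univ → b ∈ Lim hyp.gen univ → a ≠ b →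
      Tendsto (fun n : ℕ => hb hyp.gen (g ^ n)) atTop (𝓝 a) →
      Tendsto (fun n : ℕ => hb hyp.gen (g⁻¹ ^ n)) atTop (𝓝 b) → act s b = b → act s a = a)
    (nest : ∀ (A B : Set G) (c d : G → G → ℝ), IsCut hyp.gen A c → Nontriv hyp.gen A c →
      IsCut hyp.gen B d → Nontriv hyp.gen B d → c ≠ d →
      HH S A ⊆ HH S B ∨ HH S B ⊆ HH S A ∨ Disjoint (HH S A) (HH S B) ∨
        HH S A ∪ HH S B = univ) : CIn hyp.gen T where
  hyp := hyp
  lim_nonempty := lim_nonempty hyp.gen
  conv_iff := conv_iff' hyp.gen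
  exists_lim := fun U k => exists_lim_ultra hyp.gen U (fun n => hb hyp.gen (k n))
    (fun n => abs_hb_le hyp.gen _)
  exists_limP := exists_limP hyp.gen
  ne_hb := ne_hb
  shift := fun U k β s hk h => tendsto_hb_mul hyp.gen hk h s
  act_hb := fun g z => Vale.Agent.P239.F.act_hb hyp.gen g z
  const_near := const_near
  cvg := by
    intro U k w x y q hk hx hy hw hne
    have := conv_prop hyp.gen hF hk hx hy (β := fun n => hb hyp.gen (w n))
      (fun n => subset_closure ⟨w n, rfl⟩) hw hne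
    simpa only [Vale.Agent.P239.F.act_hb] using this
  cvgP := by
    intro U k p x y q hk hp hx hy hpq hne
    exact conv_prop hyp.gen hF hk hx hy (β := p) (fun n => pt_closure hyp.gen (hp n)) hpq hne
  fin_act := fin_act
  cm := cm
  orb := orb
  two := by
    have hinf : (univ : Set G).Infinite := by
      have := hyp.inf
      exact Set.infinite_univ
    obtain ⟨β, hβ⟩ := lim_nonempty hyp.gen univ hinf
    refine ⟨β, hβ, ?_⟩
    by_contra hcon
    push Not at hcon
    refine orb β hβ ((Set.finite_singleton β).subset ?_)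
    rintro _ ⟨g, rfl⟩
    exact (hcon _ (lim_smul hyp.gen g hβ)).symm
  HH_smul := fun g A => HH_smul' g A
  HH_near := fun A β hA => HH_near hyp.toHypS orb hA
  HH_mono := fun A B β hA hB h => HH_mono hyp.toHypS orb hA hB h
  HH_disj := fun A B β hA hB h => HH_disj hyp.toHypS orb hA hB h
  HH_comp := fun A C β hA hC hne hcl => HH_comp hyp.toHypS orb hA hC hne hcl
  HH_stay := HH_stay hyp.toHypS orb
  nest := nest
  fin := by
    intro x y hxy
    have I : BIn hyp F := ⟨hF, fun β hβ => nb_orb hyp.toHypS orb hβ, nest⟩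
    refine (I.fin x y).subset ?_
    rintro c ⟨_, A, h1, h2, h3, h4⟩
    exact ⟨A, h1, h2, h3, h4⟩

end Vale.Agent.P239.F.BF
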