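import Vale.Agent.P239.F.D2
import Vale.Agent.P239.AHHarm

/-! Points at infinity are not vertices. -/

namespace Vale.Agent.P239.F.D

open Filter Topology Set
open Vale.Agent.P239 Vale.Agent.P239.F

variable {G : Type*} [Group G] {S : Finset G} (hS : Subgroup.closure (S : Set G) = ⊤)

theorem lap_hb [DecidableEq G] (hsym : ∀ s ∈ S, s⁻¹ ∈ S) (z w : G) :
    ∑ s ∈ S, (hb hS w (z * s) z - (gp hS (z * s) (z * s) - gp hS z z)) =
      (Pi.single z (1 : ℝ) : G → ℝ) w - (Pi.single z (1 : ℝ) : G → ℝ) 1 := by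
  have h1 := en_single hsym (pot hS w) z
  have h2 := pot_isPot hS w ⟨Pi.single z (1 : ℝ), (single_mem z).mem_Dir⟩
  rw [h2] at h1
  rw [h1, Finset.mul_sum]
  refine Finset.sum_congr rfl fun s _ => ?_
  rw [hb_eq]
  have e1 : gp hS (z * s) w = (pot hS w).1 (z * s) - (pot hS w).1 1 := by
    rw [gp_comm, gp_eq]
  have e2 : gp hS z w = (pot hS w).1 z - (pot hS w).1 1 := by
    rw [gp_comm, gp_eq]
  rw [e1, e2]
  ring

theorem ne_hb (hsym : ∀ s ∈ S, s⁻¹ ∈ S) {β : G → G → ℝ} (hβ : β ∈ Lim hS univ) (z : G) :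
    β ≠ hb hS z := by
  classical
  rintro rfl
  set Lf : (G → G → ℝ) → ℝ := fun β =>
    ∑ s ∈ S, (β (z * s) z - (gp hS (z * s) (z * s) - gp hS z z)) with hLf
  have hcont : Continuous Lf :=
    continuous_finsetSum _ fun s _ => (continuous_ev _ _).sub continuous_const
  have hO : {β | Lf (hb hS z) - 1 / 2 < Lf β} ∈ 𝓝 (hb hS z) :=
    (isOpen_lt continuous_const hcont).mem_nhds (by
      change Lf (hb hS z) - 1 / 2 < Lf (hb hS z); linarith)
  have hfreq : ∃ᶠ x in (cofinite ⊓ 𝓟 univ : Filter G), hb hS x ∈ {β | Lf (hb hS z) - 1 / 2 < Lf β} :=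
    mapClusterPt_iff_frequently.1 hβ _ hO
  have hne : ∀ᶠ x in (cofinite ⊓ 𝓟 univ : Filter G), x ≠ z := by
    refine Filter.Eventually.filter_mono inf_le_left ?_
    rw [eventually_cofinite]
    refine (Set.finite_singleton z).subset fun x hx => ?_
    simpa using hx
  obtain ⟨x, hx, hxz⟩ := (hfreq.and_eventually hne).exists
  have h1 : Lf (hb hS x) = _ := lap_hb hS hsym z x
  have h2 : Lf (hb hS z) = _ := lap_hb hS hsym z z
  have h3 : Lf (hb hS z) - 1 / 2 < Lf (hb hS x) := hx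
  rw [h1, h2, Pi.single_eq_same, Pi.single_eq_of_ne hxz] at h3
  linarith

end Vale.Agent.P239.F.D
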