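import Vale.Agent.P239.F.D1

/-! Points: elements of the closure of the vertices in the space of cocycles. -/

namespace Vale.Agent.P239.F.D

open Filter Topology Set
open Vale.Agent.P239 Vale.Agent.P239.F
open scoped RealInnerProductSpace ENNReal

variable {G : Type*} [Group G] {S : Finset G} (hS : Subgroup.closure (S : Set G) = ⊤)

/-- All points: vertices and their limits. -/
def Pt : Set (G → G → ℝ) := closure (range (hb hS))

theorem hb_mem (z : G) : hb hS z ∈ Pt hS := subset_closure ⟨z, rfl⟩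

theorem hb_eq (z x y : G) :
    hb hS z x y = gp hS x x - gp hS y y - 2 * (gp hS x z - gp hS y z) := by
  unfold hb; rw [res_eq, res_eq]; ring

theorem hb_eq_inner (z x y : G) :
    hb hS z x y = gp hS x x - gp hS y y - 2 * ⟪vec hS x - vec hS y, vec hS z⟫ := by
  rw [hb_eq, inner_sub_left, inner_vec, inner_vec]

theorem gpb_hb (w x z : G) : gpb hS w x (hb hS z) = (res hS w x - res hS x z + res hS w z) / 2 := by
  unfold gpb hb; ring

theorem gpb_hb_one (x z : G) : gpb hS 1 x (hb hS z) = gp hS x z := by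
  rw [gpb_hb, res_one, res_one, res_eq]; ring

variable {hS} in
/-- Induction for closed properties of points. -/
theorem Pt.closed_ind {β : G → G → ℝ} (hβ : β ∈ Pt hS) {P : (G → G → ℝ) → Prop}
    (hP : IsClosed {β | P β}) (h : ∀ z, P (hb hS z)) : P β :=
  closure_minimal (by rintro _ ⟨z, rfl⟩; exact h z) hP hβ

omit [Group G] in
theorem continuous_ev (x y : G) : Continuous fun β : G → G → ℝ => β x y :=
  (continuous_apply y).comp (continuous_apply x)

variable {hS} in
theorem Pt.add {β : G → G → ℝ} (hβ : β ∈ Pt hS) (x y z : G) : β x y + β y z = β x z :=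
  Pt.closed_ind (P := fun β => β x y + β y z = β x z) hβ
    (isClosed_eq ((continuous_ev x y).add (continuous_ev y z)) (continuous_ev x z))
    fun w => by unfold hb; ring

variable {hS} in
theorem Pt.self {β : G → G → ℝ} (hβ : β ∈ Pt hS) (x : G) : β x x = 0 := by
  have := Pt.add hβ x x x; linarith

variable {hS} in
theorem Pt.neg {β : G → G → ℝ} (hβ : β ∈ Pt hS) (x y : G) : β y x = - β x y := by
  have := Pt.add hβ x y x; rw [Pt.self hβ] at this; linarith

variable {hS} in
theorem Pt.le {β : G → G → ℝ} (hβ : β ∈ Pt hS) (x y : G) : β x y ≤ res hS x y :=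
  Pt.closed_ind (P := fun β => β x y ≤ res hS x y) hβ
    (isClosed_le (continuous_ev x y) continuous_const)
    fun w => by
      unfold hb
      have := res_triangle hS x y w
      linarith

variable {hS} in
theorem Pt.abs_le {β : G → G → ℝ} (hβ : β ∈ Pt hS) (x y : G) : |β x y| ≤ res hS x y := by
  rw [_root_.abs_le]
  have h1 := Pt.le hβ x y
  have h2 := Pt.le hβ y x
  rw [Pt.neg hβ x y, res_comm] at h2
  exact ⟨by linarith, h1⟩

theorem isClosed_Pt : IsClosed (Pt hS) := isClosed_closure

theorem isCompact_Pt : IsCompact (Pt hS) := by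
  have h : Pt hS ⊆ Set.pi univ fun x : G => Set.pi univ fun y : G =>
      Set.Icc (-res hS x y) (res hS x y) := by
    intro β hβ x _ y _
    exact _root_.abs_le.1 (Pt.abs_le hβ x y)
  exact (isCompact_univ_pi fun x => isCompact_univ_pi fun y => isCompact_Icc).of_isClosed_subset
    (isClosed_Pt hS) h

/-- Limits along ultrafilters exist. -/
theorem exists_lim {ι : Type*} (𝒰 : Ultrafilter ι) (f : ι → G) :
    ∃ β ∈ Pt hS, Tendsto (fun i => hb hS (f i)) 𝒰 (𝓝 β) := by
  obtain ⟨β, hβ, h⟩ := isCompact_iff_ultrafilter_le_nhds.1 (isCompact_Pt hS)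
    (𝒰.map fun i => hb hS (f i)) (by
      rw [le_principal_iff, Ultrafilter.coe_map, Filter.mem_map]
      exact Eventually.of_forall fun i => hb_mem hS (f i))
  exact ⟨β, hβ, h⟩

theorem exists_lim_pt {ι : Type*} (𝒰 : Ultrafilter ι) (f : ι → G → G → ℝ)
    (hf : ∀ i, f i ∈ Pt hS) : ∃ β ∈ Pt hS, Tendsto f 𝒰 (𝓝 β) := by
  obtain ⟨β, hβ, h⟩ := isCompact_iff_ultrafilter_le_nhds.1 (isCompact_Pt hS)
    (𝒰.map f) (by
      rw [le_principal_iff, Ultrafilter.coe_map, Filter.mem_map]
      exact Eventually.of_forall fun i => hf i)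
  exact ⟨β, hβ, h⟩

variable {hS} in
theorem Pt.of_tendsto {ι : Type*} {l : Filter ι} [l.NeBot] {f : ι → G} {β : G → G → ℝ}
    (h : Tendsto (fun i => hb hS (f i)) l (𝓝 β)) : β ∈ Pt hS :=
  (isClosed_Pt hS).mem_of_tendsto h (Eventually.of_forall fun i => hb_mem hS (f i))

theorem Lim_subset (V : Set G) : Lim hS V ⊆ Pt hS := by
  intro β hβ
  rw [Pt, mem_closure_iff_clusterPt]
  refine ClusterPt.mono hβ (le_principal_iff.2 (Filter.mem_map.2 ?_))
  exact Eventually.of_forall fun z => ⟨z, rfl⟩

variable {hS} in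
theorem gpb_add {β : G → G → ℝ} (hβ : β ∈ Pt hS) (x y : G) :
    β x y = gp hS x x - gp hS y y - 2 * (gpb hS 1 x β - gpb hS 1 y β) := by
  have h1 := Pt.add hβ x y 1
  unfold gpb
  rw [res_one, res_one]; linarith

theorem continuous_gpb (w x : G) : Continuous (gpb hS w x) := by
  unfold gpb
  exact (continuous_const.sub (continuous_ev x w)).div_const _

variable {hS} in
/-- Convergence to a point is convergence of the Gromov products. -/
theorem tendsto_iff {ι : Type*} {l : Filter ι} {f : ι → G → G → ℝ} {β : G → G → ℝ}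
    (hf : ∀ i, f i ∈ Pt hS) (hβ : β ∈ Pt hS) :
    Tendsto f l (𝓝 β) ↔ ∀ x, Tendsto (fun i => gpb hS 1 x (f i)) l (𝓝 (gpb hS 1 x β)) := by
  constructor
  · intro h x
    exact ((continuous_gpb hS 1 x).tendsto β).comp h
  · intro h
    rw [tendsto_pi_nhds]
    intro x
    rw [tendsto_pi_nhds]
    intro y
    rw [gpb_add hβ x y]
    simp only [fun i => gpb_add (hf i) x y]
    exact tendsto_const_nhds.sub (((h x).sub (h y)).const_mul 2)

variable {hS} in
theorem tendsto_hb_iff {ι : Type*} {l : Filter ι} {f : ι → G} {β : G → G → ℝ} (hβ : β ∈ Pt hS) :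
    Tendsto (fun i => hb hS (f i)) l (𝓝 β) ↔
      ∀ x, Tendsto (fun i => gp hS x (f i)) l (𝓝 (gpb hS 1 x β)) := by
  rw [tendsto_iff (fun i => hb_mem hS (f i)) hβ]
  simp only [gpb_hb_one]

section Act

theorem act_apply (g : G) (β : G → G → ℝ) (x y : G) : act g β x y = β (g⁻¹ * x) (g⁻¹ * y) := rfl

theorem act_one (β : G → G → ℝ) : act 1 β = β := by
  funext x y; rw [act_apply, inv_one, one_mul, one_mul]

theorem act_act (g h : G) (β : G → G → ℝ) : act g (act h β) = act (g * h) β := by
  funext x y; simp only [act_apply, mul_inv_rev, mul_assoc]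

theorem act_hb (g z : G) : act g (hb hS z) = hb hS (g * z) := by
  funext x y
  rw [act_apply]
  unfold hb
  rw [← res_mul hS g (g⁻¹ * x) z, ← res_mul hS g (g⁻¹ * y) z, mul_inv_cancel_left,
    mul_inv_cancel_left]

theorem continuous_act (g : G) : Continuous (act g : (G → G → ℝ) → G → G → ℝ) :=
  continuous_pi fun _ => continuous_pi fun _ => continuous_ev _ _

theorem act_inj {g : G} {β γ : G → G → ℝ} (h : act g β = act g γ) : β = γ := by
  have := congrArg (act g⁻¹) h
  rwa [act_act, act_act, inv_mul_cancel, act_one, act_one] at this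

variable {hS} in
theorem Pt.act {β : G → G → ℝ} (hβ : β ∈ Pt hS) (g : G) : F.act g β ∈ Pt hS :=
  Pt.closed_ind (P := fun β => F.act g β ∈ Pt hS) hβ
    ((isClosed_Pt hS).preimage (continuous_act g)) fun z => by rw [act_hb]; exact hb_mem hS _

end Act

end Vale.Agent.P239.F.D
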