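import Vale.Agent.P239.F.CNfin
import Vale.Agent.P239.F.C0d
import Vale.Agent.P239.F.D2

/-! Nesting of cuts with different centres, in strict form. -/

namespace Vale.Agent.P239.F.N

open Filter Topology Set
open Vale.Agent.P239 Vale.Agent.P239.F

variable {G : Type*} [Group G] {S T : Finset G}

/-- Existence of limit points. -/
theorem limEx (hS : Subgroup.closure (S : Set G) = ⊤) : LimEx hS := by
  intro B hB
  have hne : (cofinite ⊓ 𝓟 B).NeBot := by
    rw [Filter.cofinite_inf_principal_neBot_iff]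
    exact hB
  obtain ⟨β, _, hβ⟩ := D.exists_lim hS (Ultrafilter.of (cofinite ⊓ 𝓟 B)) id
  refine ⟨β, ?_⟩
  change MapClusterPt β (cofinite ⊓ 𝓟 B) (hb hS)
  exact MapClusterPt.mono (F := (Ultrafilter.of (cofinite ⊓ 𝓟 B) : Filter G)) hβ.mapClusterPt
    (Ultrafilter.of_le _)

/-- All points have harmonic measure zero. -/
def NA (hp : HypS S) : Prop := ∀ β ∈ Lim hp.gen univ, NB hp {β}

theorem na_of (hp : HypS S)
    (horb : ∀ β ∈ Lim hp.gen univ, (range fun g : G => act g β).Infinite) : NA hp := by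
  intro β hβ
  refine nb_of hp fun β' hβ' x => ?_
  rw [Finset.mem_singleton] at hβ'
  subst hβ'
  exact top_eq_one hp (horb _ hβ) x

variable {hp : HypS S}

theorem _root_.Vale.Agent.P239.F.IsCut.hasPhi (hna : NA hp) {A : Set G} {β : G → G → ℝ}
    (hA : IsCut hp.gen A β) : HasPhi S A :=
  hasPhi_of hp (hna β hA.1) ((convB_singleton hp.gen).2 hA.2)

theorem _root_.Vale.Agent.P239.F.IsCut.phi_compl (hna : NA hp) {A : Set G} {β : G → G → ℝ}
    (hA : IsCut hp.gen A β) (x : G) : phi S Aᶜ x = 1 - phi S A x := by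
  have := ((hA.hasPhi hna).compl hp).2 x
  linarith

/-- Near a point different from the centre where `A` is absent, `phi A` is small. -/
theorem phi_small (hna : NA hp) {A : Set G} {β p : G → G → ℝ}
    (hA : IsCut hp.gen A β) (hne : β ≠ p) (hAp : Aᶜ ∈ nf hp.gen p) {ε : ℝ} (hε : 0 < ε) :
    ∀ᶠ z in nf hp.gen p, phi S A z < ε := by
  obtain ⟨O, O', hO, hO', hβO, hβO', hdis⟩ := t2_separation hne
  have h1 := phi_off_of hp (hA.hasPhi hna) ((convB_singleton hp.gen).2 hA.2)
    (O := O) (fun β' hβ' => by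
      rw [Finset.mem_singleton] at hβ'
      subst hβ'
      exact hO.mem_nhds hβO) hε
  have h2 : {x | hb hp.gen x ∉ O ∧ ε ≤ |phi S A x - A.indicator 1 x|}ᶜ ∈ nf hp.gen p :=
    nf_cofinite hp.gen (by rwa [compl_compl]) p
  have h3 : hb hp.gen ⁻¹' O' ∈ nf hp.gen p :=
    mem_inf_of_right (preimage_mem_comap (hO'.mem_nhds hβO'))
  filter_upwards [h2, h3, hAp] with z a1 a2 a3
  by_contra hcon
  refine a1 ⟨fun h => Set.disjoint_left.1 hdis h a2, ?_⟩
  rw [Set.indicator_of_notMem a3, sub_zero]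
  exact (not_lt.1 hcon).trans (le_abs_self _)

/-- Near a point different from the centre contained in `A`, `phi A` is close to one. -/
theorem phi_large (hna : NA hp) {A : Set G} {β p : G → G → ℝ}
    (hA : IsCut hp.gen A β) (hne : β ≠ p) (hAp : A ∈ nf hp.gen p) {ε : ℝ} (hε : 0 < ε) :
    ∀ᶠ z in nf hp.gen p, 1 - ε < phi S A z := by
  have h := phi_small hna (isCut_compl _ hA) hne (by rwa [compl_compl]) hε
  filter_upwards [h] with z hz
  rw [hA.phi_compl hna] at hz
  linarith

/-- The main inequality. -/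
theorem sum_lt (hyp : Hyp S T) (hna : NA hyp.toHypS) (hd : Dich hyp.gen) {A A' : Set G}
    {β β' : G → G → ℝ} (hA : IsCut hyp.gen A β) (hA' : IsCut hyp.gen A' β')
    (hn : Nontriv hyp.gen A β) (hn' : Nontriv hyp.gen A' β') (hne : β ≠ β')
    (h1 : Aᶜ ∈ nf hyp.gen β') (h2 : A'ᶜ ∈ nf hyp.gen β) (x : G) :
    phi S A x + phi S A' x < 1 := by
  have hl := limEx hyp.gen
  have hfin := corner_finite hyp hl hd hA hA' hn h1 h2
  obtain ⟨p, hp, hp1, hp2, hp3⟩ := exists_third hyp hl hd hA hA' hn hn' hne h1 h2 hfin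
  have hle : ∀ x, phi S A x + phi S A' x ≤ 1 := by
    intro x
    have t0 := iter_zero_of_conv hyp.toHypS (hna β hA.1)
      (convB_of_finite hyp.gen hfin _) x
    have t1 := (hA.hasPhi hna).tendsto x
    have t2 := (hA'.hasPhi hna).tendsto x
    have t3 := t0.const_add 1
    rw [add_zero] at t3
    refine le_of_tendsto_of_tendsto' (t1.add t2) t3 fun n => ?_
    have h3 := iter_mono (S := S) (f := A.indicator (1 : G → ℝ) + A'.indicator 1)
      (g := (fun _ => (1 : ℝ)) + (A ∩ A').indicator 1) (fun y => ?_) n x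
    · rw [iter_add, iter_add, iter_const hyp.toHypS] at h3
      exact h3
    · simp only [Pi.add_apply]
      by_cases a1 : y ∈ A <;> by_cases a2 : y ∈ A' <;> simp [a1, a2]
  by_contra hcon
  rw [not_lt] at hcon
  have hx : phi S A x + phi S A' x = 1 := le_antisymm (hle x) hcon
  have hharm : avg S (phi S A + phi S A') = phi S A + phi S A' := by
    rw [avg_add, (hA.hasPhi hna).harm, (hA'.hasPhi hna).harm]
  have hall := const_of_max hyp.toHypS hharm (x := x) (fun y => by
    simp only [Pi.add_apply]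
    rw [hx]
    exact hle y)
  have hpn := nf_neBot hp
  have e1 := phi_small hna hA hp1 (mem_of_superset hp3 fun y hy => hy.1) (ε := 1 / 4) (by norm_num)
  have e2 := phi_small hna hA' hp2 (mem_of_superset hp3 fun y hy => hy.2) (ε := 1 / 4)
    (by norm_num)
  obtain ⟨z, hz1, hz2⟩ := (e1.and e2).exists
  have := hall z
  simp only [Pi.add_apply] at this
  rw [hx] at this
  linarith

/-- **Nesting of cuts with different centres.** -/
theorem nest_strict (hyp : Hyp S T) (hna : NA hyp.toHypS) (hd : Dich hyp.gen) {A A' : Set G}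
    {β β' : G → G → ℝ} (hA : IsCut hyp.gen A β) (hn : Nontriv hyp.gen A β)
    (hA' : IsCut hyp.gen A' β') (hn' : Nontriv hyp.gen A' β') (hne : β ≠ β') :
    (∀ x, phi S A x < phi S A' x) ∨ (∀ x, phi S A' x < phi S A x) ∨
      (∀ x, phi S A x + phi S A' x < 1) ∨ (∀ x, 1 < phi S A x + phi S A' x) := by
  rcases hA.side hd hA'.1 hne with h1 | h1
  · have h1' : Aᶜᶜ ∈ nf hyp.gen β' := by rwa [compl_compl]
    rcases hA'.side hd hA.1 hne.symm with h2 | h2
    · have h2' : A'ᶜᶜ ∈ nf hyp.gen β := by rwa [compl_compl]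
      refine Or.inr (Or.inr (Or.inr fun x => ?_))
      have := sum_lt hyp hna hd (isCut_compl _ hA) (isCut_compl _ hA')
        (nontriv_compl _ hn) (nontriv_compl _ hn') hne h1' h2' x
      rw [hA.phi_compl hna, hA'.phi_compl hna] at this
      linarith
    · refine Or.inr (Or.inl fun x => ?_)
      have := sum_lt hyp hna hd (isCut_compl _ hA) hA' (nontriv_compl _ hn) hn' hne h1' h2 x
      rw [hA.phi_compl hna] at this
      linarith
  · rcases hA'.side hd hA.1 hne.symm with h2 | h2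
    · have h2' : A'ᶜᶜ ∈ nf hyp.gen β := by rwa [compl_compl]
      refine Or.inl fun x => ?_
      have := sum_lt hyp hna hd hA (isCut_compl _ hA') hn (nontriv_compl _ hn') hne h1 h2' x
      rw [hA'.phi_compl hna] at this
      linarith
    · exact Or.inr (Or.inr (Or.inl (sum_lt hyp hna hd hA hA' hn hn' hne h1 h2)))

/-- The field `nest` of `CIn`. -/
theorem nest (hyp : Hyp S T) (hna : NA hyp.toHypS) (hd : Dich hyp.gen) (A B : Set G)
    (c d : G → G → ℝ) (hA : IsCut hyp.gen A c) (hn : Nontriv hyp.gen A c)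
    (hB : IsCut hyp.gen B d) (hn' : Nontriv hyp.gen B d) (hne : c ≠ d) :
    HH S A ⊆ HH S B ∨ HH S B ⊆ HH S A ∨ Disjoint (HH S A) (HH S B) ∨ HH S A ∪ HH S B = univ := by
  rcases nest_strict hyp hna hd hA hn hB hn' hne with h | h | h | h
  · exact Or.inl fun x (hx : 1 / 2 < phi S A x) => lt_trans hx (h x)
  · exact Or.inr (Or.inl fun x (hx : 1 / 2 < phi S B x) => lt_trans hx (h x))
  · refine Or.inr (Or.inr (Or.inl (Set.disjoint_left.2 fun x hx hx' => ?_)))
    have h1 : 1 / 2 < phi S A x := hx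
    have h2 : 1 / 2 < phi S B x := hx'
    linarith [h x]
  · refine Or.inr (Or.inr (Or.inr (Set.eq_univ_of_forall fun x => ?_)))
    by_contra hcon
    rw [Set.mem_union, not_or] at hcon
    have h1 : ¬ 1 / 2 < phi S A x := hcon.1
    have h2 : ¬ 1 / 2 < phi S B x := hcon.2
    linarith [h x, not_lt.1 h1, not_lt.1 h2]

/-- The field `const_near` of `CIn`. -/
theorem const_near {hS : Subgroup.closure (S : Set G) = ⊤} (hd : Dich hS) (β : G → G → ℝ)
    (hβ : β ∈ Lim hS univ) (A : Set G) (h : β ∉ Lim hS (bd S A)) :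
    β ∉ Lim hS A ∨ β ∉ Lim hS Aᶜ := by
  rw [conv_iff_lim] at h
  rw [conv_iff_lim, conv_iff_lim, compl_compl]
  exact (hd A β hβ h).symm

end Vale.Agent.P239.F.N
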