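import Vale.Agent.P239.F.D3
import Vale.Agent.P239.F.C0f

/-!
Orbits of points are infinite; (CM).
-/

namespace Vale.Agent.P239.F.P0

open Filter Topology Set
open Vale.Agent.P239 Vale.Agent.P239.F Vale.Agent.P239.F.D
open scoped RealInnerProductSpace

variable {G : Type*} [Group G] {S T : Finset G}

/-- the vertices do not converge to one point -/
theorem not_tendsto (hp : HypS S) (hd : HasHD S) (β : G → G → ℝ) :
    ¬ Tendsto (hb hp.gen) cofinite (𝓝 β) := by
  intro hβ
  obtain ⟨u, hu, x, y, hxy⟩ := hd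
  have hinf := hp.inf
  -- every potential has a limit at infinity
  have hlim : ∀ z : G, ∃ L : ℝ, Tendsto (fun w => (pot hp.gen z).1 w) cofinite (𝓝 L) := by
    intro z
    have h1 : Tendsto (fun w => hb hp.gen w z 1) cofinite (𝓝 (β z 1)) :=
      (tendsto_pi_nhds.1 (tendsto_pi_nhds.1 hβ z)) 1
    refine ⟨(gp hp.gen z z - β z 1) / 2 + (pot hp.gen z).1 1, ?_⟩
    refine (((h1.const_sub (gp hp.gen z z)).div_const 2).add_const _).congr fun w => ?_
    rw [D.hb_eq, gp_one, gp_one, gp_eq hp.gen z w]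
    ring
  -- the harmonic part of a potential is constant
  have hconst : ∀ z : G, ∃ L : ℝ, ∀ w, (HpD hp (pot hp.gen z)).1 w = L := by
    intro z
    obtain ⟨L, hL⟩ := hlim z
    have h1 : Tendsto (fun w => (HpD hp (pot hp.gen z)).1 w) cofinite (𝓝 L) := by
      have h2 := hL.sub (Hp_infty hp (pot hp.gen z))
      rw [sub_zero] at h2
      exact h2.congr fun w => by ring
    have key : ∀ h : G → ℝ, avg S h = h → ∀ L, Tendsto h cofinite (𝓝 L) → ∀ w, h w ≤ L := by
      intro h hh L hL w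
      by_contra hlt
      push Not at hlt
      have hfin : {v | h w ≤ h v}.Finite := by
        have h3 := hL.eventually_lt_const hlt
        rw [eventually_cofinite] at h3
        exact h3.subset fun v (hv : h w ≤ h v) => not_lt.2 hv
      refine false_of_finite_max hp hh hfin ⟨w, show h w ≤ h w from le_rfl⟩ ?_
      intro v hv s hs hvs
      have hv' : h w ≤ h v := hv
      have hvs' : ¬ h w ≤ h (v * s) := hvs
      exact (not_le.1 hvs').trans_le hv'
    refine ⟨L, fun w => le_antisymm (key _ (Hp_harm hp _) L h1 w) ?_⟩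
    have h2 := key (fun w => - (HpD hp (pot hp.gen z)).1 w) ?_ (-L) h1.neg w
    · have h3 : -(HpD hp (pot hp.gen z)).1 w ≤ -L := h2
      linarith
    · have h3 : (fun w => - (HpD hp (pot hp.gen z)).1 w) =
        (-1 : ℝ) • (HpD hp (pot hp.gen z)).1 := by ext w; simp
      rw [h3, avg_smul, Hp_harm]
  have horth := orth_of_harm hp.symS hu
  have hall : ∀ z, u.1 z = u.1 1 := by
    intro z
    obtain ⟨φ, hφ, hφ2, -⟩ := Hp_spec hp (pot hp.gen z)
    obtain ⟨L, hL⟩ := hconst z
    have h1 := pot_isPot hp.gen z u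
    have h2 : en S (pot hp.gen z) u = 0 := by
      rw [hφ, en_add_left, en_comm S φ u, horth φ hφ2, add_zero, en]
      have h3 : grad S (HpD hp (pot hp.gen z)) = 0 := by
        refine lp.ext (funext fun p => ?_)
        rw [grad_apply, hL, hL, sub_self]; rfl
      rw [h3, inner_zero_left]
    rw [h2] at h1
    linarith
  exact hxy ((hall x).trans (hall y).symm)

/-- ultrafilter description of the points at infinity -/
theorem mem_Lim_univ (hS : Subgroup.closure (S : Set G) = ⊤) {β : G → G → ℝ} :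
    β ∈ Lim hS univ ↔ ∃ U : Ultrafilter G, (U : Filter G) ≤ cofinite ∧
      Tendsto (hb hS) U (𝓝 β) := by
  constructor
  · intro h
    have h1 : MapClusterPt β (cofinite ⊓ 𝓟 univ) (hb hS) := h
    obtain ⟨U, hU, hU2⟩ := mapClusterPt_iff_ultrafilter.1 h1
    exact ⟨U, hU.trans inf_le_left, hU2⟩
  · rintro ⟨U, h1, h3⟩
    exact mapClusterPt_iff_ultrafilter.2 ⟨U, le_inf h1 (by simp), h3⟩

theorem mem_Lim_of {hS : Subgroup.closure (S : Set G) = ⊤} {β : G → G → ℝ} {ι : Type*}
    {l : Filter ι} [l.NeBot] {f : ι → G} (hf : Tendsto f l cofinite)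
    (h : Tendsto (fun i => hb hS (f i)) l (𝓝 β)) : β ∈ Lim hS univ := by
  have h1 : MapClusterPt β (map f l) (hb hS) := h.mapClusterPt
  exact MapClusterPt.mono h1 (le_inf hf (by simp))

/-- there are two points at infinity -/
theorem two (hp : HypS S) (hd : HasHD S) :
    ∃ β ∈ Lim hp.gen univ, ∃ β' ∈ Lim hp.gen univ, β ≠ β' := by
  have hinf := hp.inf
  obtain ⟨β, -, hβ⟩ := exists_lim hp.gen (hyperfilter G) (fun z => z)
  have hβL : β ∈ Lim hp.gen univ := (mem_Lim_univ hp.gen).2 ⟨hyperfilter G, hyperfilter_le_cofinite, hβ⟩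
  by_contra hcon
  push Not at hcon
  refine not_tendsto hp hd β ?_
  rw [tendsto_iff_ultrafilter]
  intro U hU
  obtain ⟨γ, -, hγ⟩ := exists_lim hp.gen U (fun z => z)
  have hγL : γ ∈ Lim hp.gen univ := (mem_Lim_univ hp.gen).2 ⟨U, hU, hγ⟩
  rw [hcon β hβL γ hγL]
  exact hγ

/-- there are infinitely many points at infinity -/
theorem lim_infinite (hp : HypS S) (hoe : OneEnded S) (hd : HasHD S) :
    (Lim hp.gen univ).Infinite := by
  intro hfin
  obtain ⟨a, ha, b, hb', hab⟩ := two hp hd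
  -- separate `a` from the other points
  have hfin' : (Lim hp.gen univ \ {a}).Finite := hfin.subset sdiff_subset
  obtain ⟨O, O', hO, hO', haO, hsub, hdis⟩ :=
    SeparatedNhds.of_isCompact_isCompact (isCompact_singleton (x := a)) hfin'.isCompact
      (by rw [disjoint_singleton_left]; exact fun h => h.2 rfl)
  have haO' : a ∈ O := haO rfl
  have hpts : ∀ q ∈ Lim hp.gen univ, q ≠ a → q ∈ O' := fun q hq hne => hsub ⟨hq, hne⟩
  have hbd : {x | ∃ y, Adj S x y ∧ ¬ (x ∈ {z | hb hp.gen z ∈ O} ↔ y ∈ {z | hb hp.gen z ∈ O})}.Finite := by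
    by_contra hinf
    have hinf : Set.Infinite _ := hinf
    have hsubset : {x | ∃ y, Adj S x y ∧
        ¬ (x ∈ {z | hb hp.gen z ∈ O} ↔ y ∈ {z | hb hp.gen z ∈ O})} ⊆
        (⋃ s ∈ S, {x | ¬ (hb hp.gen x ∈ O ↔ hb hp.gen (x * s) ∈ O)}) ∪
        (⋃ s ∈ S, {x | ¬ (hb hp.gen x ∈ O ↔ hb hp.gen (x * s⁻¹) ∈ O)}) := by
      rintro x ⟨y, ⟨s, hs, h | h⟩, hne⟩
      · left; rw [mem_iUnion₂]; exact ⟨s, hs, by rw [mem_ofPred_eq, ← h]; exact hne⟩
      · right; rw [mem_iUnion₂]
        refine ⟨s, hs, ?_⟩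
        have : x * s⁻¹ = y := by rw [h, mul_inv_cancel_right]
        rw [mem_ofPred_eq, this]; exact hne
    have key : ∀ g : G, {x | ¬ (hb hp.gen x ∈ O ↔ hb hp.gen (x * g) ∈ O)}.Finite := by
      intro g
      by_contra hi
      have hi : Set.Infinite _ := hi
      have := hi.cofinite_inf_principal_neBot
      obtain ⟨U, hU⟩ := Ultrafilter.exists_le (cofinite ⊓
        𝓟 {x | ¬ (hb hp.gen x ∈ O ↔ hb hp.gen (x * g) ∈ O)})
      have hU1 : (U : Filter G) ≤ cofinite := hU.trans inf_le_left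
      have hU2 : {x | ¬ (hb hp.gen x ∈ O ↔ hb hp.gen (x * g) ∈ O)} ∈ U :=
        le_principal_iff.1 (hU.trans inf_le_right)
      obtain ⟨q, -, hq⟩ := exists_lim hp.gen U (fun z => z)
      have hqL : q ∈ Lim hp.gen univ := (mem_Lim_univ hp.gen).2 ⟨U, hU1, hq⟩
      have hq2 := tendsto_hb_mul hp.gen g (f := fun z => z) (l := (U : Filter G)) hU1 hq
      by_cases hqa : q = a
      · have h1 := hq (hO.mem_nhds (hqa ▸ haO'))
        have h2 := hq2 (hO.mem_nhds (hqa ▸ haO'))
        obtain ⟨x, hx⟩ := (U.neBot).nonempty_of_mem (inter_mem (inter_mem h1 h2) hU2)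
        exact hx.2 ⟨fun _ => hx.1.2, fun _ => hx.1.1⟩
      · have h1 := hq (hO'.mem_nhds (hpts q hqL hqa))
        have h2 := hq2 (hO'.mem_nhds (hpts q hqL hqa))
        obtain ⟨x, hx⟩ := (U.neBot).nonempty_of_mem (inter_mem (inter_mem h1 h2) hU2)
        refine hx.2 ⟨fun h => ?_, fun h => ?_⟩
        · exact absurd hx.1.1 (Set.disjoint_left.1 hdis h)
        · exact absurd hx.1.2 (Set.disjoint_left.1 hdis h)
    exact hinf (((S.finite_toSet.biUnion fun s _ => key s).union
      (S.finite_toSet.biUnion fun s _ => key s⁻¹)).subset hsubset)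
  have hcl : ∀ q ∈ Lim hp.gen univ, ∀ W ∈ 𝓝 q, {x | hb hp.gen x ∈ W}.Infinite := by
    intro q hq W hW hfin
    obtain ⟨U, hU, hUq⟩ := (mem_Lim_univ hp.gen).1 hq
    have h1 := hU hfin.compl_mem_cofinite
    have h2 : {x | hb hp.gen x ∈ W} ∈ U := hUq hW
    exact (Ultrafilter.compl_mem_iff_notMem.1 h1) h2
  rcases hoe _ hbd with h | h
  · exact hcl a ha O (hO.mem_nhds haO') h
  · refine hcl b hb' O' (hO'.mem_nhds (hpts b hb' (Ne.symm hab))) (h.subset fun x hx hx2 => ?_)
    exact Set.disjoint_left.1 hdis hx2 hx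

/-! ### elements with two limit points -/

/-- `g` has the attracting point `a` and the repelling point `b` -/
structure Lx (hS : Subgroup.closure (S : Set G) = ⊤) (g : G) (a b : G → G → ℝ) : Prop where
  ne : a ≠ b
  t1 : Tendsto (fun n : ℕ => hb hS (g ^ n)) atTop (𝓝 a)
  t2 : Tendsto (fun n : ℕ => hb hS (g⁻¹ ^ n)) atTop (𝓝 b)

section

variable {hS : Subgroup.closure (S : Set G) = ⊤} {g s : G} {a b : G → G → ℝ}

theorem Lx.inv (h : Lx hS g a b) : Lx hS g⁻¹ b a :=
  ⟨h.ne.symm, h.t2, by rw [inv_inv]; exact h.t1⟩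

theorem Lx.pa (h : Lx hS g a b) : a ∈ Pt hS := Pt.of_tendsto h.t1

theorem Lx.pb (h : Lx hS g a b) : b ∈ Pt hS := Pt.of_tendsto h.t2

theorem Lx.ne_one (h : Lx hS g a b) : g ≠ 1 := by
  rintro rfl
  have h1 := h.t1
  have h2 := h.t2
  simp only [one_pow, inv_one] at h1 h2
  exact h.ne (tendsto_nhds_unique h1 h2)

theorem pow_cofinite (htf : ∀ g : G, g ≠ 1 → ∀ n : ℕ, n ≠ 0 → g ^ n ≠ 1) (hg : g ≠ 1) :
    Tendsto (fun n : ℕ => g ^ n) atTop cofinite := by
  rw [← Nat.cofinite_eq_atTop]
  refine Function.Injective.tendsto_cofinite fun m n hmn => ?_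
  have key : ∀ m n : ℕ, m < n → g ^ m ≠ g ^ n := by
    intro m n hlt heq
    refine htf g hg (n - m) (by omega) ?_
    have : g ^ m * g ^ (n - m) = g ^ m * 1 := by
      rw [← pow_add, mul_one, heq]; congr 1; omega
    exact mul_left_cancel this
  rcases lt_trichotomy m n with h | h | h
  · exact absurd hmn (key m n h)
  · exact h
  · exact absurd hmn.symm (key n m h)

theorem Lx.fix_a (h : Lx hS g a b) : act g a = a := by
  have h1 : Tendsto (fun n : ℕ => act g (hb hS (g ^ n))) atTop (𝓝 (act g a)) :=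
    ((D.continuous_act g).tendsto a).comp h.t1
  have h2 : Tendsto (fun n : ℕ => act g (hb hS (g ^ n))) atTop (𝓝 a) := by
    refine (h.t1.comp (tendsto_add_atTop_nat 1)).congr fun n => ?_
    simp only [Function.comp]
    rw [act_hb, pow_succ']
  exact tendsto_nhds_unique h1 h2

theorem fix_inv {c : G → G → ℝ} (h : act g c = c) : act g⁻¹ c = c := by
  conv_lhs => rw [← h]
  rw [D.act_act, inv_mul_cancel, D.act_one]

theorem fix_mul {c : G → G → ℝ} (h : act g c = c) (h' : act s c = c) : act (g * s) c = c := by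
  rw [← D.act_act, h', h]

theorem fix_pow {c : G → G → ℝ} (h : act g c = c) (n : ℕ) : act (g ^ n) c = c := by
  induction n with
  | zero => rw [pow_zero, D.act_one]
  | succ n ih => rw [pow_succ]; exact fix_mul ih h

theorem Lx.fix_b (h : Lx hS g a b) : act g b = b := by
  have := fix_inv h.inv.fix_a
  rwa [inv_inv] at this

variable [Countable G] {F : Finset G} (hF : CrossProp S F)
  (htf : ∀ g : G, g ≠ 1 → ∀ n : ℕ, n ≠ 0 → g ^ n ≠ 1)

include hF htf in
/-- north-south dynamics -/
theorem Lx.tendsto_act (h : Lx hS g a b) {ι : Type*} {l : Filter ι} {k : ι → ℕ}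
    (hk : Tendsto k l atTop) {p : G → G → ℝ} (hp : p ∈ Pt hS) (hpb : p ≠ b) :
    Tendsto (fun i => act (g ^ k i) p) l (𝓝 a) := by
  refine cp_pt hS hF (k := fun i => g ^ k i) (x := a) (y := b) (p := fun _ => p)
    ((pow_cofinite htf h.ne_one).comp hk) (h.t1.comp hk) ?_ (fun _ => hp) tendsto_const_nhds hpb
  refine (h.t2.comp hk).congr fun i => ?_
  simp only [Function.comp, inv_pow]

include hF htf in
/-- **(CM)** an element fixing one end of `g` fixes the other -/
theorem cm (hg : Lx hS g a b) (hs : act s b = b) : act s a = a := by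
  by_contra hne
  set a' := act s a with ha'
  have ha'P : a' ∈ Pt hS := Pt.act hg.pa s
  have ha'b : a' ≠ b := fun h => hg.ne (act_inj (h.trans hs.symm))
  set g' := s * g * s⁻¹ with hg'
  have hfix : act g' a' = a' := by
    rw [ha', D.act_act, hg', inv_mul_cancel_right, ← D.act_act, hg.fix_a]
  have hfixb : act g' b = b := fix_mul (fix_mul hs hg.fix_b) (fix_inv hs)
  obtain ⟨u, hu, hlt⟩ : ∃ u : (G → G → ℝ) → ℝ, Continuous u ∧ u b < u a := by
    have : ∃ c d, a c d ≠ b c d := by
      by_contra hc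
      push Not at hc
      exact hg.ne (funext fun c => funext fun d => hc c d)
    obtain ⟨c, d, hcd⟩ := this
    rcases lt_or_gt_of_ne hcd with h | h
    · exact ⟨fun β => - β c d, (continuous_ev c d).neg, neg_lt_neg h⟩
    · exact ⟨fun β => β c d, continuous_ev c d, h⟩
  obtain ⟨t, ht1, ht2⟩ := exists_between hlt
  -- the points `z m = g'^(-m)` converge to `b`
  have hz : Tendsto (fun m : ℕ => hb hS (g'⁻¹ ^ m)) atTop (𝓝 b) := by
    have h1 : ∀ m : ℕ, g'⁻¹ ^ m = s * (g⁻¹ ^ m * s⁻¹) := by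
      intro m
      have : g'⁻¹ = s * g⁻¹ * s⁻¹ := by rw [hg']; group
      rw [this, conj_pow, mul_assoc]
    have h2 := tendsto_hb_mul hS s⁻¹ (pow_cofinite htf (inv_ne_one.2 hg.ne_one)) hg.t2
    have h3 := ((D.continuous_act s).tendsto b).comp h2
    rw [hs] at h3
    refine h3.congr fun m => ?_
    simp only [Function.comp]
    rw [act_hb, h1]
  have hex : ∀ m : ℕ, ∃ n : ℕ, t ≤ u (hb hS (g ^ n * g'⁻¹ ^ m)) := by
    intro m
    have h2 := (hu.tendsto a).comp
      (tendsto_hb_mul hS (g'⁻¹ ^ m) (pow_cofinite htf hg.ne_one) hg.t1)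
    obtain ⟨n, hn⟩ := (h2.eventually_const_lt ht2).exists
    exact ⟨n, hn.le⟩
  classical
  let N : ℕ → ℕ := fun m => Nat.find (hex m)
  have hN : ∀ m, t ≤ u (hb hS (g ^ N m * g'⁻¹ ^ m)) := fun m => Nat.find_spec (hex m)
  have hN' : ∀ m k, k < N m → u (hb hS (g ^ k * g'⁻¹ ^ m)) < t := fun m k hk =>
    not_le.1 (Nat.find_min (hex m) hk)
  have hpos : ∀ᶠ m : ℕ in atTop, 0 < N m := by
    have h2 := (hu.tendsto b).comp hz
    filter_upwards [h2.eventually_lt_const ht1] with m hm
    rw [Nat.pos_iff_ne_zero]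
    intro h0
    have h3 := hN m
    rw [h0, pow_zero, one_mul] at h3
    exact absurd hm (not_lt.2 h3)
  let U : Ultrafilter ℕ := hyperfilter ℕ
  have hU : (U : Filter ℕ) ≤ atTop := by
    rw [← Nat.cofinite_eq_atTop]; exact hyperfilter_le_cofinite
  -- `N m` is unbounded
  have hNtop : Tendsto N U atTop := by
    rw [← Nat.cofinite_eq_atTop]
    intro W hW
    rw [mem_cofinite] at hW
    rw [mem_map]
    by_contra hc
    have hc' : N ⁻¹' Wᶜ ∈ U := by
      rw [preimage_compl]
      exact Ultrafilter.compl_mem_iff_notMem.2 hc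
    have hbi : (⋃ k ∈ Wᶜ, N ⁻¹' {k}) ∈ U := by
      refine mem_of_superset hc' fun m hm => ?_
      rw [mem_iUnion₂]
      exact ⟨N m, hm, rfl⟩
    obtain ⟨k, -, hk⟩ := (Ultrafilter.finite_biUnion_mem_iff hW).1 hbi
    have h1 : Tendsto (fun m : ℕ => u (act (g ^ k) (hb hS (g'⁻¹ ^ m)))) U (𝓝 (u b)) := by
      have h2 := ((hu.comp (D.continuous_act (g ^ k))).tendsto b).comp (hz.mono_left hU)
      simp only [Function.comp, fix_pow hg.fix_b k] at h2
      exact h2
    have h2 : t ≤ u b := by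
      refine ge_of_tendsto h1 ?_
      filter_upwards [hk] with m hm
      have hm' : N m = k := hm
      have := hN m
      rw [hm', ← act_hb] at this
      exact this
    exact absurd ht1 (not_lt.2 h2)
  have hntop : Tendsto (fun m => N m - 1) U atTop := (tendsto_sub_atTop_nat 1).comp hNtop
  set h : ℕ → G := fun m => g ^ (N m - 1) * g'⁻¹ ^ m with hh
  have hact : Tendsto (fun m => act (h m) a') U (𝓝 a) := by
    refine (hg.tendsto_act hF htf hntop ha'P ha'b).congr fun m => ?_
    rw [hh]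
    simp only
    rw [← D.act_act, fix_pow (fix_inv hfix) m]
  have hposU : ∀ᶠ m in (U : Filter ℕ), 0 < N m := hU hpos
  by_cases hcof : Tendsto h U cofinite
  · obtain ⟨x, -, hx⟩ := exists_lim hS U h
    obtain ⟨y, -, hy⟩ := exists_lim hS U fun m => (h m)⁻¹
    have hxa : u x ≤ t := by
      refine le_of_tendsto ((hu.tendsto x).comp hx) ?_
      filter_upwards [hposU] with m hm
      exact (hN' m (N m - 1) (by omega)).le
    have hxb : t ≤ u (act g x) := by
      refine ge_of_tendsto ((hu.comp (D.continuous_act g)).tendsto x |>.comp hx) ?_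
      filter_upwards [hposU] with m hm
      simp only [Function.comp]
      rw [act_hb, hh]
      simp only
      rw [← mul_assoc, ← pow_succ', Nat.sub_add_cancel hm]
      exact hN m
    have hxa' : x ≠ a := fun he => absurd ht2 (not_lt.2 (he ▸ hxa))
    have hxb' : x ≠ b := by
      intro he
      rw [he, hg.fix_b] at hxb
      exact absurd ht1 (not_lt.2 hxb)
    have hfixh : ∀ m, act (h m) b = b := fun m =>
      fix_mul (fix_pow hg.fix_b _) (fix_pow (fix_inv hfixb) m)
    have hyb : y = b := by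
      by_contra hyb
      have h1 := cp_pt hS hF hcof hx hy (p := fun _ => b) (fun _ => hg.pb) tendsto_const_nhds
        (Ne.symm hyb)
      simp only [hfixh] at h1
      exact hxb' (tendsto_nhds_unique h1 tendsto_const_nhds)
    have h1 := cp_pt hS hF hcof hx hy (p := fun _ => a') (fun _ => ha'P) tendsto_const_nhds
      (by rw [hyb]; exact ha'b)
    exact hxa' (tendsto_nhds_unique h1 hact)
  · -- a value is taken infinitely often
    obtain ⟨W, hW, hc⟩ : ∃ W ∈ (cofinite : Filter G), h ⁻¹' W ∉ U := by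
      by_contra hc
      push Not at hc
      exact hcof hc
    rw [mem_cofinite] at hW
    have hc' : h ⁻¹' Wᶜ ∈ U := by
      rw [preimage_compl]
      exact Ultrafilter.compl_mem_iff_notMem.2 hc
    have hbi : (⋃ k ∈ Wᶜ, h ⁻¹' {k}) ∈ U := by
      refine mem_of_superset hc' fun m hm => ?_
      rw [mem_iUnion₂]
      exact ⟨h m, hm, rfl⟩
    obtain ⟨v, -, hv⟩ := (Ultrafilter.finite_biUnion_mem_iff hW).1 hbi
    obtain ⟨m, hm⟩ := (U.neBot).nonempty_of_mem hv
    have h2 : ∀ᶠ m' in (U : Filter ℕ), m < m' ∧ N m - 1 < N m' - 1 :=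
      ((eventually_gt_atTop m).filter_mono hU).and (hntop.eventually (eventually_gt_atTop _))
    obtain ⟨m', ⟨hm', h3, h4⟩⟩ := (U.neBot).nonempty_of_mem (inter_mem hv h2)
    have heq : g ^ (N m - 1) * g'⁻¹ ^ m = g ^ (N m' - 1) * g'⁻¹ ^ m' := by
      have e1 : h m = v := hm
      have e2 : h m' = v := hm'
      exact e1.trans e2.symm
    set l := (N m' - 1) - (N m - 1) with hl
    have hl1 : 1 ≤ l := by omega
    have heq2 : g ^ l = g' ^ (m' - m) := by
      have e1 : g ^ (N m' - 1) = g ^ (N m - 1) * g ^ l := by rw [← pow_add]; congr 1; omega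
      have e2 : g'⁻¹ ^ m' = (g' ^ (m' - m))⁻¹ * g'⁻¹ ^ m := by
        rw [← inv_pow, ← pow_add]; congr 1; omega
      rw [e1, e2, mul_assoc] at heq
      have e3 := mul_left_cancel heq
      have e4 : (1 : G) * g'⁻¹ ^ m = (g ^ l * (g' ^ (m' - m))⁻¹) * g'⁻¹ ^ m := by
        rw [one_mul, mul_assoc]; exact e3
      have e5 := mul_right_cancel e4
      exact (mul_inv_eq_one.1 e5.symm)
    have hfixl : ∀ j : ℕ, act (g ^ (l * j)) a' = a' := by
      intro j
      rw [pow_mul, heq2]
      exact fix_pow (fix_pow hfix _) j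
    have h5 := hg.tendsto_act hF htf (k := fun j : ℕ => l * j) (l := atTop)
      (tendsto_id.const_mul_atTop' (by omega)) ha'P ha'b
    simp only [hfixl] at h5
    exact hne (tendsto_nhds_unique tendsto_const_nhds h5)

end

/-- an ultrafilter picks one fibre of a map with finite range -/
theorem exists_fibre {α ι : Type*} {f : ι → α} (hf : (range f).Finite) (U : Ultrafilter ι) :
    ∃ γ ∈ range f, {i | f i = γ} ∈ U := by
  have hbi : (⋃ γ ∈ range f, {i | f i = γ}) ∈ U := by
    refine mem_of_superset univ_mem fun m _ => ?_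
    rw [mem_iUnion₂]
    exact ⟨f m, ⟨m, rfl⟩, rfl⟩
  exact (Ultrafilter.finite_biUnion_mem_iff hf).1 hbi

/-- **(ORB)** all orbits of points are infinite -/
theorem orb_infinite (hp : HypS S) (hoe : OneEnded S) (hd : HasHD S)
    (htf : ∀ g : G, g ≠ 1 → ∀ n : ℕ, n ≠ 0 → g ^ n ≠ 1) [Countable G] {δ : ℝ}
    (h4 : Four hp.gen δ) {F : Finset G} (hF : CrossProp S F) : Orb hp.gen := by
  intro β hβ hfin
  have hβP := Lim_subset hp.gen _ hβ
  refine lim_infinite hp hoe hd ?_
  by_cases hf : IsFin hp.gen β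
  · refine hfin.subset fun x hx => ?_
    obtain ⟨U, hU, hUx⟩ := (mem_Lim_univ hp.gen).1 hx
    obtain ⟨γ, hγ, hγU⟩ := exists_fibre hfin U
    have h1 := tendsto_act_fin h4 hβP hf (f := fun z => z) (l := (U : Filter G)) hU hUx
    have h2 : Tendsto (fun g : G => act g β) U (𝓝 γ) :=
      tendsto_const_nhds.congr' (by filter_upwards [hγU] with g hg using hg.symm)
    rw [tendsto_nhds_unique h1 h2]
    exact hγ
  · obtain ⟨x, hx, y, hy, hxy⟩ := two hp hd
    obtain ⟨g, -, a, -, b, -, hab, -, -, hga, hgb⟩ := exists_lox' h4 hF htf (⊤ : Subgroup G)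
      (by rwa [Subgroup.coe_top]) (by rwa [Subgroup.coe_top]) hxy
    have hg : Lx hp.gen g a b := ⟨hab, hga, hgb⟩
    obtain ⟨k, hk, hkβ⟩ : ∃ k : ℕ, 0 < k ∧ act (g ^ k) β = β := by
      have : Finite (range fun g : G => act g β) := hfin
      obtain ⟨i, j, hij, heq⟩ := Finite.exists_ne_map_eq_of_infinite
        (fun n : ℕ => (⟨act (g ^ n) β, ⟨g ^ n, rfl⟩⟩ : range fun g : G => act g β))
      have heq' : act (g ^ i) β = act (g ^ j) β := congrArg Subtype.val heq
      have key : ∀ i j : ℕ, i < j → act (g ^ i) β = act (g ^ j) β →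
          act (g ^ (j - i)) β = β := by
        intro i j hlt h
        refine act_inj (g := g ^ i) ?_
        rw [D.act_act, ← pow_add, Nat.add_sub_cancel' hlt.le]
        exact h.symm
      rcases lt_or_gt_of_ne hij with h | h
      · exact ⟨j - i, by omega, key i j h heq'⟩
      · exact ⟨i - j, by omega, key j i h heq'.symm⟩
    obtain ⟨g', a', hg'⟩ : ∃ g' a', Lx hp.gen g' a' β := by
      by_cases hb : β = b
      · exact ⟨g, a, hb ▸ hg⟩
      · have h1 := hg.tendsto_act hF htf (k := fun j : ℕ => k * j) (l := atTop)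
          (tendsto_id.const_mul_atTop' hk) hβP hb
        have h2 : ∀ j : ℕ, act (g ^ (k * j)) β = β := fun j => by
          rw [pow_mul]; exact fix_pow hkβ j
        simp only [h2] at h1
        have h3 : β = a := tendsto_nhds_unique tendsto_const_nhds h1
        exact ⟨g⁻¹, b, h3 ▸ hg.inv⟩
    have hr : ∀ γ : G → G → ℝ, ∃ r : G, γ ∈ range (fun g : G => act g β) → act r β = γ := by
      intro γ
      by_cases h : γ ∈ range (fun g : G => act g β)
      · obtain ⟨r, hr⟩ := h
        exact ⟨r, fun _ => hr⟩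
      · exact ⟨1, fun h2 => absurd h2 h⟩
    choose r hr using hr
    refine (hfin.union (hfin.image fun γ => act (r γ) a')).subset fun x hx => ?_
    obtain ⟨U, hU, hUx⟩ := (mem_Lim_univ hp.gen).1 hx
    obtain ⟨y, -, hUy⟩ := exists_lim hp.gen U fun z => z⁻¹
    obtain ⟨γ, hγ, hγU⟩ := exists_fibre hfin U
    by_cases hy : β = y
    · right
      refine ⟨γ, hγ, ?_⟩
      have h1 := cp_pt hp.gen hF (k := fun z : G => z) (l := (U : Filter G)) hU hUx hUy
        (p := fun _ => a') (fun _ => hg'.pa) tendsto_const_nhds (by rw [← hy]; exact hg'.ne)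
      refine tendsto_nhds_unique (tendsto_const_nhds.congr' ?_) h1
      filter_upwards [hγU] with z hz
      have hz' : act z β = γ := hz
      have h2 : act ((r γ)⁻¹ * z) β = β := by
        refine act_inj (g := r γ) ?_
        rw [D.act_act, mul_inv_cancel_left, hz', hr γ hγ]
      have h3 := congrArg (act (r γ)) (cm hF htf hg' h2)
      rw [D.act_act, mul_inv_cancel_left] at h3
      exact h3.symm
    · left
      have h1 := cp_pt hp.gen hF (k := fun z : G => z) (l := (U : Filter G)) hU hUx hUy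
        (p := fun _ => β) (fun _ => hβP) tendsto_const_nhds hy
      have h2 : Tendsto (fun g : G => act g β) U (𝓝 γ) :=
        tendsto_const_nhds.congr' (by filter_upwards [hγU] with g hg using hg.symm)
      rw [tendsto_nhds_unique h1 h2]
      exact hγ

end Vale.Agent.P239.F.P0
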