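import Vale.Agent.P239.F.C2

/-! A set whose boundary does not accumulate at `β` is constant near `β`. -/

namespace Vale.Agent.P239.F.N

open Filter Topology Set
open Vale.Agent.P239 Vale.Agent.P239.F
open scoped InnerProductSpace ENNReal

variable {G : Type*} [Group G] {S T : Finset G} {hS : Subgroup.closure (S : Set G) = ⊤}

omit [Group G] in
/-- Bounded families of vectors which converge coordinatewise converge weakly. -/
theorem exists_weak_lim {l : Filter G} [l.NeBot] {u : G → HS S} {M : ℝ}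
    (hM : ∀ᶠ z in l, ‖u z‖ ≤ M)
    (hc : ∀ p : S × G, ∃ c : ℝ, Tendsto (fun z => u z p) l (𝓝 c)) (η : HS S) :
    ∃ c, Tendsto (fun z => ⟪u z, η⟫_ℝ) l (𝓝 c) := by
  classical
  have hM0 : 0 ≤ M := by
    obtain ⟨z, hz⟩ := hM.exists
    exact (norm_nonneg _).trans hz
  rw [← cauchy_map_iff_exists_tendsto, Metric.cauchy_iff]
  refine ⟨inferInstance, fun ε hε => ?_⟩
  have hsum : HasSum (fun p : S × G => lp.single 2 p (η p)) η := lp.hasSum_single (by norm_num) η
  obtain ⟨K, hK⟩ := ((Metric.tendsto_nhds.1 hsum (ε / (4 * (M + 1))) (by positivity))).exists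
  rw [dist_eq_norm, norm_sub_rev] at hK
  choose c hc using hc
  have h1 : Tendsto (fun z => ∑ p ∈ K, u z p * η p) l (𝓝 (∑ p ∈ K, c p * η p)) :=
    tendsto_finsetSum _ fun p _ => (hc p).mul_const _
  have h2 := (Metric.tendsto_nhds.1 h1 (ε / 4) (by positivity)).and hM
  refine ⟨_, image_mem_map h2, ?_⟩
  have h3 : ∀ z, ⟪u z, η⟫_ℝ = ⟪u z, η - ∑ p ∈ K, lp.single 2 p (η p)⟫_ℝ +
      ∑ p ∈ K, u z p * η p := by
    intro z
    have h1 : ⟪u z, ∑ p ∈ K, lp.single 2 p (η p)⟫_ℝ = ∑ p ∈ K, u z p * η p := by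
      rw [inner_sum]
      refine Finset.sum_congr rfl fun p _ => ?_
      rw [lp.inner_single_right]
      simp [mul_comm]
    rw [inner_sub_right, h1]
    ring
  have h4 : ∀ z, ‖u z‖ ≤ M → |⟪u z, η - ∑ p ∈ K, lp.single 2 p (η p)⟫_ℝ| ≤ ε / 4 := by
    intro z hz
    refine (abs_real_inner_le_norm _ _).trans ?_
    calc ‖u z‖ * ‖η - ∑ p ∈ K, lp.single 2 p (η p)‖ ≤ M * (ε / (4 * (M + 1))) :=
          mul_le_mul hz hK.le (norm_nonneg _) hM0
      _ ≤ ε / 4 := by
          rw [mul_div_assoc', div_le_div_iff₀ (by positivity) (by positivity)]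
          nlinarith
  rintro _ ⟨z, ⟨hz1, hz2⟩, rfl⟩ _ ⟨z', ⟨hz1', hz2'⟩, rfl⟩
  rw [Real.dist_eq] at *
  beta_reduce
  rw [h3 z, h3 z']
  have a1 := h4 z hz2
  have a2 := h4 z' hz2'
  rw [abs_lt] at *
  rw [abs_le] at a1 a2
  constructor <;> linarith


theorem gp_eq_hb (z w : G) : gp hS z w = gpb hS 1 w (hb hS z) := by
  have h1 : gp hS 1 z = 0 := gp_one hS z
  have h2 : gp hS 1 w = 0 := gp_one hS w
  have h3 : gp hS 1 1 = 0 := gp_one hS 1
  have h4 : gp hS w z = gp hS z w := gp_comm hS w z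
  unfold gpb hb
  rw [res_eq, res_eq, res_eq, h1, h2, h3, h4]
  ring

theorem gp_tendsto (β : G → G → ℝ) (w : G) :
    Tendsto (fun z => gp hS z w) (nf hS β) (𝓝 (gpb hS 1 w β)) := by
  have h3 : Tendsto (hb hS) (nf hS β) (𝓝 β) := tendsto_comap.mono_left inf_le_right
  have h4 := (tendsto_pi_nhds.1 (tendsto_pi_nhds.1 h3 w)) 1
  have h5 := (h4.const_sub (res hS 1 w)).div_const 2
  exact h5.congr fun z => (gp_eq_hb z w).symm

/-- The case of a point at finite distance. -/
theorem dich_fin {β : G → G → ℝ} (hβ : β ∈ Lim hS univ) {B s : ℝ}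
    (hB : ∀ x, gpb hS 1 x β ≤ B) (hs : B < s) (hs0 : 0 ≤ s)
    (hslab : ∀ O ∈ 𝓝 β, ∀ᶠ z in nf hS β, ∀ w, s ≤ gp hS z w → hb hS w ∈ O)
    (hcut : ∀ O ∈ 𝓝 β, ∃ f : Dir S, (∀ x, 0 ≤ f.1 x ∧ f.1 x ≤ 1) ∧
      (∀ᶠ x in nf hS β, f.1 x = 0) ∧ ∀ x, hb hS x ∉ O → f.1 x = 1)
    {A : Set G} (hA : (bd S A)ᶜ ∈ nf hS β) : A ∈ nf hS β ∨ Aᶜ ∈ nf hS β := by
  classical
  have : (nf hS β).NeBot := nf_neBot hβ
  obtain ⟨O, hO, hF⟩ := (mem_nf hS).1 hA
  obtain ⟨f, hf01, hf0, hf1⟩ := hcut O hO
  set g : G → ℝ := fun x => (1 - f.1 x) * A.indicator 1 x with hg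
  -- `g` has finite energy
  have hgD : g ∈ Dir S := by
    rw [mem_Dir_iff]
    intro s' hs'
    have h1 := hasSum_slice f ⟨s', hs'⟩
    refine Summable.of_norm_bounded_eventually h1 ?_
    have h2 : {x | ¬ ‖(g (x * s') - g x) ^ 2‖ ≤ (f.1 (x * s') - f.1 x) ^ 2}.Finite := by
      refine (hF.union (hF.preimage ((mul_left_injective s').injOn))).subset ?_
      intro x hx
      by_contra hcon
      apply hx
      rw [Real.norm_eq_abs, abs_of_nonneg (sq_nonneg _)]
      rw [Set.mem_union, not_or] at hcon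
      obtain ⟨hc1, hc2⟩ := hcon
      have hc1' : ¬ (hb hS x ∈ O ∧ x ∉ (bd S A)ᶜ) := hc1
      have hc2' : ¬ (hb hS (x * s') ∈ O ∧ (x * s') ∉ (bd S A)ᶜ) := hc2
      by_cases hxA : (x ∈ A ↔ x * s' ∈ A)
      · by_cases hx1 : x ∈ A
        · have hx2 := hxA.1 hx1
          simp only [hg, Set.indicator_of_mem hx1, Set.indicator_of_mem hx2, Pi.one_apply,
            mul_one]
          refine le_of_eq ?_
          ring
        · have hx2 : x * s' ∉ A := fun h => hx1 (hxA.2 h)
          simp only [hg, Set.indicator_of_notMem hx1, Set.indicator_of_notMem hx2, mul_zero,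
            sub_zero, zero_pow two_ne_zero]
          exact sq_nonneg _
      · have hadj : Adj S x (x * s') := ⟨s', hs', Or.inl rfl⟩
        have hb1 : x ∈ bd S A := ⟨_, hadj, hxA⟩
        have hb2 : x * s' ∈ bd S A := ⟨_, hadj.symm, fun h => hxA h.symm⟩
        have e1 : f.1 x = 1 := hf1 x fun h => hc1' ⟨h, fun h' => h' hb1⟩
        have e2 : f.1 (x * s') = 1 := hf1 _ fun h => hc2' ⟨h, fun h' => h' hb2⟩
        simp [hg, e1, e2]
    exact h2.subset (fun x hx => hx)
  set gD : Dir S := ⟨g, hgD⟩ with hgD'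
  -- the clamped potentials
  set u : G → Dir S := fun z => cD ((pot hS z).1 1) ((pot hS z).1 1 + s) (pot hS z) with hu
  have hab : ∀ z, (pot hS z).1 1 ≤ (pot hS z).1 1 + s := fun z => by linarith
  have hclp : ∀ z w, (u z).1 w = (pot hS z).1 1 + min s (gp hS z w) := by
    intro z w
    change clp _ _ _ = _
    have h0 := gp_nonneg hS z w
    rw [gp_eq] at h0 ⊢
    unfold clp
    rw [max_eq_right (le_min (hab z) (by linarith))]
    rcases le_total s ((pot hS z).1 w - (pot hS z).1 1) with h | h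
    · rw [min_eq_left h, min_eq_left (by linarith)]
    · rw [min_eq_right h, min_eq_right (by linarith)]
      ring
  have hM : ∀ᶠ z in nf hS β, ‖grad S (u z)‖ ≤ Real.sqrt s := by
    refine Eventually.of_forall fun z => ?_
    refine Real.le_sqrt_of_sq_le ?_
    rw [← en_self]
    refine (en_le_of_contr (pot hS z) (u z) fun _ => clp_sq _ _).trans ?_
    rw [pot_isPot hS z]
    have h1 := (clp_mem (hab z) ((pot hS z).1 z)).2
    have h2 := (clp_mem (hab z) ((pot hS z).1 1)).1
    change clp _ _ _ - clp _ _ _ ≤ _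
    linarith
  have hc : ∀ p : S × G, ∃ c : ℝ, Tendsto (fun z => grad S (u z) p) (nf hS β) (𝓝 c) := by
    intro p
    have h1 := (gp_tendsto (hS := hS) β (p.2 * (p.1 : G)))
    have h2 := (gp_tendsto (hS := hS) β p.2)
    have h3 := ((tendsto_const_nhds (x := s)).min h1).sub ((tendsto_const_nhds (x := s)).min h2)
    refine ⟨_, h3.congr fun z => ?_⟩
    rw [grad_apply, hclp, hclp]
    ring
  obtain ⟨c, hc⟩ := exists_weak_lim hM hc (grad S gD)
  -- the good set
  have hW : {w | w ∉ bd S A ∧ f.1 w = 0 ∧ ∀ y, Adj S w y → f.1 y = 0} ∈ nf hS β := by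
    have h1 : {w | f.1 w = 0} ∈ nf hS β := hf0
    filter_upwards [hA, h1, adj_mem_nf h1] with w a1 a2 a3
    exact ⟨a1, a2, a3⟩
  obtain ⟨O₂, hO₂, hF₂⟩ := (mem_nf hS).1 hW
  have hsmall : ∀ᶠ z in nf hS β, ∀ w ∈ {x | hb hS x ∈ O₂ ∧ x ∉ {w | w ∉ bd S A ∧ f.1 w = 0 ∧
      ∀ y, Adj S w y → f.1 y = 0}}, gp hS z w < s := by
    rw [Filter.eventually_all_finite hF₂]
    intro w _
    exact (tendsto_order.1 (gp_tendsto (hS := hS) β w)).2 s ((hB w).trans_lt hs)
  have hgood : ∀ᶠ z in nf hS β, ∀ w, s ≤ gp hS z w → w ∉ bd S A ∧ f.1 w = 0 ∧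
      ∀ y, Adj S w y → f.1 y = 0 := by
    filter_upwards [hsmall, hslab O₂ hO₂] with z h1 h2 w hw
    by_contra hcon
    have := h1 w ⟨h2 w hw, hcon⟩
    linarith
  have hval : ∀ᶠ z in nf hS β, A.indicator (1 : G → ℝ) z = ⟪grad S (u z), grad S gD⟫_ℝ + g 1 := by
    filter_upwards [hgood, hf0] with z hz hfz
    have h1 : en S (pot hS z) gD = g z - g 1 := pot_isPot hS z gD
    have h2 : en S (pot hS z - u z) gD = 0 := by
      have h3 := hasSum_en S (pot hS z - u z) gD
      refine h3.unique ?_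
      have h4 : ∀ p : S × G, ((pot hS z - u z).1 (p.2 * (p.1 : G)) - (pot hS z - u z).1 p.2) *
          (gD.1 (p.2 * (p.1 : G)) - gD.1 p.2) = 0 := by
        rintro ⟨s', x⟩
        have hadj : Adj S x (x * s') := ⟨s', s'.2, Or.inl rfl⟩
        have key : ∀ a b : G, Adj S a b → s ≤ gp hS z a → g b = g a := by
          intro a b hab' ha
          obtain ⟨k1, k2, k3⟩ := hz a ha
          have k4 := k3 b hab'
          have k5 : (a ∈ A ↔ b ∈ A) := by
            by_contra hne
            exact k1 ⟨b, hab', hne⟩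
          simp only [hg, k2, k4]
          by_cases haA : a ∈ A
          · rw [Set.indicator_of_mem haA, Set.indicator_of_mem (k5.1 haA)]
            rfl
          · rw [Set.indicator_of_notMem haA, Set.indicator_of_notMem fun h => haA (k5.2 h)]
        by_cases hx : s ≤ gp hS z x
        · have := key x _ hadj hx
          change _ * (g _ - g _) = 0
          rw [this, sub_self, mul_zero]
        · by_cases hy : s ≤ gp hS z (x * s')
          · have := key _ x hadj.symm hy
            change _ * (g _ - g _) = 0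
            rw [this, sub_self, mul_zero]
          · have e : ∀ w, ¬ s ≤ gp hS z w → (pot hS z - u z).1 w = 0 := by
              intro w hw
              change (pot hS z).1 w - (u z).1 w = 0
              rw [hclp, min_eq_right (not_le.1 hw).le, gp_eq]
              ring
            change ((pot hS z - u z).1 (x * s') - (pot hS z - u z).1 x) * _ = 0
            rw [e _ hx, e _ hy, sub_zero, zero_mul]
      simp only [h4]
      exact hasSum_zero
    rw [en_sub_left, h1, sub_eq_zero] at h2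
    have h5 : g z = A.indicator (1 : G → ℝ) z := by
      simp only [hg]
      rw [show f.1 z = 0 from hfz]
      ring
    rw [← h5]
    change g z = en S (u z) gD + g 1
    rw [← h2]
    ring
  have hlim : Tendsto (fun z => A.indicator (1 : G → ℝ) z) (nf hS β) (𝓝 (c + g 1)) :=
    (hc.add_const (g 1)).congr' (hval.mono fun z hz => hz.symm)
  rcases lt_or_ge (1 / 4) (c + g 1) with h | h
  · left
    filter_upwards [(tendsto_order.1 hlim).1 _ h] with z hz
    by_contra hzA
    rw [Set.indicator_of_notMem hzA] at hz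
    linarith
  · right
    filter_upwards [(tendsto_order.1 hlim).2 (1 / 2) (by linarith)] with z hz hzA
    rw [Set.indicator_of_mem hzA, Pi.one_apply] at hz
    linarith

/-- The case of a point at infinite distance. -/
theorem dich_inf {β : G → G → ℝ} {δ : ℝ}
    (hinf : ∀ N : ℝ, ∃ x, N < gpb hS 1 x β)
    (hshadow : ∀ O ∈ 𝓝 β, ∃ N : ℝ, ∀ w, N < gpb hS 1 w β → hb hS w ∈ O)
    (hfour : ∀ w x, min (gp hS w x) (gpb hS 1 x β) - δ ≤ gpb hS 1 w β)
    {A : Set G} (hA : (bd S A)ᶜ ∈ nf hS β) : A ∈ nf hS β ∨ Aᶜ ∈ nf hS β := by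
  classical
  obtain ⟨O, hO, hF⟩ := (mem_nf hS).1 hA
  obtain ⟨N, hN⟩ := hshadow O hO
  obtain ⟨R, hR⟩ : ∃ R : ℝ, ∀ x ∈ {x | hb hS x ∈ O ∧ x ∉ (bd S A)ᶜ}, res hS 1 x ≤ R := by
    obtain ⟨R, hR⟩ := (hF.image (res hS 1)).bddAbove
    exact ⟨R, fun x hx => hR ⟨x, hx, rfl⟩⟩
  set N' : ℝ := max (max (N + δ) R) 1 with hN'
  obtain ⟨x, hx⟩ := hinf N'
  have hN1 : 1 ≤ N' := le_max_right _ _
  have hN2 : N + δ ≤ N' := (le_max_left _ _).trans (le_max_left _ _)
  have hN3 : R ≤ N' := (le_max_right _ _).trans (le_max_left _ _)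
  have hCb : ∀ w, N' < gp hS x w → w ∉ bd S A := by
    intro w hw hwb
    have h1 := hfour w x
    have h2 : N' - δ < gpb hS 1 w β := by
      refine lt_of_lt_of_le ?_ h1
      have hw' : N' < gp hS w x := by rwa [gp_comm]
      have : N' < min (gp hS w x) (gpb hS 1 x β) := lt_min hw' hx
      linarith
    have h3 := hN w (by linarith)
    have h5 := hR w ⟨h3, fun h => h hwb⟩
    have h6 := gp_le hS w x
    rw [gp_comm, ← res_one] at h6
    linarith
  have hcon : ∀ z, N' < gp hS x z → Con S {w | N' < gp hS x w} x z := by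
    intro z hz
    have h := (pot_isPot hS x).con hS (t := (pot hS x).1 1 + N') (by linarith) (z := z)
      (by rw [gp_eq] at hz; linarith)
    have e : {u | (pot hS x).1 1 + N' < (pot hS x).1 u} = {w | N' < gp hS x w} := by
      ext w
      change (pot hS x).1 1 + N' < (pot hS x).1 w ↔ N' < gp hS x w
      rw [gp_eq]
      constructor <;> intro h <;> linarith
    rwa [e] at h
  have hconst : ∀ z, N' < gp hS x z → (x ∈ A ↔ z ∈ A) := by
    intro z hz
    have h := hcon z hz
    clear hz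
    induction h with
    | refl => exact Iff.rfl
    | tail _ hbc ih =>
      refine ih.trans ?_
      by_contra hne
      exact hCb _ hbc.1 ⟨_, hbc.2.2, hne⟩
  have hev : ∀ᶠ z in nf hS β, N' < gp hS x z := by
    have h := (tendsto_order.1 (gp_tendsto (hS := hS) β x)).1 _ hx
    exact h.mono fun z hz => by rwa [gp_comm]
  by_cases hxA : x ∈ A
  · exact Or.inl (hev.mono fun z hz => (hconst z hz).1 hxA)
  · exact Or.inr (hev.mono fun z hz h => hxA ((hconst z hz).2 h))

end Vale.Agent.P239.F.N
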