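import Vale.Agent.P239.F.C2
import Vale.Agent.P239.F.C4Bas

/-! Uniform version of `CN`: a map on `G` which is locally constant near a point is constant near
the point. -/

namespace Vale.Agent.P239.F

open Filter Topology Set
open Vale.Agent.P239

namespace U

/-- A countably generated filter which decides every set pulled back by `π` concentrates on a
fibre of `π`. -/
theorem exists_fiber {α Q : Type*} (l : Filter α) [l.NeBot] [l.IsCountablyGenerated] (π : α → Q)
    (h : ∀ J : Set Q, π ⁻¹' J ∈ l ∨ (π ⁻¹' J)ᶜ ∈ l) : ∃ q, π ⁻¹' {q} ∈ l := by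
  classical
  by_contra hcon
  push Not at hcon
  obtain ⟨u, hu⟩ := exists_seq_tendsto (map π l)
  have hc : ∀ q : Q, ({q}ᶜ : Set Q) ∈ map π l := by
    intro q
    rcases h {q} with h1 | h1
    · exact absurd h1 (hcon q)
    · exact h1
  have hne : ∀ q : Q, ∀ᶠ n in atTop, u n ≠ q := fun q => hu (hc q)
  have hfib : ∀ q : Q, {n | u n = q}.Finite := by
    intro q
    have h1 := hne q
    rw [← Nat.cofinite_eq_atTop] at h1
    refine h1.subset ?_
    intro n hn
    simpa using hn
  have hinf : (range u).Infinite := by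
    intro hfin
    have h1 : (⋃ q ∈ range u, {n | u n = q}).Finite := hfin.biUnion fun q _ => hfib q
    refine Set.infinite_univ (h1.subset ?_)
    intro n _
    simp
  have e := hinf.natEmbedding
  let J : Set Q := range fun n : ℕ => ((e (2 * n) : range u) : Q)
  have hinj : Function.Injective fun n : ℕ => ((e n : range u) : Q) :=
    Subtype.val_injective.comp e.injective
  have hfr : ∀ g : ℕ → ℕ, Function.Injective g →
      {n | ∃ m, u n = ((e (g m) : range u) : Q)}.Infinite := by
    intro g hg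
    choose f hf using fun m : ℕ => (e (g m)).2
    refine (Set.infinite_range_of_injective (f := f) ?_).mono ?_
    · intro a b hab
      apply hg
      apply hinj
      change ((e (g a) : range u) : Q) = ((e (g b) : range u) : Q)
      rw [← hf a, ← hf b, hab]
    · rintro _ ⟨m, rfl⟩
      exact ⟨m, hf m⟩
  have hev : ∀ B : Set Q, B ∈ map π l → {n | u n ∉ B}.Finite := by
    intro B hB
    have h1 : ∀ᶠ n in atTop, u n ∈ B := hu hB
    rw [← Nat.cofinite_eq_atTop] at h1
    exact h1
  rcases h J with h1 | h1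
  · refine hfr (fun m => 2 * m + 1) (fun a b hab => by simpa using hab) ((hev J h1).subset ?_)
    rintro n ⟨m, hm⟩ ⟨k, hk⟩
    rw [hm] at hk
    have := hinj hk
    omega
  · refine hfr (fun m => 2 * m) (fun a b hab => by simpa using hab) ((hev Jᶜ h1).subset ?_)
    rintro n ⟨m, hm⟩ hn
    exact hn ⟨m, hm.symm⟩

theorem cofinite_cg {α : Type*} [Countable α] : (cofinite : Filter α).IsCountablyGenerated := by
  have h : (cofinite : Filter α) = ⨅ F : Finset α, 𝓟 ((F : Set α)ᶜ) := by
    apply le_antisymm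
    · refine le_iInf fun F => le_principal_iff.2 ?_
      exact F.finite_toSet.compl_mem_cofinite
    · intro A hA
      have hA' : (Aᶜ).Finite := hA
      refine mem_iInf_of_mem hA'.toFinset ?_
      rw [mem_principal]
      intro x hx
      simpa using hx
  rw [h]
  infer_instance

variable {G : Type*} [Group G] {S T : Finset G} (hS : Subgroup.closure (S : Set G) = ⊤)

include hS in
theorem countable : Countable G := by
  classical
  refine Function.Surjective.countable
    (f := fun l : List (S × Bool) =>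
      (l.map fun s : S × Bool => if s.2 then (s.1 : G) else (s.1 : G)⁻¹).prod) fun x => ?_
  have hx : x ∈ Subgroup.closure (S : Set G) := by rw [hS]; trivial
  induction hx using Subgroup.closure_induction_right with
  | one => exact ⟨[], rfl⟩
  | mul_right x _ s hs ih =>
    obtain ⟨l, hl⟩ := ih
    refine ⟨l ++ [(⟨s, hs⟩, true)], ?_⟩
    change (List.map (fun s : S × Bool => if s.2 then (s.1 : G) else (s.1 : G)⁻¹) _).prod = x * s
    rw [List.map_append, List.prod_append]
    exact congrArg₂ _ hl (by simp)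
  | mul_inv_cancel x _ s hs ih =>
    obtain ⟨l, hl⟩ := ih
    refine ⟨l ++ [(⟨s, hs⟩, false)], ?_⟩
    change (List.map (fun s : S × Bool => if s.2 then (s.1 : G) else (s.1 : G)⁻¹) _).prod = x * s⁻¹
    rw [List.map_append, List.prod_append]
    exact congrArg₂ _ hl (by simp)

theorem nf_cg (β : G → G → ℝ) : (nf hS β).IsCountablyGenerated := by
  have hc : Countable G := countable hS
  have h : (cofinite : Filter G).IsCountablyGenerated := cofinite_cg
  unfold nf
  infer_instance

variable {hS}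

/-- Uniform version of `CN`, filter form. -/
theorem const_fun {Q : Type*} {β : G → G → ℝ} (hβ : β ∈ Lim hS univ)
    (hcn : ∀ A : Set G, (bd S A)ᶜ ∈ nf hS β → A ∈ nf hS β ∨ Aᶜ ∈ nf hS β) (π : G → Q)
    (h : {x | ∃ y, Adj S x y ∧ π x ≠ π y}ᶜ ∈ nf hS β) : ∃ q, {x | π x = q} ∈ nf hS β := by
  have hc : (nf hS β).IsCountablyGenerated := nf_cg hS β
  have hne : (nf hS β).NeBot := nf_neBot hβ
  refine exists_fiber (nf hS β) π fun J => hcn _ (mem_of_superset h ?_)
  refine compl_subset_compl.2 ?_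
  rintro x ⟨y, hxy, hJ⟩
  refine ⟨y, hxy, fun he => hJ ?_⟩
  change π x ∈ J ↔ π y ∈ J
  rw [he]

theorem cn_filter {β : G → G → ℝ}
    (hcn : ∀ A : Set G, β ∉ Lim hS (bd S A) → β ∉ Lim hS A ∨ β ∉ Lim hS Aᶜ) (A : Set G)
    (hA : (bd S A)ᶜ ∈ nf hS β) : A ∈ nf hS β ∨ Aᶜ ∈ nf hS β := by
  rcases hcn A ((conv_iff_lim hS).2 hA) with h1 | h1
  · exact Or.inr ((conv_iff_lim hS).1 h1)
  · left
    have := (conv_iff_lim hS).1 h1
    rwa [compl_compl] at this

/-- Uniform version of `CN`, limit form. -/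
theorem const_fun' {Q : Type*} {β : G → G → ℝ} (hβ : β ∈ Lim hS univ)
    (hcn : ∀ A : Set G, β ∉ Lim hS (bd S A) → β ∉ Lim hS A ∨ β ∉ Lim hS Aᶜ) (π : G → Q)
    (h : β ∉ Lim hS {x | ∃ y, Adj S x y ∧ π x ≠ π y}) : ∃ q, β ∉ Lim hS {x | π x ≠ q} := by
  obtain ⟨q, hq⟩ := const_fun hβ (cn_filter hcn) π ((conv_iff_lim hS).1 h)
  refine ⟨q, (conv_iff_lim hS).2 ?_⟩
  exact mem_of_superset hq fun x hx hx2 => hx2 hx

/-- Connected in the graph with the edges of `E` removed. -/
def ConE (S : Finset G) (E : Set (G × G)) : G → G → Prop :=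
  Relation.ReflTransGen fun x y => Adj S x y ∧ (x, y) ∉ E ∧ (y, x) ∉ E

theorem ConE.symm {E : Set (G × G)} {x y : G} (h : ConE S E x y) : ConE S E y x := by
  induction h with
  | refl => exact Relation.ReflTransGen.refl
  | tail _ h ih =>
    refine Relation.ReflTransGen.head ⟨?_, h.2.2, h.2.1⟩ ih
    obtain ⟨s, hs, h | h⟩ := h.1
    · exact ⟨s, hs, Or.inr h⟩
    · exact ⟨s, hs, Or.inl h⟩

/-- Uniform version of `CN`: if the removed edges do not accumulate at `β`, then `G` is connected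
near `β` in the remaining graph. -/
theorem const_comp {β : G → G → ℝ} (hβ : β ∈ Lim hS univ)
    (hcn : ∀ A : Set G, (bd S A)ᶜ ∈ nf hS β → A ∈ nf hS β ∨ Aᶜ ∈ nf hS β) (E : Set (G × G))
    (h : {x | ∃ y, (x, y) ∈ E ∨ (y, x) ∈ E}ᶜ ∈ nf hS β) :
    ∃ x₀, {x | ConE S E x₀ x} ∈ nf hS β := by
  have hne : (nf hS β).NeBot := nf_neBot hβ
  obtain ⟨q, hq⟩ := const_fun hβ hcn (fun x => {y | ConE S E x y}) (mem_of_superset h (by
    refine compl_subset_compl.2 ?_
    rintro x ⟨y, hxy, hne⟩
    refine ⟨y, ?_⟩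
    by_contra hcon
    push Not at hcon
    apply hne
    have h1 : ConE S E x y := Relation.ReflTransGen.single ⟨hxy, hcon⟩
    ext z
    exact ⟨fun h2 => h1.symm.trans h2, fun h2 => h1.trans h2⟩))
  obtain ⟨x₀, hx₀⟩ := hne.nonempty_of_mem hq
  refine ⟨x₀, mem_of_superset hq fun x hx => ?_⟩
  have h1 : x ∈ {y | ConE S E x y} := Relation.ReflTransGen.refl
  have h2 : {y | ConE S E x y} = {y | ConE S E x₀ y} := hx.trans hx₀.symm
  rw [h2] at h1
  exact h1

/-- Uniform version of `CN`, limit form. -/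
theorem const_comp' {β : G → G → ℝ} (hβ : β ∈ Lim hS univ)
    (hcn : ∀ A : Set G, β ∉ Lim hS (bd S A) → β ∉ Lim hS A ∨ β ∉ Lim hS Aᶜ) (E : Set (G × G))
    (h : β ∉ Lim hS {x | ∃ y, (x, y) ∈ E ∨ (y, x) ∈ E}) :
    ∃ x₀, β ∉ Lim hS {x | ¬ ConE S E x₀ x} := by
  obtain ⟨q, hq⟩ := const_comp hβ (cn_filter hcn) E ((conv_iff_lim hS).1 h)
  refine ⟨q, (conv_iff_lim hS).2 ?_⟩
  exact mem_of_superset hq fun x hx hx2 => hx2 hx

end U

end Vale.Agent.P239.F
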