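import Vale.Agent.P239.F.ConvG

/-!
Slab lemma at points of finite type: if `z → β` then `{w | s ≤ gp z w} → β`.
-/

namespace Vale.Agent.P239.F

open Filter Topology Set
open Vale.Agent.P239
open scoped RealInnerProductSpace

variable {G : Type*} [Group G] {S : Finset G} (hS : Subgroup.closure (S : Set G) = ⊤)

theorem tendsto_gp {ι : Type*} {l : Filter ι} {z : ι → G} {β : G → G → ℝ}
    (h : Tendsto (fun i => hb hS (z i)) l (𝓝 β)) (x : G) :
    Tendsto (fun i => gp hS (z i) x) l (𝓝 (gpb hS 1 x β)) := by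
  have h1 := ((tendsto_val.1 h x 1).const_sub (res hS 1 x)).div_const 2
  refine h1.congr fun i => ?_
  have h2 := two_gp hS x (z i)
  rw [gp_comm hS (z i) x, hb]
  linarith

/-- The slab lemma at points of finite type. -/
theorem slab_fin [Countable G] {F : Finset G} (hF : CrossProp S F) {β : G → G → ℝ}
    (hβ : β ∈ closure (range (hb hS))) {C : ℝ} (hC : ∀ x, gpb hS 1 x β ≤ C) {s : ℝ} (hs : C < s)
    {O : Set (G → G → ℝ)} (hO : O ∈ 𝓝 β) :
    ∀ᶠ z in comap (hb hS) (𝓝 β), ∀ w, s ≤ gp hS z w → hb hS w ∈ O := by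
  classical
  by_contra hcon
  rw [Filter.not_eventually] at hcon
  push Not at hcon
  set Bad : Set G := {z | ∃ w, s ≤ gp hS z w ∧ hb hS w ∉ O} with hBad
  have hne : (comap (hb hS) (𝓝 β) ⊓ 𝓟 Bad).NeBot := frequently_mem_iff_neBot.1 hcon
  let U : Ultrafilter G := Ultrafilter.of (comap (hb hS) (𝓝 β) ⊓ 𝓟 Bad)
  have hU : (U : Filter G) ≤ comap (hb hS) (𝓝 β) ⊓ 𝓟 Bad := Ultrafilter.of_le _
  have hz : Tendsto (hb hS) U (𝓝 β) := tendsto_comap.mono_left (hU.trans inf_le_left)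
  have hB : ∀ᶠ z in (U : Filter G), z ∈ Bad := (hU.trans inf_le_right) (mem_principal_self _)
  have hch : ∀ z, ∃ w, z ∈ Bad → s ≤ gp hS z w ∧ hb hS w ∉ O := by
    intro z
    by_cases hz : z ∈ Bad
    · obtain ⟨w, hw⟩ := hz
      exact ⟨w, fun _ => hw⟩
    · exact ⟨1, fun h => absurd h hz⟩
  choose w hw using hch
  obtain ⟨γ, hγ⟩ := exists_lim_ultra hS U (fun z => hb hS (w z)) (fun z => abs_hb_le hS _)
  have hγc : γ ∈ closure (range (hb hS)) :=
    mem_closure_of_tendsto hγ (Eventually.of_forall fun i => ⟨w i, rfl⟩)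
  have hne' : β ≠ γ := by
    rintro rfl
    obtain ⟨z, h1, h2⟩ := ((hγ.eventually hO).and hB).exists
    exact (hw z h2).2 h1
  obtain ⟨a, b, hab⟩ := exists_lt_of_ne hS hβ hγc hne'
  set g := pot hS a - pot hS b with hg
  set κ : ℝ := g.1 1 + (res hS 1 a - res hS 1 b) / 2 with hκ
  have eg : ∀ z, g.1 z = κ - hb hS z a b / 2 := fun z => by
    rw [hg, pot_sub_eq, hκ, hg]; ring
  have lg : ∀ {z : G → G} {p : G → G → ℝ}, Tendsto (fun i => hb hS (z i)) U (𝓝 p) →
      Tendsto (fun i => g.1 (z i)) U (𝓝 (κ - p a b / 2)) := by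
    intro z p hz
    simp only [eg]
    exact ((tendsto_val.1 hz a b).div_const 2).const_sub κ
  obtain ⟨s₁, hs₁, hs₁'⟩ := exists_between (show κ - γ a b / 2 < κ - β a b / 2 by linarith)
  obtain ⟨s₂, hs₂, hs₂'⟩ := exists_between hs₁'
  obtain ⟨t₁, ht₁, ht₁'⟩ := exists_between hs
  have hL : 0 < s - t₁ := by linarith
  obtain ⟨E, η, hη, hslab⟩ := slab hS hF (pot_sub_isPot hS a b) hs₂ hL
  have e1 := (lg (z := fun z => z) hz).eventually (lt_mem_nhds hs₂')
  have e2 := (lg (z := w) hγ).eventually (gt_mem_nhds hs₁)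
  obtain ⟨z₀, hz₁, hz₂⟩ := (e1.and e2).exists
  have hlow : ∀ x : G, ∀ᶠ z in (U : Filter G), gp hS z x < t₁ := fun x =>
    (tendsto_gp hS hz x).eventually (gt_mem_nhds ((hC x).trans_lt ht₁))
  have e3 : ∀ᶠ z in (U : Filter G), ∀ u ∈ E, ∀ α ∈ F, gp hS z (u * α) < t₁ := by
    rw [Filter.eventually_all_finset]
    intro u _
    rw [Filter.eventually_all_finset]
    intro α _
    exact hlow _
  obtain ⟨z, hzB, e1, e2, e3, e4, e5⟩ := (hB.and (e1.and (e2.and (e3.and
    ((hlow z₀).and (hlow (w z₀))))))).exists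
  have hval : ∀ x, (pot hS z).1 x = (pot hS z).1 1 + gp hS z x := fun x => by
    rw [gp_eq]; ring
  have hsw := (hw z hzB).1
  have hzz : s ≤ gp hS z z := hsw.trans (gp_le hS z (w z))
  refine hslab z 1 (pot hS z) ((pot hS z).1 1 + t₁) (pot_isPot hS z) ?_ ?_
  · intro u hu α hα α' hα'
    have h1 : clp ((pot hS z).1 1 + t₁) ((pot hS z).1 1 + t₁ + (s - t₁)) ((pot hS z).1 (u * α)) =
        (pot hS z).1 1 + t₁ :=
      clp_of_ge (by linarith) (by rw [hval (u * α)]; linarith [e3 u hu α hα])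
    have h2 : clp ((pot hS z).1 1 + t₁) ((pot hS z).1 1 + t₁ + (s - t₁)) ((pot hS z).1 (u * α')) =
        (pot hS z).1 1 + t₁ :=
      clp_of_ge (by linarith) (by rw [hval (u * α')]; linarith [e3 u hu α' hα'])
    rw [h1, h2, sub_self, abs_zero]
    exact hη.le
  · refine ⟨z, z₀, w z, w z₀, ?_, e1.le, ?_, hz₁.le, ?_, e2.le, ?_, hz₂.le⟩
    · rw [hval z]; linarith
    · rw [hval z₀]; linarith
    · rw [hval (w z)]; linarith
    · rw [hval (w z₀)]; linarith

end Vale.Agent.P239.F
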