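import Vale.Agent.P239.F.CN
import Vale.Agent.P239.F.C0b
import Vale.Agent.P239.F.SlabFin

/-! A set whose boundary does not accumulate at `β` is constant near `β`: final form. -/

namespace Vale.Agent.P239.F.N

open Filter Topology Set
open Vale.Agent.P239 Vale.Agent.P239.F
open scoped InnerProductSpace ENNReal

variable {G : Type*} [Group G] {S T : Finset G} (hS : Subgroup.closure (S : Set G) = ⊤)

/-- The shadow property (D3.19). -/
def Shadow : Prop := ∀ (x : G) (ε : ℝ), 0 < ε →
  ∃ N : ℝ, ∀ w w' : G, N ≤ gp hS w w' → |gp hS x w - gp hS x w'| ≤ ε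

variable {hS}

theorem lim_closure {β : G → G → ℝ} (hβ : β ∈ Lim hS univ) : β ∈ closure (range (hb hS)) := by
  have := nf_neBot hβ
  have h : Tendsto (hb hS) (nf hS β) (𝓝 β) := tendsto_comap.mono_left inf_le_right
  exact mem_closure_of_tendsto h (Eventually.of_forall fun z => ⟨z, rfl⟩)

theorem lim_abs_le {β : G → G → ℝ} (hβ : β ∈ Lim hS univ) (x y : G) : |β x y| ≤ res hS x y := by
  have := nf_neBot hβ
  have h : Tendsto (hb hS) (nf hS β) (𝓝 β) := tendsto_comap.mono_left inf_le_right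
  have h1 := (tendsto_pi_nhds.1 (tendsto_pi_nhds.1 h x) y).abs
  exact le_of_tendsto' h1 fun z => abs_hb_le0 hS x y z

theorem gp_tendsto' (β : G → G → ℝ) (w : G) :
    Tendsto (fun z => gp hS w z) (nf hS β) (𝓝 (gpb hS 1 w β)) :=
  (gp_tendsto β w).congr fun z => gp_comm hS z w

/-- coordinates of points -/
theorem coord_eq {β : G → G → ℝ} (hβ : β ∈ Lim hS univ) (a b : G) :
    β a b = gp hS a a - gp hS b b - 2 * (gpb hS 1 a β - gpb hS 1 b β) := by
  have := nf_neBot hβ
  have h : Tendsto (hb hS) (nf hS β) (𝓝 β) := tendsto_comap.mono_left inf_le_right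
  have h1 := (tendsto_pi_nhds.1 (tendsto_pi_nhds.1 h a) b)
  have h2 := (((gp_tendsto' (hS := hS) β a).sub (gp_tendsto' β b)).const_mul 2).const_sub
    (gp hS a a - gp hS b b)
  refine tendsto_nhds_unique h1 (h2.congr fun z => ?_)
  unfold hb
  rw [res_eq, res_eq]
  ring

theorem shadow_nhds (hsh : Shadow hS) {β : G → G → ℝ} (hβ : β ∈ Lim hS univ)
    {O : Set (G → G → ℝ)} (hO : O ∈ 𝓝 β) : ∃ N : ℝ, ∀ w, N < gpb hS 1 w β → hb hS w ∈ O := by
  have := nf_neBot hβ
  have key : ∀ (x : G) (ε : ℝ), 0 < ε → ∃ N : ℝ, ∀ w, N < gpb hS 1 w β →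
      |gp hS x w - gpb hS 1 x β| ≤ ε := by
    intro x ε hε
    obtain ⟨N, hN⟩ := hsh x ε hε
    refine ⟨N, fun w hw => ?_⟩
    have h1 := (tendsto_order.1 (gp_tendsto' (hS := hS) β w)).1 _ hw
    have h2 := ((gp_tendsto' (hS := hS) β x).const_sub (gp hS x w)).abs
    exact le_of_tendsto h2 (h1.mono fun z hz => hN w z hz.le)
  refine nhds_induct (p := fun O => ∃ N : ℝ, ∀ w, N < gpb hS 1 w β → hb hS w ∈ O)
    ?_ ?_ ?_ ?_ hO
  · intro a b ε hε
    obtain ⟨N₁, h1⟩ := key a (ε / 8) (by positivity)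
    obtain ⟨N₂, h2⟩ := key b (ε / 8) (by positivity)
    refine ⟨max N₁ N₂, fun w hw => ?_⟩
    have a1 := h1 w ((le_max_left _ _).trans_lt hw)
    have a2 := h2 w ((le_max_right _ _).trans_lt hw)
    change |hb hS w a b - β a b| < ε
    have e : hb hS w a b - β a b = -2 * ((gp hS a w - gpb hS 1 a β) -
        (gp hS b w - gpb hS 1 b β)) := by
      rw [coord_eq hβ]
      unfold hb
      rw [res_eq, res_eq]
      ring
    rw [e, abs_lt]
    rw [abs_le] at a1 a2
    constructor <;> linarith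
  · exact ⟨0, fun w _ => mem_univ _⟩
  · rintro O O' h ⟨N, hN⟩
    exact ⟨N, fun w hw => h (hN w hw)⟩
  · rintro O O' ⟨N, hN⟩ ⟨N', hN'⟩
    exact ⟨max N N', fun w hw => ⟨hN w ((le_max_left _ _).trans_lt hw),
      hN' w ((le_max_right _ _).trans_lt hw)⟩⟩

/-- **A set whose boundary does not accumulate at `β` is constant near `β`.** -/
theorem dich [Countable G] {F : Finset G} (hF : CrossProp S F) (hsh : Shadow hS) : Dich hS := by
  intro A β hβ hA
  have := nf_neBot hβ
  by_cases hfin : IsFin hS β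
  · obtain ⟨C, hC⟩ := hfin
    refine dich_fin (B := C) (s := max C 0 + 1) hβ hC
      ((le_max_left C 0).trans_lt (lt_add_one _)) ((le_max_right C 0).trans (lt_add_one _).le)
      ?_ ?_ hA
    · intro O hO
      have h := slab_fin hS hF (lim_closure hβ) hC
        ((le_max_left C 0).trans_lt (lt_add_one (max C 0))) hO
      exact h.filter_mono inf_le_right
    · intro O hO
      obtain ⟨f, hf, hf'⟩ := exists_cut0 hS hO
      exact ⟨f, hf.1, hf.2.filter_mono inf_le_right, hf'⟩
  · obtain ⟨δ, _, hδ⟩ := exists_four_point hS hF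
    have h4 : Four hS δ := hδ
    refine dich_inf (δ := δ / 2) ?_ (fun O hO => shadow_nhds hsh hβ hO) ?_ hA
    · intro N
      by_contra hcon
      push Not at hcon
      exact hfin ⟨N, hcon⟩
    · intro w x
      have h1 := ((tendsto_const_nhds (x := gp hS w x)).min (gp_tendsto' (hS := hS) β x)).sub_const
        (δ / 2)
      refine le_of_tendsto_of_tendsto' h1 (gp_tendsto' β w) fun z => ?_
      have := h4.gp w x z
      linarith

end Vale.Agent.P239.F.N
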