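import Vale.Agent.P239.F.Base
import Vale.Agent.P239.AHLox

/-! Basic facts: vectors, translations, points at infinity. -/

namespace Vale.Agent.P239.F.D

open Filter Topology Set
open Vale.Agent.P239 Vale.Agent.P239.F
open scoped RealInnerProductSpace ENNReal

variable {G : Type*} [Group G] {S : Finset G}

section Tr

theorem memℓp_perm (g : G) (ω : HS S) : Memℓp (fun p : S × G => ω (edgePerm S g p)) 2 := by
  have h := lp.memℓp ω
  rw [memℓp_gen_iff (by norm_num)] at h ⊢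
  exact (edgePerm S g).summable_iff.2 h

/-- Translation of edge fields. -/
noncomputable def tr (g : G) : HS S →ₗᵢ[ℝ] HS S where
  toFun ω := ⟨fun p => ω (edgePerm S g p), memℓp_perm g ω⟩
  map_add' _ _ := rfl
  map_smul' _ _ := rfl
  norm_map' ω := by
    have h1 := lp.norm_eq_tsum_rpow (p := 2) (by norm_num) ω
    have h2 := lp.norm_eq_tsum_rpow (p := 2) (by norm_num)
      (⟨fun p => ω (edgePerm S g p), memℓp_perm g ω⟩ : HS S)
    change ‖(⟨fun p => ω (edgePerm S g p), memℓp_perm g ω⟩ : HS S)‖ = ‖ω‖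
    rw [h1, h2]
    congr 1
    exact (edgePerm S g).tsum_eq (fun p => ‖ω p‖ ^ (2 : ℝ≥0∞).toReal)

theorem tr_apply (g : G) (ω : HS S) (p : S × G) : tr g ω p = ω (p.1, g⁻¹ * p.2) := rfl

theorem tr_grad (g : G) (f : Dir S) : tr g (grad S f) = grad S (trD g f) := by
  refine lp.ext (funext fun p => ?_)
  rw [tr_apply, grad_apply, grad_apply]
  change f.1 (g⁻¹ * p.2 * (p.1 : G)) - f.1 (g⁻¹ * p.2) =
    f.1 (g⁻¹ * (p.2 * (p.1 : G))) - f.1 (g⁻¹ * p.2)
  rw [mul_assoc]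

theorem tr_one (ω : HS S) : tr 1 ω = ω := by
  refine lp.ext (funext fun p => ?_)
  rw [tr_apply, inv_one, one_mul]

theorem tr_tr (g h : G) (ω : HS S) : tr g (tr h ω) = tr (g * h) ω := by
  refine lp.ext (funext fun p => ?_)
  rw [tr_apply, tr_apply, tr_apply]
  simp only [mul_inv_rev, mul_assoc]

theorem inner_tr (g : G) (ω η : HS S) : ⟪tr g ω, tr g η⟫ = ⟪ω, η⟫ :=
  (tr g).inner_map_map ω η

theorem inner_tr_left (g : G) (ω η : HS S) : ⟪tr g ω, η⟫ = ⟪ω, tr g⁻¹ η⟫ := by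
  rw [← inner_tr g ω, tr_tr, mul_inv_cancel, tr_one]

end Tr

variable (hS : Subgroup.closure (S : Set G) = ⊤)

/-- The vector of a vertex. -/
noncomputable def vec (x : G) : HS S := grad S (pot hS x)

theorem inner_vec (x y : G) : ⟪vec hS x, vec hS y⟫ = gp hS x y := rfl

theorem inner_vec_grad (x : G) (f : Dir S) : ⟪vec hS x, grad S f⟫ = f.1 x - f.1 1 :=
  pot_isPot hS x f

theorem res_eq_norm (x y : G) : res hS x y = ‖vec hS x - vec hS y‖ ^ 2 := by
  rw [res, en_self, map_sub]; rfl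

theorem vec_one : vec hS 1 = 0 := by
  have h : ‖vec hS 1‖ ^ 2 = 0 := by
    rw [← real_inner_self_eq_norm_sq, inner_vec, gp_one]
  exact norm_eq_zero.1 (pow_eq_zero_iff (two_ne_zero) |>.1 h)

theorem eq_of_inner_grad {ω η : HS S} (hω : ω ∈ Grad S) (hη : η ∈ Grad S)
    (h : ∀ f : Dir S, ⟪ω, grad S f⟫ = ⟪η, grad S f⟫) : ω = η := by
  obtain ⟨f, hf⟩ := (Grad S).sub_mem hω hη
  have h1 : ⟪ω - η, ω - η⟫ = (0 : ℝ) := by
    rw [inner_sub_left, ← hf, h f, sub_self]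
  exact sub_eq_zero.1 (inner_self_eq_zero.1 h1)

theorem vec_mem (x : G) : vec hS x ∈ Grad S := ⟨_, rfl⟩

theorem tr_mem (g : G) {ω : HS S} (h : ω ∈ Grad S) : tr g ω ∈ Grad S := by
  obtain ⟨f, rfl⟩ := h
  exact ⟨trD g f, (tr_grad g f).symm⟩

theorem vec_mul (g x : G) : vec hS (g * x) = tr g (vec hS x) + vec hS g := by
  refine eq_of_inner_grad (vec_mem hS _) ((Grad S).add_mem (tr_mem g (vec_mem hS x))
    (vec_mem hS g)) fun f => ?_
  rw [inner_vec_grad, inner_add_left, inner_vec_grad, inner_tr_left, tr_grad, inner_vec_grad]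
  change f.1 (g * x) - f.1 1 = f.1 (g⁻¹⁻¹ * x) - f.1 (g⁻¹⁻¹ * 1) + (f.1 g - f.1 1)
  rw [inv_inv, mul_one]; ring

theorem vec_inv (g : G) : vec hS g⁻¹ = - tr g⁻¹ (vec hS g) := by
  have h := vec_mul hS g⁻¹ g
  rw [inv_mul_cancel, vec_one] at h
  exact eq_neg_of_add_eq_zero_right h.symm

end Vale.Agent.P239.F.D
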