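import Vale.Agent.P239.F.A2
import Vale.Agent.P239.F.C8
import Vale.Agent.P239.F.CInFinal

/-! The group theorem: one-ended, torsion free groups with vanishing second cohomology with
finite supports have no nonconstant harmonic functions of finite energy. -/

namespace Vale.Agent.P239.F

variable {G : Type*} [Group G]

theorem hgroup (S T : Finset G) (h : Hyp S T) : ¬ HasHD S := by
  intro hd
  obtain ⟨B⟩ := (BF.cIn h hd).nonempty_block
  exact D.block_false h B

end Vale.Agent.P239.F
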