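import Vale.Agent.P239.F.C5

/-!
The connected wall: some `S`-component of `Vc hS S c` is infinite.
-/

namespace Vale.Agent.P239.F

open Filter Topology Set
open Vale.Agent.P239
open scoped Pointwise
open E

namespace CIn

variable {G : Type*} [Group G] {S T : Finset G} {hS : Subgroup.closure (S : Set G) = ⊤}

/-- **The connected wall.** -/
theorem hZ (I : CIn hS T) (par : ∀ c ∈ Cent hS, Conv hS (Vc hS S c) c) {c : G → G → ℝ}
    (hc : c ∈ Cent hS) : ∃ w, {z | Con S (Vc hS S c) w z}.Infinite := by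
  obtain ⟨U, ⟨p, hp, hpc, hUp⟩, U', ⟨p', hp', hpc', hUp'⟩, hne⟩ := (I.atomFam par).two ⟨c, hc⟩
  have hUmem : U ∈ AtC hS ⟨c, hc⟩ := ⟨p, hp, hpc, hUp⟩
  have hUmem' : U' ∈ AtC hS ⟨c, hc⟩ := ⟨p', hp', hpc', hUp'⟩
  have hdisj : Disjoint U U' := (I.atomFam par).disj _ U hUmem U' hUmem' hne
  have hUinf : U.Infinite := by
    rw [hUp]; exact infinite_of_lim hS (I.hp_lim par hc hp hpc)
  have hUinf' : U'.Infinite := by
    rw [hUp']; exact infinite_of_lim hS (I.hp_lim par hc hp' hpc')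
  obtain ⟨z, hz⟩ := hUinf'.nonempty
  obtain ⟨p₀, hp₀⟩ := hUinf.nonempty
  have hzU : z ∉ U := fun h => Set.disjoint_left.1 hdisj h hz
  have hU'c : U' ⊆ Uᶜ := fun x hx hxU => Set.disjoint_left.1 hdisj hxU hx
  let N : Set G := {u | Con S Uᶜ z u}
  have hNU : ∀ u ∈ N, u ∉ U := fun u hu => Con.mem_of_left hu hzU
  have hclosed : ∀ u ∈ N, ∀ u', Adj S u u' → u' ∉ U → u' ∈ N := fun u hu u' hadj hu' =>
    Relation.ReflTransGen.tail hu ⟨hNU u hu, hu', hadj⟩
  have hNN : ∀ u ∈ N, Con S N z u := by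
    intro u hu
    induction hu with
    | refl => exact Relation.ReflTransGen.refl
    | @tail b d hb hbd ih =>
      exact ih.tail ⟨hb, Relation.ReflTransGen.tail hb hbd, hbd.2.2⟩
  have hN : ∀ x ∈ N, ∀ y ∈ N, Con S N x y := fun x hx y hy => (hNN x hx).symm.trans (hNN y hy)
  have hUN : U ⊆ Nᶜ := fun u hu hu' => hNU u hu' hu
  have hU'N : U' ⊆ N := by
    intro u hu
    have h1 := (I.atomFam par).conn _ U' hUmem' z hz u hu
    exact Relation.ReflTransGen.mono (fun a b hab => ⟨hU'c hab.1, hU'c hab.2.1, hab.2.2⟩) _ _ h1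
  have hto : ∀ u, u ∉ N → ∃ p ∈ U, Con S Nᶜ u p := by
    intro u
    refine Relation.ReflTransGen.head_induction_on
      (motive := fun u _ => u ∉ N → ∃ p ∈ U, Con S Nᶜ u p) (adj_path hS u p₀) ?_ ?_
    · intro _
      exact ⟨p₀, hp₀, Relation.ReflTransGen.refl⟩
    · intro a b hab _ ih ha
      by_cases hav : a ∈ U
      · exact ⟨a, hav, Relation.ReflTransGen.refl⟩
      · have hb : b ∉ N := fun hb => ha (hclosed b hb a hab.symm hav)
        obtain ⟨p, hp, hcon⟩ := ih hb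
        exact ⟨p, hp, Relation.ReflTransGen.head ⟨ha, hb, hab⟩ hcon⟩
  have hmono : ∀ {x y : G}, Con S U x y → Con S Nᶜ x y := by
    intro x y hxy
    exact Relation.ReflTransGen.mono (fun a b hab => ⟨hUN hab.1, hUN hab.2.1, hab.2.2⟩) _ _ hxy
  have hN' : ∀ x ∈ Nᶜ, ∀ y ∈ Nᶜ, Con S Nᶜ x y := by
    intro x hx y hy
    obtain ⟨p, hp, hxp⟩ := hto x hx
    obtain ⟨q, hq, hyq⟩ := hto y hy
    exact (hxp.trans (hmono ((I.atomFam par).conn _ U hUmem p hp q hq))).trans hyq.symm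
  -- edges leaving `N` are crossed
  have hbdU : bd S U ⊆ Vc hS S c := by
    obtain ⟨A, hA1, hA2, hA3⟩ := I.atC_cut par ⟨c, hc⟩ U hUmem
    rw [hA3]
    exact I.bd_HH_sub hA1 hA2
  have hV : ∀ x ∈ N, ∀ y ∉ N, Adj S x y → x ∈ Vc hS S c ∧ y ∈ Vc hS S c := by
    intro x hx y hy hxy
    have hyU : y ∈ U := by
      by_contra hyU
      exact hy (hclosed x hx y hxy hyU)
    exact ⟨hbdU ⟨y, hxy, fun h => hNU x hx (h.2 hyU)⟩,
      hbdU ⟨x, hxy.symm, fun h => hNU x hx (h.1 hyU)⟩⟩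
  -- the inner boundary of `N` is infinite
  have hbdN : (bd S N).Infinite := by
    intro hfin
    rcases I.hyp.oneEnd N hfin with h | h
    · exact hUinf' (h.subset hU'N)
    · exact hUinf (h.subset hUN)
  have hin : {x | x ∈ N ∧ ∃ y ∉ N, Adj S x y}.Infinite := by
    intro hfin
    refine hbdN ((hfin.union (hfin.biUnion (t := fun x => (fun s => x * s) '' (S : Set G))
      fun x _ => S.finite_toSet.image _)).subset ?_)
    rintro x ⟨y, hxy, hne⟩
    by_cases hx : x ∈ N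
    · exact Or.inl ⟨hx, y, fun hy => hne (iff_of_true hx hy), hxy⟩
    · have hy : y ∈ N := by
        by_contra hy
        exact hne (iff_of_false hx hy)
      refine Or.inr (Set.mem_biUnion (x := y) ⟨hy, x, hx, hxy.symm⟩ ?_)
      exact ⟨y⁻¹ * x, I.adj_iff.1 hxy.symm, by simp⟩
  obtain ⟨w, hw, y, hy, hwy⟩ := hin.nonempty
  refine ⟨w, hin.mono ?_⟩
  rintro w' ⟨hw', y', hy', hwy'⟩
  exact wall_con I.hyp.exS hN hN' hV hw hy hwy hw' hy' hwy'

end CIn

end Vale.Agent.P239.F
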