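import Vale.Agent.P239.F.Base
import Vale.Agent.P239.AHCross

/-! Closed 1-cochains at a large scale are exact, for groups of deck transformations of a
contractible space over a compact space. -/

namespace Vale.Agent.P239.F

open scoped Pointwise Topology unitInterval
open Set Filter
open Vale.Agent.P239

section Comb

variable {G A : Type*} [AddCommGroup A]

/-- Additivity of a cochain on a set. -/
def AddOn (c : G → G → A) (U : Set G) : Prop :=
  ∀ x ∈ U, ∀ y ∈ U, ∀ z ∈ U, c x y + c y z = c x z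

theorem AddOn.self {c : G → G → A} {U : Set G} (h : AddOn c U) {x : G} (hx : x ∈ U) :
    c x x = 0 := by
  have := h x hx x hx x hx
  exact left_eq_add.1 this.symm

/-- Grid argument. -/
theorem gridA (c : G → G → A) (lab : ℕ → ℕ → G) (N : ℕ)
    (hsq : ∀ a b, a < N → b < N → ∃ U : Set G, AddOn c U ∧
      lab a b ∈ U ∧ lab (a + 1) b ∈ U ∧ lab a (b + 1) ∈ U ∧ lab (a + 1) (b + 1) ∈ U) :
    (∑ a ∈ Finset.range N, c (lab a 0) (lab (a + 1) 0)) -
      (∑ a ∈ Finset.range N, c (lab a N) (lab (a + 1) N)) =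
    (∑ b ∈ Finset.range N, c (lab 0 b) (lab 0 (b + 1))) -
      (∑ b ∈ Finset.range N, c (lab N b) (lab N (b + 1))) := by
  have h1 : ∀ a b, a < N → b < N →
      c (lab a b) (lab (a + 1) b) - c (lab a (b + 1)) (lab (a + 1) (b + 1)) =
      c (lab a b) (lab a (b + 1)) - c (lab (a + 1) b) (lab (a + 1) (b + 1)) := by
    intro a b ha hb
    obtain ⟨U, hU, h00, h10, h01, h11⟩ := hsq a b ha hb
    have e1 := hU _ h00 _ h10 _ h11
    have e2 := hU _ h00 _ h01 _ h11
    rw [sub_eq_sub_iff_add_eq_add, e1, e2]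
  have h2 : ∀ b, b < N → (∑ a ∈ Finset.range N, c (lab a b) (lab (a + 1) b)) -
      (∑ a ∈ Finset.range N, c (lab a (b + 1)) (lab (a + 1) (b + 1))) =
      c (lab 0 b) (lab 0 (b + 1)) - c (lab N b) (lab N (b + 1)) := by
    intro b hb
    rw [← Finset.sum_sub_distrib]
    rw [Finset.sum_congr rfl fun a ha => h1 a b (Finset.mem_range.1 ha) hb]
    exact Finset.sum_range_sub' (fun a => c (lab a b) (lab a (b + 1))) N
  have h3 := Finset.sum_congr (rfl : Finset.range N = Finset.range N)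
    fun b hb => h2 b (Finset.mem_range.1 hb)
  rw [Finset.sum_range_sub' (fun b => ∑ a ∈ Finset.range N, c (lab a b) (lab (a + 1) b)) N,
    Finset.sum_sub_distrib] at h3
  exact h3

end Comb

section Cover

variable {X Γ : Type*} [TopologicalSpace X] [Group Γ] [MulAction Γ X] [ContinuousConstSMul Γ X]
variable {A : Type*} [AddCommGroup A]

theorem edgeA {H : I × X → X} (hH : Continuous H) (hH0 : ∀ x, H (0, x) = x) {y₀ : X}
    (hH1 : ∀ x, H (1, x) = y₀) {K U : Set X} (hU : IsOpen U) (hcov : ∀ x : X, ∃ g : Γ, x ∈ g • U)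
    {F : Set Γ} (hF : ∀ g : Γ, (g • K ∩ U).Nonempty → g ∈ F)
    {l : X → Γ} (hl : ∀ x, x ∈ l x • K) {o : X} (ho : o ∈ K)
    {s : Γ} {γ : Path o (s • o)} (hγ : ∀ t, γ t ∈ K) (c : Γ → Γ → A)
    (hc : ∀ u : Γ, AddOn c {h | u⁻¹ * h ∈ F}) (p : Γ) :
    ∀ᶠ N : ℕ in atTop, c p (p * s) =
      (∑ b ∈ Finset.range N, c (vlab H l o N p b) (vlab H l o N p (b + 1))) -
      (∑ b ∈ Finset.range N, c (vlab H l o N (p * s) b) (vlab H l o N (p * s) (b + 1))) := by
  classical
  let Q : I × I → X := fun q => H (q.2, p • γ q.1)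
  have hQ : Continuous Q := by
    refine hH.comp (continuous_snd.prodMk ?_)
    exact (γ.continuous.comp continuous_fst).const_smul p
  obtain ⟨δ, hδ, hball⟩ := lebesgue_number_lemma_of_metric (isCompact_univ (X := I × I))
    (c := fun g : Γ => Q ⁻¹' (g • U)) (fun g => (hU.smul g).preimage hQ) (by
      intro q _
      obtain ⟨g, hg⟩ := hcov (Q q)
      exact mem_iUnion.2 ⟨g, hg⟩)
  have hev : ∀ᶠ N : ℕ in atTop, (1 : ℝ) / N < δ :=
    (tendsto_order.1 tendsto_one_div_atTop_nhds_zero_nat).2 δ hδ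
  filter_upwards [hev, eventually_gt_atTop 0] with N hN hN0
  let lab : ℕ → ℕ → Γ := fun a b =>
    if b = 0 then (if a < N then p else p * s) else l (Q (gpt N a, gpt N b))
  have hgN : ∀ a, N ≤ a → gpt N a = 1 := by
    intro a ha
    unfold gpt
    refine Set.projIcc_of_right_le _ ?_
    rw [le_div_iff₀ (by positivity), one_mul]
    exact_mod_cast ha
  have hlab : ∀ a b, Q (gpt N a, gpt N b) ∈ lab a b • K := by
    intro a b
    by_cases hb : b = 0
    · subst hb
      have e1 : Q (gpt N a, gpt N 0) = p • γ (gpt N a) := by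
        simp only [Q]
        rw [gpt_zero, hH0]
      by_cases ha : a < N
      · simp only [lab, if_true, if_pos ha]
        rw [e1]
        exact smul_mem_smul_set (hγ _)
      · simp only [lab, if_true, if_neg ha]
        rw [e1, hgN a (not_lt.1 ha), γ.target, ← mul_smul]
        exact smul_mem_smul_set ho
    · simp only [lab, if_neg hb]
      exact hl _
  have hsq : ∀ a b, a < N → b < N → ∃ U : Set Γ, AddOn c U ∧
      lab a b ∈ U ∧ lab (a + 1) b ∈ U ∧ lab a (b + 1) ∈ U ∧ lab (a + 1) (b + 1) ∈ U := by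
    intro a b ha hb
    obtain ⟨g, hg⟩ := hball (gpt N a, gpt N b) (mem_univ _)
    refine ⟨{h | g⁻¹ * h ∈ F}, hc g, ?_⟩
    have hmem : ∀ c d, (gpt N c, gpt N d) ∈ Metric.ball (gpt N a, gpt N b) δ →
        lab c d ∈ {h | g⁻¹ * h ∈ F} := by
      intro c d hcd
      refine hF _ ?_
      have h1 : Q (gpt N c, gpt N d) ∈ g • U := hg hcd
      have h2 := hlab c d
      refine ⟨g⁻¹ • Q (gpt N c, gpt N d), ?_, ?_⟩
      · rw [mul_smul]
        exact smul_mem_smul_set h2
      · rw [mem_smul_set_iff_inv_smul_mem] at h1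
        exact h1
    have hd : ∀ c, dist (gpt N (c + 1)) (gpt N c) < δ := fun c => (dist_gpt N c).trans_lt hN
    refine ⟨hmem _ _ (Metric.mem_ball_self hδ), hmem _ _ ?_, hmem _ _ ?_, hmem _ _ ?_⟩
    · rw [Metric.mem_ball, Prod.dist_eq]
      exact max_lt (hd a) (by rw [dist_self]; exact hδ)
    · rw [Metric.mem_ball, Prod.dist_eq]
      exact max_lt (by rw [dist_self]; exact hδ) (hd b)
    · rw [Metric.mem_ball, Prod.dist_eq]
      exact max_lt (hd a) (hd b)
  have hkey := gridA c lab N hsq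
  -- identify the four sides
  have hself : ∀ g : Γ, g • K ∩ U ≠ ∅ → True := fun _ _ => trivial
  have hpp : c p p = 0 := by
    obtain ⟨U', hU', h00, -, -, -⟩ := hsq 0 0 hN0 hN0
    have : lab 0 0 = p := by simp only [lab, if_true, if_pos hN0]
    rw [this] at h00
    exact hU'.self h00
  have hbot : (∑ a ∈ Finset.range N, c (lab a 0) (lab (a + 1) 0)) = c p (p * s) := by
    obtain ⟨n, rfl⟩ := Nat.exists_eq_succ_of_ne_zero hN0.ne'
    rw [Finset.sum_range_succ, Finset.sum_eq_zero, zero_add]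
    · simp only [lab, if_true]
      rw [if_pos (Nat.lt_succ_self n), if_neg (lt_irrefl _)]
    · intro a ha
      rw [Finset.mem_range] at ha
      simp only [lab, if_true]
      rw [if_pos (by omega), if_pos (by omega), hpp]
  have htop : (∑ a ∈ Finset.range N, c (lab a N) (lab (a + 1) N)) = 0 := by
    have hlc : ∀ c, lab c N = l y₀ := by
      intro c
      simp only [lab, if_neg hN0.ne', Q]
      rw [gpt_self hN0, hH1]
    refine Finset.sum_eq_zero fun a _ => ?_
    rw [hlc, hlc]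
    obtain ⟨n, rfl⟩ := Nat.exists_eq_succ_of_ne_zero hN0.ne'
    obtain ⟨U', hU', -, -, h01, -⟩ := hsq 0 n hN0 (Nat.lt_succ_self n)
    have e : lab 0 (n + 1) = l y₀ := hlc 0
    rw [e] at h01
    exact hU'.self h01
  have hleft : ∀ b, lab 0 b = vlab H l o N p b := by
    intro b
    by_cases hb : b = 0
    · simp only [lab, vlab, if_pos hb, if_pos hN0]
    · simp only [lab, vlab, if_neg hb, Q]
      rw [gpt_zero, γ.source]
  have hright : ∀ b, lab N b = vlab H l o N (p * s) b := by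
    intro b
    by_cases hb : b = 0
    · simp only [lab, vlab, if_pos hb, if_neg (lt_irrefl N)]
    · simp only [lab, vlab, if_neg hb, Q]
      rw [gpt_self hN0, γ.target, ← mul_smul]
  rw [hbot, htop, sub_zero] at hkey
  rw [hkey]
  congr 1
  · exact Finset.sum_congr rfl fun b _ => by rw [hleft, hleft]
  · exact Finset.sum_congr rfl fun b _ => by rw [hright, hright]

/-- From eventual identities to an exact potential on the generators. -/
theorem exists_pot_of_eventually {S : Finset Γ} (hS : Subgroup.closure (S : Set Γ) = ⊤)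
    {c : Γ → Γ → A} {θ : ℕ → Γ → A}
    (hθ : ∀ s ∈ S, ∀ p : Γ, ∀ᶠ N : ℕ in atTop, c p (p * s) = θ N p - θ N (p * s)) :
    ∃ f : Γ → A, ∀ s ∈ S, ∀ p : Γ, c p (p * s) = f (p * s) - f p := by
  have h1 : ∀ x : Γ, ∃ a : A, ∀ᶠ N : ℕ in atTop, θ N 1 - θ N x = a := by
    intro x
    have hx : x ∈ Subgroup.closure (S : Set Γ) := by rw [hS]; trivial
    induction hx using Subgroup.closure_induction_right with
    | one => exact ⟨0, Eventually.of_forall fun N => sub_self _⟩
    | mul_right x _ s hs ih =>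
      obtain ⟨a, ha⟩ := ih
      refine ⟨a + c x (x * s), ?_⟩
      filter_upwards [ha, hθ s hs x] with N h1 h2
      rw [h2, ← h1]; abel
    | mul_inv_cancel x _ s hs ih =>
      obtain ⟨a, ha⟩ := ih
      refine ⟨a - c (x * s⁻¹) (x * s⁻¹ * s), ?_⟩
      filter_upwards [ha, hθ s hs (x * s⁻¹)] with N h1 h2
      rw [h2, ← h1, inv_mul_cancel_right]; abel
  choose f hf using h1
  refine ⟨f, fun s hs p => ?_⟩
  obtain ⟨N, h1, h2, h3⟩ := ((hf p).and ((hf (p * s)).and (hθ s hs p))).exists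
  rw [h3, ← h1, ← h2]; abel

variable {M : Type*} [TopologicalSpace M]

/-- Exactness of closed 1-cochains at all large scales. -/
theorem exists_exact [CompactSpace M] [T2Space M] [LocallyCompactSpace X] [ContractibleSpace X]
    {p : X → M} (hp : IsQuotientCoveringMap p Γ) :
    ∃ S : Finset Γ, Subgroup.closure (S : Set Γ) = ⊤ ∧ (∀ s ∈ S, s⁻¹ ∈ S) ∧ 1 ∈ S ∧
      ∃ F : Finset Γ, ∀ (c : Γ → Γ → A), (∀ u : Γ, AddOn c {h | u⁻¹ * h ∈ F}) →
        ∃ f : Γ → A, ∀ s ∈ S, ∀ p : Γ, c p (p * s) = f (p * s) - f p := by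
  classical
  have hopen : IsOpenMap p := hp.isCoveringMap.isOpenMap
  obtain ⟨S₀, hS₀⟩ := (Group.fg_def.1 (fg_of_cover hp) : (⊤ : Subgroup Γ).FG)
  let S : Finset Γ := insert 1 (S₀ ∪ S₀.image (fun g => g⁻¹))
  have hS : Subgroup.closure (S : Set Γ) = ⊤ := by
    rw [eq_top_iff, ← hS₀]
    exact Subgroup.closure_mono fun x hx => by simp [S]; right; left; exact hx
  have hsym : ∀ s ∈ S, s⁻¹ ∈ S := by
    intro s hs
    simp only [S, Finset.mem_insert, Finset.mem_union, Finset.mem_image] at hs ⊢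
    rcases hs with hs | hs | ⟨t, ht, rfl⟩
    · left; rw [hs, inv_one]
    · exact Or.inr (Or.inr ⟨s, hs, rfl⟩)
    · right; left; rwa [inv_inv]
  -- an open relatively compact set whose translates cover
  have h1 : ∀ x : X, ∃ K : Set X, IsCompact K ∧ K ∈ 𝓝 x := fun x => exists_compact_mem_nhds x
  choose K hK hKx using h1
  have hcov : (univ : Set M) ⊆ ⋃ x : X, p '' (interior (K x)) := by
    intro m _
    obtain ⟨x, rfl⟩ := hp.surjective m
    exact mem_iUnion.mpr ⟨x, x, mem_interior_iff_mem_nhds.mpr (hKx x), rfl⟩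
  obtain ⟨t, ht⟩ := isCompact_univ.elim_finite_subcover _
    (fun x => hopen _ isOpen_interior) hcov
  let U : Set X := ⋃ x ∈ t, interior (K x)
  let C : Set X := ⋃ x ∈ t, K x
  have hC : IsCompact C := t.isCompact_biUnion fun x _ => hK x
  have hU : IsOpen U := isOpen_biUnion fun x _ => isOpen_interior
  have hUC : U ⊆ C := by
    intro y hy
    obtain ⟨x, hx, hy'⟩ := mem_iUnion₂.1 hy
    exact mem_iUnion₂.2 ⟨x, hx, interior_subset hy'⟩
  have hUcov : ∀ x : X, ∃ g : Γ, x ∈ g • U := by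
    intro x
    obtain ⟨y, hy, z, hz, hzx⟩ := mem_iUnion₂.mp (ht (mem_univ (p x)))
    obtain ⟨g, hg⟩ := hp.apply_eq_iff_mem_orbit.mp hzx.symm
    exact ⟨g, z, mem_iUnion₂.mpr ⟨y, hy, hz⟩, hg⟩
  obtain ⟨o⟩ : Nonempty X := inferInstance
  let γ : ∀ s : Γ, Path o (s • o) := fun s => PathConnectedSpace.somePath o (s • o)
  let K' : Set X := C ∪ ({o} ∪ ⋃ s ∈ S, range (γ s))
  have hK' : IsCompact K' := hC.union (isCompact_singleton.union
    (S.isCompact_biUnion fun s _ => isCompact_range (γ s).continuous))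
  have hfin : {g : Γ | (g • K' ∩ C).Nonempty}.Finite := finite_meet hp hK' hC
  have hl : ∀ x : X, ∃ g : Γ, x ∈ g • K' := by
    intro x
    obtain ⟨g, hg⟩ := hUcov x
    exact ⟨g, smul_set_mono (hUC.trans subset_union_left) hg⟩
  choose l hl using hl
  obtain ⟨y₀, ⟨Hm⟩⟩ := id_nullhomotopic X
  refine ⟨S, hS, hsym, Finset.mem_insert_self _ _, hfin.toFinset, fun c hc => ?_⟩
  refine exists_pot_of_eventually hS (θ := fun N q =>
    ∑ b ∈ Finset.range N, c (vlab Hm l o N q b) (vlab Hm l o N q (b + 1))) ?_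
  intro s hs q
  exact edgeA (H := Hm) Hm.continuous (fun x => Hm.map_zero_left x)
    (fun x => Hm.map_one_left x) hU hUcov (F := {g : Γ | (g • K' ∩ C).Nonempty})
    (fun g hg => hg.mono (inter_subset_inter_right _ hUC)) hl
    (Or.inr (Or.inl rfl)) (γ := γ s)
    (fun t => Or.inr (Or.inr (mem_iUnion₂.2 ⟨s, hs, ⟨t, rfl⟩⟩))) c
    (by simpa using hc) q

end Cover

section Scale

variable {G : Type*} [Group G] [DecidableEq G]

theorem exists_subset_pow {S : Finset G} (hS : Subgroup.closure (S : Set G) = ⊤)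
    (hsym : ∀ s ∈ S, s⁻¹ ∈ S) (h1 : 1 ∈ S) (F : Finset G) :
    ∃ n₀ : ℕ, ∀ n, n₀ ≤ n → F ⊆ S ^ n := by
  have hx : ∀ x : G, ∃ n : ℕ, x ∈ S ^ n := by
    intro x
    have hx : x ∈ Subgroup.closure (S : Set G) := by rw [hS]; trivial
    induction hx using Subgroup.closure_induction_right with
    | one => exact ⟨0, by simp⟩
    | mul_right x _ s hs ih =>
      obtain ⟨n, hn⟩ := ih
      exact ⟨n + 1, by rw [pow_succ]; exact Finset.mul_mem_mul hn hs⟩
    | mul_inv_cancel x _ s hs ih =>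
      obtain ⟨n, hn⟩ := ih
      exact ⟨n + 1, by rw [pow_succ]; exact Finset.mul_mem_mul hn (hsym s hs)⟩
  choose n hn using hx
  refine ⟨F.sup n, fun m hm x hx => ?_⟩
  exact Finset.pow_subset_pow_right h1 ((Finset.le_sup hx).trans hm) (hn x)

/-- Exactness on the generators implies exactness at every larger scale. -/
theorem h1Ex_pow {S F : Finset G} (hsym : ∀ s ∈ S, s⁻¹ ∈ S) (h1 : 1 ∈ S)
    (hF : ∀ (c : G → G → ZMod 2), (∀ u : G, AddOn c {h | u⁻¹ * h ∈ F}) →
        ∃ f : G → ZMod 2, ∀ s ∈ S, ∀ p : G, c p (p * s) = f (p * s) - f p)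
    {n : ℕ} (hn : 1 ≤ n) (hFn : F⁻¹ * F ⊆ S ^ n) : H1Ex (S ^ n) := by
  intro c hc
  obtain ⟨f, hf⟩ := hF c (by
    intro u x hx y hy z hz
    have key : ∀ a b : G, u⁻¹ * a ∈ F → u⁻¹ * b ∈ F → a⁻¹ * b ∈ S ^ n := by
      intro a b ha hb
      have : a⁻¹ * b = (u⁻¹ * a)⁻¹ * (u⁻¹ * b) := by group
      rw [this]
      exact hFn (Finset.mul_mem_mul (Finset.inv_mem_inv ha) hb)
    exact hc x y z (key x y hx hy) (key y z hy hz) (key x z hx hz))
  refine ⟨f, ?_⟩
  have hS1 : S ⊆ S ^ n := by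
    have := Finset.pow_subset_pow_right h1 hn
    rwa [pow_one] at this
  have key : ∀ m, m ≤ n → ∀ t ∈ S ^ m, ∀ x, c x (x * t) = f x + f (x * t) := by
    intro m
    induction m with
    | zero =>
      intro _ t ht x
      rw [pow_zero, Finset.mem_one] at ht
      subst ht
      have h0 := hc x x x (by rw [inv_mul_cancel]; exact hS1 h1) (by rw [inv_mul_cancel]; exact hS1 h1)
        (by rw [inv_mul_cancel]; exact hS1 h1)
      rw [mul_one, CharTwo.add_self_eq_zero]
      exact left_eq_add.1 h0.symm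
    | succ m ih =>
      intro hm t ht x
      rw [pow_succ] at ht
      obtain ⟨t', ht', s, hs, rfl⟩ := Finset.mem_mul.1 ht
      have hle : S ^ m ⊆ S ^ n := Finset.pow_subset_pow_right h1 (by omega)
      have hle' : S ^ (m + 1) ⊆ S ^ n := Finset.pow_subset_pow_right h1 hm
      have h2 := hc x (x * t') (x * (t' * s)) (by rw [inv_mul_cancel_left]; exact hle ht')
        (by
          have : (x * t')⁻¹ * (x * (t' * s)) = s := by group
          rw [this]; exact hS1 hs)
        (by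
          rw [inv_mul_cancel_left]
          exact hle' (by rw [pow_succ]; exact Finset.mul_mem_mul ht' hs))
      rw [← h2, ih (by omega) t' ht' x, ← mul_assoc, hf s hs (x * t')]
      have e : f (x * t' * s) - f (x * t') = f (x * t' * s) + f (x * t') := by
        rw [sub_eq_add_neg, CharTwo.neg_eq]
      rw [e]
      have : f x + f (x * t') + (f (x * t' * s) + f (x * t')) =
          f x + f (x * t' * s) + (f (x * t') + f (x * t')) := by abel
      rw [this, CharTwo.add_self_eq_zero, add_zero]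
  intro x y hxy
  have := key n le_rfl _ hxy x
  rwa [mul_inv_cancel_left] at this

end Scale

variable {X Γ : Type*} [TopologicalSpace X] [Group Γ] [MulAction Γ X] [ContinuousConstSMul Γ X]
variable {M : Type*} [TopologicalSpace M]

open Classical in
theorem exists_h1Ex [CompactSpace M] [T2Space M] [LocallyCompactSpace X] [ContractibleSpace X]
    {p : X → M} (hp : IsQuotientCoveringMap p Γ) :
    ∃ S : Finset Γ, Subgroup.closure (S : Set Γ) = ⊤ ∧ (∀ s ∈ S, s⁻¹ ∈ S) ∧ 1 ∈ S ∧
      ∃ n₀ : ℕ, 1 ≤ n₀ ∧ ∀ n, n₀ ≤ n → H1Ex (S ^ n) := by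
  obtain ⟨S, hS, hsym, h1, F, hF⟩ := exists_exact (A := ZMod 2) hp
  obtain ⟨n₀, hn₀⟩ := exists_subset_pow hS hsym h1 (F⁻¹ * F)
  exact ⟨S, hS, hsym, h1, n₀ + 1, by omega, fun n hn =>
    h1Ex_pow hsym h1 hF (by omega) (hn₀ n (by omega))⟩

end Vale.Agent.P239.F
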