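import Mathlib

/-! The augmented complex of lists and the prism operator. -/

namespace Vale.Agent.P239.TF

open Finsupp

/-- Chains: finite combinations of lists. -/
abbrev LC (F V : Type*) [CommRing F] : Type _ := List V →₀ F

variable {F V W : Type*} [CommRing F]

/-- Prepending a vertex. -/
noncomputable def lcons (x : V) : LC F V →ₗ[F] LC F V := Finsupp.lmapDomain F F (fun t => x :: t)

@[simp] theorem lcons_single (x : V) (t : List V) (a : F) :
    lcons x (single t a) = single (x :: t) a := by
  simp [lcons, Finsupp.mapDomain_single]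

/-- Boundary of a list (augmented: the boundary of a vertex is the empty list). -/
noncomputable def bl : List V → LC F V
  | [] => 0
  | x :: t => single t 1 - lcons x (bl t)

/-- The boundary. -/
noncomputable def bdy : LC F V →ₗ[F] LC F V := Finsupp.lsum F fun t => LinearMap.toSpanSingleton F _ (bl t)

theorem bdy_single (t : List V) (a : F) : bdy (single t a) = a • bl t := by
  simp [bdy]

theorem bdy_nil (a : F) : bdy (single ([] : List V) a) = 0 := by
  rw [bdy_single]; simp [bl]

theorem bdy_lcons (x : V) (c : LC F V) : bdy (lcons x c) = c - lcons x (bdy c) := by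
  have : (bdy ∘ₗ lcons x : LC F V →ₗ[F] LC F V) = LinearMap.id - lcons x ∘ₗ bdy := by
    refine Finsupp.lhom_ext fun t a => ?_
    simp only [LinearMap.comp_apply, LinearMap.sub_apply, LinearMap.id_apply, lcons_single,
      bdy_single, bl, map_smul, smul_sub]
    congr 1
    rw [Finsupp.smul_single, smul_eq_mul, mul_one]
  exact LinearMap.congr_fun this c

theorem bdy_bl (t : List V) : bdy (bl t : LC F V) = 0 := by
  induction t with
  | nil => simp [bl]
  | cons x t ih =>
    rw [bl, map_sub, bdy_single, bdy_lcons, ih, map_zero, sub_zero, one_smul, sub_self]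

theorem bdy_bdy (c : LC F V) : bdy (bdy c) = 0 := by
  have : (bdy ∘ₗ bdy : LC F V →ₗ[F] LC F V) = 0 := by
    refine Finsupp.lhom_ext fun t a => ?_
    simp only [LinearMap.comp_apply, bdy_single, map_smul, bdy_bl, smul_zero,
      LinearMap.zero_apply]
  exact LinearMap.congr_fun this c

/-- Push forward of chains. -/
noncomputable def psh (f : V → W) : LC F V →ₗ[F] LC F W := Finsupp.lmapDomain F F (List.map f)

@[simp] theorem psh_single (f : V → W) (t : List V) (a : F) :
    psh f (single t a) = single (t.map f) a := by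
  simp [psh, Finsupp.mapDomain_single]

theorem psh_lcons (f : V → W) (x : V) (c : LC F V) :
    psh f (lcons x c) = lcons (f x) (psh f c) := by
  have : (psh f ∘ₗ lcons x : LC F V →ₗ[F] LC F W) = lcons (f x) ∘ₗ psh f := by
    refine Finsupp.lhom_ext fun t a => ?_
    simp
  exact LinearMap.congr_fun this c

theorem psh_bl (f : V → W) (t : List V) : psh f (bl t : LC F V) = bl (t.map f) := by
  induction t with
  | nil => simp [bl]
  | cons x t ih =>
    rw [bl, map_sub, psh_single, psh_lcons, ih, List.map_cons, bl]

theorem bdy_psh (f : V → W) (c : LC F V) : bdy (psh f c) = psh f (bdy c) := by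
  have : (bdy ∘ₗ psh f : LC F V →ₗ[F] LC F W) = psh f ∘ₗ bdy := by
    refine Finsupp.lhom_ext fun t a => ?_
    simp only [LinearMap.comp_apply, psh_single, bdy_single, map_smul, psh_bl]
  exact LinearMap.congr_fun this c

theorem psh_id (c : LC F V) : psh (fun x => x) c = c := by
  have : (psh (fun x : V => x) : LC F V →ₗ[F] LC F V) = LinearMap.id := by
    refine Finsupp.lhom_ext fun t a => ?_
    simp
  exact LinearMap.congr_fun this c

theorem psh_psh {Z : Type*} (f : V → W) (g : W → Z) (c : LC F V) :
    psh g (psh f c) = psh (fun x => g (f x)) c := by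
  have : (psh g ∘ₗ psh f : LC F V →ₗ[F] LC F Z) = psh (fun x => g (f x)) := by
    refine Finsupp.lhom_ext fun t a => ?_
    simp [Function.comp_def]
  exact LinearMap.congr_fun this c

/-- The prism on a list. -/
noncomputable def prl (a b : V → W) : List V → LC F W
  | [] => 0
  | x :: t => single (a x :: b x :: t.map b) 1 - lcons (a x) (prl a b t)

/-- The prism operator. -/
noncomputable def pr (a b : V → W) : LC F V →ₗ[F] LC F W :=
  Finsupp.lsum F fun t => LinearMap.toSpanSingleton F _ (prl a b t)

theorem pr_single (a b : V → W) (t : List V) (r : F) : pr a b (single t r) = r • prl a b t := by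
  simp [pr]

theorem pr_lcons (a b : V → W) (x : V) (c : LC F V) :
    pr a b (lcons x c) = lcons (a x) (lcons (b x) (psh b c)) - lcons (a x) (pr a b c) := by
  have : (pr a b ∘ₗ lcons x : LC F V →ₗ[F] LC F W) =
      lcons (a x) ∘ₗ lcons (b x) ∘ₗ psh b - lcons (a x) ∘ₗ pr a b := by
    refine Finsupp.lhom_ext fun t r => ?_
    simp only [LinearMap.comp_apply, LinearMap.sub_apply, lcons_single, pr_single, prl, map_smul,
      smul_sub, psh_single]
    congr 1
    rw [Finsupp.smul_single, smul_eq_mul, mul_one]
  exact LinearMap.congr_fun this c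

/-- The prism formula on a list. -/
theorem bdy_prl (a b : V → W) (t : List V) :
    bdy (prl a b t : LC F W) + pr a b (bl t) = single (t.map b) 1 - single (t.map a) 1 := by
  induction t with
  | nil => simp [prl, bl]
  | cons x t ih =>
    rw [prl, bl, map_sub, map_sub, bdy_lcons, pr_lcons, pr_single, psh_bl]
    have h1 : (single (a x :: b x :: t.map b) 1 : LC F W) =
        lcons (a x) (lcons (b x) (single (t.map b) 1)) := by simp
    rw [h1, bdy_lcons, bdy_lcons, bdy_single, one_smul, one_smul, map_sub]
    have h2 : bdy (prl a b t : LC F W) = single (t.map b) 1 - single (t.map a) 1 -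
        pr a b (bl t) := by rw [← ih]; abel
    rw [h2, map_sub, map_sub]
    simp only [lcons_single, List.map_cons]
    abel

/-- The prism formula. -/
theorem bdy_pr (a b : V → W) (c : LC F V) :
    bdy (pr a b c) + pr a b (bdy c) = psh b c - psh a c := by
  have : (bdy ∘ₗ pr a b + pr a b ∘ₗ bdy : LC F V →ₗ[F] LC F W) = psh b - psh a := by
    refine Finsupp.lhom_ext fun t r => ?_
    simp only [LinearMap.comp_apply, LinearMap.add_apply, LinearMap.sub_apply, psh_single,
      pr_single, bdy_single, map_smul]
    rw [← smul_add, bdy_prl, smul_sub, Finsupp.smul_single, Finsupp.smul_single, smul_eq_mul,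
      mul_one]
  exact LinearMap.congr_fun this c

/-- Chains supported on a set of lists. -/
def On (P : List V → Prop) : Submodule F (LC F V) where
  carrier := {c | ∀ t, c t ≠ 0 → P t}
  add_mem' {a b} ha hb t ht := by
    by_contra h
    refine ht ?_
    rw [Finsupp.add_apply, not_not.1 fun h' => h (ha t h'), not_not.1 fun h' => h (hb t h'),
      add_zero]
  zero_mem' t ht := absurd rfl ht
  smul_mem' r a ha t ht := by
    refine ha t fun h => ht ?_
    rw [Finsupp.smul_apply, h, smul_zero]

theorem mem_On {P : List V → Prop} {c : LC F V} : c ∈ (On P : Submodule F (LC F V)) ↔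
    ∀ t, c t ≠ 0 → P t := Iff.rfl

theorem single_mem_On {P : List V → Prop} {t : List V} (h : P t) (a : F) :
    single t a ∈ (On P : Submodule F (LC F V)) := by
  classical
  intro s hs
  rw [Finsupp.single_apply] at hs
  by_cases h' : t = s
  · rwa [← h']
  · rw [if_neg h'] at hs; exact absurd rfl hs

theorem On_mono {P Q : List V → Prop} (h : ∀ t, P t → Q t) :
    (On P : Submodule F (LC F V)) ≤ On Q := fun _ hc t ht => h t (hc t ht)

/-- A linear map sends chains on `P` to chains in `N` if it does so on lists. -/
theorem map_mem_of {P : List V → Prop} {c : LC F V} (hc : c ∈ (On P : Submodule F (LC F V)))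
    {M : Type*} [AddCommGroup M] [Module F M] (φ : LC F V →ₗ[F] M) (N : Submodule F M)
    (h : ∀ t, P t → φ (single t 1) ∈ N) : φ c ∈ N := by
  classical
  rw [← Finsupp.sum_single c, Finsupp.sum, map_sum]
  refine N.sum_mem fun t ht => ?_
  have e : (single t (c t) : LC F V) = c t • single t 1 := by simp
  rw [e, map_smul]
  exact N.smul_mem _ (h t (hc t (Finsupp.mem_support_iff.1 ht)))

/-- two linear maps which agree on lists with `P` agree on chains on `P` -/
theorem map_eq_of {P : List V → Prop} {c : LC F V} (hc : c ∈ (On P : Submodule F (LC F V)))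
    {M : Type*} [AddCommGroup M] [Module F M] (φ ψ : LC F V →ₗ[F] M)
    (h : ∀ t, P t → φ (single t 1) = ψ (single t 1)) : φ c = ψ c := by
  have := map_mem_of hc (φ - ψ) ⊥ (fun t ht => by
    rw [Submodule.mem_bot, LinearMap.sub_apply, h t ht, sub_self])
  rwa [Submodule.mem_bot, LinearMap.sub_apply, sub_eq_zero] at this

theorem lcons_mem_On {P Q : List V → Prop} {x : V} (h : ∀ t, P t → Q (x :: t)) {c : LC F V}
    (hc : c ∈ (On P : Submodule F (LC F V))) : lcons x c ∈ (On Q : Submodule F (LC F V)) :=
  map_mem_of hc _ _ fun t ht => by rw [lcons_single]; exact single_mem_On (h t ht) 1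

theorem psh_mem_On {P : List V → Prop} {Q : List W → Prop} {f : V → W}
    (h : ∀ t, P t → Q (t.map f)) {c : LC F V}
    (hc : c ∈ (On P : Submodule F (LC F V))) : psh f c ∈ (On Q : Submodule F (LC F W)) :=
  map_mem_of hc _ _ fun t ht => by rw [psh_single]; exact single_mem_On (h t ht) 1

/-- lists with entries in a set, of given length -/
def LenIn (A : Set V) (n : ℕ) (t : List V) : Prop := t.length = n ∧ ∀ x ∈ t, x ∈ A

theorem bl_mem (A : Set V) : ∀ (t : List V) (n : ℕ), LenIn A (n + 1) t →
    (bl t : LC F V) ∈ (On (LenIn A n) : Submodule F (LC F V))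
  | [], n, h => by simp [LenIn] at h
  | [x], n, h => by
    have hn : n = 0 := by have := h.1; simp at this; omega
    subst hn
    simp only [bl, map_zero, sub_zero]
    exact single_mem_On ⟨rfl, by simp⟩ 1
  | x :: y :: t, n, h => by
    obtain ⟨m, rfl⟩ : ∃ m, n = m + 1 := ⟨t.length, by have := h.1; simp at this; exact this.symm⟩
    rw [bl]
    refine Submodule.sub_mem _ (single_mem_On ⟨by simpa using h.1, fun z hz => h.2 z (by simp at hz ⊢; tauto)⟩ 1) ?_
    refine lcons_mem_On (P := LenIn A m) ?_ (bl_mem A (y :: t) m ⟨by simpa using h.1,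
      fun z hz => h.2 z (by simp at hz ⊢; tauto)⟩)
    intro s hs
    refine ⟨by simp [hs.1], ?_⟩
    intro z hz
    rcases List.mem_cons.1 hz with rfl | hz
    · exact h.2 _ (by simp)
    · exact hs.2 z hz

theorem prl_mem (a b : V → W) {A : Set V} {B : Set W} (ha : ∀ x ∈ A, a x ∈ B)
    (hb : ∀ x ∈ A, b x ∈ B) : ∀ (t : List V) (n : ℕ), LenIn A n t →
    (prl a b t : LC F W) ∈ (On (LenIn B (n + 1)) : Submodule F (LC F W))
  | [], n, h => by simp [prl]
  | x :: t, n, h => by
    obtain ⟨m, rfl⟩ : ∃ m, n = m + 1 := ⟨t.length, by have := h.1; simp at this; exact this.symm⟩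
    have ht : LenIn A m t := ⟨by simpa using h.1, fun z hz => h.2 z (by simp [hz])⟩
    have hx : x ∈ A := h.2 x (by simp)
    rw [prl]
    have h1 : LenIn B (m + 1 + 1) (a x :: b x :: t.map b) := by
      refine ⟨by simpa using ht.1, fun z hz => ?_⟩
      rcases List.mem_cons.1 hz with rfl | hz
      · exact ha x hx
      · rcases List.mem_cons.1 hz with rfl | hz
        · exact hb x hx
        · obtain ⟨y, hy, rfl⟩ := List.mem_map.1 hz
          exact hb y (ht.2 y hy)
    have h2 : ∀ s, LenIn B (m + 1) s → LenIn B (m + 1 + 1) (a x :: s) := by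
      intro s hs
      refine ⟨by simp [hs.1], ?_⟩
      intro z hz
      rcases List.mem_cons.1 hz with rfl | hz
      · exact ha x hx
      · exact hs.2 z hz
    exact Submodule.sub_mem _ (single_mem_On h1 1) (lcons_mem_On h2 (prl_mem a b ha hb t m ht))

/-- lists of length `n` small with respect to a family of sets -/
def Sm {ι : Type*} (U : ι → Set V) (n : ℕ) (t : List V) : Prop :=
  t.length = n ∧ ∃ i, ∀ x ∈ t, x ∈ U i

theorem bdy_mem_Sm {ι : Type*} {U : ι → Set V} {n : ℕ} {c : LC F V}
    (hc : c ∈ (On (Sm U (n + 1)) : Submodule F (LC F V))) :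
    bdy c ∈ (On (Sm U n) : Submodule F (LC F V)) :=
  map_mem_of hc _ _ fun t ht => by
    obtain ⟨hn, i, hi⟩ := ht
    rw [bdy_single, one_smul]
    exact On_mono (fun s hs => ⟨hs.1, i, hs.2⟩) (bl_mem (U i) t n ⟨hn, hi⟩)

end Vale.Agent.P239.TF
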