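import Vale.Agent.P239.F.M2

/-! Sorting of admissible lists, and the algebra of a free rotation: there is no equivariant
system of chains in a finite dimensional complex. -/

namespace Vale.Agent.P239.TF

open Finsupp

section Ins

variable {F : Type*} [CommRing F] {ι A : Type*} [LinearOrder ι]

/-- Signed insertion of a vertex into a sorted list. -/
noncomputable def insl (v : ι × A) : List (ι × A) → LC F (ι × A)
  | [] => single [v] 1
  | u :: t => if v.1 < u.1 then single (v :: u :: t) 1 else
      if v.1 = u.1 then 0 else - lcons u (insl v t)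

/-- Linear version. -/
noncomputable def insL (v : ι × A) : LC F (ι × A) →ₗ[F] LC F (ι × A) :=
  Finsupp.lsum F fun t => LinearMap.toSpanSingleton F _ (insl v t)

theorem insL_single (v : ι × A) (t : List (ι × A)) (a : F) :
    insL v (single t a) = a • insl v t := by simp [insL]

/-- sorted lists -/
def Srt (t : List (ι × A)) : Prop := t.Pairwise fun a b => a.1 < b.1

theorem insl_of_lt {v : ι × A} {t : List (ι × A)} (h : ∀ u ∈ t, v.1 < u.1) :
    (insl v t : LC F (ι × A)) = single (v :: t) 1 := by
  cases t with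
  | nil => rfl
  | cons u t => rw [insl, if_pos (h u (by simp))]

theorem insL_lcons_lt {v u : ι × A} (h : u.1 < v.1) (c : LC F (ι × A)) :
    insL v (lcons u c) = - lcons u (insL v c) := by
  have : (insL v ∘ₗ lcons u + lcons u ∘ₗ insL v : LC F (ι × A) →ₗ[F] LC F (ι × A)) = 0 := by
    refine Finsupp.lhom_ext fun t a => ?_
    simp only [LinearMap.comp_apply, lcons_single, insL_single, LinearMap.add_apply, map_smul,
      LinearMap.zero_apply]
    rw [insl, if_neg (not_lt.2 h.le), if_neg h.ne', smul_neg, neg_add_cancel]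
  exact eq_neg_of_add_eq_zero_left (LinearMap.congr_fun this c)

theorem insL_lcons_eq {v u : ι × A} (h : v.1 = u.1) (c : LC F (ι × A)) :
    insL v (lcons u c) = 0 := by
  have : (insL v ∘ₗ lcons u : LC F (ι × A) →ₗ[F] _) = 0 := by
    refine Finsupp.lhom_ext fun t a => ?_
    simp only [LinearMap.comp_apply, lcons_single, insL_single, LinearMap.zero_apply]
    rw [insl, if_neg (by rw [h]; exact lt_irrefl _), if_pos h, smul_zero]
  exact LinearMap.congr_fun this c

/-- boundary of lists whose vertices satisfy a predicate -/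
theorem bl_mem' (P : ι × A → Prop) (t : List (ι × A)) (h : ∀ u ∈ t, P u) :
    (bl t : LC F (ι × A)) ∈ (On (fun s => ∀ u ∈ s, P u) : Submodule F (LC F (ι × A))) := by
  induction t with
  | nil => exact Submodule.zero_mem _
  | cons x t ih =>
    rw [bl]
    refine Submodule.sub_mem _ (single_mem_On (fun u hu => h u (by simp [hu])) 1) ?_
    refine lcons_mem_On (fun s hs u hu => ?_) (ih fun u hu => h u (by simp [hu]))
    rcases List.mem_cons.1 hu with rfl | hu
    · exact h _ (by simp)
    · exact hs u hu

theorem bdy_insl {v : ι × A} : ∀ (s : List (ι × A)), Srt s →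
    (∀ u ∈ s, v.1 = u.1 → v = u) →
    bdy (insl v s : LC F (ι × A)) + insL v (bl s) = single s 1
  | [], _, _ => by
    rw [insl, bdy_single, bl, bl, bl, map_zero, map_zero, sub_zero, add_zero, one_smul]
  | u :: t, hs, hc => by
    have hut : ∀ w ∈ t, u.1 < w.1 := (List.pairwise_cons.1 hs).1
    have ht : Srt t := (List.pairwise_cons.1 hs).2
    rcases lt_trichotomy v.1 u.1 with h | h | h
    · have h1 : insL v (bl (u :: t) : LC F (ι × A)) = lcons v (bl (u :: t)) := by
        refine map_eq_of (bl_mem' (fun w => v.1 < w.1) (u :: t) ?_) _ _ fun s hs => ?_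
        · intro w hw
          rcases List.mem_cons.1 hw with rfl | hw
          · exact h
          · exact h.trans (hut w hw)
        · rw [insL_single, one_smul, lcons_single, insl_of_lt hs]
      rw [insl, if_pos h, bdy_single, one_smul, h1]
      conv_lhs => rw [bl]
      abel
    · obtain rfl : v = u := hc u (by simp) h
      rw [insl, if_neg (lt_irrefl _), if_pos rfl, map_zero, zero_add, bl, map_sub,
        insL_lcons_eq rfl, sub_zero, insL_single, one_smul, insl_of_lt hut]
    · have ih := bdy_insl t ht (fun w hw => hc w (by simp [hw]))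
      rw [insl, if_neg (not_lt.2 h.le), if_neg h.ne', map_neg, bdy_lcons, bl, map_sub,
        insL_lcons_lt h, insL_single, one_smul]
      have h2 : bdy (insl v t : LC F (ι × A)) = single t 1 - insL v (bl t) := by
        rw [← ih]; abel
      rw [h2, map_sub, lcons_single]
      abel

theorem insl_mem {v : ι × A} : ∀ (s : List (ι × A)), Srt s →
    (insl v s : LC F (ι × A)) ∈ (On (fun t => Srt t ∧ t.length = s.length + 1 ∧
      ∀ u ∈ t, u = v ∨ u ∈ s) : Submodule F (LC F (ι × A)))
  | [], _ => single_mem_On ⟨List.pairwise_singleton _ _, rfl, fun u hu => Or.inl (by simpa using hu)⟩ 1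
  | u :: t, hs => by
    have hut : ∀ w ∈ t, u.1 < w.1 := (List.pairwise_cons.1 hs).1
    have ht : Srt t := (List.pairwise_cons.1 hs).2
    rcases lt_trichotomy v.1 u.1 with h | h | h
    · rw [insl, if_pos h]
      refine single_mem_On ⟨List.pairwise_cons.2 ⟨?_, hs⟩, rfl, ?_⟩ 1
      · intro w hw
        rcases List.mem_cons.1 hw with rfl | hw
        · exact h
        · exact h.trans (hut w hw)
      · intro w hw
        rcases List.mem_cons.1 hw with rfl | hw
        · exact Or.inl rfl
        · exact Or.inr hw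
    · rw [insl, if_neg (by rw [h]; exact lt_irrefl _), if_pos h]
      exact Submodule.zero_mem _
    · rw [insl, if_neg (not_lt.2 h.le), if_neg h.ne']
      refine Submodule.neg_mem _ (lcons_mem_On ?_ (insl_mem t ht))
      rintro s ⟨h1, h2, h3⟩
      refine ⟨List.pairwise_cons.2 ⟨?_, h1⟩, by simp [h2], ?_⟩
      · intro w hw
        rcases h3 w hw with rfl | hw
        · exact h
        · exact hut w hw
      · intro w hw
        rcases List.mem_cons.1 hw with rfl | hw
        · exact Or.inr (by simp)
        · rcases h3 w hw with rfl | hw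
          · exact Or.inl rfl
          · exact Or.inr (by simp [hw])

/-- Sorting. -/
noncomputable def Tl : List (ι × A) → LC F (ι × A)
  | [] => single [] 1
  | v :: t => insL v (Tl t)

/-- Sorting, linear version. -/
noncomputable def TL : LC F (ι × A) →ₗ[F] LC F (ι × A) :=
  Finsupp.lsum F fun t => LinearMap.toSpanSingleton F _ (Tl t)

theorem TL_single (t : List (ι × A)) (a : F) : TL (single t a) = a • Tl t := by simp [TL]

theorem TL_lcons (v : ι × A) (c : LC F (ι × A)) : TL (lcons v c) = insL v (TL c) := by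
  have : (TL ∘ₗ lcons v : LC F (ι × A) →ₗ[F] _) = insL v ∘ₗ TL := by
    refine Finsupp.lhom_ext fun t a => ?_
    simp only [LinearMap.comp_apply, lcons_single, TL_single, map_smul, Tl]
  exact LinearMap.congr_fun this c

theorem Tl_mem (l : List (ι × A)) :
    (Tl l : LC F (ι × A)) ∈ (On (fun t => Srt t ∧ t.length = l.length ∧ ∀ u ∈ t, u ∈ l) :
      Submodule F (LC F (ι × A))) := by
  induction l with
  | nil => exact single_mem_On ⟨List.Pairwise.nil, rfl, by simp⟩ 1
  | cons v l ih =>
    rw [Tl]
    refine map_mem_of ih _ _ fun t ht => ?_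
    rw [insL_single, one_smul]
    refine On_mono ?_ (insl_mem t ht.1)
    rintro s ⟨h1, h2, h3⟩
    refine ⟨h1, by rw [h2, ht.2.1, List.length_cons], fun u hu => ?_⟩
    rcases h3 u hu with rfl | h
    · simp
    · exact List.mem_cons_of_mem _ (ht.2.2 u h)

/-- admissible lists -/
def Adm (t : List (ι × A)) : Prop := ∀ a ∈ t, ∀ b ∈ t, a.1 = b.1 → a = b

theorem bdy_Tl (l : List (ι × A)) (hl : Adm l) : bdy (Tl l : LC F (ι × A)) = TL (bl l) := by
  induction l with
  | nil => rw [Tl, bdy_nil, bl, map_zero]
  | cons v l ih =>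
    have hl' : Adm l := fun a ha b hb => hl a (by simp [ha]) b (by simp [hb])
    rw [Tl, bl, map_sub, TL_lcons, ← ih hl', TL_single, one_smul]
    have := map_eq_of (Tl_mem l) (bdy ∘ₗ insL v + insL v ∘ₗ bdy : LC F (ι × A) →ₗ[F] _)
      LinearMap.id (fun t ht => by
        rw [LinearMap.add_apply, LinearMap.comp_apply, LinearMap.comp_apply, insL_single,
          one_smul, bdy_single, one_smul, LinearMap.id_apply]
        exact bdy_insl t ht.1 fun u hu h => hl v (by simp) u (by simp [ht.2.2 u hu]) h)
    rw [LinearMap.add_apply, LinearMap.comp_apply, LinearMap.comp_apply, LinearMap.id_apply]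
      at this
    exact eq_sub_of_add_eq this

theorem bdy_TL {c : LC F (ι × A)} (hc : c ∈ (On Adm : Submodule F (LC F (ι × A)))) :
    bdy (TL c) = TL (bdy c) := by
  have := map_eq_of hc (bdy ∘ₗ TL : LC F (ι × A) →ₗ[F] _) (TL ∘ₗ bdy) (fun t ht => by
    rw [LinearMap.comp_apply, LinearMap.comp_apply, TL_single, one_smul, bdy_single, one_smul,
      bdy_Tl t ht])
  exact this

theorem TL_mem {P : List (ι × A) → Prop} {n : ℕ} (hP : ∀ t, P t → t.length = n)
    {c : LC F (ι × A)} (hc : c ∈ (On P : Submodule F (LC F (ι × A)))) :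
    TL c ∈ (On (fun t => Srt t ∧ t.length = n) : Submodule F (LC F (ι × A))) :=
  map_mem_of hc _ _ fun t ht => by
    rw [TL_single, one_smul]
    exact On_mono (fun s hs => ⟨hs.1, hs.2.1.trans (hP t ht)⟩) (Tl_mem t)

theorem Srt.length_le [Fintype ι] {t : List (ι × A)} (h : Srt t) : t.length ≤ Fintype.card ι := by
  have h1 : (t.map Prod.fst).Nodup := by
    rw [List.nodup_iff_pairwise_ne, List.pairwise_map]
    exact h.imp fun hab => hab.ne
  have := h1.length_le_card
  rwa [List.length_map] at this

/-- equivariance -/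
theorem psh_insl (r : A → A) (v : ι × A) (s : List (ι × A)) :
    psh (Prod.map id r) (insl v s : LC F (ι × A)) =
      insl (Prod.map id r v) (s.map (Prod.map id r)) := by
  induction s with
  | nil => simp [insl]
  | cons u t ih =>
    rw [insl, List.map_cons, insl]
    simp only [Prod.map_fst, id_eq]
    split_ifs
    · simp
    · rw [map_zero]
    · rw [map_neg, psh_lcons, ih]

theorem psh_Tl (r : A → A) (l : List (ι × A)) :
    psh (Prod.map id r) (Tl l : LC F (ι × A)) = Tl (l.map (Prod.map id r)) := by
  induction l with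
  | nil => simp [Tl]
  | cons v l ih =>
    rw [Tl, List.map_cons, Tl, ← ih]
    have : (psh (Prod.map id r) ∘ₗ insL v : LC F (ι × A) →ₗ[F] LC F (ι × A)) =
        insL (Prod.map id r v) ∘ₗ psh (Prod.map id r) := by
      refine Finsupp.lhom_ext fun t a => ?_
      simp only [LinearMap.comp_apply, insL_single, map_smul, psh_single, psh_insl]
    exact LinearMap.congr_fun this _

theorem psh_TL (r : A → A) (c : LC F (ι × A)) :
    psh (Prod.map id r) (TL c) = TL (psh (Prod.map id r) c) := by
  have : (psh (Prod.map id r) ∘ₗ TL : LC F (ι × A) →ₗ[F] LC F (ι × A)) =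
      TL ∘ₗ psh (Prod.map id r) := by
    refine Finsupp.lhom_ext fun t a => ?_
    simp only [LinearMap.comp_apply, TL_single, map_smul, psh_single, psh_Tl]
  exact LinearMap.congr_fun this c

end Ins

section Rot

variable {F : Type*} [CommRing F] {V W : Type*}

/-- `1 - r`. -/
noncomputable def tau (r : V → V) : LC F V →ₗ[F] LC F V := LinearMap.id - psh r

/-- The norm `1 + r + ... + r^(q-1)`. -/
noncomputable def sig (q : ℕ) (r : V → V) : LC F V →ₗ[F] LC F V :=
  ∑ j ∈ Finset.range q, (psh r) ^ j

/-- alternately the norm and the difference -/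
noncomputable def rho (q : ℕ) (r : V → V) (k : ℕ) : LC F V →ₗ[F] LC F V :=
  if Even k then sig q r else tau r

theorem bdy_pow (r : V → V) (j : ℕ) (c : LC F V) :
    bdy (((psh r : LC F V →ₗ[F] LC F V) ^ j) c) = ((psh r : LC F V →ₗ[F] LC F V) ^ j) (bdy c) := by
  induction j generalizing c with
  | zero => simp
  | succ j ih => rw [pow_succ, Module.End.mul_apply, Module.End.mul_apply, ih, bdy_psh]

theorem bdy_sig (q : ℕ) (r : V → V) (c : LC F V) : bdy (sig q r c) = sig q r (bdy c) := by
  simp only [sig, LinearMap.sum_apply, map_sum, bdy_pow]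

theorem bdy_tau (r : V → V) (c : LC F V) : bdy (tau r c) = tau r (bdy c) := by
  simp only [tau, LinearMap.sub_apply, LinearMap.id_apply, map_sub, bdy_psh]

theorem bdy_rho (q : ℕ) (r : V → V) (k : ℕ) (c : LC F V) :
    bdy (rho q r k c) = rho q r k (bdy c) := by
  unfold rho
  split_ifs
  · exact bdy_sig q r c
  · exact bdy_tau r c

theorem psh_pow (r : V → V) (j : ℕ) :
    (psh r : LC F V →ₗ[F] LC F V) ^ j = psh (r^[j]) := by
  induction j with
  | zero =>
    refine Finsupp.lhom_ext fun t a => ?_
    simp
  | succ j ih =>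
    rw [pow_succ, ih]
    refine Finsupp.lhom_ext fun t a => ?_
    simp

theorem psh_pow_eq_one {q : ℕ} {r : V → V} (hr : r^[q] = id) :
    (psh r : LC F V →ₗ[F] LC F V) ^ q = 1 := by
  rw [psh_pow, hr]
  refine Finsupp.lhom_ext fun t a => ?_
  simp

theorem tau_eq (r : V → V) : (tau r : LC F V →ₗ[F] LC F V) = 1 - psh r := rfl

theorem tau_mul_sig {q : ℕ} {r : V → V} (hr : r^[q] = id) :
    (tau r * sig q r : Module.End F (LC F V)) = 0 := by
  have h := mul_neg_geom_sum (psh r : Module.End F (LC F V)) q
  have e : (psh r : Module.End F (LC F V)) ^ q = 1 := psh_pow_eq_one hr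
  rw [e, sub_self] at h
  exact h

theorem sig_mul_tau {q : ℕ} {r : V → V} (hr : r^[q] = id) :
    (sig q r * tau r : Module.End F (LC F V)) = 0 := by
  have h := geom_sum_mul_neg (psh r : Module.End F (LC F V)) q
  have e : (psh r : Module.End F (LC F V)) ^ q = 1 := psh_pow_eq_one hr
  rw [e, sub_self] at h
  exact h

theorem rho_rho {q : ℕ} {r : V → V} (hr : r^[q] = id) (k : ℕ) (c : LC F V) :
    rho q r (k + 1) (rho q r k c) = 0 := by
  unfold rho
  by_cases hk : Even k
  · rw [if_pos hk, if_neg (Nat.not_even_iff_odd.2 hk.add_one)]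
    exact LinearMap.congr_fun (tau_mul_sig hr) c
  · rw [if_neg hk, if_pos (Nat.not_even_iff_odd.1 hk).add_one]
    exact LinearMap.congr_fun (sig_mul_tau hr) c

theorem map_rho {q : ℕ} {r : V → V} {r' : W → W} (φ : LC F V →ₗ[F] LC F W)
    (h : ∀ c, φ (psh r c) = psh r' (φ c)) (k : ℕ) (c : LC F V) :
    φ (rho q r k c) = rho q r' k (φ c) := by
  have hp : ∀ j c, φ (((psh r : LC F V →ₗ[F] LC F V) ^ j) c) =
      ((psh r' : LC F W →ₗ[F] LC F W) ^ j) (φ c) := by
    intro j
    induction j with
    | zero => intro c; simp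
    | succ j ih => intro c; rw [pow_succ, pow_succ, Module.End.mul_apply, Module.End.mul_apply, ih, h]
  unfold rho
  split_ifs
  · simp only [sig, LinearMap.sum_apply, map_sum, hp]
  · simp only [tau, LinearMap.sub_apply, LinearMap.id_apply, map_sub, h]

end Rot

end Vale.Agent.P239.TF
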