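import Vale.Agent.P239.F.M3

/-! Exactness for free rotations and the non-existence of short equivariant systems of chains. -/

namespace Vale.Agent.P239.TF

open Finsupp

variable {F : Type*} [CommRing F] {V : Type*} {q : ℕ} [NeZero q]

/-- lists of length `n` -/
def Ln (n : ℕ) (t : List V) : Prop := t.length = n

theorem bdy_mem_Ln {n : ℕ} {c : LC F V} (hc : c ∈ (On (Ln (n + 1)) : Submodule F (LC F V))) :
    bdy c ∈ (On (Ln n) : Submodule F (LC F V)) :=
  map_mem_of hc _ _ fun t ht => by
    rw [bdy_single, one_smul]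
    exact On_mono (fun s hs => hs.1) (bl_mem Set.univ t n ⟨ht, fun _ _ => trivial⟩)

theorem psh_mem_Ln {W : Type*} {n : ℕ} (f : V → W) {c : LC F V}
    (hc : c ∈ (On (Ln n) : Submodule F (LC F V))) :
    psh f c ∈ (On (Ln n) : Submodule F (LC F W)) :=
  psh_mem_On (fun t ht => by unfold Ln at ht ⊢; rw [List.length_map]; exact ht) hc

theorem pow_mem_Ln {n : ℕ} (r : V → V) (i : ℕ) {c : LC F V}
    (hc : c ∈ (On (Ln n) : Submodule F (LC F V))) :
    ((psh r : LC F V →ₗ[F] LC F V) ^ i) c ∈ (On (Ln n) : Submodule F (LC F V)) := by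
  rw [psh_pow]; exact psh_mem_Ln _ hc

theorem On_zero_eq {c : LC F V} (hc : c ∈ (On (Ln 0) : Submodule F (LC F V))) :
    ∃ a, c = single [] a := by
  refine ⟨c [], ?_⟩
  ext t
  by_cases ht : t = []
  · subst ht; simp
  · rw [Finsupp.single_eq_of_ne ht]
    by_contra h
    exact ht (List.length_eq_zero_iff.1 (hc t h))

/-- phase of a list -/
def hdp (h : V → ZMod q) : List V → ZMod q
  | [] => 0
  | x :: _ => h x

open Classical in
/-- part of a given phase -/
noncomputable def pj (h : V → ZMod q) (j : ZMod q) : LC F V →ₗ[F] LC F V :=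
  Finsupp.lsum F fun t => if hdp h t = j then Finsupp.lsingle t else 0

open Classical in
theorem pj_single (h : V → ZMod q) (j : ZMod q) (t : List V) (a : F) :
    pj h j (single t a) = if hdp h t = j then single t a else 0 := by
  simp only [pj, Finsupp.coe_lsum, Finsupp.sum_single_index, map_zero]
  split_ifs <;> simp

theorem sum_pj (h : V → ZMod q) (c : LC F V) : ∑ j, pj h j c = c := by
  classical
  have : (∑ j, pj h j : LC F V →ₗ[F] LC F V) = LinearMap.id := by
    refine Finsupp.lhom_ext fun t a => ?_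
    simp only [LinearMap.sum_apply, pj_single, LinearMap.id_apply, Finset.sum_ite_eq,
      Finset.mem_univ, if_true]
  rw [← LinearMap.sum_apply, this, LinearMap.id_apply]

theorem pj_pj_self (h : V → ZMod q) (j : ZMod q) (c : LC F V) : pj h j (pj h j c) = pj h j c := by
  have : (pj h j ∘ₗ pj h j : LC F V →ₗ[F] LC F V) = pj h j := by
    refine Finsupp.lhom_ext fun t a => ?_
    simp only [LinearMap.comp_apply, pj_single]
    split_ifs with h1
    · rw [pj_single, if_pos h1]
    · rw [map_zero]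
  exact LinearMap.congr_fun this c

theorem pj_pj_ne (h : V → ZMod q) {i j : ZMod q} (hij : i ≠ j) (c : LC F V) :
    pj h i (pj h j c) = 0 := by
  have : (pj h i ∘ₗ pj h j : LC F V →ₗ[F] LC F V) = 0 := by
    refine Finsupp.lhom_ext fun t a => ?_
    simp only [LinearMap.comp_apply, pj_single, LinearMap.zero_apply]
    split_ifs with h1
    · rw [pj_single, if_neg (by rw [h1]; exact hij.symm)]
    · rw [map_zero]
  exact LinearMap.congr_fun this c

theorem pj_mem_On (h : V → ZMod q) (j : ZMod q) {P : List V → Prop} {c : LC F V}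
    (hc : c ∈ (On P : Submodule F (LC F V))) : pj h j c ∈ (On P : Submodule F (LC F V)) :=
  map_mem_of hc _ _ fun t ht => by
    rw [pj_single]
    split_ifs
    · exact single_mem_On ht 1
    · exact Submodule.zero_mem _

theorem psh_pj {r : V → V} {h : V → ZMod q} (hh : ∀ v, h (r v) = h v + 1) (j : ZMod q) {n : ℕ}
    {c : LC F V} (hc : c ∈ (On (Ln (n + 1)) : Submodule F (LC F V))) :
    psh r (pj h j c) = pj h (j + 1) (psh r c) := by
  refine map_eq_of hc (psh r ∘ₗ pj h j : LC F V →ₗ[F] LC F V) (pj h (j + 1) ∘ₗ psh r)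
    fun t ht => ?_
  simp only [LinearMap.comp_apply, pj_single, psh_single]
  cases t with
  | nil => simp [Ln] at ht
  | cons x t =>
    have e : (hdp h ((x :: t).map r) = j + 1) ↔ hdp h (x :: t) = j := by
      simp only [List.map_cons, hdp, hh]
      exact add_left_inj 1
    by_cases h1 : hdp h (x :: t) = j
    · rw [if_pos h1, if_pos (e.2 h1), psh_single]
    · rw [if_neg h1, if_neg (fun h2 => h1 (e.1 h2)), map_zero]

theorem pow_pj {r : V → V} {h : V → ZMod q} (hh : ∀ v, h (r v) = h v + 1) (i : ℕ) (j : ZMod q)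
    {n : ℕ} {c : LC F V} (hc : c ∈ (On (Ln (n + 1)) : Submodule F (LC F V))) :
    ((psh r : LC F V →ₗ[F] LC F V) ^ i) (pj h j c) =
      pj h (j + i) (((psh r : LC F V →ₗ[F] LC F V) ^ i) c) := by
  induction i with
  | zero => simp
  | succ i ih =>
    rw [pow_succ', Module.End.mul_apply, Module.End.mul_apply, ih,
      psh_pj hh _ (pow_mem_Ln r i hc), Nat.cast_succ, add_assoc]

theorem sum_range_zmod {M : Type*} [AddCommMonoid M] (f : ZMod q → M) :
    ∑ i ∈ Finset.range q, f (i : ZMod q) = ∑ j, f j := by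
  refine Finset.sum_nbij' (fun i => (i : ZMod q)) (fun j => j.val) ?_ ?_ ?_ ?_ ?_
  · intro i _; exact Finset.mem_univ _
  · intro j _; exact Finset.mem_range.2 (ZMod.val_lt j)
  · intro i hi; exact ZMod.val_cast_of_lt (Finset.mem_range.1 hi)
  · intro j _; exact ZMod.natCast_zmod_val j
  · intro i _; rfl

theorem exact_tau {r : V → V} {h : V → ZMod q} (hh : ∀ v, h (r v) = h v + 1)
    {n : ℕ} {x : LC F V} (hx : x ∈ (On (Ln (n + 1)) : Submodule F (LC F V)))
    (h0 : tau r x = 0) : ∃ y ∈ (On (Ln (n + 1)) : Submodule F (LC F V)), x = sig q r y := by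
  have h1 : psh r x = x := by
    have : x - psh r x = 0 := h0
    exact (sub_eq_zero.1 this).symm
  have h2 : ∀ i : ℕ, ((psh r : LC F V →ₗ[F] LC F V) ^ i) x = x := by
    intro i
    induction i with
    | zero => simp
    | succ i ih => rw [pow_succ, Module.End.mul_apply, h1, ih]
  refine ⟨pj h 0 x, pj_mem_On h 0 hx, ?_⟩
  rw [sig, LinearMap.sum_apply]
  have h3 : ∀ i : ℕ, ((psh r : LC F V →ₗ[F] LC F V) ^ i) (pj h 0 x) = pj h (i : ZMod q) x := by
    intro i
    rw [pow_pj hh i 0 hx, h2, zero_add]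
  simp only [h3]
  rw [sum_range_zmod (fun j => pj h j x), sum_pj]

theorem exact_sig {r : V → V} {h : V → ZMod q} (hh : ∀ v, h (r v) = h v + 1) (hr : r^[q] = id)
    {n : ℕ} {x : LC F V} (hx : x ∈ (On (Ln (n + 1)) : Submodule F (LC F V)))
    (h0 : sig q r x = 0) : ∃ y ∈ (On (Ln (n + 1)) : Submodule F (LC F V)), x = tau r y := by
  classical
  let R : LC F V →ₗ[F] LC F V := psh r
  let a : ZMod q → ℕ := fun j => q - j.val
  let w : LC F V := ∑ j, (R ^ a j) (pj h j x)
  let y : LC F V := ∑ j, ∑ i ∈ Finset.range (a j), (R ^ i) (pj h j x)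
  have hy : y ∈ (On (Ln (n + 1)) : Submodule F (LC F V)) :=
    Submodule.sum_mem _ fun j _ => Submodule.sum_mem _ fun i _ => pow_mem_Ln r i (pj_mem_On h j hx)
  have hw : w ∈ (On (Ln (n + 1)) : Submodule F (LC F V)) :=
    Submodule.sum_mem _ fun j _ => pow_mem_Ln r _ (pj_mem_On h j hx)
  have hxy : x - w = tau r y := by
    have e1 : ∀ (m : ℕ) (c : LC F V), tau r (∑ i ∈ Finset.range m, (R ^ i) c) = c - (R ^ m) c := by
      intro m c
      have h := mul_neg_geom_sum (psh r : Module.End F (LC F V)) m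
      have h' := LinearMap.congr_fun h c
      rw [Module.End.mul_apply, LinearMap.sum_apply] at h'
      exact h'
    have e2 : tau r y = ∑ j, (pj h j x - (R ^ a j) (pj h j x)) := by
      simp only [y, map_sum (tau r) (fun j => ∑ i ∈ Finset.range (a j), (R ^ i) (pj h j x))]
      exact Finset.sum_congr rfl fun j _ => e1 _ _
    rw [e2, Finset.sum_sub_distrib, sum_pj]
  have hph : ∀ j, (R ^ a j) (pj h j x) = pj h 0 ((R ^ a j) x) := by
    intro j
    have := pow_pj (F := F) hh (a j) j hx
    rw [show j + ((a j : ℕ) : ZMod q) = 0 from ?_] at this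
    · exact this
    · simp only [a]
      rw [Nat.cast_sub (ZMod.val_lt j).le, ZMod.natCast_self, ZMod.natCast_zmod_val]
      ring
  have hw0 : pj h 0 w = w := by
    simp only [w, map_sum]
    refine Finset.sum_congr rfl fun j _ => ?_
    rw [hph, pj_pj_self]
  have hsw : sig q r w = 0 := by
    have e : w = x - tau r y := by rw [← hxy]; abel
    rw [e, map_sub, h0, zero_sub, neg_eq_zero]
    exact LinearMap.congr_fun (sig_mul_tau hr) y
  have hw1 : w = 0 := by
    have e1 : pj h 0 (sig q r w) = w := by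
      rw [sig, LinearMap.sum_apply, map_sum]
      have e2 : ∀ i ∈ Finset.range q, i ≠ 0 →
          pj h 0 (((psh r : LC F V →ₗ[F] LC F V) ^ i) w) = 0 := by
        intro i hi hi0
        rw [← hw0, pow_pj hh i 0 hw, zero_add]
        refine pj_pj_ne h ?_ _
        intro h'
        have := congrArg ZMod.val h'
        rw [ZMod.val_zero, ZMod.val_cast_of_lt (Finset.mem_range.1 hi)] at this
        exact hi0 this.symm
      rw [Finset.sum_eq_single 0 e2 (fun h' => absurd (Finset.mem_range.2 (NeZero.pos q)) h')]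
      rw [pow_zero, Module.End.one_apply, hw0]
    rw [hsw, map_zero] at e1
    exact e1.symm
  refine ⟨y, hy, ?_⟩
  rw [← hxy, hw1, sub_zero]

theorem exact_rho {r : V → V} {h : V → ZMod q} (hh : ∀ v, h (r v) = h v + 1) (hr : r^[q] = id)
    (k : ℕ) {n : ℕ} {x : LC F V} (hx : x ∈ (On (Ln (n + 1)) : Submodule F (LC F V)))
    (h0 : rho q r (k + 1) x = 0) :
    ∃ y ∈ (On (Ln (n + 1)) : Submodule F (LC F V)), x = rho q r k y := by
  unfold rho at *
  by_cases hk : Even k
  · rw [if_neg (Nat.not_even_iff_odd.2 hk.add_one)] at h0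
    simp only [if_pos hk]
    exact exact_tau hh hx h0
  · rw [if_pos (Nat.not_even_iff_odd.1 hk).add_one] at h0
    simp only [if_neg hk]
    exact exact_sig hh hr hx h0

/-- There is no short equivariant system of chains. -/
theorem no_seq [CharP F q] [Nontrivial F] {r : V → V} {h : V → ZMod q}
    (hh : ∀ v, h (r v) = h v + 1) (hr : r^[q] = id) (m : ℕ) (d : ℕ → LC F V)
    (hlen : ∀ k, k ≤ m → d k ∈ (On (Ln (k + 1)) : Submodule F (LC F V)))
    (h0 : bdy (d 0) = single [] 1)
    (hstep : ∀ k, k < m → bdy (d (k + 1)) = rho q r (k + 1) (d k)) (hm : d m = 0) : False := by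
  have claim : ∀ j, j ≤ m → ∃ b b' : LC F V,
      b' ∈ (On (Ln (m - j + 1)) : Submodule F (LC F V)) ∧
      d (m - j) = bdy b + rho q r (m - j) b' := by
    intro j
    induction j with
    | zero =>
      intro _
      refine ⟨0, 0, Submodule.zero_mem _, ?_⟩
      rw [Nat.sub_zero, hm, map_zero, map_zero, add_zero]
    | succ j ih =>
      intro hj
      obtain ⟨b, b', hb', hd⟩ := ih (by omega)
      obtain ⟨k, hk⟩ : ∃ k, k = m - (j + 1) := ⟨_, rfl⟩
      have hk1 : m - j = k + 1 := by omega
      rw [hk1] at hb' hd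
      rw [← hk]
      have e1 := hstep k (by omega)
      rw [hd, map_add, bdy_bdy, zero_add, bdy_rho] at e1
      have e2 : rho q r (k + 1) (d k - bdy b') = 0 := by rw [map_sub, e1, sub_self]
      obtain ⟨y, hy, hy'⟩ := exact_rho hh hr k
        (Submodule.sub_mem _ (hlen k (by omega)) (bdy_mem_Ln hb')) e2
      exact ⟨b', y, hy, by rw [← hy']; abel⟩
  obtain ⟨b, b', hb', hd⟩ := claim m le_rfl
  rw [Nat.sub_self] at hb' hd
  have e1 := congrArg bdy hd
  rw [h0, map_add, bdy_bdy, zero_add, bdy_rho] at e1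
  obtain ⟨a, ha⟩ := On_zero_eq (bdy_mem_Ln hb')
  have e2 : ∀ i : ℕ, ((psh r : LC F V →ₗ[F] LC F V) ^ i) (single [] a) = single [] a := by
    intro i
    rw [psh_pow]; simp
  have e3 : rho q r 0 (single [] a : LC F V) = 0 := by
    unfold rho
    rw [if_pos (Even.zero), sig, LinearMap.sum_apply]
    simp only [e2]
    rw [Finset.sum_const, Finset.card_range, ← Nat.cast_smul_eq_nsmul F, CharP.cast_eq_zero,
      zero_smul]
  rw [ha, e3] at e1
  have := congrArg (fun c : LC F V => c []) e1
  simp at this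

end Vale.Agent.P239.TF
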