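import Vale.Agent.P239.F.M4
import Vale.Agent.P239.AHCross

/-! Deck groups of contractible spaces over compact spaces are torsion free. -/

namespace Vale.Agent.P239.TF

open scoped Topology unitInterval Pointwise
open Set Filter Finsupp
open Vale.Agent.P239

section Fill

variable {F : Type*} [CommRing F] {X : Type*} [TopologicalSpace X]

theorem exists_local {H : I × X → X} (hH : Continuous H) {U : X → Set X} (hU : ∀ x, U x ∈ 𝓝 x)
    (x : X) : ∃ V ∈ 𝓝 x, ∃ N₀ : ℕ, ∀ N, N₀ ≤ N → ∀ j, ∃ y, ∀ z ∈ V,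
      H (gpt N j, z) ∈ U y ∧ H (gpt N (j + 1), z) ∈ U y := by
  classical
  have h1 : ∀ t : I, ∃ A : Set I, ∃ B : Set X, IsOpen A ∧ t ∈ A ∧ B ∈ 𝓝 x ∧
      ∀ s ∈ A, ∀ z ∈ B, H (s, z) ∈ U (H (t, x)) := by
    intro t
    have h2 : H ⁻¹' (U (H (t, x))) ∈ 𝓝 (t, x) := hH.continuousAt (hU _)
    obtain ⟨A, B, hA, htA, hB, hxB, hAB⟩ := mem_nhds_prod_iff'.1 h2
    exact ⟨A, B, hA, htA, hB.mem_nhds hxB, fun s hs z hz => hAB ⟨hs, hz⟩⟩
  choose A B hA htA hB hAB using h1
  obtain ⟨s, hs⟩ := isCompact_univ.elim_finite_subcover A hA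
    (fun t _ => mem_iUnion.2 ⟨t, htA t⟩)
  obtain ⟨δ, hδ, hball⟩ := lebesgue_number_lemma_of_metric (isCompact_univ (X := I))
    (c := fun t : s => A t) (fun t => hA t) (by
      intro t ht
      obtain ⟨i, hi, hti⟩ := mem_iUnion₂.1 (hs ht)
      exact mem_iUnion.2 ⟨⟨i, hi⟩, hti⟩)
  have hev : ∀ᶠ N : ℕ in atTop, (1 : ℝ) / N < δ :=
    (tendsto_order.1 tendsto_one_div_atTop_nhds_zero_nat).2 δ hδ
  obtain ⟨N₀, hN₀⟩ := eventually_atTop.1 hev
  refine ⟨⋂ t ∈ s, B t, (biInter_finset_mem s).2 fun t _ => hB t, N₀, fun N hN j => ?_⟩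
  obtain ⟨i, hi⟩ := hball (gpt N j) (mem_univ _)
  refine ⟨H (i, x), fun z hz => ?_⟩
  have hzB : z ∈ B i := mem_iInter₂.1 hz i i.2
  refine ⟨hAB _ _ (hi (Metric.mem_ball_self hδ)) z hzB, hAB _ _ (hi ?_) z hzB⟩
  exact (dist_gpt N j).trans_lt (hN₀ N hN)

theorem exists_fill {H : I × X → X} (hH : Continuous H) (hH0 : ∀ x, H (0, x) = x) {y₀ : X}
    (hH1 : ∀ x, H (1, x) = y₀) {U : X → Set X} (hU : ∀ x, U x ∈ 𝓝 x) :
    ∃ V : X → Set X, (∀ x, V x ∈ 𝓝 x) ∧ ∀ (n : ℕ) (z : LC F X),
      z ∈ (On (Sm V n) : Submodule F (LC F X)) → bdy z = 0 →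
      ∃ w ∈ (On (Sm U (n + 1)) : Submodule F (LC F X)), bdy w = z := by
  classical
  choose V hV N hN using exists_local hH hU
  refine ⟨V, hV, fun n z hz hbz => ?_⟩
  obtain ⟨N₁, hN₁⟩ : ∃ N₁ : ℕ, z ∈ (On (fun t => t.length = n ∧ ∃ x, N x ≤ N₁ ∧ ∀ y ∈ t, y ∈ V x) :
      Submodule F (LC F X)) := by
    refine ⟨z.support.sup fun t => if h : z t ≠ 0 then N (hz t h).2.choose else 0, fun t ht => ?_⟩
    refine ⟨(hz t ht).1, (hz t ht).2.choose, ?_, (hz t ht).2.choose_spec⟩
    have := Finset.le_sup (f := fun t => if h : z t ≠ 0 then N (hz t h).2.choose else 0)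
      (Finsupp.mem_support_iff.2 ht)
    simp only [dif_pos ht] at this
    exact this
  set n₁ := N₁ + 1 with hn₁
  let h : ℕ → X → X := fun j x => H (gpt n₁ j, x)
  have hsum : ∑ j ∈ Finset.range n₁, bdy (pr (h j) (h (j + 1)) z) =
      psh (fun _ => y₀) z - z := by
    have e1 : ∀ j, bdy (pr (h j) (h (j + 1)) z) = psh (h (j + 1)) z - psh (h j) z := by
      intro j
      have := bdy_pr (h j) (h (j + 1)) z
      rwa [hbz, map_zero, add_zero] at this
    simp only [e1]
    rw [Finset.sum_range_sub (fun j => psh (h j) z)]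
    have e2 : h n₁ = fun _ => y₀ := by
      funext x
      simp only [h]
      rw [gpt_self (by omega), hH1]
    have e3 : h 0 = fun x => x := by
      funext x
      simp only [h]
      rw [gpt_zero, hH0]
    rw [e2, e3, psh_id]
  refine ⟨lcons y₀ (psh (fun _ => y₀) z) - ∑ j ∈ Finset.range n₁, pr (h j) (h (j + 1)) z,
    Submodule.sub_mem _ ?_ (Submodule.sum_mem _ fun j _ => ?_), ?_⟩
  · refine lcons_mem_On (P := fun t => t.length = n ∧ ∀ y ∈ t, y = y₀) ?_
      (psh_mem_On (fun t ht => ?_) hN₁)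
    · rintro t ⟨h1, h2⟩
      refine ⟨by simp [h1], y₀, fun x hx => ?_⟩
      rcases List.mem_cons.1 hx with rfl | hx
      · exact mem_of_mem_nhds (hU _)
      · rw [h2 x hx]; exact mem_of_mem_nhds (hU _)
    · refine ⟨by rw [List.length_map]; exact ht.1, fun y hy => ?_⟩
      obtain ⟨_, _, rfl⟩ := List.mem_map.1 hy
      rfl
  · refine map_mem_of hN₁ _ _ fun t ht => ?_
    obtain ⟨h1, x, hx, h2⟩ := ht
    obtain ⟨y, hy⟩ := hN x n₁ (by omega) j
    rw [pr_single, one_smul]
    exact On_mono (fun s hs => ⟨hs.1, y, hs.2⟩)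
      (prl_mem (h j) (h (j + 1)) (fun z hz => (hy z hz).1) (fun z hz => (hy z hz).2) t n ⟨h1, h2⟩)
  · rw [map_sub, map_sum, hsum, bdy_lcons, bdy_psh, hbz, map_zero, map_zero]
    abel

/-- Equivariant systems of small chains. -/
theorem exists_seq {H : I × X → X} (hH : Continuous H) (hH0 : ∀ x, H (0, x) = x) {y₀ : X}
    (hH1 : ∀ x, H (1, x) = y₀) {r : X → X} (hr : Continuous r) {q : ℕ} (hrq : r^[q] = id)
    (x₀ : X) (k : ℕ) : ∀ U : X → Set X, (∀ x, U x ∈ 𝓝 x) → ∃ c : ℕ → LC F X,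
      (∀ i, i ≤ k → c i ∈ (On (Sm U (i + 1)) : Submodule F (LC F X))) ∧
      bdy (c 0) = single [] 1 ∧ ∀ i, i < k → bdy (c (i + 1)) = rho q r (i + 1) (c i) := by
  classical
  induction k with
  | zero =>
    intro U hU
    refine ⟨fun _ => single [x₀] 1, fun i hi => ?_, ?_, fun i hi => absurd hi (by omega)⟩
    · obtain rfl : i = 0 := by omega
      refine single_mem_On ⟨rfl, x₀, fun x hx => ?_⟩ 1
      rw [List.mem_singleton] at hx
      rw [hx]; exact mem_of_mem_nhds (hU _)
    · rw [bdy_single, one_smul, bl, bl, map_zero, sub_zero]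
  | succ k ih =>
    intro U hU
    obtain ⟨V, hV, hfill⟩ := exists_fill (F := F) hH hH0 hH1 hU
    let V' : X → Set X := fun x => U x ∩ ⋂ j ∈ Finset.range (q + 2), (r^[j]) ⁻¹' (V (r^[j] x))
    have hV' : ∀ x, V' x ∈ 𝓝 x := fun x => inter_mem (hU x)
      ((biInter_finset_mem _).2 fun j _ => (hr.iterate j).continuousAt (hV _))
    obtain ⟨c, hc, hc0, hcs⟩ := ih V' hV'
    have hz1 : rho q r (k + 1) (c k) ∈ (On (Sm V (k + 1)) : Submodule F (LC F X)) := by
      have hj : ∀ j, j < q + 2 → psh (r^[j]) (c k) ∈ (On (Sm V (k + 1)) : Submodule F (LC F X)) := by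
        intro j hj
        refine psh_mem_On ?_ (hc k le_rfl)
        rintro t ⟨h1, x, hx⟩
        refine ⟨by rw [List.length_map]; exact h1, r^[j] x, fun y hy => ?_⟩
        obtain ⟨z, hz, rfl⟩ := List.mem_map.1 hy
        exact mem_iInter₂.1 (hx z hz).2 j (Finset.mem_range.2 hj)
      unfold rho
      split_ifs
      · rw [sig, LinearMap.sum_apply]
        refine Submodule.sum_mem _ fun j hj' => ?_
        rw [psh_pow]
        exact hj j (by have := Finset.mem_range.1 hj'; omega)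
      · have e0 := hj 0 (by omega)
        have e1 := hj 1 (by omega)
        rw [Function.iterate_zero] at e0
        rw [Function.iterate_one] at e1
        have e2 : psh id (c k) = c k := psh_id (c k)
        rw [e2] at e0
        exact Submodule.sub_mem _ e0 e1
    have hz2 : bdy (rho q r (k + 1) (c k)) = 0 := by
      rw [bdy_rho]
      cases k with
      | zero =>
        rw [hc0]
        unfold rho
        rw [if_neg (by decide), tau, LinearMap.sub_apply, LinearMap.id_apply, psh_single,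
          List.map_nil, sub_self]
      | succ k => rw [hcs k (by omega), rho_rho hrq]
    obtain ⟨w, hw, hbw⟩ := hfill (k + 1) _ hz1 hz2
    refine ⟨Function.update c (k + 1) w, fun i hi => ?_, ?_, fun i hi => ?_⟩
    · rcases Nat.lt_or_eq_of_le hi with hi | rfl
      · rw [Function.update_of_ne (by omega)]
        refine On_mono ?_ (hc i (by omega))
        rintro t ⟨h1, x, hx⟩
        exact ⟨h1, x, fun y hy => (hx y hy).1⟩
      · rw [Function.update_self]; exact hw
    · rw [Function.update_of_ne (by omega)]; exact hc0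
    · rcases Nat.lt_or_eq_of_le (Nat.le_of_lt_succ hi) with hi | rfl
      · rw [Function.update_of_ne (by omega), Function.update_of_ne (by omega)]
        exact hcs i hi
      · rw [Function.update_self, Function.update_of_ne (by omega)]; exact hbw

end Fill

section Label

variable {X Γ M : Type*} [TopologicalSpace X] [Group Γ] [MulAction Γ X] [TopologicalSpace M]

/-- phases on a group -/
theorem exists_phase (g : Γ) {q : ℕ} (hg : orderOf g = q) :
    ∃ φ : Γ → ZMod q, ∀ x, φ (g * x) = φ x + 1 := by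
  classical
  let s : Setoid Γ := QuotientGroup.rightRel (Subgroup.zpowers g)
  have h1 : ∀ x : Γ, ∃ j : ℤ, x = g ^ j * (Quotient.out (Quotient.mk s x)) := by
    intro x
    have h2 : s.r (Quotient.out (Quotient.mk s x)) x := Quotient.mk_out x
    have h3 := QuotientGroup.rightRel_apply.1 h2
    obtain ⟨j, hj⟩ := h3
    refine ⟨j, ?_⟩
    have : g ^ j = x * (Quotient.out (Quotient.mk s x))⁻¹ := hj
    rw [this, inv_mul_cancel_right]
  choose j hj using h1
  refine ⟨fun x => (j x : ZMod q), fun x => ?_⟩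
  have h2 : (Quotient.mk s (g * x)) = Quotient.mk s x := by
    refine Quotient.sound ?_
    refine QuotientGroup.rightRel_apply.2 ?_
    rw [mul_inv_rev, ← mul_assoc, mul_inv_cancel, one_mul]
    exact Subgroup.inv_mem _ (Subgroup.mem_zpowers g)
  have h3 : g ^ (j (g * x)) = g ^ (j x + 1) := by
    have e1 := hj (g * x)
    rw [h2] at e1
    have e2 := hj x
    have e3 : g ^ (j (g * x)) = g * x * (Quotient.out (Quotient.mk s x))⁻¹ :=
      eq_mul_inv_of_mul_eq e1.symm
    have e4 : g ^ (j x) = x * (Quotient.out (Quotient.mk s x))⁻¹ :=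
      eq_mul_inv_of_mul_eq e2.symm
    rw [e3, add_comm, zpow_add, zpow_one, e4, mul_assoc]
  have h4 := (zpow_eq_zpow_iff_modEq).1 h3
  rw [hg] at h4
  have h5 := (ZMod.intCast_eq_intCast_iff _ _ _).2 h4
  change (j (g * x) : ZMod q) = (j x : ZMod q) + 1
  rw [h5]; push_cast; rfl

theorem exists_label [CompactSpace M] [T2Space M] [LocallyCompactSpace X] {p : X → M}
    (hp : IsQuotientCoveringMap p Γ) {g : Γ} {q : ℕ} (hg : orderOf g = q) :
    ∃ (m : ℕ) (lab : X → Fin m × ZMod q), (∀ x, lab (g • x) = ((lab x).1, (lab x).2 + 1)) ∧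
      ∀ x, ∃ U ∈ 𝓝 x, ∀ y ∈ U, ∀ z ∈ U, (lab y).1 = (lab z).1 → lab y = lab z := by
  classical
  have hcs : ContinuousConstSMul Γ X := hp.toContinuousConstSMul
  have hopen : IsOpenMap p := hp.isCoveringMap.isOpenMap
  have hpg : ∀ (γ : Γ) (x : X), p (γ • x) = p x := fun γ x =>
    hp.apply_eq_iff_mem_orbit.2 ⟨γ, rfl⟩
  -- small open sets and compact sets inside
  have h1 : ∀ x : X, ∃ W : Set X, IsOpen W ∧ x ∈ W ∧
      ∀ γ : Γ, ∀ y ∈ W, γ • y ∈ W → γ = 1 := by
    intro x
    obtain ⟨U, hU, hU'⟩ := hp.disjoint x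
    refine ⟨interior U, isOpen_interior, mem_interior_iff_mem_nhds.2 hU, fun γ y hy hγy => ?_⟩
    exact hU' γ ⟨γ • y, ⟨y, interior_subset hy, rfl⟩, interior_subset hγy⟩
  choose W hW hxW hWd using h1
  have h2 : ∀ x : X, ∃ K : Set X, IsCompact K ∧ x ∈ interior K ∧ K ⊆ W x := fun x =>
    exists_compact_subset (hW x) (hxW x)
  choose K hK hxK hKW using h2
  obtain ⟨t, ht⟩ := isCompact_univ.elim_finite_subcover (fun x => p '' interior (K x))
    (fun x => hopen _ isOpen_interior) (by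
      intro m _
      obtain ⟨x, rfl⟩ := hp.surjective m
      exact mem_iUnion.2 ⟨x, x, hxK x, rfl⟩)
  let e := t.equivFin
  let c : Fin t.card → X := fun i => (e.symm i : X)
  have h3 : ∀ μ : M, ∃ i : Fin t.card, μ ∈ p '' K (c i) := by
    intro μ
    obtain ⟨x, hx, hμ⟩ := mem_iUnion₂.1 (ht (mem_univ μ))
    refine ⟨e ⟨x, hx⟩, ?_⟩
    simp only [c, Equiv.symm_apply_apply]
    exact image_mono interior_subset hμ
  choose idx hidx using h3
  have h4 : ∀ y : X, ∃ γ : Γ, γ⁻¹ • y ∈ K (c (idx (p y))) := by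
    intro y
    obtain ⟨k, hk, hky⟩ := hidx (p y)
    obtain ⟨γ, hγ⟩ := hp.apply_eq_iff_mem_orbit.1 hky.symm
    refine ⟨γ, ?_⟩
    have h' : γ • k = y := hγ
    have h'' : γ⁻¹ • y = k := by rw [← h', inv_smul_smul]
    rw [h'']; exact hk
  choose γ hγ using h4
  have huniq : ∀ (i : Fin t.card) (y : X) (a b : Γ), a⁻¹ • y ∈ W (c i) → b⁻¹ • y ∈ W (c i) →
      a = b := by
    intro i y a b ha hb
    have := hWd (c i) (b⁻¹ * a) (a⁻¹ • y) ha (by
      rw [smul_smul, mul_assoc, mul_inv_cancel, mul_one]; exact hb)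
    rw [inv_mul_eq_one] at this
    exact this.symm
  obtain ⟨φ, hφ⟩ := exists_phase g hg
  refine ⟨t.card, fun y => (idx (p y), φ (γ y)), fun x => ?_, fun x => ?_⟩
  · have e1 : p (g • x) = p x := hpg g x
    have e2 : γ (g • x) = g * γ x := by
      refine huniq (idx (p x)) (g • x) _ _ ?_ ?_
      · have := hγ (g • x)
        rw [e1] at this
        exact hKW _ this
      · rw [mul_inv_rev, smul_smul, inv_mul_cancel_right]
        exact hKW _ (hγ x)
    simp only [e1, e2, hφ]
  · -- local admissibility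
    have hcont : Continuous p := hp.isCoveringMap.continuous
    have h5 : ∀ i : Fin t.card, ∃ U ∈ 𝓝 x, ∃ a : Γ, ∀ y ∈ U, idx (p y) = i → γ y = a := by
      intro i
      by_cases hi : p x ∈ p '' K (c i)
      · obtain ⟨k, hk, hkx⟩ := hi
        obtain ⟨a, ha⟩ := hp.apply_eq_iff_mem_orbit.1 hkx.symm
        have hax : a • k = x := ha
        refine ⟨(fun y => a⁻¹ • y) ⁻¹' (W (c i)), ?_, a, fun y hy hyi => ?_⟩
        · refine (continuous_const_smul a⁻¹).continuousAt ((hW _).mem_nhds ?_)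
          change a⁻¹ • x ∈ _
          rw [← hax, inv_smul_smul]; exact hKW _ hk
        · refine huniq i y _ _ ?_ hy
          have := hγ y
          rw [hyi] at this
          exact hKW _ this
      · have hcl : IsClosed (p '' K (c i)) := ((hK _).image hcont).isClosed
        refine ⟨p ⁻¹' (p '' K (c i))ᶜ, hcont.continuousAt (hcl.isOpen_compl.mem_nhds hi), 1,
          fun y hy hyi => ?_⟩
        exact absurd (hyi ▸ hidx (p y)) hy
    choose U hU a ha using h5
    refine ⟨⋂ i, U i, iInter_mem.2 hU, fun y hy z hz hyz => ?_⟩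
    have e1 := ha (idx (p y)) y (mem_iInter.1 hy _) rfl
    have hyz' : idx (p y) = idx (p z) := hyz
    have e2 := ha (idx (p y)) z (mem_iInter.1 hz _) hyz'.symm
    simp only [hyz', e1, e2]

end Label

section Main

variable {X Γ M : Type*} [TopologicalSpace X] [Group Γ] [MulAction Γ X] [TopologicalSpace M]

theorem no_prime_order [CompactSpace M] [T2Space M] [LocallyCompactSpace X] [ContractibleSpace X]
    {p : X → M} (hp : IsQuotientCoveringMap p Γ) {g : Γ} {q : ℕ} [hq : Fact q.Prime]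
    (hg : orderOf g = q) : False := by
  classical
  have hcs : ContinuousConstSMul Γ X := hp.toContinuousConstSMul
  obtain ⟨m, lab, hlab, hadm⟩ := exists_label hp hg
  choose U hU hUadm using hadm
  obtain ⟨y₀, ⟨Hm⟩⟩ := id_nullhomotopic X
  obtain ⟨x₀⟩ : Nonempty X := inferInstance
  have hrq : (fun x : X => g • x)^[q] = id := by
    rw [smul_iterate, ← hg, pow_orderOf_eq_one]
    funext x; simp
  obtain ⟨c, hc, hc0, hcs'⟩ := exists_seq (F := ZMod q) (H := Hm) Hm.continuous
    (fun x => Hm.map_zero_left x) (fun x => Hm.map_one_left x) (continuous_const_smul g) hrq x₀ m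
    U hU
  let r : Fin m × ZMod q → Fin m × ZMod q := Prod.map id (fun a => a + 1)
  have hr : r^[q] = id := by
    have e : (fun a : ZMod q => a + 1)^[q] = id := by
      funext a
      have : ∀ n : ℕ, (fun a : ZMod q => a + 1)^[n] a = a + n := by
        intro n
        induction n with
        | zero => simp
        | succ n ih => rw [Function.iterate_succ_apply', ih]; push_cast; ring
      rw [this, ZMod.natCast_self, add_zero]; rfl
    simp only [r]
    rw [Prod.map_iterate, e, Function.iterate_id, Prod.map_id]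
  let d : ℕ → LC (ZMod q) (Fin m × ZMod q) := fun k => TL (psh lab (c k))
  have hAdm : ∀ k, k ≤ m → psh lab (c k) ∈
      (On Adm : Submodule (ZMod q) (LC (ZMod q) (Fin m × ZMod q))) := by
    intro k hk
    refine psh_mem_On ?_ (hc k hk)
    rintro t ⟨-, x, hx⟩ a ha b hb hab
    obtain ⟨y, hy, rfl⟩ := List.mem_map.1 ha
    obtain ⟨z, hz, rfl⟩ := List.mem_map.1 hb
    exact hUadm x y (hx y hy) z (hx z hz) hab
  have hlen' : ∀ k, k ≤ m → psh lab (c k) ∈
      (On (Ln (k + 1)) : Submodule (ZMod q) (LC (ZMod q) (Fin m × ZMod q))) := fun k hk =>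
    psh_mem_Ln _ (On_mono (fun t ht => ht.1) (hc k hk))
  have hd : ∀ k, k ≤ m → d k ∈ (On (fun t => Srt t ∧ t.length = k + 1) :
      Submodule (ZMod q) (LC (ZMod q) (Fin m × ZMod q))) := fun k hk =>
    TL_mem (fun t ht => ht) (hlen' k hk)
  refine no_seq (q := q) (r := r) (h := fun v => v.2) (fun v => rfl) hr m d
    (fun k hk => On_mono (fun t ht => ht.2) (hd k hk)) ?_ (fun k hk => ?_) ?_
  · have e1 := bdy_TL (hAdm 0 (Nat.zero_le _))
    rw [bdy_psh, hc0, psh_single, List.map_nil, TL_single, Tl, one_smul] at e1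
    exact e1
  · have e1 := bdy_TL (hAdm (k + 1) hk)
    rw [bdy_psh, hcs' k hk] at e1
    have e2 : psh lab (rho q (fun x : X => g • x) (k + 1) (c k)) =
        rho q r (k + 1) (psh lab (c k)) := by
      refine map_rho (psh lab) (fun c => ?_) (k + 1) (c k)
      rw [psh_psh, psh_psh]
      have e0 : (fun x => lab (g • x)) = fun x => r (lab x) := by
        funext x
        rw [hlab]; rfl
      rw [e0]
    rw [e2] at e1
    have e3 : TL (rho q r (k + 1) (psh lab (c k))) = rho q r (k + 1) (TL (psh lab (c k))) :=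
      map_rho TL (fun c => (psh_TL _ c).symm) (k + 1) _
    rw [e3] at e1
    exact e1
  · have h1 := hd m le_rfl
    ext t
    rw [Finsupp.zero_apply]
    by_contra hne
    obtain ⟨h2, h3⟩ := h1 t hne
    have := h2.length_le
    rw [Fintype.card_fin] at this
    omega

/-- Torsion-freeness. -/
theorem torsion_free [CompactSpace M] [T2Space M] [LocallyCompactSpace X] [ContractibleSpace X]
    {p : X → M} (hp : IsQuotientCoveringMap p Γ) :
    ∀ g : Γ, g ≠ 1 → ∀ n : ℕ, n ≠ 0 → g ^ n ≠ 1 := by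
  intro g hg n hn hgn
  have h1 : orderOf g ≠ 1 := fun h => hg (orderOf_eq_one_iff.1 h)
  have h2 : orderOf g ≠ 0 := by
    rw [orderOf_ne_zero_iff]
    exact isOfFinOrder_iff_pow_eq_one.2 ⟨n, Nat.pos_of_ne_zero hn, hgn⟩
  obtain ⟨q, hq, hqd⟩ := Nat.exists_prime_and_dvd h1
  have : Fact q.Prime := ⟨hq⟩
  have h3 : orderOf (g ^ (orderOf g / q)) = q := orderOf_pow_orderOf_div h2 hqd
  exact no_prime_order hp h3

end Main

end Vale.Agent.P239.TF
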