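import Vale.Agent.P239.F.Top
import Vale.Agent.P239.F.GroupMain
import Vale.Agent.P239.S.M_Main

/-! The first L2-Betti number of a closed aspherical 4-manifold vanishes. -/

namespace Vale.Agent.P239.F

open Vale.Agent.P239

theorem singer {M X Γ : Type*}
    [TopologicalSpace M] [T2Space M] [CompactSpace M]
    [ChartedSpace (EuclideanSpace ℝ (Fin 4)) M]
    [TopologicalSpace X] [ContractibleSpace X] [Group Γ] [MulAction Γ X] [ContinuousConstSMul Γ X]
    (p : X → M) (hp : IsQuotientCoveringMap p Γ) : bettiTwo Γ X 1 = 0 :=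
  betti_one_of p hp (fun S T h => hgroup S T h)
    (fun S hS hsym => Vale.Agent.P239.M.oneEnded_of_cover hp S hS hsym)
    (fun S => Vale.Agent.P239.M.h2Fill_of_cover hp S)

end Vale.Agent.P239.F
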