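import Vale.Agent.P239.F.Nest
import Vale.Agent.P239.F.D3
import Vale.Agent.P239.F.C0f

/-! Final forms of `const_near` and `nest`. -/

namespace Vale.Agent.P239.F.N

open Filter Topology Set
open Vale.Agent.P239 Vale.Agent.P239.F

variable {G : Type*} [Group G] {S T : Finset G}

theorem dich_all [Countable G] {hS : Subgroup.closure (S : Set G) = ⊤} {F : Finset G}
    (hF : CrossProp S F) : Dich hS :=
  dich hF fun x _ hε => D.shadow hS hF x hε

/-- `CIn.const_near`. -/
theorem const_near_all [Countable G] {hS : Subgroup.closure (S : Set G) = ⊤} {F : Finset G}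
    (hF : CrossProp S F) : ∀ β ∈ Lim hS univ, ∀ A : Set G, β ∉ Lim hS (bd S A) →
      β ∉ Lim hS A ∨ β ∉ Lim hS Aᶜ :=
  const_near (dich_all hF)

theorem na_orb (hp : HypS S) (ho : Orb hp.gen) : NA hp := na_of hp ho

/-- `CIn.nest`. -/
theorem nest_all [Countable G] (hyp : Hyp S T) {F : Finset G} (hF : CrossProp S F)
    (ho : Orb hyp.gen) : ∀ (A B : Set G) (c d : G → G → ℝ), IsCut hyp.gen A c →
      Nontriv hyp.gen A c → IsCut hyp.gen B d → Nontriv hyp.gen B d → c ≠ d →
      HH S A ⊆ HH S B ∨ HH S B ⊆ HH S A ∨ Disjoint (HH S A) (HH S B) ∨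
        HH S A ∪ HH S B = univ :=
  fun A B c d hA hn hB hn' hne =>
    nest hyp (na_orb hyp.toHypS ho) (dich_all hF) A B c d hA hn hB hn' hne

/-- Strict form of the nesting. -/
theorem nest_strict_all [Countable G] (hyp : Hyp S T) {F : Finset G} (hF : CrossProp S F)
    (ho : Orb hyp.gen) {A A' : Set G} {β β' : G → G → ℝ} (hA : IsCut hyp.gen A β)
    (hn : Nontriv hyp.gen A β) (hA' : IsCut hyp.gen A' β') (hn' : Nontriv hyp.gen A' β')
    (hne : β ≠ β') :
    (∀ x, phi S A x < phi S A' x) ∨ (∀ x, phi S A' x < phi S A x) ∨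
      (∀ x, phi S A x + phi S A' x < 1) ∨ (∀ x, 1 < phi S A x + phi S A' x) :=
  nest_strict hyp (na_orb hyp.toHypS ho) (dich_all hF) hA hn hA' hn' hne

end Vale.Agent.P239.F.N
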