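import Vale.Agent.P239.F.M1
import Vale.Agent.P239.F.M5
import Vale.Agent.P239.AHFinal

/-! Assembly of the main theorem. -/

namespace Vale.Agent.P239.F

open Vale.Agent.P239
open scoped Pointwise

open Classical in
/-- Assembly: group theorem plus the manifold side give the vanishing of the first L2-Betti number
of closed aspherical 4-manifolds. -/
theorem betti_one_of {M X Γ : Type*}
    [TopologicalSpace M] [T2Space M] [CompactSpace M]
    [ChartedSpace (EuclideanSpace ℝ (Fin 4)) M]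
    [TopologicalSpace X] [ContractibleSpace X] [Group Γ] [MulAction Γ X] [ContinuousConstSMul Γ X]
    (p : X → M) (hp : IsQuotientCoveringMap p Γ)
    -- the group theorem
    (hgroup : ∀ S T : Finset Γ, Hyp S T → ¬ HasHD S)
    -- the manifold side
    (hOE : ∀ S : Finset Γ, Subgroup.closure (S : Set Γ) = ⊤ → (∀ s ∈ S, s⁻¹ ∈ S) → OneEnded S)
    (hfill : ∀ S : Finset Γ, ∃ T₀ : Finset Γ, ∀ T : Finset Γ, T₀ ⊆ T → (∀ s ∈ T, s⁻¹ ∈ T) →
      H2Fill S T) :
    bettiTwo Γ X 1 = 0 := by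
  have hfree : ∀ (g : Γ) (x : X), g • x = x → g = 1 := fun g x hx => by
    obtain ⟨U, hU, hU'⟩ := hp.disjoint x
    exact hU' g ⟨x, ⟨x, mem_of_mem_nhds hU, hx⟩, mem_of_mem_nhds hU⟩
  have : LocallyCompactSpace M := ChartedSpace.locallyCompactSpace (EuclideanSpace ℝ (Fin 4)) M
  have : LocallyCompactSpace X := locallyCompact_of_cover hp
  rw [bettiTwo_succ _ _ 0]
  refine (l2Betti_one_eq (G := Γ) (X := X) hfree).trans ?_
  by_cases hfol : Foelner Γ
  · exact hfol.vnDim_K_eq_zero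
  have hinf : Infinite Γ := by
    by_contra hfin
    rw [not_infinite_iff_finite] at hfin
    have : Fintype Γ := Fintype.ofFinite Γ
    refine hfol fun T n => ⟨Finset.univ, Finset.univ_nonempty, fun s _ => ?_⟩
    simp
  obtain ⟨S₀, hS₀, hsym₀, h1₀, n₀, hn₀, hex⟩ := exists_h1Ex hp
  have hsymn : ∀ n : ℕ, ∀ s ∈ S₀ ^ n, s⁻¹ ∈ S₀ ^ n := by
    intro n
    induction n with
    | zero => intro s hs; rw [pow_zero, Finset.mem_one] at hs; subst hs; simp
    | succ n ih =>
      intro s hs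
      rw [pow_succ] at hs
      obtain ⟨a, ha, b, hb, rfl⟩ := Finset.mem_mul.1 hs
      rw [mul_inv_rev, pow_succ']
      exact Finset.mul_mem_mul (hsym₀ b hb) (ih a ha)
  have hsub : ∀ n, 1 ≤ n → S₀ ⊆ S₀ ^ n := fun n hn => by
    have := Finset.pow_subset_pow_right h1₀ hn
    rwa [pow_one] at this
  have hclos : ∀ n, 1 ≤ n → Subgroup.closure ((S₀ ^ n : Finset Γ) : Set Γ) = ⊤ := fun n hn => by
    rw [eq_top_iff, ← hS₀]
    exact Subgroup.closure_mono (by exact_mod_cast hsub n hn)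
  set S : Finset Γ := S₀ ^ n₀ with hSdef
  have hS : Subgroup.closure (S : Set Γ) = ⊤ := hclos n₀ hn₀
  obtain ⟨T₀, hT₀⟩ := hfill S
  obtain ⟨n₁, hn₁⟩ := exists_subset_pow hS₀ hsym₀ h1₀ T₀
  set T : Finset Γ := S₀ ^ (max n₀ n₁) with hTdef
  obtain ⟨C, hC, hgap⟩ := exists_gap hfol S hS
  have hHyp : Hyp S T :=
    { gen := hS
      symS := hsymn n₀
      symT := hsymn _
      oneS := hsub n₀ hn₀ h1₀
      sub := Finset.pow_subset_pow_right h1₀ (le_max_left _ _)
      inf := hinf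
      oneEnd := hOE S hS (hsymn n₀)
      exS := hex n₀ le_rfl
      exT := hex _ (le_max_left _ _)
      fill := hT₀ T (hn₁ _ (le_max_right _ _)) (hsymn _)
      tf := TF.torsion_free hp
      gap := ⟨C, hC, hgap⟩ }
  refine vnDim_K_eq_zero_of_harm S hS (hsymn n₀) fun f hf hh => ?_
  by_contra hne
  push Not at hne
  exact hgroup S T hHyp ⟨⟨f, mem_Dir_iff.2 hf⟩, hh, hne⟩

end Vale.Agent.P239.F
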